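import Mathlib

/-!
R302 (helper151): the Lorentzian signature (Alexandrov-Fenchel inequality) for iterated
derivatives of weights with M-convex support.

* `Q A x y` : bilinear form of a matrix, `AF A` : at most one positive eigenvalue;
* `br c L β = ∑_{(v_j)} ∏ a_j(v_j) c(β + ∑ e_{v_j})`, `L = [a_1,...,a_n]`;
* `MCx S` : symmetric exchange + constant degree;
* `af_br` : if `c ≥ 0` has M-convex support and all matrices `c (β + e_u + e_v)` are `AF`, then
  `fun u v => br c L (β + e_u + e_v)` is `AF` for all nonnegative `L`.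
-/

set_option autoImplicit false

namespace Crest.Agent.R302.Lor

open Finset

variable {V : Type*} [Fintype V]

/-- bilinear form of a matrix -/
def Q (A : V → V → ℝ) (x y : V → ℝ) : ℝ := ∑ a, ∑ b, x a * y b * A a b

/-- row functional `(A y)_a` -/
def row (A : V → V → ℝ) (y : V → ℝ) (a : V) : ℝ := ∑ b, y b * A a b

theorem Q_eq_row (A : V → V → ℝ) (x y : V → ℝ) : Q A x y = ∑ a, x a * row A y a := by
  unfold Q row
  refine Finset.sum_congr rfl fun a _ => ?_
  rw [Finset.mul_sum]
  exact Finset.sum_congr rfl fun b _ => by ring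

theorem Q_comm {A : V → V → ℝ} (hA : ∀ a b, A a b = A b a) (x y : V → ℝ) : Q A x y = Q A y x := by
  unfold Q
  rw [Finset.sum_comm]
  exact Finset.sum_congr rfl fun a _ => Finset.sum_congr rfl fun b _ => by rw [hA]; ring

theorem Q_add_left (A : V → V → ℝ) (x x' y : V → ℝ) : Q A (x + x') y = Q A x y + Q A x' y := by
  simp only [Q_eq_row, Pi.add_apply, add_mul, Finset.sum_add_distrib]

theorem Q_smul_left (A : V → V → ℝ) (t : ℝ) (x y : V → ℝ) : Q A (t • x) y = t * Q A x y := by
  simp only [Q_eq_row, Pi.smul_apply, smul_eq_mul, Finset.mul_sum, mul_assoc]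

theorem Q_sub_smul {A : V → V → ℝ} (hA : ∀ a b, A a b = A b a) (x y : V → ℝ) (t : ℝ) :
    Q A (x - t • y) (x - t • y) = Q A x x - 2 * t * Q A x y + t ^ 2 * Q A y y := by
  have e : x - t • y = x + (-t) • y := by
    ext a; simp [sub_eq_add_neg]
  rw [e, Q_add_left, Q_smul_left, Q_comm hA x (x + _), Q_comm hA y (x + _), Q_add_left,
    Q_add_left, Q_smul_left, Q_smul_left, Q_comm hA y x]
  ring

/-- Alexandrov-Fenchel form of "at most one positive eigenvalue" -/
def AF (A : V → V → ℝ) : Prop :=
  ∀ x y : V → ℝ, 0 ≤ Q A y y → Q A x x * Q A y y ≤ (Q A x y) ^ 2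

theorem AF.of_hyper {A : V → V → ℝ} (hA : ∀ a b, A a b = A b a) (l : (V → ℝ) → ℝ)
    (hl : ∀ x y t, l (x - t • y) = l x - t * l y) (h : ∀ x, l x = 0 → Q A x x ≤ 0) : AF A := by
  intro x y hy
  rcases hy.eq_or_lt with h0 | hpos
  · rw [← h0, mul_zero]; positivity
  · have hly : l y ≠ 0 := fun h' => absurd (h y h') (not_le.mpr hpos)
    have hz := h (x - (l x / l y) • y) (by rw [hl]; field_simp; ring)
    rw [Q_sub_smul hA] at hz
    set t := l x / l y
    nlinarith [sq_nonneg (t * Q A y y - Q A x y)]

/-- use of `AF` -/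
theorem AF.neg {A : V → V → ℝ} (h : AF A) {x y : V → ℝ} (hy : 0 < Q A y y) (hxy : Q A x y = 0) :
    Q A x x ≤ 0 := by
  have := h x y hy.le
  rw [hxy] at this
  by_contra hc
  push Not at hc
  nlinarith [mul_pos hc hy]

/-! ### Perron step -/

section Perron

variable [DecidableEq V]

/-- Perron-Frobenius + Bochner: a nonnegative symmetric matrix `B` with `a > 0`,
`xᵀBx ≤ ∑ a_i (Bx)_i² / (Ba)_i`, whose graph is connected by paths of length at most two on the
set of nonzero rows, is `AF`. -/
theorem perron {B : V → V → ℝ} (hB : ∀ u v, B u v = B v u) (hB0 : ∀ u v, 0 ≤ B u v)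
    {a : V → ℝ} (ha : ∀ v, 0 < a v)
    (hboch : ∀ x, Q B x x ≤ ∑ i, a i * (row B x i) ^ 2 / row B a i)
    (hconn : ∀ i j, 0 < row B a i → 0 < row B a j → i ≠ j →
      0 < B i j ∨ ∃ u, 0 < B i u ∧ 0 < B u j) : AF B := by
  classical
  -- rows
  have hrow0 : ∀ i, 0 ≤ row B a i := fun i => Finset.sum_nonneg fun v _ =>
    mul_nonneg (ha v).le (hB0 _ _)
  have hz : ∀ i, row B a i = 0 → ∀ v, B i v = 0 := by
    intro i hi v
    have := (Finset.sum_eq_zero_iff_of_nonneg (fun v _ => mul_nonneg (ha v).le (hB0 i v))).1 hi v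
      (mem_univ _)
    rcases mul_eq_zero.1 this with h | h
    · exact absurd h (ha v).ne'
    · exact h
  set r : V → ℝ := row B a with hr
  set D : V → ℝ := fun i => if r i = 0 then 1 else r i / a i with hD
  have hDpos : ∀ i, 0 < D i := by
    intro i
    simp only [hD]
    split_ifs with h
    · exact one_pos
    · exact div_pos (lt_of_le_of_ne (hrow0 i) (Ne.symm h)) (ha i)
  set s : V → ℝ := fun i => Real.sqrt (D i) with hs
  have hspos : ∀ i, 0 < s i := fun i => Real.sqrt_pos.2 (hDpos i)
  have hs2 : ∀ i, s i * s i = D i := fun i => Real.mul_self_sqrt (hDpos i).le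
  set N : Matrix V V ℝ := fun i j => B i j / (s i * s j) with hN
  have hNsymm : N.IsHermitian := by
    ext i j
    rw [Matrix.conjTranspose_apply]
    simp only [hN, star_trivial, hB j i, mul_comm (s j) (s i)]
  have hN0 : ∀ i j, 0 ≤ N i j := fun i j => div_nonneg (hB0 _ _) (mul_pos (hspos i) (hspos j)).le
  have hNpos : ∀ i j, 0 < B i j → 0 < N i j := fun i j h => div_pos h (mul_pos (hspos i) (hspos j))
  -- the Perron vector
  set p : V → ℝ := fun i => if r i = 0 then 0 else s i * a i with hp
  have hNp : ∀ i, ∑ j, N i j * p j = p i := by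
    intro i
    by_cases hi : r i = 0
    · have : ∀ j, N i j = 0 := fun j => by simp [hN, hz i hi j]
      simp [this, hp, hi]
    · have h1 : ∀ j, N i j * p j = a j * B i j / s i := by
        intro j
        by_cases hj : r j = 0
        · have : B i j = 0 := by rw [hB]; exact hz j hj i
          simp [hp, hj, this]
        · simp only [hN, hp, hj, if_false]
          field_simp [(hspos i).ne', (hspos j).ne']
      have h2 : ∑ j, N i j * p j = r i / s i := by
        rw [Finset.sum_congr rfl fun j _ => h1 j, ← Finset.sum_div]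
        rfl
      rw [h2]
      simp only [hp, hi, if_false]
      rw [div_eq_iff (hspos i).ne']
      have h3 : s i * s i = r i / a i := by rw [hs2]; simp [hD, hi]
      calc r i = r i / a i * a i := by field_simp [(ha i).ne']
        _ = s i * s i * a i := by rw [h3]
        _ = s i * a i * s i := by ring
  -- the Bochner inequality for N
  have hNB : ∀ x : V → ℝ, ∑ i, x i * (∑ j, N i j * x j) ≤ ∑ i, (∑ j, N i j * x j) ^ 2 := by
    intro x
    set z : V → ℝ := fun i => x i / s i with hzdef
    have hxz : ∀ i, ∑ j, N i j * x j = row B z i / s i := by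
      intro i
      unfold row
      rw [Finset.sum_div]
      refine Finset.sum_congr rfl fun j _ => ?_
      simp only [hN, hzdef]
      field_simp [(hspos i).ne', (hspos j).ne']
    have h1 : ∑ i, x i * (∑ j, N i j * x j) = Q B z z := by
      rw [Q_eq_row]
      refine Finset.sum_congr rfl fun i _ => ?_
      rw [hxz]
      simp only [hzdef]
      field_simp [(hspos i).ne']
    rw [h1]
    refine (hboch z).trans (Finset.sum_le_sum fun i _ => ?_)
    rw [hxz]
    by_cases hi : r i = 0
    · have : row B z i = 0 := by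
        unfold row
        exact Finset.sum_eq_zero fun j _ => by rw [hz i hi j, mul_zero]
      simp [this]
    · have h3 : s i * s i = r i / a i := by rw [hs2]; simp [hD, hi]
      have h4 : (row B z i / s i) ^ 2 = (row B z i) ^ 2 / (r i / a i) := by
        rw [div_pow, sq (s i), h3]
      rw [h4]
      apply le_of_eq
      have hai := (ha i).ne'
      field_simp
  -- eigenvalue analysis
  have hkey : ∀ (lam : ℝ) (x : V → ℝ), (∀ i, ∑ j, N i j * x j = lam * x i) → (∃ i, x i ≠ 0) →
      0 < lam → ∃ t : ℝ, ∀ i, x i = t * p i := by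
    intro lam x hx hx0 hlam
    have hx_off : ∀ i, r i = 0 → x i = 0 := by
      intro i hi
      have h1 : ∑ j, N i j * x j = 0 := Finset.sum_eq_zero fun j _ => by
        simp [hN, hz i hi j]
      rw [hx i] at h1
      rcases mul_eq_zero.1 h1 with h | h
      · exact absurd h hlam.ne'
      · exact h
    have hppos : ∀ i, r i ≠ 0 → 0 < p i := by
      intro i hi
      simp only [hp, hi, if_false]
      exact mul_pos (hspos i) (ha i)
    have hp0 : ∀ i, 0 ≤ p i := by
      intro i
      by_cases hi : r i = 0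
      · simp [hp, hi]
      · exact (hppos i hi).le
    -- lam = 1
    have hsum : 0 < ∑ i, p i * |x i| := by
      obtain ⟨i, hi⟩ := hx0
      have hri : r i ≠ 0 := fun h => hi (hx_off i h)
      exact Finset.sum_pos' (fun j _ => mul_nonneg (hp0 j) (abs_nonneg _))
        ⟨i, mem_univ _, mul_pos (hppos i hri) (abs_pos.2 hi)⟩
    have hNx : ∀ i, lam * |x i| ≤ ∑ j, N i j * |x j| := by
      intro i
      calc lam * |x i| = |lam * x i| := by rw [abs_mul, abs_of_pos hlam]
        _ = |∑ j, N i j * x j| := by rw [hx i]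
        _ ≤ ∑ j, |N i j * x j| := Finset.abs_sum_le_sum_abs _ _
        _ = ∑ j, N i j * |x j| := Finset.sum_congr rfl fun j _ => by
            rw [abs_mul, abs_of_nonneg (hN0 i j)]
    have hswap : ∀ y : V → ℝ, ∑ i, p i * (∑ j, N i j * y j) = ∑ j, p j * y j := by
      intro y
      calc ∑ i, p i * (∑ j, N i j * y j) = ∑ i, ∑ j, p i * (N i j * y j) :=
            Finset.sum_congr rfl fun i _ => Finset.mul_sum _ _ _
        _ = ∑ j, ∑ i, p i * (N i j * y j) := Finset.sum_comm
        _ = ∑ j, (∑ i, N j i * p i) * y j := by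
            refine Finset.sum_congr rfl fun j _ => ?_
            rw [Finset.sum_mul]
            refine Finset.sum_congr rfl fun i _ => ?_
            have : N i j = N j i := by
              simp only [hN, hB i j, mul_comm (s i) (s j)]
            rw [this]; ring
        _ = ∑ j, p j * y j := Finset.sum_congr rfl fun j _ => by rw [hNp j]
    have hle : lam * ∑ i, p i * |x i| ≤ ∑ i, p i * |x i| := by
      calc lam * ∑ i, p i * |x i| = ∑ i, p i * (lam * |x i|) := by
            rw [Finset.mul_sum]; exact Finset.sum_congr rfl fun i _ => by ring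
        _ ≤ ∑ i, p i * (∑ j, N i j * |x j|) :=
            Finset.sum_le_sum fun i _ => mul_le_mul_of_nonneg_left (hNx i) (hp0 i)
        _ = _ := hswap _
    have hlam1 : lam ≤ 1 := by
      by_contra hc
      push Not at hc
      nlinarith
    -- Bochner gives lam ≥ 1
    have hx2 : 0 < ∑ i, (x i) ^ 2 := by
      obtain ⟨i, hi⟩ := hx0
      exact Finset.sum_pos' (fun j _ => sq_nonneg _) ⟨i, mem_univ _, by positivity⟩
    have hlam2 : lam * ∑ i, (x i) ^ 2 ≤ lam ^ 2 * ∑ i, (x i) ^ 2 := by
      have h := hNB x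
      simp only [hx] at h
      calc lam * ∑ i, (x i) ^ 2 = ∑ i, x i * (lam * x i) := by
            rw [Finset.mul_sum]; exact Finset.sum_congr rfl fun i _ => by ring
        _ ≤ ∑ i, (lam * x i) ^ 2 := h
        _ = _ := by rw [Finset.mul_sum]; exact Finset.sum_congr rfl fun i _ => by ring
    have hlam1' : lam = 1 := by
      have h5 : lam ≤ lam ^ 2 := le_of_mul_le_mul_right hlam2 hx2
      nlinarith
    subst hlam1'
    -- minimal ratio
    have hI : (univ.filter fun i => r i ≠ 0).Nonempty := by
      obtain ⟨i, hi⟩ := hx0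
      exact ⟨i, by simp only [mem_filter, mem_univ, true_and]; exact fun h => hi (hx_off i h)⟩
    obtain ⟨i0, hi0, hmin⟩ := Finset.exists_min_image (univ.filter fun i => r i ≠ 0)
      (fun i => x i / p i) hI
    simp only [mem_filter, mem_univ, true_and] at hi0 hmin
    set t := x i0 / p i0 with ht
    refine ⟨t, ?_⟩
    have hzn : ∀ i, 0 ≤ x i - t * p i := by
      intro i
      by_cases hi : r i = 0
      · simp [hx_off i hi, hp, hi]
      · have := hmin i hi
        rw [le_div_iff₀ (hppos i hi)] at this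
        linarith
    have hzN : ∀ i, ∑ j, N i j * (x j - t * p j) = x i - t * p i := by
      intro i
      calc ∑ j, N i j * (x j - t * p j) = ∑ j, N i j * x j - t * ∑ j, N i j * p j := by
            rw [Finset.mul_sum, ← Finset.sum_sub_distrib]
            exact Finset.sum_congr rfl fun j _ => by ring
        _ = _ := by rw [hx i, hNp i, one_mul]
    have hprop : ∀ i, x i - t * p i = 0 → ∀ j, 0 < B i j → x j - t * p j = 0 := by
      intro i hi j hij
      have h1 := hzN i
      rw [hi] at h1
      have h2 := (Finset.sum_eq_zero_iff_of_nonneg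
        (fun j _ => mul_nonneg (hN0 i j) (hzn j))).1 h1 j (mem_univ _)
      rcases mul_eq_zero.1 h2 with h | h
      · exact absurd h (hNpos i j hij).ne'
      · exact h
    have hi0z : x i0 - t * p i0 = 0 := by
      rw [ht]; field_simp [(hppos i0 hi0).ne']; ring
    intro i
    by_cases hi : r i = 0
    · simp [hx_off i hi, hp, hi]
    · by_cases hii : i0 = i
      · subst hii; linarith
      · have hpos' : ∀ k, r k ≠ 0 → 0 < r k := fun k hk => lt_of_le_of_ne (hrow0 k) (Ne.symm hk)
        rcases hconn i0 i (hpos' i0 hi0) (hpos' i hi) hii with h | ⟨u, h1, h2⟩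
        · linarith [hprop i0 hi0z i h]
        · linarith [hprop u (hprop i0 hi0z u h1) i h2]
  -- conclusion through the spectral theorem
  refine AF.of_hyper hB (fun x => ∑ i, p i * (s i * x i)) ?_ ?_
  · intro x y t
    simp only [Pi.sub_apply, Pi.smul_apply, smul_eq_mul]
    rw [Finset.mul_sum, ← Finset.sum_sub_distrib]
    exact Finset.sum_congr rfl fun i _ => by ring
  · intro x hx
    set y : V → ℝ := fun i => s i * x i with hy
    have hQ : Q B x x = ∑ i, y i * (∑ j, N i j * y j) := by
      rw [Q_eq_row]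
      refine Finset.sum_congr rfl fun i _ => ?_
      have : ∑ j, N i j * y j = row B x i / s i := by
        unfold row
        rw [Finset.sum_div]
        refine Finset.sum_congr rfl fun j _ => ?_
        simp only [hN, hy]
        field_simp [(hspos i).ne', (hspos j).ne']
      rw [this]
      simp only [hy]
      field_simp [(hspos i).ne']
    rw [hQ]
    -- spectral decomposition
    set b := hNsymm.eigenvectorBasis
    set lam := hNsymm.eigenvalues
    have hev : ∀ k i, ∑ j, N i j * (b k) j = lam k * (b k) i := by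
      intro k i
      have := congrFun (hNsymm.mulVec_eigenvectorBasis k) i
      simpa [Matrix.mulVec, dotProduct] using this
    set Y : EuclideanSpace ℝ V := WithLp.toLp 2 y with hY
    have hexp : ∀ i, y i = ∑ k, (inner ℝ (b k) Y) * (b k) i := by
      intro i
      have h := b.sum_repr Y
      have h2 := congrArg (fun z : EuclideanSpace ℝ V => z i) h
      simp only [b.repr_apply_apply] at h2
      rw [← show Y i = y i from rfl, ← h2]
      simp [WithLp.ofLp_sum, Finset.sum_apply]
    have hNy : ∀ i, ∑ j, N i j * y j = ∑ k, (inner ℝ (b k) Y) * (lam k * (b k) i) := by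
      intro i
      calc ∑ j, N i j * y j = ∑ j, ∑ k, N i j * ((inner ℝ (b k) Y) * (b k) j) := by
            refine Finset.sum_congr rfl fun j _ => ?_
            rw [hexp j, Finset.mul_sum]
        _ = ∑ k, ∑ j, N i j * ((inner ℝ (b k) Y) * (b k) j) := Finset.sum_comm
        _ = _ := by
            refine Finset.sum_congr rfl fun k _ => ?_
            rw [← hev k i, Finset.mul_sum]
            exact Finset.sum_congr rfl fun j _ => by ring
    have hin : ∀ k, inner ℝ (b k) Y = ∑ i, y i * (b k) i := by
      intro k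
      rw [PiLp.inner_apply]
      refine Finset.sum_congr rfl fun i _ => ?_
      simp [hY]
    have hfin : ∑ i, y i * (∑ j, N i j * y j) = ∑ k, lam k * (inner ℝ (b k) Y) ^ 2 := by
      calc ∑ i, y i * (∑ j, N i j * y j)
          = ∑ i, ∑ k, y i * ((inner ℝ (b k) Y) * (lam k * (b k) i)) := by
            refine Finset.sum_congr rfl fun i _ => ?_
            rw [hNy i, Finset.mul_sum]
        _ = ∑ k, ∑ i, y i * ((inner ℝ (b k) Y) * (lam k * (b k) i)) := Finset.sum_comm
        _ = _ := by
            refine Finset.sum_congr rfl fun k _ => ?_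
            rw [sq, hin k]
            rw [← hin k, hin k]
            rw [show (∑ i, y i * (b k) i) * (∑ i, y i * (b k) i)
              = ∑ i, (∑ i', y i' * (b k) i') * (y i * (b k) i) from Finset.mul_sum _ _ _,
              Finset.mul_sum]
            exact Finset.sum_congr rfl fun i _ => by ring
    rw [hfin]
    refine Finset.sum_nonpos fun k _ => ?_
    rcases le_or_gt (lam k) 0 with h | h
    · exact mul_nonpos_of_nonpos_of_nonneg h (sq_nonneg _)
    · have hne : ∃ i, (b k) i ≠ 0 := by
        by_contra hc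
        push Not at hc
        have h0 : b k = 0 := by ext i; exact hc i
        exact (b.orthonormal.ne_zero k) h0
      obtain ⟨t, ht⟩ := hkey (lam k) (fun i => (b k) i) (hev k) hne h
      have h0 : inner ℝ (b k) Y = 0 := by
        rw [hin k]
        calc ∑ i, y i * (b k) i = ∑ i, y i * (t * p i) :=
              Finset.sum_congr rfl fun i _ => by rw [← ht i]
          _ = t * ∑ i, p i * (s i * x i) := by
              rw [Finset.mul_sum]; exact Finset.sum_congr rfl fun i _ => by
                simp only [hy]; ring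
          _ = 0 := by rw [hx, mul_zero]
      rw [h0]; simp

end Perron

/-! ### iterated derivatives -/

section Br

variable [DecidableEq V]

/-- unit vector -/
def ev (a : V) : V → ℤ := Pi.single a 1

/-- `[a_1,...,a_n] c (β) = ∑_{(v_j)} ∏ a_j(v_j) c(β + ∑ e_{v_j})` -/
def br (c : (V → ℤ) → ℝ) : List (V → ℝ) → (V → ℤ) → ℝ
  | [], β => c β
  | a :: L, β => ∑ v, a v * br c L (β + ev v)

@[simp] theorem br_nil (c : (V → ℤ) → ℝ) (β : V → ℤ) : br c [] β = c β := rfl

theorem br_cons (c : (V → ℤ) → ℝ) (a : V → ℝ) (L : List (V → ℝ)) (β : V → ℤ) :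
    br c (a :: L) β = ∑ v, a v * br c L (β + ev v) := rfl

/-- matrix of second derivatives -/
def mat (c : (V → ℤ) → ℝ) (L : List (V → ℝ)) (β : V → ℤ) : V → V → ℝ :=
  fun u v => br c L (β + ev u + ev v)

theorem mat_symm (c : (V → ℤ) → ℝ) (L : List (V → ℝ)) (β : V → ℤ) (u v : V) :
    mat c L β u v = mat c L β v u := by
  unfold mat; rw [add_right_comm]

theorem br_cons_cons (c : (V → ℤ) → ℝ) (x y : V → ℝ) (L : List (V → ℝ)) (β : V → ℤ) :
    br c (x :: y :: L) β = Q (mat c L β) x y := by
  simp only [br_cons, Q, mat, Finset.mul_sum, mul_assoc]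

theorem br_swap (c : (V → ℤ) → ℝ) (x y : V → ℝ) (L : List (V → ℝ)) (β : V → ℤ) :
    br c (x :: y :: L) β = br c (y :: x :: L) β := by
  rw [br_cons_cons, br_cons_cons, Q_comm (mat_symm c L β)]

theorem br_perm (c : (V → ℤ) → ℝ) {L L' : List (V → ℝ)} (h : L.Perm L') :
    ∀ β, br c L β = br c L' β := by
  induction h with
  | nil => intro β; rfl
  | cons a _ ih => intro β; rw [br_cons, br_cons]; exact Finset.sum_congr rfl fun v _ => by rw [ih]
  | swap a b L => intro β; exact br_swap c _ _ _ β
  | trans _ _ ih1 ih2 => intro β; rw [ih1, ih2]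

theorem br_nonneg {c : (V → ℤ) → ℝ} (hc : ∀ β, 0 ≤ c β) :
    ∀ {L : List (V → ℝ)}, (∀ a ∈ L, ∀ v, 0 ≤ a v) → ∀ β, 0 ≤ br c L β := by
  intro L
  induction L with
  | nil => intro _ β; exact hc β
  | cons a L ih =>
    intro hL β
    rw [br_cons]
    exact Finset.sum_nonneg fun v _ => mul_nonneg (hL a (by simp) v)
      (ih (fun b hb => hL b (by simp [hb])) _)

theorem mat_cons (c : (V → ℤ) → ℝ) (a : V → ℝ) (L : List (V → ℝ)) (β : V → ℤ) (u v : V) :
    mat c (a :: L) β u v = ∑ i, a i * mat c L (β + ev i) u v := by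
  unfold mat
  rw [br_cons]
  refine Finset.sum_congr rfl fun i _ => ?_
  congr 2
  abel

theorem Q_mat_cons (c : (V → ℤ) → ℝ) (a : V → ℝ) (L : List (V → ℝ)) (β : V → ℤ) (x y : V → ℝ) :
    Q (mat c (a :: L) β) x y = ∑ i, a i * Q (mat c L (β + ev i)) x y := by
  rw [← br_cons_cons, br_perm c (L' := a :: x :: y :: L), br_cons]
  · exact Finset.sum_congr rfl fun i _ => by rw [br_cons_cons]
  · exact (List.Perm.cons x (List.Perm.swap a y L)).trans (List.Perm.swap a x _)

theorem row_mat_cons (c : (V → ℤ) → ℝ) (a : V → ℝ) (L : List (V → ℝ)) (β : V → ℤ) (x : V → ℝ)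
    (i : V) : row (mat c (a :: L) β) x i = Q (mat c L (β + ev i)) x a := by
  have h : row (mat c (a :: L) β) x i = br c (x :: a :: L) (β + ev i) := rfl
  rw [h, br_cons_cons]

/-- M-convex sets: constant degree + symmetric exchange -/
structure MCx (S : Set (V → ℤ)) : Prop where
  deg : ∀ x ∈ S, ∀ y ∈ S, ∑ v, x v = ∑ v, y v
  exch : ∀ x ∈ S, ∀ y ∈ S, ∀ u, y u < x u →
    ∃ v, x v < y v ∧ x - ev u + ev v ∈ S ∧ y + ev u - ev v ∈ S

theorem ev_self (a : V) : ev a a = 1 := by simp [ev]

theorem ev_ne {a b : V} (h : a ≠ b) : ev a b = 0 := by simp [ev, h.symm]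

theorem ev_nonneg (a b : V) : 0 ≤ ev a b := by
  unfold ev
  by_cases h : b = a
  · subst h; simp
  · simp [h]

theorem ev_le_one (a b : V) : ev a b ≤ 1 := by
  unfold ev
  by_cases h : b = a
  · subst h; simp
  · simp [h]

theorem sum_ev (a : V) : ∑ v, ev a v = 1 := by
  unfold ev; simp

/-- positivity of `br` for strictly positive vectors -/
theorem br_pos_iff {c : (V → ℤ) → ℝ} (hc : ∀ β, 0 ≤ c β) :
    ∀ {L : List (V → ℝ)}, (∀ a ∈ L, ∀ v, 0 < a v) → ∀ β,
      (0 < br c L β ↔ ∃ γ, 0 < c γ ∧ (∀ v, β v ≤ γ v) ∧ ∑ v, γ v = ∑ v, β v + L.length) := by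
  intro L
  induction L with
  | nil =>
    intro _ β
    rw [br_nil]
    constructor
    · intro h; exact ⟨β, h, fun v => le_rfl, by simp⟩
    · rintro ⟨γ, h1, h2, h3⟩
      simp only [List.length_nil, Nat.cast_zero, add_zero] at h3
      have : γ = β := by
        funext v
        by_contra hne
        have hlt : β v < γ v := lt_of_le_of_ne (h2 v) (Ne.symm hne)
        have := Finset.sum_lt_sum (s := univ) (fun i _ => h2 i) ⟨v, mem_univ _, hlt⟩
        omega
      rwa [this] at h1
  | cons a L ih =>
    intro hL β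
    have ha := hL a (by simp)
    have hL' : ∀ b ∈ L, ∀ v, 0 < b v := fun b hb => hL b (by simp [hb])
    rw [br_cons]
    have hnn : ∀ v ∈ (univ : Finset V), 0 ≤ a v * br c L (β + ev v) := fun v _ =>
      mul_nonneg (ha v).le (br_nonneg hc (fun b hb w => (hL' b hb w).le) _)
    rw [Finset.sum_pos_iff_of_nonneg hnn]
    constructor
    · rintro ⟨v, _, hv⟩
      have hv' : 0 < br c L (β + ev v) := pos_of_mul_pos_right hv (ha v).le
      obtain ⟨γ, h1, h2, h3⟩ := (ih hL' _).1 hv'
      refine ⟨γ, h1, fun w => ?_, ?_⟩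
      · have := h2 w
        simp only [Pi.add_apply] at this
        linarith [ev_nonneg v w]
      · simp only [Pi.add_apply, Finset.sum_add_distrib, sum_ev] at h3
        simp only [List.length_cons]
        push_cast
        omega
    · rintro ⟨γ, h1, h2, h3⟩
      simp only [List.length_cons] at h3
      push_cast at h3
      have hex : ∃ v, β v < γ v := by
        by_contra hc'
        push Not at hc'
        have := Finset.sum_le_sum (s := univ) fun i (_ : i ∈ univ) => hc' i
        omega
      obtain ⟨v, hv⟩ := hex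
      refine ⟨v, mem_univ _, mul_pos (ha v) ((ih hL' _).2 ⟨γ, h1, fun w => ?_, ?_⟩)⟩
      · simp only [Pi.add_apply]
        by_cases hw : v = w
        · subst hw; rw [ev_self]; omega
        · rw [ev_ne hw]; linarith [h2 w]
      · simp only [Pi.add_apply, Finset.sum_add_distrib, sum_ev]
        omega

/-- connectivity of the graph of `mat` by paths of length at most two -/
theorem conn_mat {c : (V → ℤ) → ℝ} (hc : ∀ β, 0 ≤ c β) (hS : MCx {γ | 0 < c γ})
    {L : List (V → ℝ)} (hL : ∀ a ∈ L, ∀ v, 0 < a v) (hlen : 1 ≤ L.length) (β : V → ℤ)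
    (i j : V) (hi : ∃ v, 0 < mat c L β i v) (hj : ∃ v, 0 < mat c L β j v) (hij : i ≠ j) :
    0 < mat c L β i j ∨ ∃ u, 0 < mat c L β i u ∧ 0 < mat c L β u j := by
  classical
  have hmat : ∀ u v, (0 < mat c L β u v ↔ ∃ γ, 0 < c γ ∧ (∀ w, β w + ev u w + ev v w ≤ γ w) ∧
      ∑ w, γ w = ∑ w, β w + 2 + L.length) := by
    intro u v
    unfold mat
    rw [br_pos_iff hc hL]
    simp only [Pi.add_apply, Finset.sum_add_distrib, sum_ev]
    constructor
    · rintro ⟨γ, h1, h2, h3⟩; exact ⟨γ, h1, h2, by omega⟩
    · rintro ⟨γ, h1, h2, h3⟩; exact ⟨γ, h1, h2, by omega⟩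
  obtain ⟨v1, hv1⟩ := hi
  obtain ⟨v2, hv2⟩ := hj
  obtain ⟨γ, hγ1, hγ2, hγ3⟩ := (hmat _ _).1 hv1
  obtain ⟨δ, hδ1, hδ2, hδ3⟩ := (hmat _ _).1 hv2
  have hγβ : ∀ w, β w ≤ γ w := fun w => by
    linarith [hγ2 w, ev_nonneg i w, ev_nonneg v1 w]
  have hδβ : ∀ w, β w ≤ δ w := fun w => by
    linarith [hδ2 w, ev_nonneg j w, ev_nonneg v2 w]
  have hγi : β i + 1 ≤ γ i := by
    have := hγ2 i; rw [ev_self] at this; linarith [ev_nonneg v1 i]
  have hδj : β j + 1 ≤ δ j := by
    have := hδ2 j; rw [ev_self] at this; linarith [ev_nonneg v2 j]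
  -- helper: edge from a dominating element with two distinct coordinates
  have hedge : ∀ (ξ : V → ℤ), 0 < c ξ → (∀ w, β w ≤ ξ w) →
      ∑ w, ξ w = ∑ w, β w + 2 + L.length → ∀ u v, u ≠ v → β u + 1 ≤ ξ u → β v + 1 ≤ ξ v →
      0 < mat c L β u v := by
    intro ξ h1 h2 h3 u v huv hu hv
    refine (hmat u v).2 ⟨ξ, h1, fun w => ?_, h3⟩
    by_cases h4 : u = w
    · subst h4; rw [ev_self, ev_ne (Ne.symm huv)]; linarith
    · by_cases h5 : v = w
      · subst h5; rw [ev_self, ev_ne huv]; linarith
      · rw [ev_ne h4, ev_ne h5]; linarith [h2 w]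
  by_cases hcase : β j + 1 ≤ γ j
  · exact Or.inl (hedge γ hγ1 hγβ hγ3 i j hij hγi hcase)
  · have hγj : γ j = β j := le_antisymm (by omega) (hγβ j)
    obtain ⟨v, hv1', hv2', hv3'⟩ := hS.exch δ hδ1 γ hγ1 j (by rw [hγj]; omega)
    simp only [Set.mem_setOf_eq] at hv2' hv3'
    -- γ' = γ + e_j - e_v
    set γ' := γ + ev j - ev v with hγ'
    have hvj : v ≠ j := by rintro rfl; omega
    have hγ'sum : ∑ w, γ' w = ∑ w, β w + 2 + L.length := by
      simp only [hγ', Pi.add_apply, Pi.sub_apply, Finset.sum_add_distrib, Finset.sum_sub_distrib,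
        sum_ev]
      omega
    have hγ'β : ∀ w, β w ≤ γ' w := by
      intro w
      simp only [hγ', Pi.add_apply, Pi.sub_apply]
      by_cases h4 : v = w
      · subst h4
        rw [ev_self]
        linarith [hδβ v, ev_nonneg j v, hv1']
      · rw [ev_ne h4]; linarith [hγβ w, ev_nonneg j w]
    have hγ'j : β j + 1 ≤ γ' j := by
      simp only [hγ', Pi.add_apply, Pi.sub_apply, ev_self, ev_ne hvj]
      linarith [hγβ j]
    by_cases h6 : β i + 1 ≤ γ' i
    · exact Or.inl (hedge γ' hv3' hγ'β hγ'sum i j hij h6 hγ'j)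
    · -- then v = i and γ i = β i + 1
      have hvi : v = i := by
        by_contra hne
        apply h6
        simp only [hγ', Pi.add_apply, Pi.sub_apply, ev_ne hne]
        linarith [ev_nonneg j i]
      subst hvi
      have hγi1 : γ v = β v + 1 := by
        simp only [hγ', Pi.add_apply, Pi.sub_apply, ev_self, ev_ne hij.symm] at h6
        omega
      have hex : ∃ u, u ≠ v ∧ β u + 1 ≤ γ u := by
        by_contra hcon
        push Not at hcon
        have h7 : ∑ w, γ w ≤ ∑ w, (β w + ev v w) := by
          refine Finset.sum_le_sum fun w _ => ?_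
          by_cases h8 : w = v
          · subst h8; rw [ev_self]; omega
          · have := hcon w h8
            rw [ev_ne (Ne.symm h8)]; omega
        rw [Finset.sum_add_distrib, sum_ev] at h7
        have : (1 : ℤ) ≤ L.length := by exact_mod_cast hlen
        omega
      obtain ⟨u, huv, hu⟩ := hex
      have huj : u ≠ j := by rintro rfl; omega
      refine Or.inr ⟨u, hedge γ hγ1 hγβ hγ3 v u huv.symm hγi hu, hedge γ' hv3' hγ'β hγ'sum u j huj
        ?_ hγ'j⟩
      simp only [hγ', Pi.add_apply, Pi.sub_apply, ev_ne huv.symm, ev_ne huj.symm]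
      linarith

/-- **AF inequality, strictly positive vectors.** -/
theorem af_pos {c : (V → ℤ) → ℝ} (hc : ∀ β, 0 ≤ c β) (hS : MCx {γ | 0 < c γ})
    (hbase : ∀ β, AF (fun u v => c (β + ev u + ev v))) :
    ∀ {L : List (V → ℝ)}, (∀ a ∈ L, ∀ v, 0 < a v) → ∀ β, AF (mat c L β) := by
  intro L
  induction L with
  | nil => intro _ β; exact hbase β
  | cons a L ih =>
    intro hL β
    have ha := hL a (by simp)
    have hL' : ∀ b ∈ L, ∀ v, 0 < b v := fun b hb => hL b (by simp [hb])
    have hB0 : ∀ u v, 0 ≤ mat c (a :: L) β u v := fun u v =>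
      br_nonneg hc (fun b hb w => (hL b hb w).le) _
    have hL0 : ∀ β u v, 0 ≤ mat c L β u v := fun β u v =>
      br_nonneg hc (fun b hb w => (hL' b hb w).le) _
    refine perron (mat_symm c _ β) hB0 ha ?_ ?_
    · intro x
      rw [Q_mat_cons]
      refine Finset.sum_le_sum fun i _ => ?_
      rw [row_mat_cons, row_mat_cons]
      set A := mat c L (β + ev i) with hA
      have hAa : 0 ≤ Q A a a := Finset.sum_nonneg fun u _ => Finset.sum_nonneg fun v _ =>
        mul_nonneg (mul_nonneg (ha u).le (ha v).le) (hL0 _ _ _)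
      have h1 := ih hL' (β + ev i) x a hAa
      rcases hAa.eq_or_lt with h0 | hpos
      · -- all entries vanish
        have hz : ∀ u v, A u v = 0 := by
          intro u v
          have h2 := (Finset.sum_eq_zero_iff_of_nonneg (fun u _ => Finset.sum_nonneg fun v _ =>
            mul_nonneg (mul_nonneg (ha u).le (ha v).le) (hL0 (β + ev i) u v))).1 h0.symm u
            (mem_univ _)
          have h3 := (Finset.sum_eq_zero_iff_of_nonneg (fun v _ =>
            mul_nonneg (mul_nonneg (ha u).le (ha v).le) (hL0 (β + ev i) u v))).1 h2 v (mem_univ _)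
          rcases mul_eq_zero.1 h3 with h | h
          · exact absurd h (mul_pos (ha u) (ha v)).ne'
          · exact h
        have hxx : Q A x x = 0 := by
          unfold Q; exact Finset.sum_eq_zero fun u _ => Finset.sum_eq_zero fun v _ => by
            rw [hz, mul_zero]
        have haa : Q A a a = 0 := h0.symm
        rw [hxx, haa]; simp
      · have h2 : Q A x x ≤ (Q A x a) ^ 2 / Q A a a := by
          rw [le_div_iff₀ hpos]; exact h1
        calc a i * Q A x x ≤ a i * ((Q A x a) ^ 2 / Q A a a) :=
              mul_le_mul_of_nonneg_left h2 (ha i).le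
          _ = _ := by ring
    · intro i j hi hj hij
      have hrow : ∀ i, 0 < row (mat c (a :: L) β) a i → ∃ v, 0 < mat c (a :: L) β i v := by
        intro i hi
        unfold row at hi
        obtain ⟨v, _, hv⟩ := (Finset.sum_pos_iff_of_nonneg
          (fun v _ => mul_nonneg (ha v).le (hB0 i v))).1 hi
        exact ⟨v, pos_of_mul_pos_right hv (ha v).le⟩
      exact conn_mat hc hS hL (by simp) β i j (hrow i hi) (hrow j hj) hij

/-- continuity of `br` in the vectors along `a + ε 1` -/
theorem continuous_br (c : (V → ℤ) → ℝ) (L : List (V → ℝ)) (β : V → ℤ) :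
    Continuous fun ε : ℝ => br c (L.map fun a v => a v + ε) β := by
  induction L generalizing β with
  | nil => simpa using continuous_const
  | cons a L ih =>
    simp only [List.map_cons, br_cons]
    exact continuous_finset_sum _ fun v _ => (continuous_const.add continuous_id).mul (ih _)

/-- **Alexandrov-Fenchel inequality for weights with M-convex support**, nonnegative vectors. -/
theorem af_br {c : (V → ℤ) → ℝ} (hc : ∀ β, 0 ≤ c β) (hS : MCx {γ | 0 < c γ})
    (hbase : ∀ β, AF (fun u v => c (β + ev u + ev v)))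
    {L : List (V → ℝ)} (hL : ∀ a ∈ L, ∀ v, 0 ≤ a v) (β : V → ℤ) : AF (mat c L β) := by
  intro x y hy
  rcases hy.eq_or_lt with h0 | hpos
  · rw [← h0, mul_zero]; positivity
  · set M : ℝ → V → V → ℝ := fun ε => mat c (L.map fun a v => a v + ε) β with hM
    have hM0 : M 0 = mat c L β := by simp [hM]
    have hcont : ∀ x y : V → ℝ, Continuous fun ε => Q (M ε) x y := by
      intro x y
      unfold Q
      exact continuous_finset_sum _ fun u _ => continuous_finset_sum _ fun v _ =>
        continuous_const.mul (continuous_br c L _)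
    have hev : ∀ᶠ ε in nhdsWithin (0 : ℝ) (Set.Ioi 0),
        Q (M ε) x x * Q (M ε) y y ≤ (Q (M ε) x y) ^ 2 := by
      have h1 : ∀ᶠ ε in nhds (0 : ℝ), 0 < Q (M ε) y y := by
        have := (hcont y y).tendsto 0
        rw [hM0] at this
        exact this.eventually (lt_mem_nhds hpos)
      filter_upwards [nhdsWithin_le_nhds h1, self_mem_nhdsWithin] with ε h2 h3
      refine af_pos hc hS hbase ?_ β x y h2.le
      intro b hb v
      obtain ⟨a, ha, rfl⟩ := List.mem_map.1 hb
      have := hL a ha v
      have h3' : (0 : ℝ) < ε := h3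
      show 0 < a v + ε
      linarith
    have hl1 := (((hcont x x).mul (hcont y y)).tendsto 0).mono_left
      (nhdsWithin_le_nhds (s := Set.Ioi (0 : ℝ)))
    have hl2 := (((hcont x y).pow 2).tendsto 0).mono_left
      (nhdsWithin_le_nhds (s := Set.Ioi (0 : ℝ)))
    have := le_of_tendsto_of_tendsto hl1 hl2 hev
    simpa [hM0] using this

end Br

end Crest.Agent.R302.Lor
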