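import Mathlib
import Crest.Agent.R302.Lor151

/-!
R302 (helper674): the class of weights `c : (V → ℤ) → ℝ` all of whose second difference matrices
`(u, v) ↦ c (β + e_u + e_v)` satisfy the Alexandrov-Fenchel inequality is closed under convolution
with log-concave kernels along `e_v - e_u` ("cells").
Proof: conservation law (finite windows), then limits.
-/

set_option autoImplicit false
set_option linter.unusedSectionVars false

namespace Crest.Agent.R302.AFC

open Finset Crest.Agent.R302.Lor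

variable {V : Type*} [Fintype V] [DecidableEq V]

/-- all matrices of second derivatives have at most one positive eigenvalue -/
def Hyp (c : (V → ℤ) → ℝ) : Prop := ∀ β, AF (fun u v => c (β + ev u + ev v))

/-- the bilinear form `[x y M]` -/
def Bf (c : (V → ℤ) → ℝ) (β : V → ℤ) (x y : V → ℝ) : ℝ := Q (fun u v => c (β + ev u + ev v)) x y

/-- the linear form `[x M]` -/
def Lf (c : (V → ℤ) → ℝ) (β : V → ℤ) (x : V → ℝ) : ℝ := ∑ v, x v * c (β + ev v)

/-- real unit vector -/
def rv (a : V) : V → ℝ := Pi.single a 1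

theorem Bf_comm (c : (V → ℤ) → ℝ) (β : V → ℤ) (x y : V → ℝ) : Bf c β x y = Bf c β y x :=
  Q_comm (fun a b => by rw [add_right_comm]) x y

theorem Bf_add_left (c : (V → ℤ) → ℝ) (β : V → ℤ) (x x' y : V → ℝ) :
    Bf c β (x + x') y = Bf c β x y + Bf c β x' y := Q_add_left _ _ _ _

theorem Bf_smul_left (c : (V → ℤ) → ℝ) (β : V → ℤ) (t : ℝ) (x y : V → ℝ) :
    Bf c β (t • x) y = t * Bf c β x y := Q_smul_left _ _ _ _

theorem Bf_add_right (c : (V → ℤ) → ℝ) (β : V → ℤ) (x y y' : V → ℝ) :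
    Bf c β x (y + y') = Bf c β x y + Bf c β x y' := by
  rw [Bf_comm, Bf_add_left, Bf_comm c β y, Bf_comm c β y']

theorem Bf_smul_right (c : (V → ℤ) → ℝ) (β : V → ℤ) (t : ℝ) (x y : V → ℝ) :
    Bf c β x (t • y) = t * Bf c β x y := by
  rw [Bf_comm, Bf_smul_left, Bf_comm c β y]

theorem Bf_rv_right (c : (V → ℤ) → ℝ) (β : V → ℤ) (x : V → ℝ) (z : V) :
    Bf c β x (rv z) = Lf c (β + ev z) x := by
  unfold Bf Q Lf rv
  refine Finset.sum_congr rfl fun a _ => ?_
  rw [Finset.sum_eq_single z]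
  · rw [Pi.single_eq_same, mul_one, add_right_comm]
  · intro b _ hb; rw [Pi.single_eq_of_ne hb, mul_zero, zero_mul]
  · intro h; exact absurd (mem_univ _) h

theorem Lf_rv (c : (V → ℤ) → ℝ) (β : V → ℤ) (z : V) : Lf c β (rv z) = c (β + ev z) := by
  unfold Lf rv
  rw [Finset.sum_eq_single z]
  · rw [Pi.single_eq_same, one_mul]
  · intro b _ hb; rw [Pi.single_eq_of_ne hb, zero_mul]
  · intro h; exact absurd (mem_univ _) h

theorem Bf_rv_rv (c : (V → ℤ) → ℝ) (β : V → ℤ) (z z' : V) :
    Bf c β (rv z) (rv z') = c (β + ev z' + ev z) := by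
  rw [Bf_rv_right, Lf_rv]

theorem Bf_rv_left (c : (V → ℤ) → ℝ) (β : V → ℤ) (x : V → ℝ) (z : V) :
    Bf c β (rv z) x = Lf c (β + ev z) x := by rw [Bf_comm, Bf_rv_right]

theorem Lf_add (c : (V → ℤ) → ℝ) (β : V → ℤ) (x y : V → ℝ) :
    Lf c β (x + y) = Lf c β x + Lf c β y := by
  simp only [Lf, Pi.add_apply, add_mul, Finset.sum_add_distrib]

theorem Lf_smul (c : (V → ℤ) → ℝ) (β : V → ℤ) (t : ℝ) (x : V → ℝ) :
    Lf c β (t • x) = t * Lf c β x := by
  simp only [Lf, Pi.smul_apply, smul_eq_mul, Finset.mul_sum, mul_assoc]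

/-- a two dimensional quadratic form -/
theorem Bf_expand (c : (V → ℤ) → ℝ) (β : V → ℤ) (x : V → ℝ) (s t : ℝ) (u v : V) :
    Bf c β (x + (s • rv u + t • rv v)) (x + (s • rv u + t • rv v))
      = Bf c β x x + 2 * (s * Lf c (β + ev u) x + t * Lf c (β + ev v) x)
        + (s ^ 2 * c (β + ev u + ev u) + 2 * (s * t) * c (β + ev u + ev v)
          + t ^ 2 * c (β + ev v + ev v)) := by
  simp only [Bf_add_left, Bf_add_right, Bf_smul_left, Bf_smul_right, Bf_rv_right,
    Bf_rv_left, Lf_rv, Lf_add, Lf_smul]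
  rw [add_right_comm β (ev v) (ev u)]
  ring

theorem Bf_nonneg {c : (V → ℤ) → ℝ} (hc : ∀ β, 0 ≤ c β) (β : V → ℤ) {x y : V → ℝ}
    (hx : ∀ v, 0 ≤ x v) (hy : ∀ v, 0 ≤ y v) : 0 ≤ Bf c β x y :=
  Finset.sum_nonneg fun u _ => Finset.sum_nonneg fun v _ =>
    mul_nonneg (mul_nonneg (hx u) (hy v)) (hc _)

/-- if `[1 1 M] = 0` then the whole form vanishes -/
theorem Bf_eq_zero {c : (V → ℤ) → ℝ} (hc : ∀ β, 0 ≤ c β) {β : V → ℤ}
    (h : Bf c β (fun _ => 1) (fun _ => 1) = 0) (x y : V → ℝ) : Bf c β x y = 0 := by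
  have hz : ∀ u v, c (β + ev u + ev v) = 0 := by
    intro u v
    unfold Bf Q at h
    have h2 := (Finset.sum_eq_zero_iff_of_nonneg (fun u _ => Finset.sum_nonneg fun v _ => by
      simpa using hc (β + ev u + ev v))).1 h u (mem_univ _)
    have h3 := (Finset.sum_eq_zero_iff_of_nonneg (fun v _ => by
      simpa using hc (β + ev u + ev v))).1 h2 v (mem_univ _)
    simpa using h3
  unfold Bf Q
  refine Finset.sum_eq_zero fun u _ => Finset.sum_eq_zero fun v _ => ?_
  show x u * y v * c (β + ev u + ev v) = 0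
  rw [hz, mul_zero]

/-- the direction `e_v - e_u` -/
def dir (u v : V) : V → ℤ := ev v - ev u

/-- window sum `∑_{s ∈ [a,b]} f s c (γ + s (e_v - e_u))` -/
noncomputable def win (f : ℤ → ℝ) (u v : V) (a b : ℤ) (c : (V → ℤ) → ℝ) (γ : V → ℤ) : ℝ :=
  ∑ s ∈ Icc a b, f s * c (γ + s • dir u v)

theorem Bf_win (f : ℤ → ℝ) (u v : V) (a b : ℤ) (c : (V → ℤ) → ℝ) (β : V → ℤ) (x y : V → ℝ) :
    Bf (win f u v a b c) β x y = ∑ s ∈ Icc a b, f s * Bf c (β + s • dir u v) x y := by
  unfold Bf Q win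
  simp only [Finset.mul_sum]
  calc ∑ i, ∑ j, ∑ s ∈ Icc a b, x i * y j * (f s * c (β + ev i + ev j + s • dir u v))
      = ∑ i, ∑ s ∈ Icc a b, ∑ j, x i * y j * (f s * c (β + ev i + ev j + s • dir u v)) :=
        Finset.sum_congr rfl fun i _ => Finset.sum_comm
    _ = ∑ s ∈ Icc a b, ∑ i, ∑ j, x i * y j * (f s * c (β + ev i + ev j + s • dir u v)) :=
        Finset.sum_comm
    _ = _ := by
        refine Finset.sum_congr rfl fun s _ => Finset.sum_congr rfl fun i _ =>
          Finset.sum_congr rfl fun j _ => ?_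
        have : β + ev i + ev j + s • dir u v = β + s • dir u v + ev i + ev j := by abel
        rw [this]; ring

theorem two_terms {p q r a b : ℝ} (hp : 0 < p) (hq : 0 < q) (hr : 0 < r) (h : p * r ≤ q ^ 2) :
    0 ≤ a ^ 2 / p - 2 * (b * a) / q + b ^ 2 / r := by
  have h1 : a ^ 2 / p - 2 * (b * a) / q + b ^ 2 / r
      = (q * r * a ^ 2 - 2 * p * r * a * b + p * q * b ^ 2) / (p * q * r) := by
    field_simp
  rw [h1]
  apply div_nonneg _ (by positivity)
  -- q (q r a² - 2 p r a b + p q b²) ≥ r (q a - p b)^2 ≥ 0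
  have h2 : 0 ≤ q * (q * r * a ^ 2 - 2 * p * r * a * b + p * q * b ^ 2) := by
    have : q * (q * r * a ^ 2 - 2 * p * r * a * b + p * q * b ^ 2)
        = r * (q * a - p * b) ^ 2 + p * b ^ 2 * (q ^ 2 - p * r) := by ring
    rw [this]
    have := mul_nonneg (mul_nonneg hp.le (sq_nonneg b)) (sub_nonneg.2 h)
    have h3 := mul_nonneg hr.le (sq_nonneg (q * a - p * b))
    linarith
  exact (mul_nonneg_iff_of_pos_left hq).1 h2

/-- connectedness of the support along `e_v - e_u` -/
def Conn (c : (V → ℤ) → ℝ) (u v : V) : Prop :=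
  ∀ β : V → ℤ, (∀ z, c (β + ev v + ev z) = 0) →
    (∀ l : ℤ, l ≤ 0 → ∀ i j, c (β + l • dir u v + ev i + ev j) = 0) ∨
    (∀ l : ℤ, 0 < l → ∀ i j, c (β + l • dir u v + ev i + ev j) = 0)

theorem smul_dir_succ (u v : V) (β : V → ℤ) (s : ℤ) :
    β + s • dir u v + ev v = β + (s + 1) • dir u v + ev u := by
  unfold dir; rw [add_smul, one_smul]; abel

theorem smul_dir_pred (u v : V) (β : V → ℤ) (s : ℤ) :
    β + s • dir u v + ev u = β + (s - 1) • dir u v + ev v := by
  rw [smul_dir_succ, sub_add_cancel]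

/-- **conservation law**: window sums of hyperbolic weights -/
theorem af_win {c : (V → ℤ) → ℝ} (hc : ∀ β, 0 ≤ c β) (hH : Hyp c) {u v : V}
    (hC : Conn c u v) {f : ℤ → ℝ} (hf : ∀ s, 0 < f s)
    (hlc : ∀ s, f (s - 1) * f (s + 1) ≤ f s ^ 2) (a b : ℤ) : Hyp (win f u v a b c) := by
  intro β
  set X : V → ℝ := rv u with hX
  set Y : V → ℝ := rv v with hY
  set o : V → ℝ := fun _ => 1 with ho
  have hnn : ∀ s : ℤ, 0 ≤ Lf c (β + s • dir u v + ev v) o := fun s =>
    Finset.sum_nonneg fun z _ => mul_nonneg zero_le_one (hc _)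
  refine AF.of_hyper (fun i j => by rw [add_right_comm])
    (fun x => Bf (win f u v a b c) β x o) ?_ ?_
  · intro x y t
    have e : x - t • y = x + (-t) • y := by ext i; simp [sub_eq_add_neg]
    rw [e, Bf_add_left, Bf_smul_left]; ring
  intro x hx
  change Bf (win f u v a b c) β x x ≤ 0
  rw [Bf_win] at hx ⊢
  -- data
  set φ : ℤ → ℝ := fun s => f s * Bf c (β + s • dir u v) x o with hφ
  set J : ℤ → ℝ := fun s => ∑ l ∈ Icc a s, φ l with hJ
  set N : ℤ → ℝ := fun s => Lf c (β + s • dir u v + ev v) o with hN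
  have hJb : ∀ s, b ≤ s → (∑ l ∈ Icc a b, φ l) = 0 := fun _ _ => hx
  -- J vanishes where N vanishes
  have hNJ : ∀ s, s ≤ b → N s = 0 → J s = 0 := by
    intro s hsb hNs
    have hz : ∀ z, c (β + s • dir u v + ev v + ev z) = 0 := by
      intro z
      have := (Finset.sum_eq_zero_iff_of_nonneg (fun z _ =>
        mul_nonneg zero_le_one (hc (β + s • dir u v + ev v + ev z)))).1
        (show ∑ z, (1 : ℝ) * c (β + s • dir u v + ev v + ev z) = 0 from hNs) z (mem_univ _)
      simpa using this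
    have hφ0 : ∀ l, (∀ i j, c (β + l • dir u v + ev i + ev j) = 0) → φ l = 0 := by
      intro l hl
      have : Bf c (β + l • dir u v) x o = 0 := by
        unfold Bf Q
        refine Finset.sum_eq_zero fun i _ => Finset.sum_eq_zero fun j _ => ?_
        show x i * o j * c (β + l • dir u v + ev i + ev j) = 0
        rw [hl, mul_zero]
      simp only [hφ, this, mul_zero]
    rcases hC (β + s • dir u v) hz with h | h
    · apply Finset.sum_eq_zero
      intro l hl
      apply hφ0
      intro i j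
      have := h (l - s) (by have := (mem_Icc.1 hl).2; omega) i j
      rwa [add_assoc β, ← add_smul, show s + (l - s) = l by ring] at this
    · have h0 : ∑ l ∈ Icc a b, φ l = 0 := hx
      have h1 : ∑ l ∈ Icc a b, φ l = ∑ l ∈ Icc a s, φ l := by
        symm
        apply Finset.sum_subset (Icc_subset_Icc_right hsb)
        intro l hl hl'
        apply hφ0
        intro i j
        have hls : s < l := by
          rw [mem_Icc] at hl hl'
          by_contra hcon
          exact hl' ⟨hl.1, not_lt.1 hcon⟩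
        have := h (l - s) (by omega) i j
        rwa [add_assoc β, ← add_smul, show s + (l - s) = l by ring] at this
      show ∑ l ∈ Icc a s, φ l = 0
      rw [← h1, h0]
  set j : ℤ → ℝ := fun s => -J s / N s with hj
  have hjN : ∀ s, s ≤ b → j s * N s = -J s := by
    intro s hsb
    by_cases h : N s = 0
    · rw [h, mul_zero, hNJ s hsb h, neg_zero]
    · simp only [hj]; field_simp
  have hja : j (a - 1) = 0 := by
    have : J (a - 1) = 0 := by
      show ∑ l ∈ Icc a (a - 1), φ l = 0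
      rw [Icc_eq_empty (by omega), sum_empty]
    simp only [hj, this, neg_zero, zero_div]
  have hjb : j b = 0 := by
    have : J b = 0 := hx
    simp only [hj, this, neg_zero, zero_div]
  -- the modified vectors
  set w : ℤ → V → ℝ := fun s => x + ((j s / f s) • Y + (-(j (s - 1)) / f s) • X) with hw
  have hw0 : ∀ s ∈ Icc a b, Bf c (β + s • dir u v) (w s) o = 0 := by
    intro s hs
    rw [mem_Icc] at hs
    have hY1 : Bf c (β + s • dir u v) Y o = N s := by
      rw [hY, Bf_rv_left]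
    have hX1 : Bf c (β + s • dir u v) X o = N (s - 1) := by
      rw [hX, Bf_rv_left, smul_dir_pred]
    have h1 : f s * Bf c (β + s • dir u v) (w s) o = 0 := by
      simp only [hw, Bf_add_left, Bf_smul_left, hY1, hX1]
      have h2 := hjN s hs.2
      have h3 := hjN (s - 1) (by omega)
      have h4 : J s = J (s - 1) + φ s := by
        show ∑ l ∈ Icc a s, φ l = ∑ l ∈ Icc a (s - 1), φ l + φ s
        have : Icc a s = insert s (Icc a (s - 1)) := by
          ext l; simp only [mem_Icc, mem_insert]; omega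
        rw [this, sum_insert (by simp), add_comm]
      have hfs := (hf s).ne'
      have h5 : f s * (Bf c (β + s • dir u v) x o +
          (j s / f s * N s + -(j (s - 1)) / f s * N (s - 1)))
          = φ s + (j s * N s - j (s - 1) * N (s - 1)) := by
        simp only [hφ]; field_simp; ring
      rw [h5, h2, h3, h4]; ring
    exact (mul_eq_zero.1 h1).resolve_left (hf s).ne'
  have hwneg : ∀ s ∈ Icc a b, Bf c (β + s • dir u v) (w s) (w s) ≤ 0 := by
    intro s hs
    have h1 : 0 ≤ Bf c (β + s • dir u v) o o :=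
      Bf_nonneg hc _ (fun _ => zero_le_one) (fun _ => zero_le_one)
    rcases h1.eq_or_lt with h0 | hpos
    · rw [Bf_eq_zero hc h0.symm]
    · exact (hH (β + s • dir u v)).neg (y := o) hpos (hw0 s hs)
  -- expansion
  set P : ℤ → ℝ := fun s => Lf c (β + s • dir u v + ev v) x with hP
  set G : ℤ → ℝ := fun s => c (β + s • dir u v + ev v + ev u) with hG
  have hG0 : ∀ s, 0 ≤ G s := fun s => hc _
  have hexp : ∀ s, f s * Bf c (β + s • dir u v) (w s) (w s)
      = f s * Bf c (β + s • dir u v) x x + 2 * (j s * P s - j (s - 1) * P (s - 1))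
        + (j s ^ 2 / f s * G (s + 1) - 2 * (j s * j (s - 1)) / f s * G s
          + j (s - 1) ^ 2 / f s * G (s - 1)) := by
    intro s
    simp only [hw]
    rw [hY, hX, Bf_expand]
    have e1 : Lf c (β + s • dir u v + ev u) x = P (s - 1) := by
      simp only [hP]; rw [smul_dir_pred]
    have e2 : c (β + s • dir u v + ev v + ev v) = G (s + 1) := by
      simp only [hG]
      rw [smul_dir_succ, add_right_comm]
    have e3 : c (β + s • dir u v + ev u + ev u) = G (s - 1) := by
      simp only [hG]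
      rw [smul_dir_pred]
    rw [e1, e2, e3]
    have hfs := (hf s).ne'
    simp only [hP, hG]
    field_simp
    ring
  have hsum : ∑ s ∈ Icc a b, f s * Bf c (β + s • dir u v) (w s) (w s)
      = ∑ s ∈ Icc a b, f s * Bf c (β + s • dir u v) x x
        + ∑ s ∈ Icc a b, 2 * (j s * P s - j (s - 1) * P (s - 1))
        + ∑ s ∈ Icc a b, (j s ^ 2 / f s * G (s + 1) - 2 * (j s * j (s - 1)) / f s * G s
          + j (s - 1) ^ 2 / f s * G (s - 1)) := by
    rw [← Finset.sum_add_distrib, ← Finset.sum_add_distrib]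
    exact Finset.sum_congr rfl fun s _ => hexp s
  -- telescoping sums on integer intervals
  have shift : ∀ g : ℤ → ℝ, g (a - 1) = 0 → g b = 0 →
      ∑ s ∈ Icc a b, g (s - 1) = ∑ s ∈ Icc a b, g s := by
    intro g h1 h2
    by_cases hab : a ≤ b
    · have e1 : ∑ s ∈ Icc a b, g (s - 1) = ∑ s ∈ Icc (a - 1) (b - 1), g s := by
        refine Finset.sum_bij (fun s _ => s - 1) ?_ ?_ ?_ ?_
        · intro s hs; rw [mem_Icc] at hs ⊢; omega
        · intro s _ t _ h; omega
        · intro s hs; rw [mem_Icc] at hs; exact ⟨s + 1, by rw [mem_Icc]; omega, by ring⟩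
        · intro s _; rfl
      have e2 : ∑ s ∈ Icc (a - 1) b, g s = ∑ s ∈ Icc (a - 1) (b - 1), g s + g b := by
        have : Icc (a - 1) b = insert b (Icc (a - 1) (b - 1)) := by
          ext l; simp only [mem_Icc, mem_insert]; omega
        rw [this, sum_insert (by simp), add_comm]
      have e3 : ∑ s ∈ Icc (a - 1) b, g s = g (a - 1) + ∑ s ∈ Icc a b, g s := by
        have : Icc (a - 1) b = insert (a - 1) (Icc a b) := by
          ext l; simp only [mem_Icc, mem_insert]; omega
        rw [this, sum_insert (by simp)]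
      rw [e1]; rw [h2] at e2; rw [h1] at e3; linarith
    · rw [Icc_eq_empty (by omega), sum_empty, sum_empty]
  have htel : ∑ s ∈ Icc a b, 2 * (j s * P s - j (s - 1) * P (s - 1)) = 0 := by
    rw [← Finset.mul_sum, Finset.sum_sub_distrib,
      shift (fun s => j s * P s) (by simp only [hja, zero_mul]) (by simp only [hjb, zero_mul]),
      sub_self, mul_zero]
  have hthird : 0 ≤ ∑ s ∈ Icc a b, (j s ^ 2 / f s * G (s + 1)
      - 2 * (j s * j (s - 1)) / f s * G s + j (s - 1) ^ 2 / f s * G (s - 1)) := by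
    have e1 : ∑ s ∈ Icc a b, j s ^ 2 / f s * G (s + 1)
        = ∑ s ∈ Icc a b, j (s - 1) ^ 2 / f (s - 1) * G s := by
      have := shift (fun s => j s ^ 2 / f s * G (s + 1)) (by simp [hja]) (by simp [hjb])
      rw [← this]
      exact Finset.sum_congr rfl fun s _ => by simp
    have e2 : ∑ s ∈ Icc a b, j (s - 1) ^ 2 / f s * G (s - 1)
        = ∑ s ∈ Icc a b, j s ^ 2 / f (s + 1) * G s := by
      have := shift (fun s => j s ^ 2 / f (s + 1) * G s) (by simp [hja]) (by simp [hjb])
      rw [← this]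
      exact Finset.sum_congr rfl fun s _ => by simp
    rw [Finset.sum_add_distrib, Finset.sum_sub_distrib, e1, e2, ← Finset.sum_sub_distrib,
      ← Finset.sum_add_distrib]
    refine Finset.sum_nonneg fun s _ => ?_
    have h1 := two_terms (a := j (s - 1)) (b := j s) (hf (s - 1)) (hf s) (hf (s + 1)) (hlc s)
    have h2 := mul_nonneg h1 (hG0 s)
    calc 0 ≤ _ := h2
      _ = _ := by ring
  have hle : ∑ s ∈ Icc a b, f s * Bf c (β + s • dir u v) (w s) (w s) ≤ 0 :=
    Finset.sum_nonpos fun s hs => mul_nonpos_of_nonneg_of_nonpos (hf s).le (hwneg s hs)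
  rw [hsum, htel] at hle
  linarith

/-- full cell `∑_{s ∈ ℤ} f s c (γ + s (e_v - e_u))` -/
noncomputable def cell (f : ℤ → ℝ) (u v : V) (c : (V → ℤ) → ℝ) (γ : V → ℤ) : ℝ :=
  ∑' s : ℤ, f s * c (γ + s • dir u v)

/-- limits of `AF` matrices -/
theorem AF.of_tendsto {A : ℕ → V → V → ℝ} {B : V → V → ℝ} (hA : ∀ n, AF (A n))
    (hlim : ∀ i j, Filter.Tendsto (fun n => A n i j) Filter.atTop (nhds (B i j))) : AF B := by
  have hQ : ∀ x y : V → ℝ, Filter.Tendsto (fun n => Q (A n) x y) Filter.atTop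
      (nhds (Q B x y)) := by
    intro x y
    unfold Q
    exact tendsto_finsetSum _ fun i _ => tendsto_finsetSum _ fun j _ => (hlim i j).const_mul _
  intro x y hy
  rcases hy.eq_or_lt with h0 | hpos
  · rw [← h0, mul_zero]; positivity
  · have h1 : ∀ᶠ n in Filter.atTop, 0 < Q (A n) y y := (hQ y y).eventually (lt_mem_nhds hpos)
    refine le_of_tendsto_of_tendsto ((hQ x x).mul (hQ y y)) ((hQ x y).pow 2) ?_
    filter_upwards [h1] with n hn
    exact hA n x y hn.le

theorem tendsto_win {f : ℤ → ℝ} {u v : V} {c : (V → ℤ) → ℝ} {γ : V → ℤ}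
    (hs : Summable fun s : ℤ => f s * c (γ + s • dir u v)) :
    Filter.Tendsto (fun n : ℕ => win f u v (-(n : ℤ)) n c γ) Filter.atTop
      (nhds (cell f u v c γ)) := by
  unfold win cell
  have h := hs.hasSum
  rw [HasSum, SummationFilter.unconditional_filter] at h
  refine h.comp ?_
  rw [Filter.tendsto_atTop_atTop]
  intro S
  obtain ⟨n, hn⟩ : ∃ n : ℕ, ∀ s ∈ S, |s| ≤ (n : ℤ) := by
    refine ⟨∑ s ∈ S, s.natAbs, fun s hs => ?_⟩
    have : s.natAbs ≤ ∑ s ∈ S, s.natAbs :=
      Finset.single_le_sum (f := fun s : ℤ => s.natAbs) (fun _ _ => Nat.zero_le _) hs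
    rw [Int.abs_eq_natAbs]; exact_mod_cast this
  refine ⟨n, fun m hm s hs => ?_⟩
  have := hn s hs
  rw [mem_Icc]
  rw [abs_le] at this
  constructor <;> [skip; skip] <;> omega

/-- **AF for full cells** -/
theorem hyp_cell {c : (V → ℤ) → ℝ} (hc : ∀ β, 0 ≤ c β) (hH : Hyp c) {u v : V}
    (hC : Conn c u v) {f : ℤ → ℝ} (hf : ∀ s, 0 < f s)
    (hlc : ∀ s, f (s - 1) * f (s + 1) ≤ f s ^ 2)
    (hs : ∀ γ, Summable fun s : ℤ => f s * c (γ + s • dir u v)) : Hyp (cell f u v c) := by
  intro β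
  exact AF.of_tendsto (fun n => af_win hc hH hC hf hlc (-(n : ℤ)) n β)
    (fun i j => tendsto_win (hs _))

end Crest.Agent.R302.AFC
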