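import Crest.Agent.R302.Lor151

/-!
R302 (helper151): base cases of the Alexandrov-Fenchel inequality and closure properties.

* `AF.lim`, `AF.pull`, `AF.smul` : closure of `AF`;
* `af_indicator` : for the indicator of an M-convex set;
* `ultra_psd`, `af_tree` : (T3), (T4) imply `AF` (weights `exp(- M-convex)` of full support);
* `af_chain` : closure under cells / convolution with a log-concave kernel along `e_X - e_Y`.
-/

set_option autoImplicit false

namespace Crest.Agent.R302.Lor

open Finset

variable {V : Type*} [Fintype V]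

/-! ### closure of AF -/

theorem AF.zero : AF (fun _ _ : V => (0 : ℝ)) := by
  intro x y _
  have : Q (fun _ _ : V => (0 : ℝ)) x x = 0 := by simp [Q]
  rw [this, zero_mul]; positivity

theorem Q_smul_mat (A : V → V → ℝ) (k : ℝ) (x y : V → ℝ) :
    Q (fun u v => k * A u v) x y = k * Q A x y := by
  unfold Q
  rw [Finset.mul_sum]
  refine Finset.sum_congr rfl fun a _ => ?_
  rw [Finset.mul_sum]
  exact Finset.sum_congr rfl fun b _ => by ring

theorem AF.smul {A : V → V → ℝ} (h : AF A) {k : ℝ} (hk : 0 ≤ k) : AF (fun u v => k * A u v) := by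
  intro x y hy
  rcases hk.eq_or_lt with rfl | hk
  · simp only [Q_smul_mat]; simp
  · rw [Q_smul_mat] at hy
    have h1 := h x y (nonneg_of_mul_nonneg_right hy hk)
    simp only [Q_smul_mat]
    nlinarith [mul_le_mul_of_nonneg_left h1 (sq_nonneg k)]

/-- pull back along a linear map given by values: if `Q B x y = k * Q A (T x) (T y)`. -/
theorem AF.pull {W : Type*} [Fintype W] {A : V → V → ℝ} (h : AF A) {B : W → W → ℝ} {k : ℝ}
    (hk : 0 ≤ k) (T : (W → ℝ) → (V → ℝ)) (hT : ∀ x y, Q B x y = k * Q A (T x) (T y)) : AF B := by
  intro x y hy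
  rcases hk.eq_or_lt with rfl | hk
  · simp only [hT]; simp
  · rw [hT] at hy
    have h1 := h (T x) (T y) (nonneg_of_mul_nonneg_right hy hk)
    simp only [hT]
    nlinarith [mul_le_mul_of_nonneg_left h1 (sq_nonneg k)]

theorem AF.lim {ι : Type*} {F : Filter ι} [F.NeBot] {A : V → V → ℝ} {B : ι → V → V → ℝ}
    (hB : ∀ u v, Filter.Tendsto (fun i => B i u v) F (nhds (A u v)))
    (h : ∀ᶠ i in F, AF (B i)) : AF A := by
  intro x y hy
  have hcont : ∀ x y : V → ℝ, Filter.Tendsto (fun i => Q (B i) x y) F (nhds (Q A x y)) := by
    intro x y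
    unfold Q
    exact tendsto_finsetSum _ fun u _ => tendsto_finsetSum _ fun v _ =>
      tendsto_const_nhds.mul (hB u v)
  rcases hy.eq_or_lt with h0 | hpos
  · rw [← h0, mul_zero]; positivity
  · have hev : ∀ᶠ i in F, Q (B i) x x * Q (B i) y y ≤ (Q (B i) x y) ^ 2 := by
      filter_upwards [h, (hcont y y).eventually (lt_mem_nhds hpos)] with i h1 h2
      exact h1 x y h2.le
    exact le_of_tendsto_of_tendsto ((hcont x x).mul (hcont y y)) ((hcont x y).pow 2) hev

/-! ### equivalence relations -/

theorem per_nonneg (R : V → V → Prop) (hs : ∀ u v, R u v → R v u)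
    (ht : ∀ u v w, R u v → R v w → R u w) (x : V → ℝ) :
    0 ≤ ∑ u, ∑ v, (open Classical in if R u v then x u * x v else 0) := by
  classical
  set g : V → Finset V := fun u => univ.filter (R u) with hg
  have hR : ∀ u v, R u v ↔ R u u ∧ R v v ∧ g v = g u := by
    intro u v
    constructor
    · intro h
      refine ⟨ht _ _ _ h (hs _ _ h), ht _ _ _ (hs _ _ h) h, ?_⟩
      ext w
      simp only [hg, mem_filter, mem_univ, true_and]
      exact ⟨fun h' => ht _ _ _ h h', fun h' => ht _ _ _ (hs _ _ h) h'⟩
    · rintro ⟨_, h2, h3⟩
      have : v ∈ g v := by simp [hg, h2]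
      rw [h3] at this
      simpa [hg] using this
  have key : ∀ u v, (if R u v then x u * x v else 0)
      = ∑ G : Finset V, (if R u u ∧ g u = G then x u else 0) * (if R v v ∧ g v = G then x v else 0) := by
    intro u v
    rw [Finset.sum_eq_single (g u)]
    · by_cases h : R u v
      · have h' := (hR u v).1 h
        rw [if_pos h, if_pos ⟨h'.1, rfl⟩, if_pos ⟨h'.2.1, h'.2.2⟩]
      · rw [if_neg h]
        by_cases h1 : R u u
        · rw [if_neg (c := R v v ∧ g v = g u) (fun h2 => h ((hR u v).2 ⟨h1, h2.1, h2.2⟩)), mul_zero]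
        · rw [if_neg (c := R u u ∧ g u = g u) (fun h2 => h1 h2.1), zero_mul]
    · intro G _ hG
      rw [if_neg (fun h2 => hG h2.2.symm), zero_mul]
    · intro h; exact absurd (mem_univ _) h
  have h2 : (∑ u, ∑ v, if R u v then x u * x v else 0)
      = ∑ G : Finset V, (∑ u, if R u u ∧ g u = G then x u else 0) ^ 2 := by
    simp only [key]
    calc _ = ∑ u, ∑ G : Finset V, ∑ v, (if R u u ∧ g u = G then x u else 0) *
          (if R v v ∧ g v = G then x v else 0) :=
        Finset.sum_congr rfl fun u _ => Finset.sum_comm
      _ = ∑ G : Finset V, ∑ u, ∑ v, (if R u u ∧ g u = G then x u else 0) *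
          (if R v v ∧ g v = G then x v else 0) := Finset.sum_comm
      _ = _ := by
        refine Finset.sum_congr rfl fun G _ => ?_
        rw [sq, Finset.sum_mul_sum]
  rw [h2]
  exact Finset.sum_nonneg fun G _ => sq_nonneg _

/-! ### ultrametric matrices are positive semidefinite -/

theorem ultra_psd : ∀ (n : ℕ) (K : V → V → ℝ), (∀ u v, K u v = K v u) → (∀ u v, 0 ≤ K u v) →
    (∀ u v w, min (K u v) (K v w) ≤ K u w) →
    (((univ : Finset (V × V)).image fun p => K p.1 p.2).filter (0 < ·)).card ≤ n →
    ∀ x : V → ℝ, 0 ≤ Q K x x := by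
  classical
  intro n
  induction n with
  | zero =>
    intro K hsym h0 hult hcard x
    have hz : ∀ u v, K u v = 0 := by
      intro u v
      by_contra hne
      have hpos : 0 < K u v := lt_of_le_of_ne (h0 u v) (Ne.symm hne)
      have hmem : K u v ∈ (((univ : Finset (V × V)).image fun p => K p.1 p.2).filter (0 < ·)) := by
        rw [mem_filter]
        exact ⟨mem_image.2 ⟨(u, v), mem_univ _, rfl⟩, hpos⟩
      have := Finset.card_pos.2 ⟨_, hmem⟩
      omega
    unfold Q
    simp [hz]
  | succ n ih =>
    intro K hsym h0 hult hcard x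
    set T := (((univ : Finset (V × V)).image fun p => K p.1 p.2).filter (0 < ·)) with hT
    rcases T.eq_empty_or_nonempty with hTe | hTne
    · exact ih K hsym h0 hult (by rw [← hT, hTe]; simp) x
    set m := T.min' hTne with hm
    have hmT : m ∈ T := Finset.min'_mem _ _
    have hmpos : 0 < m := (mem_filter.1 hmT).2
    have hmle : ∀ u v, 0 < K u v → m ≤ K u v := by
      intro u v h
      refine Finset.min'_le _ _ ?_
      rw [hT, mem_filter]
      exact ⟨mem_image.2 ⟨(u, v), mem_univ _, rfl⟩, h⟩
    set K' : V → V → ℝ := fun u v => max (K u v - m) 0 with hK'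
    have h1 : ∀ u v, K u v = m * (if 0 < K u v then 1 else 0) + K' u v := by
      intro u v
      by_cases h : 0 < K u v
      · rw [if_pos h, hK']; simp only
        rw [max_eq_left (by linarith [hmle u v h])]; ring
      · rw [if_neg h, hK']; simp only
        have : K u v = 0 := le_antisymm (not_lt.1 h) (h0 u v)
        rw [max_eq_right (by linarith)]; linarith
    have hK'psd : 0 ≤ Q K' x x := by
      refine ih K' (fun u v => by simp only [hK', hsym u v]) (fun u v => le_max_right _ _) ?_ ?_ x
      · intro u v w
        have h2 := hult u v w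
        simp only [hK']
        rcases min_le_iff.1 h2 with h3 | h3
        · refine (min_le_left _ _).trans ?_
          exact max_le_max (by linarith) le_rfl
        · refine (min_le_right _ _).trans ?_
          exact max_le_max (by linarith) le_rfl
      · have hsub : (((univ : Finset (V × V)).image fun p => K' p.1 p.2).filter (0 < ·)) ⊆
            (T.erase m).image (fun t => t - m) := by
          intro t ht
          rw [mem_filter, mem_image] at ht
          obtain ⟨⟨p, _, hp⟩, htpos⟩ := ht
          have hp' : max (K p.1 p.2 - m) 0 = t := hp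
          have h4 : K p.1 p.2 - m = t := by
            rcases max_cases (K p.1 p.2 - m) 0 with ⟨h5, _⟩ | ⟨h5, _⟩
            · rw [← h5, hp']
            · rw [h5] at hp'; linarith
          rw [mem_image]
          refine ⟨K p.1 p.2, ?_, h4⟩
          rw [mem_erase, hT, mem_filter]
          refine ⟨by intro h; rw [h] at h4; linarith, mem_image.2 ⟨p, mem_univ _, rfl⟩, by linarith⟩
        have := (Finset.card_le_card hsub).trans Finset.card_image_le
        rw [Finset.card_erase_of_mem hmT] at this
        omega
    have hper := per_nonneg (fun u v => 0 < K u v) (fun u v h => by rwa [hsym v u])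
      (fun u v w h h' => lt_of_lt_of_le (lt_min h h') (hult u v w)) x
    have h5 : Q K x x = m * (∑ u, ∑ v, if 0 < K u v then x u * x v else 0) + Q K' x x := by
      unfold Q
      rw [Finset.mul_sum, ← Finset.sum_add_distrib]
      refine Finset.sum_congr rfl fun u _ => ?_
      rw [Finset.mul_sum, ← Finset.sum_add_distrib]
      refine Finset.sum_congr rfl fun v _ => ?_
      have h6 := h1 u v
      by_cases h : 0 < K u v
      · rw [if_pos h] at h6 ⊢
        linear_combination (x u * x v) * h6
      · rw [if_neg h] at h6 ⊢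
        linear_combination (x u * x v) * h6
    rw [h5]
    refine add_nonneg (mul_nonneg hmpos.le ?_) hK'psd
    convert hper using 6

/-! ### indicator of an M-convex set -/

section Ind

variable [DecidableEq V]

theorem af_indicator {S : Set (V → ℤ)} (hS : MCx S) {c : (V → ℤ) → ℝ} (hc1 : ∀ γ ∈ S, c γ = 1)
    (hc0 : ∀ γ, γ ∉ S → c γ = 0) (β : V → ℤ) :
    AF (fun u v => c (β + ev u + ev v)) := by
  classical
  set I : V → Prop := fun u => ∃ v, β + ev u + ev v ∈ S with hI
  set R : V → V → Prop := fun u v => I u ∧ I v ∧ β + ev u + ev v ∉ S with hR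
  have hsw : ∀ u v, β + ev u + ev v = β + ev v + ev u := fun u v => add_right_comm _ _ _
  have htr : ∀ u v w, R u v → R v w → R u w := by
    rintro u v w ⟨hu, hv, h1⟩ ⟨_, hw, h2⟩
    refine ⟨hu, hw, fun h3 => ?_⟩
    obtain ⟨t, ht⟩ := hv
    have hvu : v ≠ u := by rintro rfl; exact h2 h3
    have hvw : v ≠ w := by rintro rfl; exact h1 h3
    obtain ⟨j, hj, hj1, hj2⟩ := hS.exch _ ht _ h3 v (by
      simp only [Pi.add_apply, ev_self, ev_ne hvu.symm, ev_ne hvw.symm]
      linarith [ev_nonneg t v])
    have hj' : j = u ∨ j = w := by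
      by_contra hne
      push Not at hne
      simp only [Pi.add_apply, ev_ne hne.1.symm, ev_ne hne.2.symm] at hj
      linarith [ev_nonneg t j, ev_nonneg v j]
    rcases hj' with rfl | rfl
    · apply h2
      have : β + ev v + ev w = β + ev j + ev w + ev v - ev j := by abel
      rw [this]; exact hj2
    · apply h1
      have : β + ev u + ev v = β + ev u + ev j + ev v - ev j := by abel
      rw [this]; exact hj2
  refine AF.of_hyper (fun a b => by simp only [hsw a b]) (fun x => ∑ u, if I u then x u else 0)
    ?_ ?_
  · intro x y t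
    rw [Finset.mul_sum, ← Finset.sum_sub_distrib]
    refine Finset.sum_congr rfl fun u _ => ?_
    by_cases h : I u
    · simp [h]
    · simp [h]
  · intro x hx
    have hper := per_nonneg R (fun u v h => ⟨h.2.1, h.1, by rw [hsw]; exact h.2.2⟩) htr x
    have h1 : Q (fun u v => c (β + ev u + ev v)) x x
        = (∑ u, if I u then x u else 0) * (∑ u, if I u then x u else 0)
          - ∑ u, ∑ v, (if R u v then x u * x v else 0) := by
      rw [Finset.sum_mul_sum, ← Finset.sum_sub_distrib]
      unfold Q
      refine Finset.sum_congr rfl fun u _ => ?_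
      rw [← Finset.sum_sub_distrib]
      refine Finset.sum_congr rfl fun v _ => ?_
      show x u * x v * c (β + ev u + ev v) = _
      by_cases h : β + ev u + ev v ∈ S
      · have hIu : I u := ⟨v, h⟩
        have hIv : I v := ⟨u, by rw [hsw]; exact h⟩
        have hRn : ¬ R u v := fun h' => h'.2.2 h
        rw [hc1 _ h, if_pos hIu, if_pos hIv, if_neg hRn]; ring
      · rw [hc0 _ h]
        by_cases hIu : I u
        · by_cases hIv : I v
          · have hRp : R u v := ⟨hIu, hIv, h⟩
            rw [if_pos hIu, if_pos hIv, if_pos hRp]; ring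
          · have hRn : ¬ R u v := fun h' => hIv h'.2.1
            rw [if_neg hIv, if_neg hRn]; ring
        · have hRn : ¬ R u v := fun h' => hIu h'.1
          rw [if_neg hIu, if_neg hRn]; ring
    rw [h1, hx, zero_mul, zero_sub]
    exact neg_nonpos.2 (by convert hper using 6)

end Ind

/-! ### trees -/

/-- **(T3), (T4) imply AF** (positive off-diagonal). -/
theorem af_tree [DecidableEq V] {A : V → V → ℝ} (hsym : ∀ u v, A u v = A v u)
    (h0 : ∀ u, 0 ≤ A u u) (hpos : ∀ u v, u ≠ v → 0 < A u v)
    (T3 : ∀ u v w, u ≠ v → u ≠ w → A u u * A v w ≤ A u v * A u w)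
    (T4 : ∀ u v w z, u ≠ v → u ≠ w → u ≠ z → v ≠ w → v ≠ z → w ≠ z →
      A u v * A w z ≤ max (A u w * A v z) (A u z * A v w)) : AF A := by
  classical
  rcases isEmpty_or_nonempty V with hV | ⟨⟨z⟩⟩
  · intro x y _
    simp [Q]
  -- the quotient matrix
  set B : V → V → ℝ := fun u v => if u = z ∨ v = z then 0 else A u v / (A u z * A v z) with hB
  have hnn : ∀ u v, 0 ≤ A u v := by
    intro u v
    by_cases h : u = v
    · subst h; exact h0 u
    · exact (hpos u v h).le
  have hB0 : ∀ u v, 0 ≤ B u v := by
    intro u v
    simp only [hB]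
    split_ifs
    · exact le_rfl
    · exact div_nonneg (hnn _ _) (mul_nonneg (hnn _ _) (hnn _ _))
  -- the bound `M`
  obtain ⟨M, hM0, hMB, hMz⟩ : ∃ M : ℝ, 0 < M ∧ (∀ u v, B u v ≤ M) ∧ M * A z z ≤ 1 := by
    rcases (h0 z).eq_or_lt with hz | hz
    · refine ⟨1 + ∑ u, ∑ v, B u v, ?_, ?_, ?_⟩
      · have : 0 ≤ ∑ u, ∑ v, B u v := Finset.sum_nonneg fun u _ => Finset.sum_nonneg fun v _ => hB0 u v
        linarith
      · intro u v
        have h1 : B u v ≤ ∑ v, B u v := Finset.single_le_sum (fun v _ => hB0 u v) (mem_univ v)
        have h2 : ∑ v, B u v ≤ ∑ u, ∑ v, B u v :=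
          Finset.single_le_sum (f := fun u => ∑ v, B u v)
            (fun u _ => Finset.sum_nonneg fun v _ => hB0 u v) (mem_univ u)
        linarith
      · rw [← hz]; simp
    · refine ⟨1 / A z z, by positivity, ?_, by field_simp; exact le_rfl⟩
      intro u v
      simp only [hB]
      split_ifs with h
      · positivity
      · push Not at h
        have h1 := hpos u z h.1
        have h2 := hpos v z h.2
        rw [div_le_div_iff₀ (by positivity) hz]
        have h3 := T3 z u v h.1.symm h.2.symm
        rw [hsym z u, hsym z v] at h3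
        linarith
  -- `K = M - B` is ultrametric on `V \ z`
  set K : V → V → ℝ := fun u v => if u = z ∨ v = z then 0 else M - B u v with hK
  have hKpsd : ∀ x, 0 ≤ Q K x x := by
    refine ultra_psd _ K ?_ ?_ ?_ le_rfl
    · intro u v
      simp only [hK, hB, or_comm (a := v = z), hsym v u, mul_comm (A v z)]
    · intro u v
      simp only [hK]
      split_ifs
      · exact le_rfl
      · linarith [hMB u v]
    · intro u v w
      by_cases hu : u = z
      · have h1 : K u v = 0 := by simp [hK, hu]
        have h2 : K u w = 0 := by simp [hK, hu]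
        rw [h1, h2]; exact min_le_left _ _
      by_cases hw : w = z
      · have h1 : K v w = 0 := by simp [hK, hw]
        have h2 : K u w = 0 := by simp [hK, hw]
        rw [h1, h2]; exact min_le_right _ _
      by_cases hv : v = z
      · have h1 : K u v = 0 := by simp [hK, hv]
        rw [h1]
        refine (min_le_left _ _).trans ?_
        simp only [hK]
        rw [if_neg (by push Not; exact ⟨hu, hw⟩)]
        linarith [hMB u w]
      -- all different from z
      have hKe : ∀ a b, a ≠ z → b ≠ z → K a b = M - A a b / (A a z * A b z) := by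
        intro a b ha hb
        simp only [hK, hB]
        rw [if_neg (by push Not; exact ⟨ha, hb⟩), if_neg (by push Not; exact ⟨ha, hb⟩)]
      have hdiag : ∀ a b, a ≠ z → b ≠ z → a ≠ b → K a b ≤ K a a := by
        intro a b ha hb hab
        rw [hKe a b ha hb, hKe a a ha ha]
        have h1 := hpos a z ha
        have h2 := hpos b z hb
        have h3 := T3 a b z hab ha
        have : A a a / (A a z * A a z) ≤ A a b / (A a z * A b z) := by
          rw [div_le_div_iff₀ (by positivity) (by positivity)]
          nlinarith [mul_le_mul_of_nonneg_left h3 h1.le]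
        linarith
      by_cases huw : u = w
      · subst huw
        by_cases huv : u = v
        · subst huv; exact min_le_left _ _
        · exact (min_le_left _ _).trans (hdiag u v hu hv huv)
      by_cases huv : u = v
      · subst huv; exact min_le_right _ _
      by_cases hvw : v = w
      · subst hvw; exact min_le_left _ _
      have h4 := T4 u w v z huw huv hu (Ne.symm hvw) hw hv
      rw [hKe u v hu hv, hKe v w hv hw, hKe u w hu hw]
      have h1 := hpos u z hu
      have h2 := hpos v z hv
      have h3 := hpos w z hw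
      rcases le_max_iff.1 h4 with h5 | h5
      · refine (min_le_left _ _).trans ?_
        have : A u w / (A u z * A w z) ≤ A u v / (A u z * A v z) := by
          rw [div_le_div_iff₀ (by positivity) (by positivity)]
          nlinarith [mul_le_mul_of_nonneg_left h5 h1.le]
        linarith
      · refine (min_le_right _ _).trans ?_
        rw [hsym w v] at h5
        have : A u w / (A u z * A w z) ≤ A v w / (A v z * A w z) := by
          rw [div_le_div_iff₀ (by positivity) (by positivity)]
          nlinarith [mul_le_mul_of_nonneg_left h5 h3.le]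
        linarith
  -- conclusion
  set s : (V → ℝ) → ℝ := fun x => ∑ u, if u = z then 0 else A u z * x u with hs
  refine AF.of_hyper hsym (fun x => s x + x z / M) ?_ ?_
  · intro x y t
    have : s (x - t • y) = s x - t * s y := by
      simp only [hs]
      rw [Finset.mul_sum, ← Finset.sum_sub_distrib]
      refine Finset.sum_congr rfl fun u _ => ?_
      split_ifs
      · ring
      · simp only [Pi.sub_apply, Pi.smul_apply, smul_eq_mul]; ring
    rw [this]
    simp only [Pi.sub_apply, Pi.smul_apply, smul_eq_mul]
    ring
  · intro x hx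
    set y : V → ℝ := fun u => if u = z then 0 else A u z * x u with hy
    have hsy : s x = ∑ u, y u := rfl
    have hmain : Q A x x = M * (s x) ^ 2 - Q K y y + 2 * x z * s x + A z z * x z ^ 2 := by
      have e1 : ∀ u v, x u * x v * A u v = (M * (y u * y v) - y u * y v * K u v)
          + ((if u = z then x z else 0) * y v + y u * (if v = z then x z else 0))
          + (if u = z then x z else 0) * (if v = z then x z else 0) * A z z := by
        intro u v
        by_cases hu : u = z
        · subst hu
          by_cases hv : v = u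
          · subst hv; simp [hy]
          · simp [hy, hv, hsym u v]; ring
        · by_cases hv : v = z
          · subst hv; simp [hy, hu]; ring
          · simp only [hy, hK, hB, hu, hv, if_false, or_self]
            have h1 := hpos u z hu
            have h2 := hpos v z hv
            field_simp
            ring
      have e2 : Q A x x = ∑ u, ∑ v, ((M * (y u * y v) - y u * y v * K u v)
          + ((if u = z then x z else 0) * y v + y u * (if v = z then x z else 0))
          + (if u = z then x z else 0) * (if v = z then x z else 0) * A z z) := by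
        unfold Q
        exact Finset.sum_congr rfl fun u _ => Finset.sum_congr rfl fun v _ => e1 u v
      rw [e2]
      have e3 : ∀ f g : V → ℝ, ∑ u, ∑ v, f u * g v = (∑ u, f u) * ∑ v, g v := by
        intro f g; rw [Finset.sum_mul_sum]
      have e4 : (∑ u, if u = z then x z else 0) = x z := by simp
      have g1 : ∑ u, ∑ v, M * (y u * y v) = M * s x ^ 2 := by
        rw [hsy, sq, ← e3]; simp only [Finset.mul_sum]
      have g2 : ∑ u, ∑ v, (if u = z then x z else 0) * y v = x z * s x := by
        rw [e3, e4, hsy]
      have g3 : ∑ u, ∑ v, y u * (if v = z then x z else 0) = s x * x z := by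
        rw [e3 y (fun v => if v = z then x z else 0), e4, hsy]
      have g4 : ∑ u, ∑ v, (if u = z then x z else 0) * (if v = z then x z else 0) * A z z
          = x z * x z * A z z := by
        have := e3 (fun u => if u = z then x z else 0) (fun v => if v = z then x z else 0)
        rw [e4] at this
        rw [← this]; simp only [Finset.sum_mul]
      simp only [Finset.sum_add_distrib, Finset.sum_sub_distrib]
      rw [g1, g2, g3, g4]
      unfold Q
      ring
    rw [hmain]
    have h1 : s x = - (x z / M) := by linarith
    have h2 : 0 ≤ Q K y y := hKpsd y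
    have h3 : M * s x ^ 2 + 2 * x z * s x + A z z * x z ^ 2 = (M * A z z - 1) * (x z ^ 2 / M) := by
      rw [h1]; field_simp; ring
    have h4 : 0 ≤ x z ^ 2 / M := by positivity
    nlinarith [mul_nonneg (sub_nonneg.2 hMz) h4]

/-! ### cells: convolution with a log-concave kernel along an exchange direction -/

section Chain

theorem row_sub_smul (A : V → V → ℝ) (x y : V → ℝ) (t : ℝ) (a : V) :
    row A (x - t • y) a = row A x a - t * row A y a := by
  unfold row
  rw [Finset.mul_sum, ← Finset.sum_sub_distrib]
  exact Finset.sum_congr rfl fun b _ => by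
    simp only [Pi.sub_apply, Pi.smul_apply, smul_eq_mul]; ring

variable [DecidableEq V]

theorem Q_single_left (A : V → V → ℝ) (a : V) (y : V → ℝ) :
    Q A (Pi.single a 1) y = row A y a := by
  rw [Q_eq_row, Finset.sum_eq_single a]
  · simp
  · intro b _ hb; simp [hb]
  · intro h; exact absurd (mem_univ _) h

theorem row_single (A : V → V → ℝ) (a b : V) : row A (Pi.single b 1) a = A a b := by
  unfold row
  rw [Finset.sum_eq_single b]
  · simp
  · intro c _ hc; simp [hc]
  · intro h; exact absurd (mem_univ _) h

theorem row_add2 (A : V → V → ℝ) (x : V → ℝ) (X Y : V) (a b : ℝ) (u : V) :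
    row A (x + (a • Pi.single X 1 + b • Pi.single Y 1)) u = row A x u + a * A u X + b * A u Y := by
  have h : row A (x + (a • Pi.single X 1 + b • Pi.single Y 1)) u
      = row A x u + a * row A (Pi.single X 1) u + b * row A (Pi.single Y 1) u := by
    unfold row
    rw [Finset.mul_sum, Finset.mul_sum, ← Finset.sum_add_distrib, ← Finset.sum_add_distrib]
    exact Finset.sum_congr rfl fun c _ => by
      simp only [Pi.add_apply, Pi.smul_apply, smul_eq_mul]; ring
  rw [h, row_single, row_single]

theorem Q_add2 {A : V → V → ℝ} (hA : ∀ u v, A u v = A v u) (x : V → ℝ) (X Y : V) (a b : ℝ) :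
    Q A (x + (a • Pi.single X 1 + b • Pi.single Y 1)) (x + (a • Pi.single X 1 + b • Pi.single Y 1))
      = Q A x x + 2 * a * row A x X + 2 * b * row A x Y + a ^ 2 * A X X + 2 * (a * b) * A X Y
        + b ^ 2 * A Y Y := by
  set w := x + (a • Pi.single X (1 : ℝ) + b • Pi.single Y (1 : ℝ)) with hw
  have h1 : Q A w w = Q A x w + (a * row A w X + b * row A w Y) := by
    conv_lhs => rw [hw]
    rw [Q_add_left, Q_add_left, Q_smul_left, Q_smul_left, Q_single_left, Q_single_left]
  have h2 : Q A x w = Q A x x + (a * row A x X + b * row A x Y) := by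
    rw [Q_comm hA x w, hw, Q_add_left, Q_add_left, Q_smul_left, Q_smul_left, Q_single_left,
      Q_single_left]
  rw [h1, h2, hw, row_add2, row_add2, hA Y X]
  ring

/-- **closure under cells** -/
theorem af_chain {κ : ℕ} (A : ℕ → V → V → ℝ) (q : ℕ → ℝ) (X Y : V)
    (hsym : ∀ j ≤ κ, ∀ u v, A j u v = A j v u) (haf : ∀ j ≤ κ, AF (A j))
    (hlink : ∀ j < κ, ∀ u, A j X u = A (j + 1) Y u)
    (hpos : ∀ j ≤ κ, 0 < A j Y Y) (hXY : 0 ≤ A κ X Y)
    (hq : ∀ j ≤ κ, 0 < q j) (hlc : ∀ j, j + 2 ≤ κ → q j * q (j + 2) ≤ q (j + 1) ^ 2) :
    AF (fun u v => ∑ j ∈ range (κ + 1), q j * A j u v) := by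
  have hQsum : ∀ x y, Q (fun u v => ∑ j ∈ range (κ + 1), q j * A j u v) x y
      = ∑ j ∈ range (κ + 1), q j * Q (A j) x y := by
    intro x y
    unfold Q
    calc ∑ a, ∑ b, x a * y b * ∑ j ∈ range (κ + 1), q j * A j a b
        = ∑ a, ∑ b, ∑ j ∈ range (κ + 1), q j * (x a * y b * A j a b) :=
          Finset.sum_congr rfl fun a _ => Finset.sum_congr rfl fun b _ => by
            rw [Finset.mul_sum]; exact Finset.sum_congr rfl fun j _ => by ring
      _ = ∑ a, ∑ j ∈ range (κ + 1), ∑ b, q j * (x a * y b * A j a b) :=
          Finset.sum_congr rfl fun a _ => Finset.sum_comm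
      _ = ∑ j ∈ range (κ + 1), ∑ a, ∑ b, q j * (x a * y b * A j a b) := Finset.sum_comm
      _ = _ := Finset.sum_congr rfl fun j _ => by simp only [Finset.mul_sum]
  refine AF.of_hyper ?_ (fun x => ∑ j ∈ range (κ + 1), q j * row (A j) x Y) ?_ ?_
  · intro a b
    exact Finset.sum_congr rfl fun j hj => by rw [hsym j (by simpa [Nat.lt_succ_iff] using hj)]
  · intro x y t
    simp only [row_sub_smul]
    rw [Finset.mul_sum, ← Finset.sum_sub_distrib]
    exact Finset.sum_congr rfl fun j _ => by ring
  · intro x hx
    set f : ℕ → ℝ := fun j => row (A j) x Y with hf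
    set P : ℕ → ℝ := fun m => -(∑ i ∈ range m, q i * f i) / A m Y Y with hP
    have hP0 : P 0 = 0 := by simp [hP]
    have hPe : ∀ m ≤ κ, P m * A m Y Y = -(∑ i ∈ range m, q i * f i) := by
      intro m hm
      simp only [hP]
      exact div_mul_cancel₀ _ (hpos m hm).ne'
    have hrec : ∀ m < κ, P (m + 1) * A (m + 1) Y Y = P m * A m Y Y - q m * f m := by
      intro m hm
      rw [hPe _ (by omega), hPe _ (by omega), Finset.sum_range_succ]; ring
    have hlinkf : ∀ m < κ, row (A m) x X = f (m + 1) := by
      intro m hm
      simp only [hf]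
      unfold row
      exact Finset.sum_congr rfl fun b _ => by rw [hlink m hm]
    -- the invariant
    have hinv : ∀ m ≤ κ, ∑ j ∈ range m, q j * Q (A j) x x ≤
        -2 * P m * f m - P m ^ 2 * A m X Y / q (m - 1) + P m ^ 2 * A m Y Y / q m := by
      intro m
      induction m with
      | zero => intro _; rw [hP0]; simp
      | succ m ih =>
        intro hm
        have hm' : m < κ := by omega
        have h1 := ih hm'.le
        have hqm := hq m hm'.le
        have hqm1 := hq (m + 1) hm
        set a := P (m + 1) / q m with ha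
        set b := -(P m / q m) with hb
        have e1 : A m X Y = A (m + 1) Y Y := hlink m hm' Y
        have e2 : A m X X = A (m + 1) X Y := by rw [hlink m hm' X, hsym _ hm]
        have h2 : row (A m) (x + (a • Pi.single X 1 + b • Pi.single Y 1)) Y = 0 := by
          rw [row_add2, hsym m hm'.le Y X, e1, ha, hb]
          have := hrec m hm'
          field_simp
          simp only [hf] at this ⊢
          linarith
        have h3 : Q (A m) (x + (a • Pi.single X 1 + b • Pi.single Y 1))
            (x + (a • Pi.single X 1 + b • Pi.single Y 1)) ≤ 0 := by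
          refine (haf m hm'.le).neg (y := Pi.single Y 1) ?_ ?_
          · rw [Q_single_left, row_single]; exact hpos m hm'.le
          · rw [Q_comm (hsym m hm'.le), Q_single_left]; exact h2
        rw [Q_add2 (hsym m hm'.le), e1, e2, hlinkf m hm'] at h3
        have h4 : q m * Q (A m) x x ≤ -2 * P (m + 1) * f (m + 1) + 2 * P m * f m
            - P (m + 1) ^ 2 * A (m + 1) X Y / q m + 2 * (P (m + 1) * P m) * A (m + 1) Y Y / q m
            - P m ^ 2 * A m Y Y / q m := by
          have h5 := mul_le_mul_of_nonneg_left h3 hqm.le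
          rw [mul_zero] at h5
          have e3 : q m * (Q (A m) x x + 2 * a * f (m + 1) + 2 * b * row (A m) x Y
              + a ^ 2 * A (m + 1) X Y + 2 * (a * b) * A (m + 1) Y Y + b ^ 2 * A m Y Y)
              = q m * Q (A m) x x + 2 * P (m + 1) * f (m + 1) - 2 * P m * f m
              + P (m + 1) ^ 2 * A (m + 1) X Y / q m - 2 * (P (m + 1) * P m) * A (m + 1) Y Y / q m
              + P m ^ 2 * A m Y Y / q m := by
            rw [ha, hb]
            simp only [hf]
            field_simp
            ring
          rw [e3] at h5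
          linarith
        have h6 : 2 * (P (m + 1) * P m) * A (m + 1) Y Y / q m
            - P m ^ 2 * A m X Y / q (m - 1) ≤ P (m + 1) ^ 2 * A (m + 1) Y Y / q (m + 1) := by
          rw [e1]
          rcases Nat.eq_zero_or_pos m with h0 | hmpos
          · subst h0
            rw [hP0]
            have := (hpos 1 hm).le
            have : 0 ≤ P (0 + 1) ^ 2 * A (0 + 1) Y Y / q (0 + 1) := by positivity
            simpa using this
          · obtain ⟨k, rfl⟩ : ∃ k, m = k + 1 := ⟨m - 1, by omega⟩
            have hk := hlc k (by omega)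
            have hqk := hq k (by omega)
            simp only [Nat.add_sub_cancel]
            set e := A (k + 1 + 1) Y Y with he
            have hepos : 0 < e := hpos _ hm
            have h7 : 0 ≤ P (k + 1) ^ 2 / q k + P (k + 1 + 1) ^ 2 / q (k + 1 + 1)
                - 2 * (P (k + 1 + 1) * P (k + 1)) / q (k + 1) := by
              have e4 : P (k + 1) ^ 2 / q k + P (k + 1 + 1) ^ 2 / q (k + 1 + 1)
                - 2 * (P (k + 1 + 1) * P (k + 1)) / q (k + 1)
                = ((q (k + 1) * P (k + 1) * q (k + 1 + 1) - P (k + 1 + 1) * (q k * q (k + 1 + 1))) ^ 2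
                  + (P (k + 1 + 1)) ^ 2 * (q k * q (k + 1 + 1)) *
                    (q (k + 1) ^ 2 - q k * q (k + 1 + 1)))
                  / (q k * q (k + 1 + 1) ^ 2 * q (k + 1) ^ 2) := by
                field_simp
                ring
              rw [e4]
              have : 0 ≤ q (k + 1) ^ 2 - q k * q (k + 1 + 1) := by linarith
              positivity
            have h8 := mul_nonneg h7 hepos.le
            have e5 : (P (k + 1) ^ 2 / q k + P (k + 1 + 1) ^ 2 / q (k + 1 + 1)
                - 2 * (P (k + 1 + 1) * P (k + 1)) / q (k + 1)) * e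
                = P (k + 1) ^ 2 * e / q k + P (k + 1 + 1) ^ 2 * e / q (k + 1 + 1)
                - 2 * (P (k + 1 + 1) * P (k + 1)) * e / q (k + 1) := by ring
            rw [e5] at h8
            linarith
        rw [Finset.sum_range_succ, Nat.add_sub_cancel]
        linarith
    -- last step
    have h1 := hinv κ le_rfl
    have hqκ := hq κ le_rfl
    have hxs : q κ * f κ = P κ * A κ Y Y := by
      rw [hPe κ le_rfl]
      have : ∑ j ∈ range (κ + 1), q j * f j = 0 := hx
      rw [Finset.sum_range_succ] at this
      linarith
    have h3 : Q (A κ) (x + ((0 : ℝ) • Pi.single X 1 + (-(P κ / q κ)) • Pi.single Y 1))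
        (x + ((0 : ℝ) • Pi.single X 1 + (-(P κ / q κ)) • Pi.single Y 1)) ≤ 0 := by
      refine (haf κ le_rfl).neg (y := Pi.single Y 1) ?_ ?_
      · rw [Q_single_left, row_single]; exact hpos κ le_rfl
      · rw [Q_comm (hsym κ le_rfl), Q_single_left, row_add2]
        field_simp
        simp only [hf] at hxs
        linarith
    rw [Q_add2 (hsym κ le_rfl)] at h3
    have h4 : q κ * Q (A κ) x x ≤ 2 * P κ * f κ - P κ ^ 2 * A κ Y Y / q κ := by
      have h5 := mul_le_mul_of_nonneg_left h3 hqκ.le
      have e3 : q κ * (Q (A κ) x x + 2 * 0 * row (A κ) x X + 2 * (-(P κ / q κ)) * row (A κ) x Y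
          + 0 ^ 2 * A κ X X + 2 * (0 * (-(P κ / q κ))) * A κ X Y + (-(P κ / q κ)) ^ 2 * A κ Y Y)
          = q κ * Q (A κ) x x - 2 * P κ * f κ + P κ ^ 2 * A κ Y Y / q κ := by
        simp only [hf]
        field_simp
        ring
      rw [e3] at h5
      linarith
    rw [hQsum, Finset.sum_range_succ]
    have h5 : 0 ≤ P κ ^ 2 * A κ X Y / q (κ - 1) := by
      have := hq (κ - 1) (by omega)
      positivity
    linarith

end Chain

end Crest.Agent.R302.Lor
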