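import Mathlib

/-!
# R302: facet density and growth lemma for the intersection of two integral base polytopes

Author: helper907.  Purely combinatorial, integer-only proof (helper881's statement #4577; the
Farkas / total unimodularity step is replaced by strongly connected components).
-/

set_option autoImplicit false

namespace Crest.Agent.R302.Facet

open Finset

variable {V : Type*} [Fintype V] [DecidableEq V]

/-! ## 1. Directed reachability with bounded length -/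

/-- `D`-path of length exactly `k`. -/
inductive PathN (D : V → V → Prop) (b : V) : ℕ → V → Prop
  | zero : PathN D b 0 b
  | succ {k : ℕ} {u v : V} : PathN D b k u → D u v → PathN D b (k + 1) v

theorem exists_short_path (D : V → V → Prop) (b : V) {a : V} (h : Relation.ReflTransGen D b a) :
    ∃ k ≤ Fintype.card V, PathN D b k a := by
  classical
  let T : ℕ → Finset V := fun k => univ.filter (fun v => ∃ j ≤ k, PathN D b j v)
  have hTmono : ∀ k, T k ⊆ T (k + 1) := by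
    intro k v hv
    simp only [T, mem_filter, mem_univ, true_and] at hv ⊢
    obtain ⟨j, hj, hp⟩ := hv
    exact ⟨j, hj.trans (Nat.le_succ k), hp⟩
  have hstab : ∃ k ≤ Fintype.card V, T (k + 1) = T k := by
    by_contra hne
    push Not at hne
    have hcard : ∀ k ≤ Fintype.card V + 1, k ≤ (T k).card := by
      intro k
      induction k with
      | zero => intro _; exact Nat.zero_le _
      | succ k ih =>
        intro hk
        have hk' : k ≤ Fintype.card V := by omega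
        have h1 := ih (by omega)
        have h2 : (T k).card < (T (k + 1)).card := by
          apply card_lt_card
          exact lt_of_le_of_ne (hTmono k) (Ne.symm (hne k hk'))
        omega
    have h1 := hcard (Fintype.card V + 1) le_rfl
    have h2 := card_le_univ (T (Fintype.card V + 1))
    omega
  obtain ⟨k, hk, hkT⟩ := hstab
  have hclosed : ∀ v, Relation.ReflTransGen D b v → v ∈ T k := by
    intro v hv
    induction hv with
    | refl =>
      simp only [T, mem_filter, mem_univ, true_and]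
      exact ⟨0, Nat.zero_le _, PathN.zero⟩
    | @tail u w _ huw ih =>
      rw [← hkT]
      simp only [T, mem_filter, mem_univ, true_and] at ih ⊢
      obtain ⟨j, hj, hp⟩ := ih
      exact ⟨j + 1, by omega, PathN.succ hp huw⟩
  have := hclosed a h
  simp only [T, mem_filter, mem_univ, true_and] at this
  obtain ⟨j, hj, hp⟩ := this
  exact ⟨j, hj.trans hk, hp⟩

/-! ## 2. Closed sets and the cone vector -/

/-- `B` is closed under the relation `ρ`. -/
def Cl (ρ : V → V → Prop) (B : Finset V) : Prop := ∀ a ∈ B, ∀ b, ρ a b → b ∈ B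

/-- The combined digraph. -/
def Dg (ρ₁ ρ₂ : V → V → Prop) : V → V → Prop := fun a b => ρ₁ a b ∨ ρ₂ b a

/-- unit vector -/
def ev (a : V) : V → ℤ := fun v => if v = a then 1 else 0

omit [Fintype V] in
theorem sum_ev (B : Finset V) (a : V) : ∑ v ∈ B, ev a v = if a ∈ B then 1 else 0 := by
  simp [ev]

theorem sum_ev_univ (a : V) : ∑ v, ev a v = 1 := by
  simp [ev]

theorem sum_abs_ev (a : V) : ∑ v, |ev a v| = 1 := by
  have : ∀ v, |ev a v| = ev a v := by
    intro v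
    unfold ev
    split_ifs <;> simp
  simp [this, sum_ev_univ]

theorem sum_abs_ev_sub (a b : V) : ∑ v, |ev a v - ev b v| ≤ 2 := by
  calc ∑ v, |ev a v - ev b v| ≤ ∑ v, (|ev a v| + |ev b v|) :=
        sum_le_sum (fun v _ => abs_sub _ _)
    _ = 2 := by rw [sum_add_distrib, sum_abs_ev, sum_abs_ev]; norm_num

theorem path_vec (ρ₁ ρ₂ : V → V → Prop) (b : V) (k : ℕ) (a : V) (h : PathN (Dg ρ₁ ρ₂) b k a) :
    ∃ z : V → ℤ, (∀ B, Cl ρ₁ B → ∑ v ∈ B, z v ≤ 0) ∧
      (∀ B, Cl ρ₂ B → 0 ≤ ∑ v ∈ B, (ev b v - ev a v - z v)) ∧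
      ∑ v, z v = 0 ∧ ∑ v, |z v| ≤ 2 * k := by
  induction h with
  | zero => exact ⟨0, by simp, by simp, by simp, by simp⟩
  | @succ k u w _ huw ih =>
    obtain ⟨z, h1, h2, h3, h4⟩ := ih
    rcases huw with h | h
    · -- 1-step
      refine ⟨fun v => z v + (ev u v - ev w v), ?_, ?_, ?_, ?_⟩
      · intro B hB
        rw [sum_add_distrib, sum_sub_distrib, sum_ev, sum_ev]
        have := h1 B hB
        by_cases hu : u ∈ B
        · have hw : w ∈ B := hB u hu w h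
          simp [hu, hw, this]
        · by_cases hw : w ∈ B <;> simp [hu, hw] <;> omega
      · intro B hB
        have := h2 B hB
        refine this.trans (le_of_eq ?_)
        apply sum_congr rfl
        intro v _
        ring
      · rw [sum_add_distrib, sum_sub_distrib, sum_ev_univ, sum_ev_univ, h3]; norm_num
      · calc ∑ v, |z v + (ev u v - ev w v)| ≤ ∑ v, (|z v| + |ev u v - ev w v|) :=
              sum_le_sum (fun v _ => abs_add_le _ _)
          _ ≤ 2 * k + 2 := by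
              rw [sum_add_distrib]
              exact add_le_add h4 (sum_abs_ev_sub u w)
          _ = 2 * ((k + 1 : ℕ) : ℤ) := by push_cast; ring
    · -- 2-step : `ρ₂ w u`
      refine ⟨z, h1, ?_, h3, ?_⟩
      · intro B hB
        have := h2 B hB
        have h5 : 0 ≤ ∑ v ∈ B, (ev u v - ev w v) := by
          rw [sum_sub_distrib, sum_ev, sum_ev]
          by_cases hw : w ∈ B
          · have hu : u ∈ B := hB w hw u h
            simp [hu, hw]
          · by_cases hu : u ∈ B <;> simp [hu, hw]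
        have h6 : ∑ v ∈ B, (ev b v - ev w v - z v)
            = ∑ v ∈ B, (ev b v - ev u v - z v) + ∑ v ∈ B, (ev u v - ev w v) := by
          rw [← sum_add_distrib]
          apply sum_congr rfl
          intro v _
          ring
        rw [h6]
        exact add_nonneg this h5
      · push_cast
        linarith

/-- the cone vector of one closed walk -/
theorem exists_cycle_vec (ρ₁ ρ₂ : V → V → Prop) (a b : V) (hab : ρ₁ a b)
    (h : Relation.ReflTransGen (Dg ρ₁ ρ₂) b a) :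
    ∃ z : V → ℤ, (∀ B, Cl ρ₁ B → ∑ v ∈ B, z v ≤ 0) ∧ (∀ B, Cl ρ₂ B → ∑ v ∈ B, z v ≤ 0) ∧
      ∑ v, z v = 0 ∧ ∑ v, |z v| ≤ 2 * (Fintype.card V : ℤ) + 2 ∧
      (∀ B, Cl ρ₁ B → a ∉ B → b ∈ B → ∑ v ∈ B, z v ≤ -1) := by
  obtain ⟨k, hk, hp⟩ := exists_short_path (Dg ρ₁ ρ₂) b h
  obtain ⟨z, h1, h2, h3, h4⟩ := path_vec ρ₁ ρ₂ b k a hp
  refine ⟨fun v => z v + (ev a v - ev b v), ?_, ?_, ?_, ?_, ?_⟩
  · intro B hB
    rw [sum_add_distrib, sum_sub_distrib, sum_ev, sum_ev]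
    have := h1 B hB
    by_cases ha : a ∈ B
    · have hb : b ∈ B := hB a ha b hab
      simp [ha, hb, this]
    · by_cases hb : b ∈ B <;> simp [ha, hb] <;> omega
  · intro B hB
    have := h2 B hB
    have h6 : ∑ v ∈ B, (z v + (ev a v - ev b v)) = - ∑ v ∈ B, (ev b v - ev a v - z v) := by
      rw [← sum_neg_distrib]
      apply sum_congr rfl
      intro v _
      ring
    rw [h6]
    omega
  · rw [sum_add_distrib, sum_sub_distrib, sum_ev_univ, sum_ev_univ, h3]; norm_num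
  · have hk' : (k : ℤ) ≤ Fintype.card V := by exact_mod_cast hk
    calc ∑ v, |z v + (ev a v - ev b v)| ≤ ∑ v, (|z v| + |ev a v - ev b v|) :=
          sum_le_sum (fun v _ => abs_add_le _ _)
      _ ≤ 2 * k + 2 := by
          rw [sum_add_distrib]
          exact add_le_add h4 (sum_abs_ev_sub a b)
      _ ≤ 2 * (Fintype.card V : ℤ) + 2 := by linarith
  · intro B hB ha hb
    rw [sum_add_distrib, sum_sub_distrib, sum_ev, sum_ev]
    have := h1 B hB
    simp [ha, hb]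
    omega

/-- `l¹` bound of the cone vector. -/
def zB (V : Type*) [Fintype V] : ℤ := (Fintype.card V : ℤ) ^ 2 * (2 * (Fintype.card V : ℤ) + 2)

theorem exists_zeta (ρ₁ ρ₂ : V → V → Prop) :
    ∃ z : V → ℤ, (∀ B, Cl ρ₁ B → ∑ v ∈ B, z v ≤ 0) ∧ (∀ B, Cl ρ₂ B → ∑ v ∈ B, z v ≤ 0) ∧
      ∑ v, z v = 0 ∧ ∑ v, |z v| ≤ zB V ∧
      (∀ B, Cl ρ₁ B → (∃ a b, ρ₁ a b ∧ Relation.ReflTransGen (Dg ρ₁ ρ₂) b a ∧ a ∉ B ∧ b ∈ B) →
        ∑ v ∈ B, z v ≤ -1) := by
  classical
  let S : Finset (V × V) :=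
    univ.filter (fun p => ρ₁ p.1 p.2 ∧ Relation.ReflTransGen (Dg ρ₁ ρ₂) p.2 p.1)
  have hex : ∀ p : V × V, ∃ z : V → ℤ, (∀ B, Cl ρ₁ B → ∑ v ∈ B, z v ≤ 0) ∧
      (∀ B, Cl ρ₂ B → ∑ v ∈ B, z v ≤ 0) ∧
      ∑ v, z v = 0 ∧ ∑ v, |z v| ≤ 2 * (Fintype.card V : ℤ) + 2 ∧
      (p ∈ S → ∀ B, Cl ρ₁ B → p.1 ∉ B → p.2 ∈ B → ∑ v ∈ B, z v ≤ -1) := by
    intro p
    by_cases hp : p ∈ S
    · have hp' := hp
      simp only [S, mem_filter, mem_univ, true_and] at hp'
      obtain ⟨z, h1, h2, h3, h4, h5⟩ := exists_cycle_vec ρ₁ ρ₂ p.1 p.2 hp'.1 hp'.2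
      exact ⟨z, h1, h2, h3, h4, fun _ => h5⟩
    · refine ⟨0, by simp, by simp, by simp, ?_, fun h => absurd h hp⟩
      simp
      positivity
  choose z h1 h2 h3 h4 h5 using hex
  refine ⟨fun v => ∑ p ∈ S, z p v, ?_, ?_, ?_, ?_, ?_⟩
  · intro B hB
    rw [sum_comm]
    exact sum_nonpos (fun p _ => h1 p B hB)
  · intro B hB
    rw [sum_comm]
    exact sum_nonpos (fun p _ => h2 p B hB)
  · rw [sum_comm]
    exact sum_eq_zero (fun p _ => h3 p)
  · calc ∑ v, |∑ p ∈ S, z p v| ≤ ∑ v, ∑ p ∈ S, |z p v| :=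
          sum_le_sum (fun v _ => abs_sum_le_sum_abs _ _)
      _ = ∑ p ∈ S, ∑ v, |z p v| := sum_comm
      _ ≤ ∑ p ∈ S, (2 * (Fintype.card V : ℤ) + 2) := sum_le_sum (fun p _ => h4 p)
      _ = S.card * (2 * (Fintype.card V : ℤ) + 2) := by simp
      _ ≤ zB V := by
          unfold zB
          apply mul_le_mul_of_nonneg_right _ (by positivity)
          have : S.card ≤ Fintype.card V ^ 2 := by
            calc S.card ≤ (univ : Finset (V × V)).card := card_le_card (filter_subset _ _)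
              _ = Fintype.card V ^ 2 := by simp [sq]
          exact_mod_cast this
  · intro B hB hex
    obtain ⟨a, b, hab, hba, ha, hb⟩ := hex
    have hS : (a, b) ∈ S := by
      simp only [S, mem_filter, mem_univ, true_and]
      exact ⟨hab, hba⟩
    rw [sum_comm]
    calc ∑ p ∈ S, ∑ v ∈ B, z p v ≤ ∑ p ∈ S, (if p = (a, b) then -1 else 0) := by
          apply sum_le_sum
          intro p _
          split_ifs with hp
          · subst hp
            exact h5 (a, b) hS B hB ha hb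
          · exact h1 p B hB
      _ = -1 := by
          rw [sum_ite_eq' S (a, b)]
          simp [hS]

/-! ## 3. Submodular functions, slacks, exchange capacities -/

/-- Submodular, zero on `∅`, value `R` on `V`. -/
structure SubM (r : Finset V → ℤ) (R : ℤ) : Prop where
  sub : ∀ A B, r (A ∪ B) + r (A ∩ B) ≤ r A + r B
  empty : r ∅ = 0
  univ : r Finset.univ = R

/-- Integer points of the base polytope. -/
def MemJ (r : Finset V → ℤ) (R : ℤ) (x : V → ℤ) : Prop :=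
  (∀ A, ∑ a ∈ A, x a ≤ r A) ∧ ∑ a, x a = R

/-- slack -/
def slk (r : Finset V → ℤ) (x : V → ℤ) (A : Finset V) : ℤ := r A - ∑ a ∈ A, x a

/-- sets separating `a` from `b` -/
def sep (a b : V) : Finset (Finset V) := univ.filter (fun A => a ∈ A ∧ b ∉ A)

theorem mem_sep {a b : V} {A : Finset V} : A ∈ sep a b ↔ a ∈ A ∧ b ∉ A := by
  simp [sep]

theorem sep_nonempty {a b : V} (h : a ≠ b) : (sep a b).Nonempty :=
  ⟨{a}, by rw [mem_sep]; simp [h.symm]⟩

/-- exchange capacity -/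
noncomputable def cap (r : Finset V → ℤ) (x : V → ℤ) (a b : V) : ℤ :=
  if h : (sep a b).Nonempty then (sep a b).inf' h (slk r x) else 0

theorem cap_le {r : Finset V → ℤ} {x : V → ℤ} {a b : V} {A : Finset V} (ha : a ∈ A) (hb : b ∉ A) :
    cap r x a b ≤ slk r x A := by
  have hA : A ∈ sep a b := mem_sep.2 ⟨ha, hb⟩
  have hne : (sep a b).Nonempty := ⟨A, hA⟩
  rw [cap, dif_pos hne]
  exact inf'_le _ hA

theorem exists_cap {r : Finset V → ℤ} {x : V → ℤ} {a b : V} (hab : a ≠ b) :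
    ∃ A, a ∈ A ∧ b ∉ A ∧ slk r x A = cap r x a b := by
  obtain ⟨A, hA, h⟩ := exists_mem_eq_inf' (sep_nonempty hab) (slk r x)
  rw [mem_sep] at hA
  exact ⟨A, hA.1, hA.2, by rw [cap, dif_pos (sep_nonempty hab), h]⟩

omit [Fintype V] [DecidableEq V] in
theorem slk_add (r : Finset V → ℤ) (x y : V → ℤ) (A : Finset V) :
    slk r (fun v => x v + y v) A = slk r x A - ∑ a ∈ A, y a := by
  simp only [slk, sum_add_distrib]
  ring

omit [DecidableEq V] in
theorem abs_sum_le (y : V → ℤ) (A : Finset V) : |∑ a ∈ A, y a| ≤ ∑ a, |y a| :=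
  (abs_sum_le_sum_abs _ _).trans
    (sum_le_sum_of_subset_of_nonneg (subset_univ _) (fun _ _ _ => abs_nonneg _))

theorem cap_lip {r : Finset V → ℤ} (x y : V → ℤ) {a b : V} (hab : a ≠ b) :
    |cap r (fun v => x v + y v) a b - cap r x a b| ≤ ∑ v, |y v| := by
  obtain ⟨A, hA1, hA2, hA⟩ := exists_cap (r := r) (x := x) hab
  obtain ⟨B, hB1, hB2, hB⟩ := exists_cap (r := r) (x := fun v => x v + y v) hab
  have h1 := cap_le (r := r) (x := fun v => x v + y v) hA1 hA2
  have h2 := cap_le (r := r) (x := x) hB1 hB2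
  rw [slk_add] at h1 hB
  have h3 := abs_sum_le y A
  have h4 := abs_sum_le y B
  rw [abs_le] at h3 h4 ⊢
  constructor <;> linarith [h3.1, h3.2, h4.1, h4.2]

/-- the preorder at threshold `θ` -/
def rel (r : Finset V → ℤ) (x : V → ℤ) (θ : ℤ) : V → V → Prop :=
  fun a b => a ≠ b ∧ θ < cap r x a b

omit [DecidableEq V] in
theorem slk_nonneg {r : Finset V → ℤ} {R : ℤ} {x : V → ℤ} (hx : MemJ r R x) (A : Finset V) :
    0 ≤ slk r x A := by
  have := hx.1 A
  unfold slk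
  omega

theorem slk_univ {r : Finset V → ℤ} {R : ℤ} {x : V → ℤ} (hr : SubM r R) (hx : MemJ r R x) :
    slk r x univ = 0 := by
  unfold slk
  rw [hr.univ, hx.2, sub_self]

theorem slk_empty {r : Finset V → ℤ} {R : ℤ} {x : V → ℤ} (hr : SubM r R) :
    slk r x ∅ = 0 := by
  unfold slk
  rw [hr.empty]; simp

theorem slk_sub {r : Finset V → ℤ} {R : ℤ} {x : V → ℤ} (hr : SubM r R) (A B : Finset V) :
    slk r x (A ∪ B) + slk r x (A ∩ B) ≤ slk r x A + slk r x B := by
  have h1 := hr.sub A B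
  have h2 : ∑ a ∈ A ∪ B, x a + ∑ a ∈ A ∩ B, x a = ∑ a ∈ A, x a + ∑ a ∈ B, x a :=
    sum_union_inter
  unfold slk
  omega

/-- closed sets have small slack -/
theorem slk_closed {r : Finset V → ℤ} {R : ℤ} {x : V → ℤ} {θ : ℤ} (hr : SubM r R)
    (hx : MemJ r R x) (hθ : 0 ≤ θ) {B : Finset V} (hB : Cl (rel r x θ) B) :
    slk r x B ≤ (Fintype.card V : ℤ) ^ 2 * θ := by
  have hsep : ∀ a ∈ B, ∀ b ∉ B, ∃ A, a ∈ A ∧ b ∉ A ∧ slk r x A ≤ θ := by
    intro a ha b hb
    have hab : a ≠ b := fun h => hb (h ▸ ha)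
    obtain ⟨A, h1, h2, h3⟩ := exists_cap (r := r) (x := x) hab
    refine ⟨A, h1, h2, ?_⟩
    by_contra hlt
    push Not at hlt
    exact hb (hB a ha b ⟨hab, by rw [← h3]; exact hlt⟩)
  -- intersections
  have hint : ∀ a ∈ B, ∀ T : Finset V, (∀ b ∈ T, b ∉ B) →
      ∃ A, a ∈ A ∧ (∀ b ∈ T, b ∉ A) ∧ slk r x A ≤ T.card * θ := by
    intro a ha T
    induction T using Finset.induction_on with
    | empty =>
      intro _
      exact ⟨univ, mem_univ _, by simp, by rw [slk_univ hr hx]; simp⟩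
    | insert b T hbT ih =>
      intro hT
      obtain ⟨A, h1, h2, h3⟩ := ih (fun c hc => hT c (mem_insert_of_mem hc))
      obtain ⟨A', h1', h2', h3'⟩ := hsep a ha b (hT b (mem_insert_self _ _))
      refine ⟨A ∩ A', mem_inter.2 ⟨h1, h1'⟩, ?_, ?_⟩
      · intro c hc hcA
        rw [mem_inter] at hcA
        rcases mem_insert.1 hc with rfl | hc
        · exact h2' hcA.2
        · exact h2 c hc hcA.1
      · have := slk_sub (x := x) hr A A'
        have h4 := slk_nonneg hx (A ∪ A')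
        rw [card_insert_of_notMem hbT]
        push_cast
        nlinarith
  have hint' : ∀ a ∈ B, ∃ A, a ∈ A ∧ A ⊆ B ∧ slk r x A ≤ (Fintype.card V : ℤ) * θ := by
    intro a ha
    obtain ⟨A, h1, h2, h3⟩ := hint a ha (univ \ B) (fun b hb => by simpa using hb)
    refine ⟨A, h1, ?_, h3.trans ?_⟩
    · intro b hb
      by_contra hbB
      exact h2 b (by simp [hbB]) hb
    · apply mul_le_mul_of_nonneg_right _ hθ
      exact_mod_cast card_le_univ _
  -- unions
  have huni : ∀ S : Finset V, S ⊆ B →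
      ∃ A, S ⊆ A ∧ A ⊆ B ∧ slk r x A ≤ S.card * ((Fintype.card V : ℤ) * θ) := by
    intro S
    induction S using Finset.induction_on with
    | empty =>
      intro _
      exact ⟨∅, by simp, by simp, by rw [slk_empty hr]; simp⟩
    | insert a S haS ih =>
      intro hS
      obtain ⟨A, h1, h2, h3⟩ := ih (fun c hc => hS (mem_insert_of_mem hc))
      obtain ⟨A', h1', h2', h3'⟩ := hint' a (hS (mem_insert_self _ _))
      refine ⟨A ∪ A', ?_, union_subset h2 h2', ?_⟩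
      · intro c hc
        rcases mem_insert.1 hc with rfl | hc
        · exact mem_union_right _ h1'
        · exact mem_union_left _ (h1 hc)
      · have := slk_sub (x := x) hr A A'
        have h4 := slk_nonneg hx (A ∩ A')
        rw [card_insert_of_notMem haS]
        push_cast
        nlinarith
  obtain ⟨A, h1, h2, h3⟩ := huni B (Subset.refl _)
  have hAB : A = B := Subset.antisymm h2 h1
  rw [hAB] at h3
  refine h3.trans ?_
  rw [sq, mul_assoc]
  apply mul_le_mul_of_nonneg_right _ (by positivity)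
  exact_mod_cast card_le_univ _

theorem slk_not_closed {r : Finset V → ℤ} {x : V → ℤ} {θ : ℤ} {B : Finset V}
    (hB : ¬ Cl (rel r x θ) B) : θ < slk r x B := by
  unfold Cl at hB
  push Not at hB
  obtain ⟨a, ha, b, hab, hb⟩ := hB
  exact lt_of_lt_of_le hab.2 (cap_le ha hb)

/-- Moving along a cone vector stays inside. -/
theorem memJ_move {r : Finset V → ℤ} {R : ℤ} {x : V → ℤ} {θ : ℤ} (hx : MemJ r R x) {z : V → ℤ}
    (hz : ∀ B, Cl (rel r x θ) B → ∑ v ∈ B, z v ≤ 0) (hz0 : ∑ v, z v = 0) (j : ℕ)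
    (hj : j * ∑ v, |z v| ≤ θ) : MemJ r R (fun v => x v + j * z v) := by
  refine ⟨?_, ?_⟩
  · intro A
    rw [sum_add_distrib, ← mul_sum]
    by_cases hA : Cl (rel r x θ) A
    · have h1 := hx.1 A
      have h2 := hz A hA
      have : (j : ℤ) * ∑ v ∈ A, z v ≤ 0 := mul_nonpos_of_nonneg_of_nonpos (by positivity) h2
      linarith
    · have h1 := slk_not_closed hA
      unfold slk at h1
      have h2 := (abs_le.1 (abs_sum_le z A)).2
      have h3 : (j : ℤ) * ∑ v ∈ A, z v ≤ j * ∑ v, |z v| :=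
        mul_le_mul_of_nonneg_left h2 (by positivity)
      linarith
  · rw [sum_add_distrib, ← mul_sum, hz0, hx.2]
    ring

/-! ## 4. The centre forces an entering arc inside a strongly connected component -/

omit [DecidableEq V] in
/-- layer cake for a bounded natural valued function -/
theorem layer (D : V → ℝ) (p : V → ℕ) (K : ℕ) (hp : ∀ v, p v ≤ K) :
    ∑ v, D v * p v = ∑ t ∈ range K, ∑ v ∈ univ.filter (fun v => t < p v), D v := by
  simp_rw [sum_filter]
  rw [sum_comm]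
  apply sum_congr rfl
  intro v _
  rw [← sum_filter]
  simp only [sum_const, nsmul_eq_mul]
  have : (range K).filter (fun t => t < p v) = range (p v) := by
    ext t
    simp only [mem_filter, mem_range]
    have := hp v
    omega
  rw [this, card_range]
  ring

theorem closed_sum_le_e {r : Finset V → ℤ} {R : ℤ} {x : V → ℤ} {θ : ℤ} (hr : SubM r R)
    (hx : MemJ r R x) (hθ : 0 ≤ θ) {c : V → ℝ} {e : ℝ} (hc : ∀ A, ∑ a ∈ A, c a ≤ (r A : ℝ) + e)
    {B : Finset V} (hB : Cl (rel r x θ) B) :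
    ∑ v ∈ B, (c v - x v) ≤ (Fintype.card V : ℝ) ^ 2 * θ + e := by
  have h1 := slk_closed hr hx hθ hB
  have h2 := hc B
  unfold slk at h1
  have h3 : ((r B - ∑ a ∈ B, x a : ℤ) : ℝ) ≤ ((Fintype.card V : ℤ) ^ 2 * θ : ℤ) := by
    exact_mod_cast h1
  push_cast at h3
  rw [sum_sub_distrib]
  linarith

theorem center_arc_e {r₁ r₂ : Finset V → ℤ} {R : ℤ} {x : V → ℤ} {θ : ℤ} (hr₁ : SubM r₁ R)
    (hr₂ : SubM r₂ R) (hx₁ : MemJ r₁ R x) (hx₂ : MemJ r₂ R x) (hθ : 0 ≤ θ) {c : V → ℝ} {e : ℝ}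
    (he : 0 ≤ e)
    (hc₁ : ∀ A, ∑ a ∈ A, c a ≤ (r₁ A : ℝ) + e) (hc₂ : ∀ A, ∑ a ∈ A, c a ≤ (r₂ A : ℝ) + e)
    (hcR : ∑ a, c a = R) {B : Finset V} {m : ℝ}
    (hm : m + (4 * (Fintype.card V : ℝ) + 1) * e ≤ r₁ B - ∑ a ∈ B, c a)
    (hmθ : (4 * (Fintype.card V : ℝ) + 1) * ((Fintype.card V : ℝ) ^ 2 * θ) < m)
    (hB : Cl (rel r₁ x θ) B) :
    ∃ a b, rel r₁ x θ a b ∧
      Relation.ReflTransGen (Dg (rel r₁ x θ) (rel r₂ x θ)) b a ∧ a ∉ B ∧ b ∈ B := by
  classical
  by_contra hcon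
  push Not at hcon
  set ρ₁ := rel r₁ x θ with hρ₁
  set ρ₂ := rel r₂ x θ with hρ₂
  set n := Fintype.card V with hn
  let pred : V → Finset V :=
    fun a => univ.filter (fun b => Relation.ReflTransGen (Dg ρ₁ ρ₂) b a)
  let ℓ : V → ℕ := fun a => (pred a).card
  have hℓn : ∀ a, ℓ a ≤ n := fun a => card_le_univ _
  have hℓ1 : ∀ a, 1 ≤ ℓ a := by
    intro a
    apply card_pos.2
    exact ⟨a, by simp only [pred, mem_filter, mem_univ, true_and]; exact .refl⟩
  have hpred : ∀ a b, Dg ρ₁ ρ₂ a b → pred a ⊆ pred b := by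
    intro a b hab v hv
    simp only [pred, mem_filter, mem_univ, true_and] at hv ⊢
    exact hv.tail hab
  have hle : ∀ a b, Dg ρ₁ ρ₂ a b → ℓ a ≤ ℓ b := fun a b hab => card_le_card (hpred a b hab)
  have heq : ∀ a b, Dg ρ₁ ρ₂ a b → ℓ a = ℓ b → Relation.ReflTransGen (Dg ρ₁ ρ₂) b a := by
    intro a b hab he
    have : pred a = pred b := eq_of_subset_of_card_le (hpred a b hab) (le_of_eq he.symm)
    have hb : b ∈ pred b := by
      simp only [pred, mem_filter, mem_univ, true_and]; exact .refl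
    rw [← this] at hb
    simpa only [pred, mem_filter, mem_univ, true_and] using hb
  let p₁ : V → ℕ := fun v => 2 * ℓ v - (if v ∈ B then 1 else 0)
  let p₂ : V → ℕ := fun v => 2 * n - 2 * ℓ v
  have hp₁K : ∀ v, p₁ v ≤ 2 * n := by
    intro v
    have := hℓn v
    simp only [p₁]
    omega
  have hp₂K : ∀ v, p₂ v ≤ 2 * n := by
    intro v
    simp only [p₂]
    omega
  have hmono₁ : ∀ a b, ρ₁ a b → p₁ a ≤ p₁ b := by
    intro a b hab
    have h1 := hle a b (Or.inl hab)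
    have h2 := hℓ1 a
    simp only [p₁]
    by_cases he : ℓ a = ℓ b
    · have h3 := heq a b (Or.inl hab) he
      by_cases ha : a ∈ B
      · have hb : b ∈ B := hB a ha b hab
        simp [ha, hb, he]
      · have hb : b ∉ B := hcon a b hab h3 ha
        simp [ha, hb, he]
    · split_ifs <;> omega
  have hmono₂ : ∀ a b, ρ₂ a b → p₂ a ≤ p₂ b := by
    intro a b hab
    have h1 := hle b a (Or.inr hab)
    simp only [p₂]
    omega
  have hcl₁ : ∀ t, Cl ρ₁ (univ.filter (fun v => t < p₁ v)) := by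
    intro t a ha b hab
    simp only [mem_filter, mem_univ, true_and] at ha ⊢
    exact lt_of_lt_of_le ha (hmono₁ a b hab)
  have hcl₂ : ∀ t, Cl ρ₂ (univ.filter (fun v => t < p₂ v)) := by
    intro t a ha b hab
    simp only [mem_filter, mem_univ, true_and] at ha ⊢
    exact lt_of_lt_of_le ha (hmono₂ a b hab)
  let D : V → ℝ := fun v => c v - x v
  have hD : ∑ v, D v = 0 := by
    simp only [D]
    rw [sum_sub_distrib, hcR]
    have : ((∑ a, x a : ℤ) : ℝ) = R := by rw [hx₁.2]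
    push_cast at this
    rw [this, sub_self]
  set M : ℝ := (n : ℝ) ^ 2 * θ with hM
  have h1 : ∑ v, D v * p₁ v ≤ (2 * n : ℕ) * (M + e) := by
    rw [layer D p₁ (2 * n) hp₁K]
    calc _ ≤ ∑ t ∈ range (2 * n), (M + e) :=
          sum_le_sum (fun t _ => closed_sum_le_e hr₁ hx₁ hθ hc₁ (hcl₁ t))
      _ = _ := by rw [sum_const, card_range, nsmul_eq_mul]
  have h2 : ∑ v, D v * p₂ v ≤ (2 * n : ℕ) * (M + e) := by
    rw [layer D p₂ (2 * n) hp₂K]
    calc _ ≤ ∑ t ∈ range (2 * n), (M + e) :=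
          sum_le_sum (fun t _ => closed_sum_le_e hr₂ hx₂ hθ hc₂ (hcl₂ t))
      _ = _ := by rw [sum_const, card_range, nsmul_eq_mul]
  have h3 : ∑ v ∈ B, D v ≤ M - (m + (4 * (n : ℝ) + 1) * e) := by
    have h4 := slk_closed hr₁ hx₁ hθ hB
    unfold slk at h4
    have h5 : ((r₁ B - ∑ a ∈ B, x a : ℤ) : ℝ) ≤ ((Fintype.card V : ℤ) ^ 2 * θ : ℤ) := by
      exact_mod_cast h4
    push_cast at h5
    simp only [D]
    rw [sum_sub_distrib]
    rw [hM, hn]
    linarith
  have h4 : ∑ v, D v * p₁ v + ∑ v, D v * p₂ v + ∑ v ∈ B, D v = 0 := by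
    have h5 : ∑ v ∈ B, D v = ∑ v, D v * (if v ∈ B then 1 else 0) := by
      simp
    rw [h5, ← sum_add_distrib, ← sum_add_distrib]
    have h6 : ∀ v, D v * p₁ v + D v * p₂ v + D v * (if v ∈ B then 1 else 0) = D v * (2 * n) := by
      intro v
      have h7 := hℓn v
      have h8 := hℓ1 v
      have h9 : (p₁ v : ℝ) = 2 * ℓ v - (if v ∈ B then 1 else 0) := by
        simp only [p₁]
        split_ifs
        · rw [Nat.cast_sub (by omega)]; push_cast; ring
        · simp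
      have h10 : (p₂ v : ℝ) = 2 * n - 2 * ℓ v := by
        simp only [p₂]
        rw [Nat.cast_sub (by omega)]; push_cast; ring
      rw [h9, h10]
      ring
    simp_rw [h6]
    rw [← sum_mul, hD, zero_mul]
  have h5 : m ≤ (4 * (n : ℝ) + 1) * M := by
    push_cast at h1 h2
    nlinarith
  exact absurd hmθ (not_lt.2 h5)

theorem center_arc {r₁ r₂ : Finset V → ℤ} {R : ℤ} {x : V → ℤ} {θ : ℤ} (hr₁ : SubM r₁ R)
    (hr₂ : SubM r₂ R) (hx₁ : MemJ r₁ R x) (hx₂ : MemJ r₂ R x) (hθ : 0 ≤ θ) {c : V → ℝ}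
    (hc₁ : ∀ A, ∑ a ∈ A, c a ≤ (r₁ A : ℝ)) (hc₂ : ∀ A, ∑ a ∈ A, c a ≤ (r₂ A : ℝ))
    (hcR : ∑ a, c a = R) {B : Finset V} {m : ℝ} (hm : m ≤ r₁ B - ∑ a ∈ B, c a)
    (hmθ : (4 * (Fintype.card V : ℝ) + 1) * ((Fintype.card V : ℝ) ^ 2 * θ) < m)
    (hB : Cl (rel r₁ x θ) B) :
    ∃ a b, rel r₁ x θ a b ∧
      Relation.ReflTransGen (Dg (rel r₁ x θ) (rel r₂ x θ)) b a ∧ a ∉ B ∧ b ∈ B :=
  center_arc_e hr₁ hr₂ hx₁ hx₂ hθ le_rfl (fun A => by simpa using hc₁ A)
    (fun A => by simpa using hc₂ A) hcR (by simpa using hm) hmθ hB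

/-! ## 5. Facet density -/

/-- the cone vector as a function of the two relations -/
noncomputable def zeta (ρ₁ ρ₂ : V → V → Prop) : V → ℤ := (exists_zeta ρ₁ ρ₂).choose

theorem zeta_spec (ρ₁ ρ₂ : V → V → Prop) :
    (∀ B, Cl ρ₁ B → ∑ v ∈ B, zeta ρ₁ ρ₂ v ≤ 0) ∧ (∀ B, Cl ρ₂ B → ∑ v ∈ B, zeta ρ₁ ρ₂ v ≤ 0) ∧
      ∑ v, zeta ρ₁ ρ₂ v = 0 ∧ ∑ v, |zeta ρ₁ ρ₂ v| ≤ zB V ∧
      (∀ B, Cl ρ₁ B → (∃ a b, ρ₁ a b ∧ Relation.ReflTransGen (Dg ρ₁ ρ₂) b a ∧ a ∉ B ∧ b ∈ B) →
        ∑ v ∈ B, zeta ρ₁ ρ₂ v ≤ -1) := (exists_zeta ρ₁ ρ₂).choose_spec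

/-- `θ` is far from all exchange capacities. -/
def Good (r₁ r₂ : Finset V → ℤ) (K : ℤ) (x : V → ℤ) (θ : ℤ) : Prop :=
  ∀ a b, a ≠ b → K < |cap r₁ x a b - θ| ∧ K < |cap r₂ x a b - θ|

theorem rel_add {r : Finset V → ℤ} {K : ℤ} {x y : V → ℤ} {θ : ℤ}
    (hg : ∀ a b, a ≠ b → K < |cap r x a b - θ|) (hy : ∑ v, |y v| ≤ K) :
    rel r (fun v => x v + y v) θ = rel r x θ := by
  funext a b
  unfold rel
  by_cases hab : a = b
  · simp [hab]
  · have h1 := hg a b hab
    have h2 := (cap_lip (r := r) x y hab).trans hy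
    rw [abs_le] at h2
    rw [lt_abs] at h1
    apply propext
    simp only [ne_eq, hab, not_false_eq_true, true_and]
    rcases h1 with h1 | h1 <;> constructor <;> intro h3 <;> omega

theorem card_near (W : ℕ) (K q : ℤ) :
    (((Ico (W : ℤ) (2 * W)).filter (fun θ => |q - θ| ≤ K)).card : ℤ) ≤ max 0 (2 * K + 1) := by
  have hsub : (Ico (W : ℤ) (2 * W)).filter (fun θ => |q - θ| ≤ K) ⊆ Icc (q - K) (q + K) := by
    intro θ hθ
    rw [mem_filter, abs_le] at hθ
    rw [mem_Icc]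
    omega
  have h1 := card_le_card hsub
  rw [Int.card_Icc] at h1
  omega

open Classical in
theorem card_good {r₁ r₂ : Finset V → ℤ} {K : ℤ} (hK : 0 ≤ K) (x : V → ℤ) (W : ℕ)
    (hW : 4 * (Fintype.card V : ℤ) ^ 2 * (2 * K + 1) ≤ W) :
    (W : ℤ) ≤ 2 * ((Ico (W : ℤ) (2 * W)).filter (fun θ => Good r₁ r₂ K x θ)).card := by
  classical
  set I := Ico (W : ℤ) (2 * W) with hI
  have hIc : (I.card : ℤ) = W := by
    rw [hI, Int.card_Ico]; omega
  have hbad : ((I.filter (fun θ => ¬ Good r₁ r₂ K x θ)).card : ℤ)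
      ≤ 2 * (Fintype.card V : ℤ) ^ 2 * (2 * K + 1) := by
    have hsub : I.filter (fun θ => ¬ Good r₁ r₂ K x θ) ⊆
        (univ : Finset (V × V × Bool)).biUnion (fun p => I.filter
          (fun θ => |(if p.2.2 then cap r₁ x p.1 p.2.1 else cap r₂ x p.1 p.2.1) - θ| ≤ K)) := by
      intro θ hθ
      rw [mem_filter] at hθ
      obtain ⟨h1, h2⟩ := hθ
      unfold Good at h2
      push Not at h2
      obtain ⟨a, b, hab, h3⟩ := h2
      rw [mem_biUnion]
      by_cases h4 : K < |cap r₁ x a b - θ|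
      · exact ⟨(a, b, false), mem_univ _, by simpa using ⟨h1, h3 h4⟩⟩
      · exact ⟨(a, b, true), mem_univ _, by simpa using ⟨h1, not_lt.1 h4⟩⟩
    have h1 : (I.filter (fun θ => ¬ Good r₁ r₂ K x θ)).card ≤ _ := card_le_card hsub
    have h2 := h1.trans card_biUnion_le
    have h3 : ((∑ p : V × V × Bool, (I.filter
          (fun θ => |(if p.2.2 then cap r₁ x p.1 p.2.1 else cap r₂ x p.1 p.2.1) - θ| ≤ K)).card
            : ℕ) : ℤ) ≤ ∑ _p : V × V × Bool, (2 * K + 1) := by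
      push_cast
      apply sum_le_sum
      intro p _
      refine (card_near W K _).trans ?_
      rw [max_eq_right (by omega)]
    have h4 : (∑ _p : V × V × Bool, (2 * K + 1)) = 2 * (Fintype.card V : ℤ) ^ 2 * (2 * K + 1) := by
      rw [sum_const, nsmul_eq_mul, card_univ, Fintype.card_prod, Fintype.card_prod,
        Fintype.card_bool]
      push_cast
      ring
    rw [h4] at h3
    exact le_trans (by exact_mod_cast h2) h3
  have hsplit : (I.filter (fun θ => Good r₁ r₂ K x θ)).card +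
      (I.filter (fun θ => ¬ Good r₁ r₂ K x θ)).card = I.card :=
    card_filter_add_card_filter_not _
  have hsplit' : ((I.filter (fun θ => Good r₁ r₂ K x θ)).card : ℤ) +
      (I.filter (fun θ => ¬ Good r₁ r₂ K x θ)).card = W := by
    rw [← hIc]; exact_mod_cast hsplit
  nlinarith

open Classical in
/-- For one threshold the translates along the cone vector are disjoint. -/
theorem fixed_theta_e {r₁ r₂ : Finset V → ℤ} {R : ℤ} (hr₁ : SubM r₁ R) (hr₂ : SubM r₂ R)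
    (P : Finset (V → ℤ)) (hP : ∀ x, x ∈ P ↔ MemJ r₁ R x ∧ MemJ r₂ R x) {c : V → ℝ} {e : ℝ}
    (he : 0 ≤ e)
    (hc₁ : ∀ A, ∑ a ∈ A, c a ≤ (r₁ A : ℝ) + e) (hc₂ : ∀ A, ∑ a ∈ A, c a ≤ (r₂ A : ℝ) + e)
    (hcR : ∑ a, c a = R) {g h : V} (hgh : g ≠ h) {m : ℝ}
    (hm : ∀ A, g ∈ A → h ∉ A → m + (4 * (Fintype.card V : ℝ) + 1) * e ≤ r₁ A - ∑ a ∈ A, c a)
    {θ : ℤ} {N : ℕ}
    (hNθ : N * zB V ≤ θ)
    (hmθ : (4 * (Fintype.card V : ℝ) + 1) * ((Fintype.card V : ℝ) ^ 2 * θ) < m)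
    {k : ℤ} (hk : k ≤ θ) :
    (N + 1) * (P.filter (fun x => cap r₁ x g h = k ∧ Good r₁ r₂ (N * zB V) x θ)).card ≤ P.card := by
  classical
  set X := P.filter (fun x => cap r₁ x g h = k ∧ Good r₁ r₂ (N * zB V) x θ) with hX
  have hzB : 0 ≤ zB V := by unfold zB; positivity
  have hθ0 : 0 ≤ θ := le_trans (by positivity) hNθ
  let ζ : (V → ℤ) → V → ℤ := fun x => zeta (rel r₁ x θ) (rel r₂ x θ)
  let F : (V → ℤ) × ℕ → (V → ℤ) := fun q => fun v => q.1 v + q.2 * ζ q.1 v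
  have hstep : ∀ x ∈ X, ∀ j ≤ N, ∑ v, |(j : ℤ) * ζ x v| ≤ N * zB V := by
    intro x _ j hj
    have h1 := (zeta_spec (rel r₁ x θ) (rel r₂ x θ)).2.2.2.1
    calc ∑ v, |(j : ℤ) * ζ x v| = j * ∑ v, |ζ x v| := by
          rw [mul_sum]
          apply sum_congr rfl
          intro v _
          rw [abs_mul, abs_of_nonneg (by positivity : (0 : ℤ) ≤ j)]
      _ ≤ N * zB V := by
          apply mul_le_mul (by exact_mod_cast hj) h1 (sum_nonneg (fun _ _ => abs_nonneg _))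
            (by positivity)
  -- relations are constant along the path
  have hrel : ∀ x ∈ X, ∀ j ≤ N, rel r₁ (F (x, j)) θ = rel r₁ x θ ∧
      rel r₂ (F (x, j)) θ = rel r₂ x θ := by
    intro x hx j hj
    have hx' := (mem_filter.1 hx).2.2
    have h1 := hstep x hx j hj
    exact ⟨rel_add (fun a b hab => (hx' a b hab).1) h1, rel_add (fun a b hab => (hx' a b hab).2) h1⟩
  have hζ : ∀ x ∈ X, ∀ j ≤ N, ζ (F (x, j)) = ζ x := by
    intro x hx j hj
    obtain ⟨h1, h2⟩ := hrel x hx j hj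
    simp only [ζ]
    rw [h1, h2]
  -- the path stays in `P`
  have hmem : ∀ x ∈ X, ∀ j ≤ N, F (x, j) ∈ P := by
    intro x hx j hj
    have hxP := (hP x).1 (mem_filter.1 hx).1
    have h1 := zeta_spec (rel r₁ x θ) (rel r₂ x θ)
    have h2 : (j : ℤ) * ∑ v, |ζ x v| ≤ θ := by
      refine le_trans ?_ hNθ
      apply mul_le_mul (by exact_mod_cast hj) h1.2.2.2.1 (sum_nonneg (fun _ _ => abs_nonneg _))
        (by positivity)
    rw [hP]
    exact ⟨memJ_move hxP.1 h1.1 h1.2.2.1 j h2, memJ_move hxP.2 h1.2.1 h1.2.2.1 j h2⟩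
  -- strict increase
  have hinc : ∀ x ∈ X, ∀ j ≤ N, 1 ≤ j → k < cap r₁ (F (x, j)) g h := by
    intro x hx j hj hj1
    have hxP := (hP x).1 (mem_filter.1 hx).1
    have hxk := (mem_filter.1 hx).2.1
    obtain ⟨A, hA1, hA2, hA⟩ := exists_cap (r := r₁) (x := F (x, j)) hgh
    rw [← hA]
    by_cases hcl : Cl (rel r₁ x θ) A
    · have h1 := center_arc_e hr₁ hr₂ hxP.1 hxP.2 hθ0 he hc₁ hc₂ hcR (hm A hA1 hA2) hmθ hcl
      have h2 := (zeta_spec (rel r₁ x θ) (rel r₂ x θ)).2.2.2.2 A hcl h1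
      have h3 : cap r₁ x g h ≤ slk r₁ x A := cap_le hA1 hA2
      have h4 : slk r₁ (F (x, j)) A = slk r₁ x A - ∑ v ∈ A, (j : ℤ) * ζ x v :=
        slk_add r₁ x (fun v => (j : ℤ) * ζ x v) A
      rw [h4, ← mul_sum]
      have h5 : (j : ℤ) * ∑ v ∈ A, ζ x v ≤ -1 := by
        have : (1 : ℤ) ≤ j := by exact_mod_cast hj1
        have h2' : ∑ v ∈ A, ζ x v ≤ -1 := h2
        nlinarith
      omega
    · rw [← (hrel x hx j hj).1] at hcl
      exact lt_of_le_of_lt hk (slk_not_closed hcl)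
  have hinj : Set.InjOn F (X ×ˢ range (N + 1) : Finset ((V → ℤ) × ℕ)) := by
    have key : ∀ x ∈ X, ∀ x' ∈ X, ∀ j ≤ N, ∀ j' ≤ N, j ≤ j' → F (x, j) = F (x', j') →
        (x, j) = (x', j') := by
      intro x hx x' hx' j hj j' hj' hjj heq
      have h1 : ζ x = ζ x' := by rw [← hζ x hx j hj, ← hζ x' hx' j' hj', heq]
      have h2 : x = F (x', j' - j) := by
        funext v
        have h3 := congrFun heq v
        simp only [F] at h3 ⊢
        rw [h1] at h3
        push_cast [Nat.cast_sub hjj]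
        linarith
      rcases Nat.eq_or_lt_of_le hjj with h3 | h3
      · subst h3
        simp only [Nat.sub_self, F, Nat.cast_zero, zero_mul, add_zero] at h2
        rw [h2]
      · exfalso
        have h4 := hinc x' hx' (j' - j) (by omega) (by omega)
        rw [← h2] at h4
        have h5 := (mem_filter.1 hx).2.1
        omega
    rintro ⟨x, j⟩ hx ⟨x', j'⟩ hx' heq
    simp only [coe_product, Set.mem_prod, mem_coe, mem_range] at hx hx'
    rcases le_total j j' with hjj | hjj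
    · exact key x hx.1 x' hx'.1 j (by omega) j' (by omega) hjj heq
    · exact (key x' hx'.1 x hx.1 j' (by omega) j (by omega) hjj heq.symm).symm
  have hcard := card_le_card_of_injOn F
    (s := X ×ˢ range (N + 1)) (t := P) (by
      rintro ⟨x, j⟩ hx
      simp only [coe_product, Set.mem_prod, mem_coe, mem_range] at hx
      exact hmem x hx.1 j (by omega)) hinj
  rw [card_product, card_range] at hcard
  linarith

/-- **Facet density**, for a centre `c` violating both systems by at most `e`. -/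
theorem facet_density_e {r₁ r₂ : Finset V → ℤ} {R : ℤ} (hr₁ : SubM r₁ R) (hr₂ : SubM r₂ R)
    (P : Finset (V → ℤ)) (hP : ∀ x, x ∈ P ↔ MemJ r₁ R x ∧ MemJ r₂ R x) {c : V → ℝ} {e : ℝ}
    (he : 0 ≤ e)
    (hc₁ : ∀ A, ∑ a ∈ A, c a ≤ (r₁ A : ℝ) + e) (hc₂ : ∀ A, ∑ a ∈ A, c a ≤ (r₂ A : ℝ) + e)
    (hcR : ∑ a, c a = R) {g h : V} (hgh : g ≠ h) {m : ℝ}
    (hm : ∀ A, g ∈ A → h ∉ A → m + (4 * (Fintype.card V : ℝ) + 1) * e ≤ r₁ A - ∑ a ∈ A, c a)
    {W N : ℕ}
    (hW : (4 * (Fintype.card V : ℝ) + 1) * ((Fintype.card V : ℝ) ^ 2 * (2 * W)) ≤ m)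
    (hN : 4 * (Fintype.card V : ℤ) ^ 2 * (2 * (N * zB V) + 1) ≤ W)
    {k : ℤ} (hk : k ≤ W) :
    (N + 1) * (P.filter (fun x => cap r₁ x g h = k)).card ≤ 2 * P.card := by
  classical
  have hn1 : 1 ≤ Fintype.card V := Fintype.card_pos_iff.2 ⟨g⟩
  have hzB : 0 ≤ zB V := by unfold zB; positivity
  have hK : 0 ≤ (N : ℤ) * zB V := by positivity
  have hWpos : 0 < W := by
    have h1 : (1 : ℤ) ≤ (Fintype.card V : ℤ) ^ 2 := by
      have : (1 : ℤ) ≤ Fintype.card V := by exact_mod_cast hn1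
      nlinarith
    have : (0 : ℤ) < W := by nlinarith
    exact_mod_cast this
  have hNW : (N : ℤ) * zB V ≤ W := by
    have h1 : (1 : ℤ) ≤ (Fintype.card V : ℤ) ^ 2 := by
      have : (1 : ℤ) ≤ Fintype.card V := by exact_mod_cast hn1
      nlinarith
    nlinarith
  set X := P.filter (fun x => cap r₁ x g h = k) with hX
  set I := Ico (W : ℤ) (2 * W) with hI
  have h1 : ∑ θ ∈ I, (N + 1) * (X.filter (fun x => Good r₁ r₂ (N * zB V) x θ)).card
      ≤ ∑ _θ ∈ I, P.card := by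
    apply sum_le_sum
    intro θ hθ
    rw [hI, mem_Ico] at hθ
    have h2 : (4 * (Fintype.card V : ℝ) + 1) * ((Fintype.card V : ℝ) ^ 2 * θ) < m := by
      refine lt_of_lt_of_le ?_ hW
      have h3 : (θ : ℝ) < 2 * W := by exact_mod_cast hθ.2
      have h4 : (1 : ℝ) ≤ (Fintype.card V : ℝ) := by exact_mod_cast hn1
      have h5 : (0 : ℝ) < (Fintype.card V : ℝ) ^ 2 := by positivity
      have h6 : (Fintype.card V : ℝ) ^ 2 * θ < (Fintype.card V : ℝ) ^ 2 * (2 * W) :=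
        mul_lt_mul_of_pos_left h3 h5
      exact mul_lt_mul_of_pos_left h6 (by positivity)
    have h3 := fixed_theta_e hr₁ hr₂ P hP he hc₁ hc₂ hcR hgh hm (θ := θ) (N := N)
      (hNW.trans hθ.1) h2 (hk.trans hθ.1)
    rw [hX, filter_filter]
    exact h3
  have h2 : ∑ θ ∈ I, (X.filter (fun x => Good r₁ r₂ (N * zB V) x θ)).card
      = ∑ x ∈ X, (I.filter (fun θ => Good r₁ r₂ (N * zB V) x θ)).card := by
    simp only [card_eq_sum_ones, sum_filter]
    rw [sum_comm]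
  have h3 : ∀ x ∈ X, W ≤ 2 * (I.filter (fun θ => Good r₁ r₂ (N * zB V) x θ)).card := by
    intro x _
    have := card_good (r₁ := r₁) (r₂ := r₂) hK x W hN
    exact_mod_cast this
  have hIc : I.card = W := by
    rw [hI, Int.card_Ico]; omega
  rw [← mul_sum, h2, sum_const, smul_eq_mul, hIc] at h1
  have h4 : X.card * W ≤ 2 * ∑ x ∈ X, (I.filter (fun θ => Good r₁ r₂ (N * zB V) x θ)).card := by
    rw [mul_sum, ← smul_eq_mul (X.card), ← sum_const]
    exact sum_le_sum h3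
  have h5 : W * ((N + 1) * X.card) ≤ W * (2 * P.card) := by
    calc W * ((N + 1) * X.card) = (N + 1) * (X.card * W) := by ring
      _ ≤ (N + 1) * (2 * ∑ x ∈ X, (I.filter (fun θ => Good r₁ r₂ (N * zB V) x θ)).card) :=
          Nat.mul_le_mul_left _ h4
      _ = 2 * ((N + 1) * ∑ x ∈ X, (I.filter (fun θ => Good r₁ r₂ (N * zB V) x θ)).card) := by ring
      _ ≤ 2 * (W * P.card) := Nat.mul_le_mul_left _ h1
      _ = W * (2 * P.card) := by ring
  exact Nat.le_of_mul_le_mul_left h5 hWpos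

/-- **Facet density.** -/
theorem facet_density {r₁ r₂ : Finset V → ℤ} {R : ℤ} (hr₁ : SubM r₁ R) (hr₂ : SubM r₂ R)
    (P : Finset (V → ℤ)) (hP : ∀ x, x ∈ P ↔ MemJ r₁ R x ∧ MemJ r₂ R x) {c : V → ℝ}
    (hc₁ : ∀ A, ∑ a ∈ A, c a ≤ (r₁ A : ℝ)) (hc₂ : ∀ A, ∑ a ∈ A, c a ≤ (r₂ A : ℝ))
    (hcR : ∑ a, c a = R) {g h : V} (hgh : g ≠ h) {m : ℝ}
    (hm : ∀ A, g ∈ A → h ∉ A → m ≤ r₁ A - ∑ a ∈ A, c a) {W N : ℕ}
    (hW : (4 * (Fintype.card V : ℝ) + 1) * ((Fintype.card V : ℝ) ^ 2 * (2 * W)) ≤ m)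
    (hN : 4 * (Fintype.card V : ℤ) ^ 2 * (2 * (N * zB V) + 1) ≤ W)
    {k : ℤ} (hk : k ≤ W) :
    (N + 1) * (P.filter (fun x => cap r₁ x g h = k)).card ≤ 2 * P.card :=
  facet_density_e hr₁ hr₂ P hP le_rfl (fun A => by simpa using hc₁ A)
    (fun A => by simpa using hc₂ A) hcR hgh (fun A h1 h2 => by simpa using hm A h1 h2) hW hN hk

/-! ## 6. Growth lemma -/

/-- relaxation of `r` by one unit of exchange `g ← h` -/
def relax (r : Finset V → ℤ) (g h : V) : Finset V → ℤ :=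
  fun A => r A + if g ∈ A ∧ h ∉ A then 1 else 0

theorem relax_subM {r : Finset V → ℤ} {R : ℤ} (hr : SubM r R) (g h : V) :
    SubM (relax r g h) R := by
  refine ⟨?_, ?_, ?_⟩
  · intro A B
    have := hr.sub A B
    unfold relax
    have h1 : (if g ∈ A ∪ B ∧ h ∉ A ∪ B then (1 : ℤ) else 0) +
        (if g ∈ A ∩ B ∧ h ∉ A ∩ B then 1 else 0) ≤
        (if g ∈ A ∧ h ∉ A then 1 else 0) + (if g ∈ B ∧ h ∉ B then 1 else 0) := by
      by_cases h1 : g ∈ A <;> by_cases h2 : g ∈ B <;> by_cases h3 : h ∈ A <;>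
        by_cases h4 : h ∈ B <;> simp [h1, h2, h3, h4]
    linarith
  · simp [relax, hr.empty]
  · simp [relax, hr.univ]

omit [Fintype V] in
theorem le_relax (r : Finset V → ℤ) (g h : V) (A : Finset V) : r A ≤ relax r g h A := by
  unfold relax
  split_ifs <;> omega

/-- **Growth lemma**, one step: relaxing by one unit of a fat exchange adds few points
(centre violating both systems by at most `e`). -/
theorem growth_e {r₁ r₂ : Finset V → ℤ} {R : ℤ} (hr₁ : SubM r₁ R) (hr₂ : SubM r₂ R)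
    {g h : V} (hgh : g ≠ h)
    (P P' : Finset (V → ℤ)) (hP : ∀ x, x ∈ P ↔ MemJ r₁ R x ∧ MemJ r₂ R x)
    (hP' : ∀ x, x ∈ P' ↔ MemJ (relax r₁ g h) R x ∧ MemJ r₂ R x) {c : V → ℝ} {e : ℝ}
    (he : 0 ≤ e)
    (hc₁ : ∀ A, ∑ a ∈ A, c a ≤ (r₁ A : ℝ) + e) (hc₂ : ∀ A, ∑ a ∈ A, c a ≤ (r₂ A : ℝ) + e)
    (hcR : ∑ a, c a = R) {m : ℝ}
    (hm : ∀ A, g ∈ A → h ∉ A → m + (4 * (Fintype.card V : ℝ) + 1) * e ≤ r₁ A - ∑ a ∈ A, c a)
    {W N : ℕ}
    (hW : (4 * (Fintype.card V : ℝ) + 1) * ((Fintype.card V : ℝ) ^ 2 * (2 * W)) ≤ m)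
    (hN : 4 * (Fintype.card V : ℤ) ^ 2 * (2 * (N * zB V) + 1) ≤ W) :
    (N + 1) * P'.card ≤ 2 * P'.card + (N + 1) * P.card := by
  classical
  have hle : ∀ A, (r₁ A : ℝ) ≤ (relax r₁ g h A : ℝ) := fun A => by exact_mod_cast le_relax r₁ g h A
  have h1 := facet_density_e (relax_subM hr₁ g h) hr₂ P' hP' he
    (fun A => (hc₁ A).trans (add_le_add_left (hle A) e)) hc₂ hcR hgh
    (fun A hA1 hA2 => (hm A hA1 hA2).trans (sub_le_sub_right (hle A) _)) hW hN (k := 0)
    (by positivity)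
  have h2 : P' ⊆ P ∪ P'.filter (fun x => cap (relax r₁ g h) x g h = 0) := by
    intro x hx
    rw [mem_union]
    by_cases hxP : x ∈ P
    · exact Or.inl hxP
    · right
      rw [mem_filter]
      refine ⟨hx, ?_⟩
      have hx' := (hP' x).1 hx
      rw [hP] at hxP
      have h3 : ¬ MemJ r₁ R x := fun h => hxP ⟨h, hx'.2⟩
      have h4 : ∃ A, r₁ A < ∑ a ∈ A, x a := by
        by_contra hcon
        push Not at hcon
        exact h3 ⟨hcon, hx'.1.2⟩
      obtain ⟨A, hA⟩ := h4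
      have h5 := hx'.1.1 A
      have h6 : g ∈ A ∧ h ∉ A := by
        by_contra hcon
        simp only [relax, hcon, if_false] at h5
        omega
      have h7 : slk (relax r₁ g h) x A = 0 := by
        simp only [slk, relax, h6, not_false_eq_true, and_self, if_true] at h5 ⊢
        omega
      have h8 : cap (relax r₁ g h) x g h ≤ 0 := h7 ▸ cap_le h6.1 h6.2
      obtain ⟨B, hB1, hB2, hB⟩ := exists_cap (r := relax r₁ g h) (x := x) hgh
      have h9 := slk_nonneg hx'.1 B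
      omega
  have h3 := (card_le_card h2).trans (card_union_le _ _)
  calc (N + 1) * P'.card ≤ (N + 1) * (P.card + (P'.filter
        (fun x => cap (relax r₁ g h) x g h = 0)).card) := Nat.mul_le_mul_left _ h3
    _ = (N + 1) * (P'.filter (fun x => cap (relax r₁ g h) x g h = 0)).card + (N + 1) * P.card := by
        ring
    _ ≤ 2 * P'.card + (N + 1) * P.card := Nat.add_le_add_right h1 _

/-- **Growth lemma**, one step: relaxing by one unit of a fat exchange adds few points. -/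
theorem growth {r₁ r₂ : Finset V → ℤ} {R : ℤ} (hr₁ : SubM r₁ R) (hr₂ : SubM r₂ R)
    {g h : V} (hgh : g ≠ h)
    (P P' : Finset (V → ℤ)) (hP : ∀ x, x ∈ P ↔ MemJ r₁ R x ∧ MemJ r₂ R x)
    (hP' : ∀ x, x ∈ P' ↔ MemJ (relax r₁ g h) R x ∧ MemJ r₂ R x) {c : V → ℝ}
    (hc₁ : ∀ A, ∑ a ∈ A, c a ≤ (r₁ A : ℝ)) (hc₂ : ∀ A, ∑ a ∈ A, c a ≤ (r₂ A : ℝ))
    (hcR : ∑ a, c a = R) {m : ℝ}
    (hm : ∀ A, g ∈ A → h ∉ A → m ≤ r₁ A - ∑ a ∈ A, c a) {W N : ℕ}
    (hW : (4 * (Fintype.card V : ℝ) + 1) * ((Fintype.card V : ℝ) ^ 2 * (2 * W)) ≤ m)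
    (hN : 4 * (Fintype.card V : ℤ) ^ 2 * (2 * (N * zB V) + 1) ≤ W) :
    (N + 1) * P'.card ≤ 2 * P'.card + (N + 1) * P.card :=
  growth_e hr₁ hr₂ hgh P P' hP hP' le_rfl (fun A => by simpa using hc₁ A)
    (fun A => by simpa using hc₂ A) hcR (fun A h1 h2 => by simpa using hm A h1 h2) hW hN

end Crest.Agent.R302.Facet
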