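import Mathlib

/-!
R302 (helper550): rooted trees given by a parent map, descendants, cut sums,
summation by parts along the tree.
-/

set_option autoImplicit false

namespace Crest.Agent.R302.Tree

open Finset

/-- rooted tree on `V`: parent map, root, a depth function which decreases along `par` -/
structure RTree (V : Type*) where
  par : V → V
  root : V
  dep : V → ℕ
  dep_lt : ∀ q, q ≠ root → dep (par q) < dep q

namespace RTree

variable {V : Type*} (T : RTree V)

/-- `T.Desc p q` : `q` is a descendant of `p` (or `q = p`) -/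
inductive Desc (p : V) : V → Prop
  | refl : Desc p p
  | step (q : V) (hq : q ≠ T.root) (h : Desc p (T.par q)) : Desc p q

variable {T}

theorem Desc.dep_le {p q : V} (h : T.Desc p q) : T.dep p ≤ T.dep q := by
  induction h with
  | refl => exact le_refl _
  | step q hq _ ih => exact ih.trans (T.dep_lt q hq).le

theorem Desc.cases_ne {p q : V} (h : T.Desc p q) (hne : q ≠ p) :
    q ≠ T.root ∧ T.Desc p (T.par q) := by
  cases h with
  | refl => exact absurd rfl hne
  | step _ hq h => exact ⟨hq, h⟩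

theorem Desc.dep_lt' {p q : V} (h : T.Desc p q) (hne : q ≠ p) : T.dep p < T.dep q := by
  obtain ⟨h1, h2⟩ := h.cases_ne hne
  exact lt_of_le_of_lt h2.dep_le (T.dep_lt q h1)

theorem Desc.trans {p q r : V} (h : T.Desc p q) (h' : T.Desc q r) : T.Desc p r := by
  induction h' with
  | refl => exact h
  | step r hr _ ih => exact Desc.step r hr ih

theorem Desc.antisymm {p q : V} (h : T.Desc p q) (h' : T.Desc q p) : p = q := by
  by_contra hne
  have := h.dep_lt' (Ne.symm hne)
  have := h'.dep_le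
  omega

theorem desc_root (q : V) : T.Desc T.root q := by
  induction hn : T.dep q using Nat.strong_induction_on generalizing q with
  | _ n ih =>
    by_cases hq : q = T.root
    · subst hq; exact Desc.refl
    · exact Desc.step q hq (ih _ (hn ▸ T.dep_lt q hq) _ rfl)

theorem Desc.exists_child {p q : V} (h : T.Desc p q) (hne : q ≠ p) :
    ∃ r, r ≠ T.root ∧ T.par r = p ∧ T.Desc r q := by
  induction h with
  | refl => exact absurd rfl hne
  | step q hq h ih =>
    by_cases h0 : T.par q = p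
    · exact ⟨q, hq, h0, Desc.refl⟩
    · obtain ⟨r, h1, h2, h3⟩ := ih h0
      exact ⟨r, h1, h2, Desc.step q hq h3⟩

theorem child_disjoint {p r r' q : V} (hr : r ≠ T.root) (hrp : T.par r = p)
    (hr' : r' ≠ T.root) (hrp' : T.par r' = p) (h : T.Desc r q) (h' : T.Desc r' q) : r = r' := by
  induction hn : T.dep q using Nat.strong_induction_on generalizing q with
  | _ n ih =>
    by_cases h1 : q = r
    · by_cases h2 : q = r'
      · exact h1.symm.trans h2
      · obtain ⟨_, h3⟩ := h'.cases_ne h2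
        rw [h1, hrp] at h3
        have h4 := h3.dep_le
        have h5 := T.dep_lt r' hr'
        rw [hrp'] at h5
        omega
    · by_cases h2 : q = r'
      · obtain ⟨_, h3⟩ := h.cases_ne h1
        rw [h2, hrp'] at h3
        have h4 := h3.dep_le
        have h5 := T.dep_lt r hr
        rw [hrp] at h5
        omega
      · obtain ⟨h3, h4⟩ := h.cases_ne h1
        obtain ⟨_, h5⟩ := h'.cases_ne h2
        exact ih _ (hn ▸ T.dep_lt q h3) h4 h5 rfl

section Fin

variable [Fintype V] (T)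

open Classical in
/-- descendants (including `p`) -/
noncomputable def desc (p : V) : Finset V := univ.filter (T.Desc p)

open Classical in
/-- children -/
noncomputable def ch (p : V) : Finset V := univ.filter (fun r => r ≠ T.root ∧ T.par r = p)

variable {T}

theorem mem_desc {p q : V} : q ∈ T.desc p ↔ T.Desc p q := by
  classical
  simp [desc]

theorem mem_ch {p q : V} : q ∈ T.ch p ↔ q ≠ T.root ∧ T.par q = p := by
  classical
  simp [ch]

theorem self_mem_desc (p : V) : p ∈ T.desc p := mem_desc.2 Desc.refl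

theorem desc_root_eq : T.desc T.root = univ := by
  ext q; simp [mem_desc, desc_root]

theorem mem_desc_par {p q : V} (h : q ∈ T.desc p) (hne : q ≠ p) : T.par q ∈ T.desc p :=
  mem_desc.2 ((mem_desc.1 h).cases_ne hne).2

theorem mem_desc_ne_root {p q : V} (h : q ∈ T.desc p) (hne : q ≠ p) : q ≠ T.root :=
  ((mem_desc.1 h).cases_ne hne).1

theorem mem_desc_of_par {p q : V} (hq : q ≠ T.root) (h : T.par q ∈ T.desc p) : q ∈ T.desc p :=
  mem_desc.2 (Desc.step q hq (mem_desc.1 h))

theorem ne_of_par_mem {p q : V} (hq : q ≠ T.root) (h : T.par q ∈ T.desc p) : q ≠ p := by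
  rintro rfl
  have h1 := (mem_desc.1 h).dep_le
  have h2 := T.dep_lt q hq
  omega

theorem desc_eq [DecidableEq V] (p : V) :
    T.desc p = insert p ((T.ch p).biUnion T.desc) := by
  ext q
  simp only [mem_insert, mem_biUnion, mem_desc, mem_ch]
  constructor
  · intro h
    by_cases hq : q = p
    · exact Or.inl hq
    · obtain ⟨r, h1, h2, h3⟩ := h.exists_child hq
      exact Or.inr ⟨r, ⟨h1, h2⟩, h3⟩
  · rintro (rfl | ⟨r, ⟨h1, h2⟩, h3⟩)
    · exact Desc.refl
    · exact (Desc.step r h1 (h2 ▸ Desc.refl)).trans h3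

/-- the cut sum `K_p = ∑_{q ∈ C_p} φ q` -/
noncomputable def cut (T : RTree V) (φ : V → ℝ) (p : V) : ℝ := ∑ q ∈ T.desc p, φ q

theorem cut_root (φ : V → ℝ) : T.cut φ T.root = ∑ q, φ q := by
  rw [cut, desc_root_eq]

theorem cut_eq (φ : V → ℝ) (p : V) : T.cut φ p = φ p + ∑ r ∈ T.ch p, T.cut φ r := by
  classical
  rw [cut, desc_eq, sum_insert, sum_biUnion]
  · rfl
  · intro r hr r' hr' hne
    rw [Function.onFun, Finset.disjoint_left]
    intro q hq hq'
    obtain ⟨h1, h2⟩ := mem_ch.1 (Finset.mem_coe.1 hr)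
    obtain ⟨h3, h4⟩ := mem_ch.1 (Finset.mem_coe.1 hr')
    exact hne (child_disjoint h1 h2 h3 h4 (mem_desc.1 hq) (mem_desc.1 hq'))
  · intro h
    obtain ⟨r, hr, hp⟩ := mem_biUnion.1 h
    obtain ⟨h1, h2⟩ := mem_ch.1 hr
    have h3 := (mem_desc.1 hp).dep_le
    have h4 := T.dep_lt r h1
    rw [h2] at h4
    omega

/-- the value at a vertex in terms of the cut sums -/
theorem eq_cut_sub (φ : V → ℝ) (p : V) : φ p = T.cut φ p - ∑ r ∈ T.ch p, T.cut φ r := by
  rw [cut_eq φ p]; ring

theorem sum_ch_desc [DecidableEq V] (p : V) (f : V → V → ℝ) :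
    ∑ q ∈ T.desc p, ∑ r ∈ T.ch q, f q r = ∑ r ∈ (T.desc p).erase p, f (T.par r) r := by
  rw [← Finset.sum_finset_product' (γ := V) (α := V)
    (((T.desc p).erase p).image (fun r => (T.par r, r))) (T.desc p) T.ch]
  · rw [sum_image]
    intro a _ b _ hab
    exact (Prod.ext_iff.1 hab).2
  · rintro ⟨q, r⟩
    simp only [mem_image, mem_erase, Prod.mk.injEq, mem_ch]
    constructor
    · rintro ⟨r', ⟨h1, h2⟩, h3, rfl⟩
      exact ⟨h3 ▸ mem_desc_par h2 h1, mem_desc_ne_root h2 h1, h3⟩
    · rintro ⟨h1, h2, rfl⟩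
      exact ⟨r, ⟨ne_of_par_mem h2 h1, mem_desc_of_par h2 h1⟩, rfl, rfl⟩

/-- summation by parts inside `C_p` -/
theorem sum_desc_mul [DecidableEq V] (p : V) (φ h : V → ℝ) :
    ∑ q ∈ T.desc p, φ q * h q = T.cut φ p * h p
      + ∑ q ∈ (T.desc p).erase p, T.cut φ q * (h q - h (T.par q)) := by
  have h1 : ∑ q ∈ T.desc p, φ q * h q
      = ∑ q ∈ T.desc p, T.cut φ q * h q - ∑ q ∈ T.desc p, ∑ r ∈ T.ch q, T.cut φ r * h q := by
    rw [← sum_sub_distrib]
    refine sum_congr rfl fun q _ => ?_
    rw [← sum_mul, ← sub_mul, ← eq_cut_sub]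
  rw [h1, sum_ch_desc p (fun q r => T.cut φ r * h q),
    ← add_sum_erase _ _ (self_mem_desc (T := T) p)]
  have h2 : ∑ q ∈ (T.desc p).erase p, T.cut φ q * (h q - h (T.par q))
      = ∑ q ∈ (T.desc p).erase p, T.cut φ q * h q
        - ∑ q ∈ (T.desc p).erase p, T.cut φ q * h (T.par q) := by
    rw [← sum_sub_distrib]; exact sum_congr rfl fun q _ => by ring
  rw [h2]; ring

/-- summation by parts on the tree -/
theorem sum_mul_eq [DecidableEq V] (φ h : V → ℝ) :
    ∑ q, φ q * h q = (∑ q, φ q) * h T.root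
      + ∑ q ∈ univ.erase T.root, T.cut φ q * (h q - h (T.par q)) := by
  have := sum_desc_mul (T := T) T.root φ h
  rw [desc_root_eq, cut_root] at this
  exact this

theorem sum_mul_eq' [DecidableEq V] {φ : V → ℝ} (h0 : ∑ q, φ q = 0) (h : V → ℝ) :
    ∑ q, φ q * h q = ∑ q ∈ univ.erase T.root, T.cut φ q * (h q - h (T.par q)) := by
  rw [sum_mul_eq (T := T), h0, zero_mul, zero_add]

/-- the two Cauchy-Schwarz steps: `∑_S ∑_q φ_S(q) h_S(q)` is controlled by the cut energies -/
theorem abs_sum_sum_le [DecidableEq V] {ι : Type*} (I : Finset ι) (φ h : ι → V → ℝ)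
    (h0 : ∀ S ∈ I, ∑ q, φ S q = 0) (F : ι → V → ℝ) (hF : ∀ S ∈ I, ∀ q, 0 < F S q) :
    |∑ S ∈ I, ∑ q, φ S q * h S q| ≤ ∑ q ∈ univ.erase T.root,
      Real.sqrt (∑ S ∈ I, T.cut (φ S) q ^ 2 / F S q)
        * Real.sqrt (∑ S ∈ I, F S q * (h S q - h S (T.par q)) ^ 2) := by
  have e : ∑ S ∈ I, ∑ q, φ S q * h S q
      = ∑ q ∈ univ.erase T.root, ∑ S ∈ I, T.cut (φ S) q * (h S q - h S (T.par q)) := by
    rw [sum_comm (s := univ.erase T.root)]
    exact sum_congr rfl fun S hS => sum_mul_eq' (h0 S hS) _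
  rw [e]
  refine (abs_sum_le_sum_abs _ _).trans (sum_le_sum fun q _ => ?_)
  rw [← Real.sqrt_mul (sum_nonneg fun S hS => div_nonneg (sq_nonneg _) (hF S hS q).le)]
  refine Real.abs_le_sqrt ?_
  have := sum_sq_le_sum_mul_sum_of_sq_le_mul (R := ℝ) I
    (r := fun S => T.cut (φ S) q * (h S q - h S (T.par q)))
    (f := fun S => T.cut (φ S) q ^ 2 / F S q)
    (g := fun S => F S q * (h S q - h S (T.par q)) ^ 2)
    (fun S hS => div_nonneg (sq_nonneg _) (hF S hS q).le)
    (fun S hS => mul_nonneg (hF S hS q).le (sq_nonneg _))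
    (fun S hS => by
      have := (hF S hS q).ne'
      refine le_of_eq ?_
      field_simp)
  exact this

end Fin

end RTree

end Crest.Agent.R302.Tree
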