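import Mathlib
import Crest.Agent.R302.AFCell674
import Crest.Agent.R302.Base151
import Crest.Agent.R302.Facet907
import Crest.Agent.R302.Tree550

/-!
R302 (helper674), block F: the official soft weight on the token lattice.

For a submodular `r` (base polytope `J`), a rooted tree `T` on the tokens `V` with positive
log-concave kernels `f p` on the tree edges `(p, par p)` put
`F g = ∑_{z ∈ J} c z ∏_{p ≠ root} f p ((g - z)(C_p))`, `C_p` = descendants of `p`.

* `viol r x = max_A (x(A) - r(A))`, `hyp_viol`: `a (viol r x)` has the Alexandrov-Fenchel property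
  for every nonnegative antitone log-concave `a`;
* `hyp_tree`: `F` has the Alexandrov-Fenchel property at every lattice point;
* positivity, slopes along the tree edges and second order smoothness of `F`.
-/

set_option autoImplicit false
set_option linter.unusedSectionVars false

namespace Crest.Agent.R302.AFC

open Finset Crest.Agent.R302.Lor

variable {V : Type*} [Fintype V] [DecidableEq V]

/-! ### the violation function -/

/-- violation `max_A (x(A) - r(A))` -/
noncomputable def viol (r : Finset V → ℤ) (x : V → ℤ) : ℤ :=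
  (univ : Finset (Finset V)).sup' ⟨∅, mem_univ _⟩ (fun A => (∑ a ∈ A, x a) - r A)

theorem le_viol (r : Finset V → ℤ) (x : V → ℤ) (A : Finset V) :
    (∑ a ∈ A, x a) - r A ≤ viol r x :=
  Finset.le_sup' (fun A : Finset V => (∑ a ∈ A, x a) - r A) (mem_univ A)

theorem exists_viol (r : Finset V → ℤ) (x : V → ℤ) :
    ∃ A : Finset V, viol r x = (∑ a ∈ A, x a) - r A := by
  obtain ⟨A, _, h⟩ := exists_mem_eq_sup' (⟨∅, mem_univ _⟩ : (univ : Finset (Finset V)).Nonempty)
    (fun A => (∑ a ∈ A, x a) - r A)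
  exact ⟨A, h⟩

theorem viol_nonneg {r : Finset V → ℤ} (hr : r ∅ = 0) (x : V → ℤ) : 0 ≤ viol r x := by
  have := le_viol r x ∅
  simpa [hr] using this

theorem viol_eq_zero_iff {r : Finset V → ℤ} (hr : r ∅ = 0) (x : V → ℤ) :
    viol r x = 0 ↔ ∀ A, ∑ a ∈ A, x a ≤ r A := by
  constructor
  · intro h A
    have := le_viol r x A
    omega
  · intro h
    obtain ⟨A, hA⟩ := exists_viol r x
    have := h A
    have := viol_nonneg hr x
    omega

theorem sum_ev_mem (A : Finset V) (i : V) : ∑ a ∈ A, ev i a = if i ∈ A then 1 else 0 := by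
  unfold ev
  simp [Pi.single_apply, Finset.sum_ite_eq']

/-- the structure of the violation near a point -/
theorem viol_structure {r : Finset V → ℤ}
    (hr : ∀ A B, r (A ∪ B) + r (A ∩ B) ≤ r A + r B) (β : V → ℤ) :
    ∃ (U : Finset V) (R : V → V → Prop), (∀ i j, R i j → R j i) ∧
      (∀ i j k, R i j → R j k → R i k) ∧ (∀ i j, R i j → i ∉ U) ∧
      ∀ i j, viol r (β + ev i + ev j) = viol r β +
        ((if i ∈ U then 1 else 0) + (if j ∈ U then 1 else 0) +
          (open Classical in if R i j then 1 else 0)) := by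
  classical
  set M := viol r β with hM
  set h : Finset V → ℤ := fun A => (∑ a ∈ A, β a) - r A with hh
  have hle : ∀ A, h A ≤ M := fun A => le_viol r β A
  have hsup : ∀ A B, h A + h B ≤ h (A ∪ B) + h (A ∩ B) := by
    intro A B
    have h1 := hr A B
    have h2 : ∑ a ∈ A ∪ B, β a + ∑ a ∈ A ∩ B, β a = ∑ a ∈ A, β a + ∑ a ∈ B, β a :=
      sum_union_inter
    simp only [hh]
    omega
  obtain ⟨A0, hA0⟩ := exists_viol r β
  have hne : (univ.filter fun A : Finset V => h A = M).Nonempty :=
    ⟨A0, by simp only [mem_filter, mem_univ, true_and]; exact hA0.symm⟩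
  set U : Finset V := (univ.filter fun A : Finset V => h A = M).sup' hne id with hU
  have hUM : h U = M := by
    refine Finset.sup'_induction hne id (p := fun A => h A = M) ?_ ?_
    · intro A hA B hB
      have h1 := hsup A B
      have h2 := hle (A ∪ B)
      have h3 := hle (A ∩ B)
      show h (A ∪ B) = M
      omega
    · intro A hA
      exact (mem_filter.1 hA).2
  have hUmax : ∀ A, h A = M → A ⊆ U := by
    intro A hA
    exact Finset.le_sup' (f := id) (mem_filter.2 ⟨mem_univ A, hA⟩)
  set R : V → V → Prop := fun i j => i ∉ U ∧ j ∉ U ∧ ∃ A, i ∈ A ∧ j ∈ A ∧ M - 1 ≤ h A with hR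
  have hval : ∀ i j A, (∑ a ∈ A, (β + ev i + ev j) a) - r A
      = h A + ((if i ∈ A then 1 else 0) + (if j ∈ A then 1 else 0)) := by
    intro i j A
    simp only [Pi.add_apply, Finset.sum_add_distrib, sum_ev_mem, hh]
    ring
  refine ⟨U, R, ?_, ?_, fun i j hij => hij.1, ?_⟩
  · rintro i j ⟨h1, h2, A, h3, h4, h5⟩
    exact ⟨h2, h1, A, h4, h3, h5⟩
  · rintro i j k ⟨h1, h2, A, h3, h4, h5⟩ ⟨_, h7, B, h8, h9, h10⟩
    refine ⟨h1, h7, A ∪ B, mem_union_left _ h3, mem_union_right _ h9, ?_⟩
    have hAB : h (A ∩ B) ≤ M - 1 := by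
      by_contra hcon
      have : h (A ∩ B) = M := le_antisymm (hle _) (by omega)
      exact h2 (hUmax _ this (mem_inter.2 ⟨h4, h8⟩))
    have := hsup A B
    omega
  · intro i j
    obtain ⟨B, hB⟩ := exists_viol r (β + ev i + ev j)
    have hup := le_viol r (β + ev i + ev j)
    rw [hval] at hB
    simp only [hval] at hup
    have hUup := hup U
    rw [hUM] at hUup
    have hBM := hle B
    have hBU : h B = M → B ⊆ U := hUmax B
    by_cases hi : i ∈ U
    · have hRij : ¬ R i j := fun h' => h'.1 hi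
      rw [if_neg hRij]
      by_cases hj : j ∈ U
      · rw [if_pos hi, if_pos hj] at hUup ⊢
        have h1 : (if i ∈ B then (1:ℤ) else 0) ≤ 1 := by split_ifs <;> norm_num
        have h2 : (if j ∈ B then (1:ℤ) else 0) ≤ 1 := by split_ifs <;> norm_num
        omega
      · rw [if_pos hi, if_neg hj] at hUup ⊢
        have h1 : (if i ∈ B then (1:ℤ) else 0) ≤ 1 := by split_ifs <;> norm_num
        by_cases hBM' : h B = M
        · have h2 : j ∉ B := fun h' => hj (hBU hBM' h')
          rw [if_neg h2] at hB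
          omega
        · have h2 : (if j ∈ B then (1:ℤ) else 0) ≤ 1 := by split_ifs <;> norm_num
          omega
    · by_cases hj : j ∈ U
      · have hRij : ¬ R i j := fun h' => h'.2.1 hj
        rw [if_neg hRij]
        rw [if_neg hi, if_pos hj] at hUup ⊢
        have h1 : (if j ∈ B then (1:ℤ) else 0) ≤ 1 := by split_ifs <;> norm_num
        by_cases hBM' : h B = M
        · have h2 : i ∉ B := fun h' => hi (hBU hBM' h')
          rw [if_neg h2] at hB
          omega
        · have h2 : (if i ∈ B then (1:ℤ) else 0) ≤ 1 := by split_ifs <;> norm_num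
          omega
      · rw [if_neg hi, if_neg hj] at hUup ⊢
        by_cases hRij : R i j
        · rw [if_pos hRij]
          obtain ⟨_, _, A, h3, h4, h5⟩ := hRij
          have hA := hup A
          rw [if_pos h3, if_pos h4] at hA
          have h1 : (if i ∈ B then (1:ℤ) else 0) ≤ 1 := by split_ifs <;> norm_num
          have h2 : (if j ∈ B then (1:ℤ) else 0) ≤ 1 := by split_ifs <;> norm_num
          by_cases hBM' : h B = M
          · have h6 : i ∉ B := fun h' => hi (hBU hBM' h')
            have h7 : j ∉ B := fun h' => hj (hBU hBM' h')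
            rw [if_neg h6, if_neg h7] at hB
            omega
          · omega
        · rw [if_neg hRij]
          by_cases hBM' : h B = M
          · have h6 : i ∉ B := fun h' => hi (hBU hBM' h')
            have h7 : j ∉ B := fun h' => hj (hBU hBM' h')
            rw [if_neg h6, if_neg h7] at hB
            omega
          · by_cases hBM2 : h B = M - 1
            · have h8 : ¬ (i ∈ B ∧ j ∈ B) := fun h' => hRij ⟨hi, hj, B, h'.1, h'.2, hBM2.ge⟩
              by_cases h9 : i ∈ B
              · have h10 : j ∉ B := fun h' => h8 ⟨h9, h'⟩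
                rw [if_pos h9, if_neg h10] at hB
                omega
              · rw [if_neg h9] at hB
                have h2 : (if j ∈ B then (1:ℤ) else 0) ≤ 1 := by split_ifs <;> norm_num
                omega
            · have h1 : (if i ∈ B then (1:ℤ) else 0) ≤ 1 := by split_ifs <;> norm_num
              have h2 : (if j ∈ B then (1:ℤ) else 0) ≤ 1 := by split_ifs <;> norm_num
              omega

/-- **base case**: `a (viol r x)` has the Alexandrov-Fenchel property at every lattice point -/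
theorem hyp_viol {r : Finset V → ℤ} (hr : ∀ A B, r (A ∪ B) + r (A ∩ B) ≤ r A + r B)
    {a : ℤ → ℝ} (ha0 : ∀ k, 0 ≤ a k) (ha1 : ∀ k, a (k + 1) ≤ a k)
    (ha2 : ∀ k, a k * a (k + 2) ≤ a (k + 1) ^ 2) : Hyp (fun x => a (viol r x)) := by
  classical
  intro β
  obtain ⟨U, R, hs, ht, hRU, hv⟩ := viol_structure hr β
  set M := viol r β with hM
  rcases (ha0 M).eq_or_lt with h0 | hpos
  · -- everything vanishes
    have h1 : a (M + 1) = 0 := le_antisymm (h0 ▸ ha1 M) (ha0 _)
    have h2 : a (M + 1 + 1) = 0 := le_antisymm (h1 ▸ ha1 (M + 1)) (ha0 _)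
    have : (fun i j => a (viol r (β + ev i + ev j))) = fun _ _ : V => (0 : ℝ) := by
      funext i j
      rw [hv]
      by_cases hi : i ∈ U
      · have hR : ¬ R i j := fun h => hRU i j h hi
        by_cases hj : j ∈ U
        · rw [if_pos hi, if_pos hj, if_neg hR]
          rw [show M + (1 + 1 + 0) = M + 1 + 1 by ring]; exact h2
        · rw [if_pos hi, if_neg hj, if_neg hR]
          rw [show M + (1 + 0 + 0) = M + 1 by ring]; exact h1
      · by_cases hj : j ∈ U
        · have hR : ¬ R i j := fun h => hRU j i (hs _ _ h) hj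
          rw [if_neg hi, if_pos hj, if_neg hR]
          rw [show M + (0 + 1 + 0) = M + 1 by ring]; exact h1
        · rw [if_neg hi, if_neg hj]
          by_cases hR : R i j
          · rw [if_pos hR, show M + (0 + 0 + 1) = M + 1 by ring]; exact h1
          · rw [if_neg hR, show M + (0 + 0 + 0) = M by ring]; exact h0.symm
    rw [this]
    exact AF.zero
  · set a0 := a M with ha0'
    set a1 := a (M + 1) with ha1'
    set a2 := a (M + 2) with ha2'
    set ω : V → ℝ := fun i => if i ∈ U then a1 / a0 else 1 with hω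
    set χ : V → ℝ := fun i => if i ∈ U then 1 else 0 with hχ
    have hent : ∀ i j, a (viol r (β + ev i + ev j)) = a0 * (ω i * ω j)
        - (a1 ^ 2 / a0 - a2) * (χ i * χ j) - (a0 - a1) * (if R i j then 1 else 0) := by
      intro i j
      rw [hv]
      by_cases hi : i ∈ U
      · have hR : ¬ R i j := fun h => hRU i j h hi
        by_cases hj : j ∈ U
        · simp only [hω, hχ, if_pos hi, if_pos hj, if_neg hR]
          rw [show M + (1 + 1 + 0) = M + 2 by ring, ← ha2']
          field_simp
          ring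
        · simp only [hω, hχ, if_pos hi, if_neg hj, if_neg hR]
          rw [show M + (1 + 0 + 0) = M + 1 by ring, ← ha1']
          field_simp
          ring
      · by_cases hj : j ∈ U
        · have hR : ¬ R i j := fun h => hRU j i (hs _ _ h) hj
          simp only [hω, hχ, if_neg hi, if_pos hj, if_neg hR]
          rw [show M + (0 + 1 + 0) = M + 1 by ring, ← ha1']
          field_simp
          ring
        · simp only [hω, hχ, if_neg hi, if_neg hj]
          by_cases hR : R i j
          · simp only [if_pos hR]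
            rw [show M + (0 + 0 + 1) = M + 1 by ring, ← ha1']
            ring
          · simp only [if_neg hR]
            rw [show M + (0 + 0 + 0) = M by ring, ← ha0']
            ring
    refine AF.of_hyper (fun i j => by rw [add_right_comm]) (fun x => ∑ i, x i * ω i) ?_ ?_
    · intro x y t
      simp only [Pi.sub_apply, Pi.smul_apply, smul_eq_mul, sub_mul, Finset.sum_sub_distrib,
        Finset.mul_sum, mul_assoc]
    · intro x hx
      have hQ : Q (fun u v => a (viol r (β + ev u + ev v))) x x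
          = a0 * (∑ i, x i * ω i) ^ 2 - (a1 ^ 2 / a0 - a2) * (∑ i, x i * χ i) ^ 2
            - (a0 - a1) * ∑ i, ∑ j, (if R i j then x i * x j else 0) := by
        have e1 : (∑ i, x i * ω i) ^ 2 = ∑ i, ∑ j, (x i * ω i) * (x j * ω j) := by
          rw [sq, Finset.sum_mul_sum]
        have e2 : (∑ i, x i * χ i) ^ 2 = ∑ i, ∑ j, (x i * χ i) * (x j * χ j) := by
          rw [sq, Finset.sum_mul_sum]
        rw [e1, e2]
        unfold Q
        simp only [hent]
        rw [Finset.mul_sum, Finset.mul_sum,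
          Finset.mul_sum, ← Finset.sum_sub_distrib, ← Finset.sum_sub_distrib]
        refine Finset.sum_congr rfl fun i _ => ?_
        rw [Finset.mul_sum, Finset.mul_sum, Finset.mul_sum, ← Finset.sum_sub_distrib,
          ← Finset.sum_sub_distrib]
        refine Finset.sum_congr rfl fun j _ => ?_
        split_ifs <;> ring
      rw [hQ, hx]
      have h1 : 0 ≤ a1 ^ 2 / a0 - a2 := by
        rw [sub_nonneg, le_div_iff₀ hpos, mul_comm]
        exact ha2 M
      have h2 : 0 ≤ a0 - a1 := sub_nonneg.2 (ha1 M)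
      have h3 := per_nonneg R hs ht x
      have h4 := mul_nonneg h1 (sq_nonneg (∑ i, x i * χ i))
      have h5 := mul_nonneg h2 h3
      have h6 : (∑ i, ∑ j, (if R i j then x i * x j else 0))
          = ∑ u, ∑ v, (open Classical in if R u v then x u * x v else 0) := rfl
      rw [h6]
      linarith

/-- tilts preserve the Alexandrov-Fenchel property -/
theorem Hyp.tilt {c : (V → ℤ) → ℝ} (hc : Hyp c) (l : V → ℝ) :
    Hyp (fun x => Real.exp (∑ a, l a * x a) * c x) := by
  intro β
  refine (hc β).pull (k := Real.exp (∑ a, l a * β a)) (Real.exp_pos _).le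
    (fun x i => Real.exp (l i) * x i) ?_
  intro x y
  unfold Q
  rw [Finset.mul_sum]
  refine Finset.sum_congr rfl fun i _ => ?_
  rw [Finset.mul_sum]
  refine Finset.sum_congr rfl fun j _ => ?_
  have e : ∑ a, l a * ((β + ev i + ev j : V → ℤ) a : ℝ) = (∑ a, l a * β a) + l i + l j := by
    simp only [Pi.add_apply, Int.cast_add, mul_add, Finset.sum_add_distrib]
    congr 1
    · congr 1
      rw [Finset.sum_eq_single i]
      · simp [ev]
      · intro b _ hb; simp [ev, Pi.single_eq_of_ne hb]
      · intro h; exact absurd (mem_univ _) h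
    · rw [Finset.sum_eq_single j]
      · simp [ev]
      · intro b _ hb; simp [ev, Pi.single_eq_of_ne hb]
      · intro h; exact absurd (mem_univ _) h
  show x i * y j * (Real.exp (∑ a, l a * ((β + ev i + ev j : V → ℤ) a : ℝ))
      * c (β + ev i + ev j)) = Real.exp (∑ a, l a * β a) *
      (Real.exp (l i) * x i * (Real.exp (l j) * y j) * c (β + ev i + ev j))
  rw [e, Real.exp_add, Real.exp_add]
  ring

/-! ### iterated windows -/

theorem hyp_win {c : (V → ℤ) → ℝ} (hc : ∀ β, 0 < c β) (hH : Hyp c) (u v : V) {f : ℤ → ℝ}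
    (hf : ∀ s, 0 < f s) (hlc : ∀ s, f (s - 1) * f (s + 1) ≤ f s ^ 2) (a b : ℤ) :
    Hyp (win f u v a b c) :=
  af_win (fun β => (hc β).le) hH (fun _ h => absurd (h u) (hc _).ne') hf hlc a b

theorem win_pos {c : (V → ℤ) → ℝ} (hc : ∀ β, 0 < c β) (u v : V) {f : ℤ → ℝ}
    (hf : ∀ s, 0 < f s) {a b : ℤ} (hab : a ≤ b) (γ : V → ℤ) : 0 < win f u v a b c γ :=
  Finset.sum_pos (fun s _ => mul_pos (hf s) (hc _)) ⟨a, by rw [mem_Icc]; exact ⟨le_rfl, hab⟩⟩

open Crest.Agent.R302.Tree (RTree)
open Crest.Agent.R302.Tree.RTree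

/-- iterated windows along the tree edges `(p, par p)`, `p ∈ ps` -/
noncomputable def wins (T : RTree V) (f : V → ℤ → ℝ) (L : ℕ) :
    List V → ((V → ℤ) → ℝ) → (V → ℤ) → ℝ
  | [], c => c
  | p :: ps, c => win (f p) p (T.par p) (-(L : ℤ)) L (wins T f L ps c)

theorem wins_pos {T : RTree V} {f : V → ℤ → ℝ} (hf : ∀ p s, 0 < f p s) (L : ℕ) {c : (V → ℤ) → ℝ}
    (hc : ∀ β, 0 < c β) : ∀ (ps : List V) (γ : V → ℤ), 0 < wins T f L ps c γ
  | [], γ => hc γ
  | p :: ps, γ => win_pos (wins_pos hf L hc ps) p (T.par p) (hf p) (by omega) γ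

theorem wins_hyp {T : RTree V} {f : V → ℤ → ℝ} (hf : ∀ p s, 0 < f p s)
    (hlc : ∀ p s, f p (s - 1) * f p (s + 1) ≤ f p s ^ 2) (L : ℕ) {c : (V → ℤ) → ℝ}
    (hc : ∀ β, 0 < c β) (hH : Hyp c) : ∀ ps : List V, Hyp (wins T f L ps c)
  | [] => hH
  | p :: ps => hyp_win (wins_pos hf L hc ps) (wins_hyp hf hlc L hc hH ps) p (T.par p) (hf p)
      (hlc p) _ _

theorem wins_lim {T : RTree V} {f : V → ℤ → ℝ} (L : ℕ) {c : ℕ → (V → ℤ) → ℝ}
    {c0 : (V → ℤ) → ℝ} (hlim : ∀ x, Filter.Tendsto (fun n => c n x) Filter.atTop (nhds (c0 x))) :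
    ∀ (ps : List V) (γ : V → ℤ), Filter.Tendsto (fun n => wins T f L ps (c n) γ) Filter.atTop
      (nhds (wins T f L ps c0 γ))
  | [], γ => hlim γ
  | p :: ps, γ => by
      unfold wins win
      exact tendsto_finsetSum _ fun s _ => (wins_lim L hlim ps _).const_mul _

/-- integer cut sums -/
noncomputable def icut (T : RTree V) (x : V → ℤ) (p : V) : ℤ := ∑ q ∈ T.desc p, x q

theorem icut_add (T : RTree V) (x y : V → ℤ) (p : V) :
    icut T (x + y) p = icut T x p + icut T y p := by
  simp only [icut, Pi.add_apply, Finset.sum_add_distrib]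

theorem icut_sub (T : RTree V) (x y : V → ℤ) (p : V) :
    icut T (x - y) p = icut T x p - icut T y p := by
  simp only [icut, Pi.sub_apply, Finset.sum_sub_distrib]

theorem icut_smul (T : RTree V) (s : ℤ) (x : V → ℤ) (p : V) :
    icut T (s • x) p = s * icut T x p := by
  simp only [icut, Pi.smul_apply, smul_eq_mul, Finset.mul_sum]

theorem icut_ev (T : RTree V) (a p : V) : icut T (ev a) p = if a ∈ T.desc p then 1 else 0 :=
  sum_ev_mem _ _

theorem icut_root (T : RTree V) (x : V → ℤ) : icut T x T.root = ∑ a, x a := by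
  rw [icut, desc_root_eq]

theorem par_mem_iff {T : RTree V} {p q : V} (hp : p ≠ T.root) (hqp : p ≠ q) :
    T.par p ∈ T.desc q ↔ p ∈ T.desc q :=
  ⟨mem_desc_of_par hp, fun h => mem_desc_par h hqp⟩

theorem par_notMem {T : RTree V} {p : V} (hp : p ≠ T.root) : T.par p ∉ T.desc p :=
  fun h => ne_of_par_mem hp h rfl

theorem root_notMem {T : RTree V} {p : V} (hp : p ≠ T.root) : T.root ∉ T.desc p :=
  fun h => mem_desc_ne_root h (Ne.symm hp) rfl

theorem icut_dir {T : RTree V} {p : V} (hp : p ≠ T.root) (q : V) :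
    icut T (dir p (T.par p)) q = if q = p then -1 else 0 := by
  unfold dir
  rw [icut_sub, icut_ev, icut_ev]
  by_cases hqp : q = p
  · subst hqp
    rw [if_pos rfl, if_neg (par_notMem hp), if_pos (self_mem_desc q)]
    norm_num
  · rw [if_neg hqp]
    by_cases h : p ∈ T.desc q
    · rw [if_pos h, if_pos ((par_mem_iff hp (Ne.symm hqp)).2 h), sub_self]
    · rw [if_neg h, if_neg (fun h' => h ((par_mem_iff hp (Ne.symm hqp)).1 h')), sub_self]

theorem sum_dir (u v : V) : ∑ a, dir u v a = 0 := by
  unfold dir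
  simp only [Pi.sub_apply, Finset.sum_sub_distrib, Lor.sum_ev, sub_self]

theorem eq_zero_of_icut {T : RTree V} {x : V → ℤ} (h0 : ∑ a, x a = 0)
    (h : ∀ q, q ≠ T.root → icut T x q = 0) : x = 0 := by
  funext p
  have hc : ∀ q, T.cut (fun a => (x a : ℝ)) q = 0 := by
    intro q
    have e : T.cut (fun a => (x a : ℝ)) q = ((icut T x q : ℤ) : ℝ) := by
      unfold Crest.Agent.R302.Tree.RTree.cut icut
      push_cast
      rfl
    rw [e]
    by_cases hq : q = T.root
    · rw [hq, icut_root, h0]; norm_num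
    · rw [h q hq]; norm_num
  have := eq_cut_sub (T := T) (fun a => (x a : ℝ)) p
  simp only [hc, Finset.sum_const_zero, sub_zero] at this
  exact_mod_cast this

/-- the soft weight -/
noncomputable def FF (T : RTree V) (f : V → ℤ → ℝ) (J : Finset (V → ℤ)) (c : (V → ℤ) → ℝ)
    (g : V → ℤ) : ℝ :=
  ∑ z ∈ J, c z * ∏ q ∈ univ.erase T.root, f q (icut T (g - z) q)

/-- intermediate kernels -/
noncomputable def kk (f : V → ℤ → ℝ) (L : ℕ) (ps : List V) (q : V) (t : ℤ) : ℝ :=
  if q ∈ ps then (if |t| ≤ (L : ℤ) then f q t else 0) else (if t = 0 then 1 else 0)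

theorem wins_eq {T : RTree V} {f : V → ℤ → ℝ} (L : ℕ) {c0 : (V → ℤ) → ℝ} {R : ℤ}
    {J : Finset (V → ℤ)} (hJ : ∀ z ∈ J, ∑ a, z a = R)
    (hc0 : ∀ x, ∑ a, x a = R → x ∉ J → c0 x = 0) :
    ∀ (ps : List V), ps.Nodup → (∀ p ∈ ps, p ≠ T.root) → ∀ g : V → ℤ, ∑ a, g a = R →
      wins T f L ps c0 g = ∑ z ∈ J, c0 z * ∏ q ∈ univ.erase T.root, kk f L ps q (icut T (g - z) q)
  | [], _, _, g, hg => by
      have hkk : ∀ q t, kk f L [] q t = if t = 0 then 1 else 0 := fun q t => by simp [kk]
      simp only [hkk]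
      show c0 g = _
      by_cases hgJ : g ∈ J
      · rw [Finset.sum_eq_single g]
        · rw [Finset.prod_eq_one, mul_one]
          intro q _
          rw [sub_self, if_pos (by simp [icut])]
        · intro z hz hzg
          have : ∃ q, q ≠ T.root ∧ icut T (g - z) q ≠ 0 := by
            by_contra hcon
            push Not at hcon
            have h1 : g - z = 0 := eq_zero_of_icut (T := T)
              (by simp only [Pi.sub_apply, Finset.sum_sub_distrib, hg, hJ z hz, sub_self]) hcon
            exact hzg (sub_eq_zero.1 h1).symm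
          obtain ⟨q, hq1, hq2⟩ := this
          rw [Finset.prod_eq_zero (mem_erase.2 ⟨hq1, mem_univ q⟩) (if_neg hq2), mul_zero]
        · intro h; exact absurd hgJ h
      · rw [hc0 g hg hgJ]
        symm
        apply Finset.sum_eq_zero
        intro z hz
        have : ∃ q, q ≠ T.root ∧ icut T (g - z) q ≠ 0 := by
          by_contra hcon
          push Not at hcon
          have h1 : g - z = 0 := eq_zero_of_icut (T := T)
            (by simp only [Pi.sub_apply, Finset.sum_sub_distrib, hg, hJ z hz, sub_self]) hcon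
          exact hgJ ((sub_eq_zero.1 h1) ▸ hz)
        obtain ⟨q, hq1, hq2⟩ := this
        rw [Finset.prod_eq_zero (mem_erase.2 ⟨hq1, mem_univ q⟩) (if_neg hq2), mul_zero]
  | p :: ps, hnd, hroot, g, hg => by
      have hp : p ≠ T.root := hroot p (List.mem_cons_self ..)
      have hpps : p ∉ ps := (List.nodup_cons.1 hnd).1
      have hpP : p ∈ univ.erase T.root := mem_erase.2 ⟨hp, mem_univ p⟩
      have hdeg : ∀ s : ℤ, ∑ a, (g + s • dir p (T.par p)) a = R := by
        intro s
        simp only [Pi.add_apply, Pi.smul_apply, smul_eq_mul, Finset.sum_add_distrib,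
          ← Finset.mul_sum, sum_dir, mul_zero, add_zero, hg]
      have ih := fun s : ℤ => wins_eq (f := f) L hJ hc0 ps (List.nodup_cons.1 hnd).2
        (fun q hq => hroot q (List.mem_cons_of_mem _ hq)) _ (hdeg s)
      have hcut : ∀ (s : ℤ) (z : V → ℤ) (q : V),
          icut T (g + s • dir p (T.par p) - z) q = icut T (g - z) q - (if q = p then s else 0) := by
        intro s z q
        rw [show g + s • dir p (T.par p) - z = (g - z) + s • dir p (T.par p) by abel,
          icut_add, icut_smul, icut_dir hp]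
        split_ifs <;> ring
      have hprod : ∀ (s : ℤ) (z : V → ℤ),
          ∏ q ∈ univ.erase T.root, kk f L ps q (icut T (g + s • dir p (T.par p) - z) q)
            = (if icut T (g - z) p = s then 1 else 0)
              * ∏ q ∈ (univ.erase T.root).erase p, kk f L ps q (icut T (g - z) q) := by
        intro s z
        rw [← Finset.mul_prod_erase _ _ hpP]
        congr 1
        · rw [hcut, if_pos rfl, kk, if_neg hpps]
          by_cases h : icut T (g - z) p = s
          · rw [if_pos h, if_pos (by omega)]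
          · rw [if_neg h, if_neg (by omega)]
        · refine Finset.prod_congr rfl fun q hq => ?_
          rw [hcut, if_neg (mem_erase.1 hq).1, sub_zero]
      show ∑ s ∈ Icc (-(L : ℤ)) L, f p s * wins T f L ps c0 (g + s • dir p (T.par p)) = _
      calc ∑ s ∈ Icc (-(L : ℤ)) L, f p s * wins T f L ps c0 (g + s • dir p (T.par p))
          = ∑ s ∈ Icc (-(L : ℤ)) L, ∑ z ∈ J, c0 z *
              ((if icut T (g - z) p = s then f p s else 0)
              * ∏ q ∈ (univ.erase T.root).erase p, kk f L ps q (icut T (g - z) q)) := by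
            refine Finset.sum_congr rfl fun s _ => ?_
            rw [ih s, Finset.mul_sum]
            refine Finset.sum_congr rfl fun z _ => ?_
            rw [hprod]
            split_ifs <;> ring
        _ = ∑ z ∈ J, ∑ s ∈ Icc (-(L : ℤ)) L, c0 z *
              ((if icut T (g - z) p = s then f p s else 0)
              * ∏ q ∈ (univ.erase T.root).erase p, kk f L ps q (icut T (g - z) q)) :=
            Finset.sum_comm
        _ = _ := by
            refine Finset.sum_congr rfl fun z _ => ?_
            rw [← Finset.mul_sum, ← Finset.sum_mul, ← Finset.mul_prod_erase _ _ hpP]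
            congr 1
            congr 1
            · rw [Finset.sum_ite_eq, kk, if_pos (List.mem_cons_self ..)]
              by_cases h : |icut T (g - z) p| ≤ (L : ℤ)
              · rw [if_pos h, if_pos (mem_Icc.2 (abs_le.1 h))]
              · rw [if_neg h, if_neg (fun h' => h (abs_le.2 (mem_Icc.1 h')))]
            · refine Finset.prod_congr rfl fun q hq => ?_
              have hqp := (mem_erase.1 hq).1
              unfold kk
              by_cases hq' : q ∈ ps
              · rw [if_pos hq', if_pos (List.mem_cons_of_mem _ hq')]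
              · rw [if_neg hq', if_neg (fun h => (List.mem_cons.1 h).elim hqp hq')]

theorem FF_eq_wins_lim {T : RTree V} {f : V → ℤ → ℝ} {c0 : (V → ℤ) → ℝ} {R : ℤ}
    {J : Finset (V → ℤ)} (hJ : ∀ z ∈ J, ∑ a, z a = R)
    (hc0 : ∀ x, ∑ a, x a = R → x ∉ J → c0 x = 0) {g : V → ℤ} (hg : ∑ a, g a = R) :
    Filter.Tendsto (fun L : ℕ => wins T f L ((univ.erase T.root).toList) c0 g) Filter.atTop
      (nhds (FF T f J c0 g)) := by
  have h1 : ∀ L : ℕ, wins T f L ((univ.erase T.root).toList) c0 g
      = ∑ z ∈ J, c0 z * ∏ q ∈ univ.erase T.root,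
          (if |icut T (g - z) q| ≤ (L : ℤ) then f q (icut T (g - z) q) else 0) := by
    intro L
    rw [wins_eq (f := f) L hJ hc0 _ (Finset.nodup_toList _)
      (fun p hp => (mem_erase.1 (Finset.mem_toList.1 hp)).1) g hg]
    refine Finset.sum_congr rfl fun z _ => ?_
    congr 1
    refine Finset.prod_congr rfl fun q hq => ?_
    rw [kk, if_pos (Finset.mem_toList.2 hq)]
  simp only [h1]
  unfold FF
  refine tendsto_finsetSum _ fun z _ => Filter.Tendsto.const_mul _ ?_
  refine tendsto_finsetProd _ fun q _ => ?_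
  refine tendsto_const_nhds.congr' ?_
  filter_upwards [Filter.eventually_ge_atTop (icut T (g - z) q).natAbs] with L hL
  rw [if_pos]
  rw [Int.abs_eq_natAbs]
  exact_mod_cast hL

/-- the weight does not depend on the content of the root -/
theorem FF_root {T : RTree V} {f : V → ℤ → ℝ} {J : Finset (V → ℤ)} {c : (V → ℤ) → ℝ}
    (g : V → ℤ) (s : ℤ) : FF T f J c (g + s • ev T.root) = FF T f J c g := by
  unfold FF
  refine Finset.sum_congr rfl fun z _ => ?_
  congr 1
  refine Finset.prod_congr rfl fun q hq => ?_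
  rw [show g + s • ev T.root - z = (g - z) + s • ev T.root by abel, icut_add, icut_smul, icut_ev,
    if_neg (root_notMem (mem_erase.1 hq).1), mul_zero, add_zero]

/-- **the soft weight has the Alexandrov-Fenchel property at every lattice point** -/
theorem hyp_tree {T : RTree V} {f : V → ℤ → ℝ} (hf : ∀ p s, 0 < f p s)
    (hlc : ∀ p s, f p (s - 1) * f p (s + 1) ≤ f p s ^ 2) {c : ℕ → (V → ℤ) → ℝ}
    (hc : ∀ n β, 0 < c n β) (hH : ∀ n, Hyp (c n)) {c0 : (V → ℤ) → ℝ}
    (hlim : ∀ x, Filter.Tendsto (fun n => c n x) Filter.atTop (nhds (c0 x)))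
    {R : ℤ} {J : Finset (V → ℤ)} (hJ : ∀ z ∈ J, ∑ a, z a = R)
    (hc0 : ∀ x, ∑ a, x a = R → x ∉ J → c0 x = 0) : Hyp (FF T f J c0) := by
  have h1 : ∀ (L : ℕ) (ps : List V), Hyp (wins T f L ps c0) := by
    intro L ps β
    exact AF.lim (F := Filter.atTop) (fun u v => wins_lim L hlim ps _)
      (Filter.Eventually.of_forall fun n => wins_hyp hf hlc L (hc n) (hH n) ps β)
  intro β
  -- correct the degree at the root
  set β' : V → ℤ := β + (R - 2 - ∑ a, β a) • ev T.root with hβ'
  have hdeg : ∀ u v : V, ∑ a, (β' + ev u + ev v : V → ℤ) a = R := by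
    intro u v
    simp only [hβ', Pi.add_apply, Pi.smul_apply, smul_eq_mul, Finset.sum_add_distrib,
      ← Finset.mul_sum, Lor.sum_ev]
    ring
  have h2 : AF (fun u v => FF T f J c0 (β' + ev u + ev v)) :=
    AF.lim (F := Filter.atTop) (fun u v => FF_eq_wins_lim hJ hc0 (hdeg u v))
      (Filter.Eventually.of_forall fun L => h1 L _ β')
  have h3 : (fun u v => FF T f J c0 (β + ev u + ev v))
      = fun u v => FF T f J c0 (β' + ev u + ev v) := by
    funext u v
    rw [show β' + ev u + ev v = (β + ev u + ev v) + (R - 2 - ∑ a, β a) • ev T.root by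
      rw [hβ']; abel, FF_root]
  rw [h3]
  exact h2

/-! ### the approximants -/

/-- positive antitone log-concave approximants of `a` -/
structure Approx (a : ℤ → ℝ) (an : ℕ → ℤ → ℝ) : Prop where
  pos : ∀ n k, 0 < an n k
  anti : ∀ n k, an n (k + 1) ≤ an n k
  lc : ∀ n k, an n k * an n (k + 2) ≤ an n (k + 1) ^ 2
  lim : ∀ k, 0 ≤ k → Filter.Tendsto (fun n => an n k) Filter.atTop (nhds (a k))

/-- the indicator of `0` -/
theorem approx_indicator : Approx (fun k => if k = 0 then 1 else 0)
    (fun n k => ((1 : ℝ) / (n + 1)) ^ k) := by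
  have hp : ∀ n : ℕ, (0 : ℝ) < 1 / (n + 1) := fun n => by positivity
  have h1 : ∀ n : ℕ, (1 : ℝ) / (n + 1) ≤ 1 := fun n => by
    rw [div_le_one (by positivity)]
    have : (0 : ℝ) ≤ n := Nat.cast_nonneg n
    linarith
  refine ⟨fun n k => zpow_pos (hp n) k, ?_, ?_, ?_⟩
  · intro n k
    rw [zpow_add₀ (hp n).ne', zpow_one]
    exact mul_le_of_le_one_right (zpow_pos (hp n) k).le (h1 n)
  · intro n k
    rw [zpow_add₀ (hp n).ne', zpow_add₀ (hp n).ne', zpow_one]
    refine le_of_eq ?_
    rw [zpow_ofNat]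
    ring
  · intro k hk
    obtain ⟨m, rfl⟩ : ∃ m : ℕ, k = m := ⟨k.toNat, by omega⟩
    simp only [zpow_natCast, Nat.cast_eq_zero]
    have h2 : Filter.Tendsto (fun n : ℕ => (1 : ℝ) / (n + 1)) Filter.atTop (nhds 0) :=
      tendsto_one_div_add_atTop_nhds_zero_nat
    rcases Nat.eq_zero_or_pos m with h0 | hm
    · subst h0
      simp
    · rw [if_neg (by exact_mod_cast hm.ne')]
      have := h2.pow m
      rwa [zero_pow hm.ne'] at this

/-- **official form**: base polytope of a submodular function, weight `e^{⟨l,z⟩} a(viol z)` -/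
theorem hyp_FF {T : RTree V} {f : V → ℤ → ℝ} (hf : ∀ p s, 0 < f p s)
    (hlc : ∀ p s, f p (s - 1) * f p (s + 1) ≤ f p s ^ 2) {r : Finset V → ℤ} {R : ℤ}
    (hr : Facet.SubM r R) (l : V → ℝ) {a : ℤ → ℝ} {an : ℕ → ℤ → ℝ} (ha : Approx a an)
    {J : Finset (V → ℤ)} (hJ : ∀ z ∈ J, ∑ i, z i = R)
    (hJ' : ∀ z, ∑ i, z i = R → a (viol r z) ≠ 0 → z ∈ J) :
    Hyp (FF T f J (fun z => Real.exp (∑ i, l i * z i) * a (viol r z))) := by
  refine hyp_tree hf hlc
    (c := fun n z => Real.exp (∑ i, l i * z i) * an n (viol r z)) ?_ ?_ ?_ hJ ?_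
  · intro n β
    exact mul_pos (Real.exp_pos _) (ha.pos n _)
  · intro n
    exact (hyp_viol hr.sub (fun k => (ha.pos n k).le) (ha.anti n) (ha.lc n)).tilt l
  · intro x
    exact (ha.lim _ (viol_nonneg hr.empty x)).const_mul _
  · intro x hx hxJ
    have : a (viol r x) = 0 := by
      by_contra h
      exact hxJ (hJ' x hx h)
    simp only [this, mul_zero]

/-- the plain case: `J` = integer points of the base polytope, tilt `e^{⟨l,z⟩}` -/
theorem hyp_FF_indicator {T : RTree V} {f : V → ℤ → ℝ} (hf : ∀ p s, 0 < f p s)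
    (hlc : ∀ p s, f p (s - 1) * f p (s + 1) ≤ f p s ^ 2) {r : Finset V → ℤ} {R : ℤ}
    (hr : Facet.SubM r R) (l : V → ℝ) {J : Finset (V → ℤ)} (hJ : ∀ z, z ∈ J ↔ Facet.MemJ r R z) :
    Hyp (FF T f J (fun z => Real.exp (∑ i, l i * z i))) := by
  have h := hyp_FF (T := T) hf hlc hr l approx_indicator (J := J)
    (fun z hz => ((hJ z).1 hz).2) (fun z hz h => by
      rw [hJ]
      refine ⟨?_, hz⟩
      rw [← viol_eq_zero_iff hr.empty]
      by_contra hcon
      simp only [if_neg hcon, ne_eq, not_true_eq_false] at h)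
  have e : FF T f J (fun z => Real.exp (∑ i, l i * z i))
      = FF T f J (fun z => Real.exp (∑ i, l i * z i) *
        (if viol r z = 0 then 1 else 0)) := by
    funext g
    unfold FF
    refine Finset.sum_congr rfl fun z hz => ?_
    have := (viol_eq_zero_iff hr.empty z).2 ((hJ z).1 hz).1
    simp only [if_pos this, mul_one]
  rw [e]
  exact h

/-! ### positivity, slopes, second order smoothness -/

section Smooth

variable {T : RTree V} {f : V → ℤ → ℝ} {J : Finset (V → ℤ)} {c : (V → ℤ) → ℝ}

theorem FF_pos (hf : ∀ p s, 0 < f p s) (hc : ∀ z ∈ J, 0 < c z) (hJ : J.Nonempty) (g : V → ℤ) :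
    0 < FF T f J c g :=
  Finset.sum_pos (fun z hz => mul_pos (hc z hz) (Finset.prod_pos fun q _ => hf q _)) hJ

/-- one term of the sum is a lower bound -/
theorem le_FF (hf : ∀ p s, 0 < f p s) (hc : ∀ z ∈ J, 0 ≤ c z) {z : V → ℤ} (hz : z ∈ J)
    (g : V → ℤ) : c z * ∏ q ∈ univ.erase T.root, f q (icut T (g - z) q) ≤ FF T f J c g :=
  Finset.single_le_sum (f := fun z => c z * ∏ q ∈ univ.erase T.root, f q (icut T (g - z) q))
    (fun z hz => mul_nonneg (hc z hz) (Finset.prod_nonneg fun q _ => (hf q _).le)) hz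

/-- moving along the tree edge `(p, par p)` changes only one kernel -/
theorem FF_line {p : V} (hp : p ≠ T.root) (g : V → ℤ) (s : ℤ) :
    FF T f J c (g + s • (ev p - ev (T.par p))) = ∑ z ∈ J, c z *
      (f p (icut T (g - z) p + s) * ∏ q ∈ (univ.erase T.root).erase p, f q (icut T (g - z) q)) := by
  unfold FF
  refine Finset.sum_congr rfl fun z _ => ?_
  have hpP : p ∈ univ.erase T.root := mem_erase.2 ⟨hp, mem_univ p⟩
  have hcut : ∀ q : V, icut T (g + s • (ev p - ev (T.par p)) - z) q
      = icut T (g - z) q + (if q = p then s else 0) := by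
    intro q
    have e : g + s • (ev p - ev (T.par p)) - z = (g - z) + (-s) • dir p (T.par p) := by
      unfold dir
      rw [neg_smul, ← smul_neg, neg_sub]
      abel
    rw [e, icut_add, icut_smul, icut_dir hp]
    split_ifs <;> ring
  rw [← Finset.mul_prod_erase _ _ hpP, hcut, if_pos rfl]
  congr 2
  refine Finset.prod_congr rfl fun q hq => ?_
  rw [hcut, if_neg (mem_erase.1 hq).1, add_zero]

theorem FF_line_zero {p : V} (hp : p ≠ T.root) (g : V → ℤ) :
    FF T f J c g = ∑ z ∈ J, c z *
      (f p (icut T (g - z) p) * ∏ q ∈ (univ.erase T.root).erase p, f q (icut T (g - z) q)) := by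
  have := FF_line (f := f) (J := J) (c := c) hp g 0
  simpa using this

/-- termwise comparison along a tree edge -/
theorem FF_line_le (hf : ∀ p s, 0 < f p s) (hc : ∀ z ∈ J, 0 ≤ c z) {p : V} (hp : p ≠ T.root)
    {B : ℝ} {s t : ℤ} (h : ∀ k, f p (k + s) ≤ B * f p (k + t)) (g : V → ℤ) :
    FF T f J c (g + s • (ev p - ev (T.par p))) ≤ B * FF T f J c (g + t • (ev p - ev (T.par p))) := by
  rw [FF_line hp, FF_line hp, Finset.mul_sum]
  refine Finset.sum_le_sum fun z hz => ?_
  have h1 : 0 ≤ ∏ q ∈ (univ.erase T.root).erase p, f q (icut T (g - z) q) :=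
    Finset.prod_nonneg fun q _ => (hf q _).le
  calc c z * (f p (icut T (g - z) p + s) * ∏ q ∈ (univ.erase T.root).erase p, f q (icut T (g - z) q))
      ≤ c z * ((B * f p (icut T (g - z) p + t)) *
        ∏ q ∈ (univ.erase T.root).erase p, f q (icut T (g - z) q)) :=
        mul_le_mul_of_nonneg_left (mul_le_mul_of_nonneg_right (h _) h1) (hc z hz)
    _ = _ := by ring

/-- slope, up -/
theorem FF_slope_up (hf : ∀ p s, 0 < f p s) (hc : ∀ z ∈ J, 0 ≤ c z) {p : V} (hp : p ≠ T.root)
    {B : ℝ} (h : ∀ k, f p (k + 1) ≤ B * f p k) (g : V → ℤ) :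
    FF T f J c (g + ev p) ≤ B * FF T f J c (g + ev (T.par p)) := by
  have := FF_line_le (s := 1) (t := 0) hf hc hp (B := B) (by simpa using h) (g + ev (T.par p))
  rw [one_smul, zero_smul, add_zero] at this
  rwa [show g + ev (T.par p) + (ev p - ev (T.par p)) = g + ev p by abel] at this

/-- slope, down -/
theorem FF_slope_down (hf : ∀ p s, 0 < f p s) (hc : ∀ z ∈ J, 0 ≤ c z) {p : V} (hp : p ≠ T.root)
    {B : ℝ} (h : ∀ k, f p k ≤ B * f p (k + 1)) (g : V → ℤ) :
    FF T f J c (g + ev (T.par p)) ≤ B * FF T f J c (g + ev p) := by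
  have := FF_line_le (s := 0) (t := 1) hf hc hp (B := B) (by simpa using h) (g + ev (T.par p))
  rw [one_smul, zero_smul, add_zero] at this
  rwa [show g + ev (T.par p) + (ev p - ev (T.par p)) = g + ev p by abel] at this

/-- second order smoothness along a tree edge -/
theorem FF_second (hf : ∀ p s, 0 < f p s) (hc : ∀ z ∈ J, 0 ≤ c z) {p : V} (hp : p ≠ T.root)
    {C : ℝ} (h : ∀ k, |f p (k + 2) - 2 * f p (k + 1) + f p k| ≤ C * f p (k + 2)) (g : V → ℤ) :
    |FF T f J c (g + ev p + ev p) - 2 * FF T f J c (g + ev p + ev (T.par p))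
      + FF T f J c (g + ev (T.par p) + ev (T.par p))| ≤ C * FF T f J c (g + ev p + ev p) := by
  set g0 : V → ℤ := g + ev (T.par p) + ev (T.par p) with hg0
  have e2 : g + ev p + ev p = g0 + (2 : ℤ) • (ev p - ev (T.par p)) := by
    rw [hg0, two_smul]; abel
  have e1 : g + ev p + ev (T.par p) = g0 + (1 : ℤ) • (ev p - ev (T.par p)) := by
    rw [hg0, one_smul]; abel
  rw [e1, e2, FF_line hp, FF_line hp, FF_line_zero hp g0]
  have h0 : ∀ z : V → ℤ, 0 ≤ ∏ q ∈ (univ.erase T.root).erase p, f q (icut T (g0 - z) q) := fun z =>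
    Finset.prod_nonneg fun q _ => (hf q _).le
  rw [Finset.mul_sum, ← Finset.sum_sub_distrib, ← Finset.sum_add_distrib, Finset.mul_sum]
  refine (Finset.abs_sum_le_sum_abs _ _).trans (Finset.sum_le_sum fun z hz => ?_)
  set P := ∏ q ∈ (univ.erase T.root).erase p, f q (icut T (g0 - z) q) with hP
  set k := icut T (g0 - z) p with hk
  have e3 : c z * (f p (k + 2) * P) - 2 * (c z * (f p (k + 1) * P)) + c z * (f p k * P)
      = (c z * P) * (f p (k + 2) - 2 * f p (k + 1) + f p k) := by ring
  have h1 : 0 ≤ c z * P := mul_nonneg (hc z hz) (h0 z)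
  rw [e3, abs_mul, abs_of_nonneg h1]
  calc c z * P * |f p (k + 2) - 2 * f p (k + 1) + f p k| ≤ c z * P * (C * f p (k + 2)) :=
        mul_le_mul_of_nonneg_left (h k) h1
    _ = C * (c z * (f p (k + 2) * P)) := by ring

/-- comparison of an arbitrary token with the root -/
theorem FF_token_le (hf : ∀ p s, 0 < f p s) (hc : ∀ z ∈ J, 0 ≤ c z) {B : V → ℝ}
    (h : ∀ p, p ≠ T.root → ∀ k, f p (k + 1) ≤ B p * f p k) (u : V) (g : V → ℤ) :
    FF T f J c (g + ev u)
      ≤ (∏ q ∈ univ.erase T.root, if u ∈ T.desc q then B q else 1) * FF T f J c g := by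
  unfold FF
  rw [Finset.mul_sum]
  refine Finset.sum_le_sum fun z hz => ?_
  have h1 : ∀ q ∈ univ.erase T.root, f q (icut T (g + ev u - z) q)
      ≤ (if u ∈ T.desc q then B q else 1) * f q (icut T (g - z) q) := by
    intro q hq
    rw [show g + ev u - z = (g - z) + ev u by abel, icut_add, icut_ev]
    split_ifs
    · exact h q (mem_erase.1 hq).1 _
    · rw [add_zero, one_mul]
  calc c z * ∏ q ∈ univ.erase T.root, f q (icut T (g + ev u - z) q)
      ≤ c z * ∏ q ∈ univ.erase T.root,
          ((if u ∈ T.desc q then B q else 1) * f q (icut T (g - z) q)) :=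
        mul_le_mul_of_nonneg_left (Finset.prod_le_prod (fun q _ => (hf q _).le) h1) (hc z hz)
    _ = _ := by rw [Finset.prod_mul_distrib]; ring

theorem FF_le_token (hf : ∀ p s, 0 < f p s) (hc : ∀ z ∈ J, 0 ≤ c z) {B : V → ℝ}
    (h : ∀ p, p ≠ T.root → ∀ k, f p k ≤ B p * f p (k + 1)) (u : V) (g : V → ℤ) :
    FF T f J c g
      ≤ (∏ q ∈ univ.erase T.root, if u ∈ T.desc q then B q else 1) * FF T f J c (g + ev u) := by
  unfold FF
  rw [Finset.mul_sum]
  refine Finset.sum_le_sum fun z hz => ?_
  have h1 : ∀ q ∈ univ.erase T.root, f q (icut T (g - z) q)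
      ≤ (if u ∈ T.desc q then B q else 1) * f q (icut T (g + ev u - z) q) := by
    intro q hq
    rw [show g + ev u - z = (g - z) + ev u by abel, icut_add, icut_ev]
    split_ifs
    · exact h q (mem_erase.1 hq).1 _
    · rw [add_zero, one_mul]
  calc c z * ∏ q ∈ univ.erase T.root, f q (icut T (g - z) q)
      ≤ c z * ∏ q ∈ univ.erase T.root,
          ((if u ∈ T.desc q then B q else 1) * f q (icut T (g + ev u - z) q)) :=
        mul_le_mul_of_nonneg_left (Finset.prod_le_prod (fun q _ => (hf q _).le) h1) (hc z hz)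
    _ = _ := by rw [Finset.prod_mul_distrib]; ring

end Smooth

end Crest.Agent.R302.AFC
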