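import Crest.Agent.R302.EDM3

/-!
# R302 / EDM: common integer bases inside a box `lo ≤ x ≤ hi`
-/

set_option autoImplicit false

namespace Crest.Agent.R302.EDM

open Finset Crest.Agent.R302.Facet Crest.Agent.R302.Sfm646

section box

variable {α : Type*} [DecidableEq α] [Fintype α]

/-- `hi(A \ Z) - lo(Z \ A)` -/
def bx (lo hi : α → ℤ) (A Z : Finset α) : ℤ := ∑ i ∈ A \ Z, hi i - ∑ i ∈ Z \ A, lo i

omit [Fintype α] in
theorem bx_submod {lo hi : α → ℤ} (h : ∀ i, lo i ≤ hi i) (A B X Y : Finset α) :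
    bx lo hi (A ∪ B) (X ∪ Y) + bx lo hi (A ∩ B) (X ∩ Y) ≤ bx lo hi A X + bx lo hi B Y := by
  classical
  set U := A ∪ B ∪ X ∪ Y with hU
  have e : ∀ C Z : Finset α, C ⊆ U → Z ⊆ U → bx lo hi C Z =
      ∑ i ∈ U, ((if i ∈ C ∧ i ∉ Z then hi i else 0) - (if i ∈ Z ∧ i ∉ C then lo i else 0)) := by
    intro C Z hC hZ
    unfold bx
    rw [Finset.sum_sub_distrib, ← Finset.sum_filter, ← Finset.sum_filter]
    congr 1
    · refine Finset.sum_congr ?_ fun _ _ => rfl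
      ext i
      simp only [mem_sdiff, mem_filter]
      exact ⟨fun h => ⟨hC h.1, h⟩, fun h => h.2⟩
    · refine Finset.sum_congr ?_ fun _ _ => rfl
      ext i
      simp only [mem_sdiff, mem_filter]
      exact ⟨fun h => ⟨hZ h.1, h⟩, fun h => h.2⟩
  have s1 : A ⊆ U := fun x hx => by rw [hU]; simp only [mem_union]; tauto
  have s2 : B ⊆ U := fun x hx => by rw [hU]; simp only [mem_union]; tauto
  have s3 : X ⊆ U := fun x hx => by rw [hU]; simp only [mem_union]; tauto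
  have s4 : Y ⊆ U := fun x hx => by rw [hU]; simp only [mem_union]; tauto
  rw [e _ _ (union_subset s1 s2) (union_subset s3 s4),
    e _ _ (inter_subset_left.trans s1) (inter_subset_left.trans s3), e _ _ s1 s3, e _ _ s2 s4,
    ← Finset.sum_add_distrib, ← Finset.sum_add_distrib]
  refine Finset.sum_le_sum fun i _ => ?_
  have := h i
  simp only [mem_union, mem_inter]
  by_cases p1 : i ∈ A <;> by_cases p2 : i ∈ B <;> by_cases p3 : i ∈ X <;>
    by_cases p4 : i ∈ Y <;> simp [p1, p2, p3, p4] <;> linarith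

/-- the rank function of the base polytope intersected with the box -/
def boxR (lo hi : α → ℤ) (f : Finset α → ℤ) (A : Finset α) : ℤ :=
  (univ : Finset (Finset α)).inf' ⟨∅, by simp⟩ fun Z => f Z + bx lo hi A Z

theorem boxR_le (lo hi : α → ℤ) (f : Finset α → ℤ) (A Z : Finset α) :
    boxR lo hi f A ≤ f Z + bx lo hi A Z :=
  Finset.inf'_le (fun Z => f Z + bx lo hi A Z) (mem_univ Z)

theorem exists_boxR (lo hi : α → ℤ) (f : Finset α → ℤ) (A : Finset α) :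
    ∃ Z, boxR lo hi f A = f Z + bx lo hi A Z := by
  obtain ⟨Z, _, e⟩ := Finset.exists_mem_eq_inf' (s := (univ : Finset (Finset α)))
    ⟨∅, by simp⟩ fun Z => f Z + bx lo hi A Z
  exact ⟨Z, e⟩

theorem boxR_sub {lo hi : α → ℤ} (h : ∀ i, lo i ≤ hi i) {f : Finset α → ℤ} (hf : SubOn univ f) :
    SubOn univ (boxR lo hi f) := by
  intro A B _ _
  obtain ⟨X, eX⟩ := exists_boxR lo hi f A
  obtain ⟨Y, eY⟩ := exists_boxR lo hi f B
  rw [eX, eY]
  have h1 := boxR_le lo hi f (A ∪ B) (X ∪ Y)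
  have h2 := boxR_le lo hi f (A ∩ B) (X ∩ Y)
  have h3 := hf X Y (subset_univ _) (subset_univ _)
  have h4 := bx_submod h A B X Y
  linarith

/-- **Common integer bases in a box.** -/
theorem exists_common_box {f₁ f₂ : Finset α → ℤ} (h₁ : SubOn univ f₁) (h₂ : SubOn univ f₂)
    (z₁ : f₁ ∅ = 0) (z₂ : f₂ ∅ = 0) {R : ℤ} (e₁ : f₁ univ = R) (e₂ : f₂ univ = R)
    (lo hi : α → ℤ) :
    (∃ x : α → ℤ, (∀ a, lo a ≤ x a ∧ x a ≤ hi a) ∧ ∑ a, x a = R ∧ (∀ A, ∑ a ∈ A, x a ≤ f₁ A) ∧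
      ∀ A, ∑ a ∈ A, x a ≤ f₂ A) ↔
    (∀ a, lo a ≤ hi a) ∧ ∀ X Y : Finset α, R ≤ f₁ X + f₂ Yᶜ + bx lo hi Y X := by
  constructor
  · rintro ⟨x, hl, hR, hx1, hx2⟩
    refine ⟨fun a => (hl a).1.trans (hl a).2, fun X Y => ?_⟩
    have a1 := hx1 X
    have a2 := hx2 Yᶜ
    have a3 := Finset.sum_add_sum_compl Y x
    rw [hR] at a3
    have a4 : ∑ i ∈ Y \ X, x i ≤ ∑ i ∈ Y \ X, hi i := Finset.sum_le_sum fun i _ => (hl i).2
    have a5 : ∑ i ∈ X \ Y, lo i ≤ ∑ i ∈ X \ Y, x i := Finset.sum_le_sum fun i _ => (hl i).1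
    have a6 : ∑ i ∈ Y \ X, x i + ∑ i ∈ X, x i = ∑ i ∈ X \ Y, x i + ∑ i ∈ Y, x i := by
      have b1 := Finset.sum_sdiff (s₁ := X) (s₂ := X ∪ Y) (f := x) subset_union_left
      have b2 := Finset.sum_sdiff (s₁ := Y) (s₂ := X ∪ Y) (f := x) subset_union_right
      rw [union_sdiff_left] at b1
      rw [union_sdiff_right] at b2
      linarith
    unfold bx
    linarith
  · rintro ⟨hlh, h⟩
    have key : ∀ A, R - f₂ Aᶜ ≤ boxR lo hi f₁ A := by
      intro A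
      obtain ⟨Z, eZ⟩ := exists_boxR lo hi f₁ A
      rw [eZ]
      linarith [h Z A]
    have z1 : boxR lo hi f₁ ∅ = 0 := by
      refine le_antisymm ?_ ?_
      · have := boxR_le lo hi f₁ ∅ ∅
        simpa [bx, z₁] using this
      · have := key ∅
        rw [compl_empty, e₂, sub_self] at this
        exact this
    obtain ⟨m, hm⟩ := sandwich univ (boxR lo hi f₁) (fun A => R - f₂ Aᶜ) (boxR_sub hlh h₁)
      (fun A B _ _ => by
        have := h₂ Aᶜ Bᶜ (subset_univ _) (subset_univ _)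
        rw [← compl_inter, ← compl_union] at this
        show R - f₂ Aᶜ + (R - f₂ Bᶜ) ≤ R - f₂ (A ∪ B)ᶜ + (R - f₂ (A ∩ B)ᶜ)
        linarith)
      z1 (by show R - f₂ ∅ᶜ = 0; rw [compl_empty, e₂, sub_self]) (fun A _ => key A)
    have mu : ∑ a, m a = R := by
      obtain ⟨c1, c2⟩ := hm univ (subset_univ _)
      have c3 := boxR_le lo hi f₁ univ univ
      simp only [compl_univ, z₂, sub_zero] at c1
      rw [bx, Finset.sdiff_self, sum_empty, sum_empty, sub_zero, add_zero, e₁] at c3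
      linarith
    have m1 : ∀ A, ∑ a ∈ A, m a ≤ f₁ A := by
      intro A
      have c1 := (hm A (subset_univ _)).2
      have c3 := boxR_le lo hi f₁ A A
      rw [bx, Finset.sdiff_self, sum_empty, sum_empty, sub_zero, add_zero] at c3
      linarith
    refine ⟨m, fun a => ⟨?_, ?_⟩, mu, m1, fun A => ?_⟩
    · have c1 := (hm {a}ᶜ (subset_univ _)).2
      have c3 := boxR_le lo hi f₁ {a}ᶜ univ
      have c4 := Finset.sum_add_sum_compl {a} m
      rw [Finset.sum_singleton, mu] at c4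
      have e1 : ({a}ᶜ : Finset α) \ univ = ∅ := by ext; simp
      have e2 : (univ : Finset α) \ {a}ᶜ = {a} := by ext; simp
      rw [bx, e1, e2, sum_empty, sum_singleton, e₁] at c3
      linarith
    · have c1 := (hm {a} (subset_univ _)).2
      have c3 := boxR_le lo hi f₁ {a} ∅
      rw [Finset.sum_singleton] at c1
      rw [bx, z₁, sdiff_empty, sum_singleton, empty_sdiff, sum_empty] at c3
      linarith
    · have c1 := (hm Aᶜ (subset_univ _)).1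
      simp only [compl_compl] at c1
      have := Finset.sum_add_sum_compl A m
      linarith

end box

variable {n : ℕ}

/-- the coupled function: `r₁ X + r₂ Yᶜ + hi(Y \ X) - lo(X \ Y) - R` -/
def dblB (r₁ r₂ : Finset (Fin n) → ℤ) (R : ℤ) (lo hi : Fin n → ℤ) (A : Finset (Fin (n + n))) : ℤ :=
  r₁ (fstH A) + r₂ (sndH A)ᶜ + bx lo hi (sndH A) (fstH A) - R

/-- is there a common base in the box? -/
def feasB (n K : ℕ) (r₁ r₂ : Finset (Fin n) → ℤ) (R : ℤ) (lo hi : Fin n → ℤ) : Bool :=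
  (List.finRange n).all (fun i => decide (lo i ≤ hi i)) &&
    decide (0 ≤ sfmMin (n + n) (2 * K + R.natAbs + (nrm hi + nrm lo)) (dblB r₁ r₂ R lo hi))

theorem dblB_submod {r₁ r₂ : Finset (Fin n) → ℤ} {R : ℤ} {lo hi : Fin n → ℤ}
    (h₁ : SubM r₁ R) (h₂ : SubM r₂ R) (hl : ∀ i, lo i ≤ hi i) (A B : Finset (Fin (n + n))) :
    dblB r₁ r₂ R lo hi (A ∪ B) + dblB r₁ r₂ R lo hi (A ∩ B) ≤
      dblB r₁ r₂ R lo hi A + dblB r₁ r₂ R lo hi B := by
  unfold dblB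
  rw [fstH_union, fstH_inter, sndH_union, sndH_inter]
  have a1 := h₁.sub (fstH A) (fstH B)
  have a2 := compl_submod h₂.sub (sndH A) (sndH B)
  have a3 := bx_submod hl (sndH A) (sndH B) (fstH A) (fstH B)
  linarith

theorem bx_abs (lo hi : Fin n → ℤ) (A Z : Finset (Fin n)) :
    |bx lo hi A Z| ≤ ((nrm hi + nrm lo : ℕ) : ℤ) := by
  unfold bx
  have h1 := abs_le.1 (abs_sum_le_nrm hi (A \ Z))
  have h2 := abs_le.1 (abs_sum_le_nrm lo (Z \ A))
  push_cast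
  rw [abs_le]
  constructor <;> linarith [h1.1, h1.2, h2.1, h2.2]

theorem dblB_abs {r₁ r₂ : Finset (Fin n) → ℤ} {K : ℕ} {R : ℤ} {lo hi : Fin n → ℤ}
    (K₁ : ∀ A, |r₁ A| ≤ K) (K₂ : ∀ A, |r₂ A| ≤ K) (A : Finset (Fin (n + n))) :
    |dblB r₁ r₂ R lo hi A| ≤ ((2 * K + R.natAbs + (nrm hi + nrm lo) : ℕ) : ℤ) := by
  unfold dblB
  have b1 := abs_le.1 (K₁ (fstH A))
  have b2 := abs_le.1 (K₂ (sndH A)ᶜ)
  have b3 := abs_le.1 (bx_abs lo hi (sndH A) (fstH A))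
  have b5 := abs_le.1 (le_refl |R|)
  push_cast at b3 ⊢
  rw [abs_le]
  constructor <;> linarith [b1.1, b1.2, b2.1, b2.2, b3.1, b3.2, b5.1, b5.2]

theorem feasB_iff {r₁ r₂ : Finset (Fin n) → ℤ} {K : ℕ} {R : ℤ} (h₁ : SubM r₁ R)
    (h₂ : SubM r₂ R) (K₁ : ∀ A, |r₁ A| ≤ K) (K₂ : ∀ A, |r₂ A| ≤ K) (lo hi : Fin n → ℤ) :
    feasB n K r₁ r₂ R lo hi = true ↔
      ∃ x : Fin n → ℤ, (∀ i, lo i ≤ x i ∧ x i ≤ hi i) ∧ MemJ r₁ R x ∧ MemJ r₂ R x := by
  have ex := exists_common_box (f₁ := r₁) (f₂ := r₂) (fun A B _ _ => h₁.sub A B)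
    (fun A B _ _ => h₂.sub A B) h₁.empty h₂.empty h₁.univ h₂.univ lo hi
  have conv : (∃ x : Fin n → ℤ, (∀ i, lo i ≤ x i ∧ x i ≤ hi i) ∧ MemJ r₁ R x ∧ MemJ r₂ R x) ↔
      (∀ a, lo a ≤ hi a) ∧ ∀ X Y : Finset (Fin n), R ≤ r₁ X + r₂ Yᶜ + bx lo hi Y X := by
    rw [← ex]
    constructor
    · rintro ⟨x, a, b, c⟩; exact ⟨x, a, b.2, b.1, c.1⟩
    · rintro ⟨x, a, b, c, d⟩; exact ⟨x, a, ⟨c, b⟩, ⟨d, b⟩⟩
  rw [conv]
  unfold feasB
  rw [Bool.and_eq_true, List.all_eq_true, decide_eq_true_eq]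
  constructor
  · rintro ⟨hl', hm⟩
    have hl : ∀ i, lo i ≤ hi i := fun i => by simpa using hl' i (by simp)
    refine ⟨hl, fun X Y => ?_⟩
    have hs := sfmArg_spec (n := n + n) (dblB r₁ r₂ R lo hi) (dblB_submod h₁ h₂ hl)
      (by simp [dblB, fstH, sndH, h₁.empty, h₂.univ, bx]) (2 * K + R.natAbs + (nrm hi + nrm lo))
      (dblB_abs K₁ K₂) (mkH X Y)
    have hs' := hm.trans hs
    unfold dblB at hs'
    rw [fstH_mkH, sndH_mkH] at hs'
    linarith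
  · rintro ⟨hl, h⟩
    refine ⟨fun i _ => decide_eq_true (hl i), ?_⟩
    show 0 ≤ dblB r₁ r₂ R lo hi (sfmArg (n + n) (2 * K + R.natAbs + (nrm hi + nrm lo))
      (dblB r₁ r₂ R lo hi))
    unfold dblB
    have := h (fstH (sfmArg (n + n) (2 * K + R.natAbs + (nrm hi + nrm lo)) (dblB r₁ r₂ R lo hi)))
      (sndH (sfmArg (n + n) (2 * K + R.natAbs + (nrm hi + nrm lo)) (dblB r₁ r₂ R lo hi)))
    unfold dblB at this
    linarith

end Crest.Agent.R302.EDM
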