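import Crest.Agent.R302.Soft907
import Crest.Agent.R302.EDMBox

/-!
# R302, block ANN (helper425): the annealing schedule, part A

* `boxR lo hi r` is again a submodular function with total `R`, its integer base polytope is
  `J ∩ [lo, hi]`;
* `box_ratio`: the number of common integer bases in the cube of radius `q` around a common
  integer base `x₀` grows at most by a factor `2` when `q` is replaced by `q' = q (1 + 1/poly)`.
-/

set_option autoImplicit false

namespace Crest.Agent.R302.AnnBox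

open Finset Crest.Agent.R302.Facet Crest.Agent.R302.EDM

variable {V : Type*} [Fintype V] [DecidableEq V]

/-! ## The box-restricted rank function -/

/-- integer points of `B(boxR)` are the integer points of `B(r)` in the box -/
theorem memJ_boxR {r : Finset V → ℤ} {R : ℤ} (hr : SubM r R) (lo hi x : V → ℤ) :
    MemJ (boxR lo hi r) R x ↔ MemJ r R x ∧ ∀ v, lo v ≤ x v ∧ x v ≤ hi v := by
  constructor
  · rintro ⟨h1, h2⟩
    have hA : ∀ A, ∑ a ∈ A, x a ≤ r A := by
      intro A
      have h3 := h1 A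
      have h4 := boxR_le lo hi r A A
      rw [bx, Finset.sdiff_self, sum_empty, sum_empty, sub_zero, add_zero] at h4
      linarith
    refine ⟨⟨hA, h2⟩, fun v => ⟨?_, ?_⟩⟩
    · have c1 := h1 {v}ᶜ
      have c3 := boxR_le lo hi r {v}ᶜ Finset.univ
      have c4 := Finset.sum_add_sum_compl {v} x
      rw [Finset.sum_singleton, h2] at c4
      have e1 : ({v}ᶜ : Finset V) \ Finset.univ = ∅ := by ext; simp
      have e2 : (Finset.univ : Finset V) \ {v}ᶜ = {v} := by ext; simp
      rw [bx, e1, e2, sum_empty, sum_singleton, hr.univ] at c3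
      linarith
    · have c1 := h1 {v}
      have c3 := boxR_le lo hi r {v} ∅
      rw [Finset.sum_singleton] at c1
      rw [bx, hr.empty, sdiff_empty, sum_singleton, empty_sdiff, sum_empty] at c3
      linarith
  · rintro ⟨⟨h1, h2⟩, h3⟩
    refine ⟨fun A => ?_, h2⟩
    obtain ⟨Z, hZ⟩ := exists_boxR lo hi r A
    rw [hZ]
    have a1 := h1 Z
    have a4 : ∑ i ∈ A \ Z, x i ≤ ∑ i ∈ A \ Z, hi i := Finset.sum_le_sum fun i _ => (h3 i).2
    have a5 : ∑ i ∈ Z \ A, lo i ≤ ∑ i ∈ Z \ A, x i := Finset.sum_le_sum fun i _ => (h3 i).1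
    have a6 : ∑ i ∈ A \ Z, x i + ∑ i ∈ Z, x i = ∑ i ∈ Z \ A, x i + ∑ i ∈ A, x i := by
      have b1 := Finset.sum_sdiff (s₁ := Z) (s₂ := Z ∪ A) (f := x) subset_union_left
      have b2 := Finset.sum_sdiff (s₁ := A) (s₂ := Z ∪ A) (f := x) subset_union_right
      rw [union_sdiff_left] at b1
      rw [union_sdiff_right] at b2
      linarith
    unfold bx
    linarith

/-- the box-restricted function is a submodular function with the same total -/
theorem subM_boxR {r : Finset V → ℤ} {R : ℤ} (hr : SubM r R) {lo hi x₀ : V → ℤ}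
    (hx : MemJ r R x₀) (hbox : ∀ v, lo v ≤ x₀ v ∧ x₀ v ≤ hi v) : SubM (boxR lo hi r) R := by
  have hJ : MemJ (boxR lo hi r) R x₀ := (memJ_boxR hr lo hi x₀).2 ⟨hx, hbox⟩
  refine ⟨fun A B => ?_, ?_, ?_⟩
  · exact boxR_sub (fun v => (hbox v).1.trans (hbox v).2) (fun A B _ _ => hr.sub A B) A B
      (subset_univ _) (subset_univ _)
  · refine le_antisymm ?_ ?_
    · have c3 := boxR_le lo hi r ∅ ∅
      simpa [bx, hr.empty] using c3
    · have := hJ.1 ∅
      simpa using this
  · refine le_antisymm ?_ ?_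
    · have c3 := boxR_le lo hi r Finset.univ Finset.univ
      rw [bx, Finset.sdiff_self, sum_empty, sum_empty, sub_zero, add_zero, hr.univ] at c3
      exact c3
    · have := hJ.1 Finset.univ
      rw [hx.2] at this
      exact this

/-! ## The ratio of consecutive fat stages -/

/-- the constant of the schedule -/
def annC (n : ℕ) : ℕ := 64 * n ^ 3 * kap n

/-- cube of radius `q` around `x₀` -/
def InCube (x₀ : V → ℤ) (q : ℕ) (x : V → ℤ) : Prop := ∀ v, x₀ v - q ≤ x v ∧ x v ≤ x₀ v + q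

instance (x₀ : V → ℤ) (q : ℕ) (x : V → ℤ) : Decidable (InCube x₀ q x) := by
  unfold InCube; infer_instance

theorem one_facet {r₁ r₂ : Finset V → ℤ} {R : ℤ} (hr₁ : SubM r₁ R) (hr₂ : SubM r₂ R)
    {x₀ : V → ℤ} (h₁ : MemJ r₁ R x₀) (h₂ : MemJ r₂ R x₀) {q d : ℕ} (hd : 0 < d)
    (hbig : annC (Fintype.card V) * d ≤ q)
    (P : Finset (V → ℤ)) (hP : ∀ x, x ∈ P ↔ MemJ r₁ R x ∧ MemJ r₂ R x) (A₀ : Finset V)
    (U : Finset (V → ℤ)) (hUP : U ⊆ P) (hU0 : ∀ x ∈ U, (q : ℤ) + 1 ≤ slk r₁ x₀ A₀)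
    (hU1 : ∀ x ∈ U, slk r₁ x A₀ + 1 ≤ d) :
    4 * Fintype.card V * U.card ≤ P.card := by
  classical
  set n := Fintype.card V with hn
  rcases U.eq_empty_or_nonempty with rfl | ⟨x1, hx1⟩
  · simp
  have h3 := hU0 x1 hx1
  have hn1 : 1 ≤ n := by
    by_contra h0
    have h0' : n = 0 := by omega
    have : IsEmpty V := Fintype.card_eq_zero_iff.1 (hn ▸ h0')
    have hA : A₀ = ∅ := by
      ext v; exact (IsEmpty.false v).elim
    rw [hA, slk_empty hr₁] at h3
    omega
  have hk := kap_pos hn1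
  set θ := q / n ^ 2 with hθ
  have hn2 : 0 < n ^ 2 := by positivity
  have hθ2 : n ^ 2 * θ ≤ q := Nat.mul_div_le q (n ^ 2)
  have hθ3 : q < n ^ 2 * (θ + 1) := by
    have := Nat.lt_mul_div_succ q hn2
    rw [hθ]; exact this
  -- a pair with large capacity
  obtain ⟨a, ha, b, hb, hab⟩ : ∃ a ∈ A₀, ∃ b, b ∉ A₀ ∧ (θ : ℤ) < cap r₁ x₀ a b := by
    by_contra hne
    push Not at hne
    have := slk_le_of_cap hr₁ h₁ (θ := (θ : ℤ)) (by positivity) (A := A₀)
      (fun a ha b hb => hne a ha b hb)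
    rw [← hn] at this
    have h4 : ((n ^ 2 * θ : ℕ) : ℤ) ≤ (q : ℤ) := by exact_mod_cast hθ2
    push_cast at h4
    linarith
  have hne : a ≠ b := fun h => hb (h ▸ ha)
  have hm : ∀ A, a ∈ A → b ∉ A → ((θ + 1 : ℕ) : ℝ) ≤ r₁ A - ∑ v ∈ A, ((x₀ v : ℤ) : ℝ) := by
    intro A h5 h6
    have h7 := cap_le (r := r₁) (x := x₀) h5 h6
    have h8 : (θ : ℤ) + 1 ≤ slk r₁ x₀ A := by linarith
    unfold slk at h8
    exact_mod_cast h8
  have key := density hr₁ hr₂ P hP (c := fun v => ((x₀ v : ℤ) : ℝ))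
    (fun A => by exact_mod_cast h₁.1 A) (fun A => by exact_mod_cast h₂.1 A)
    (by exact_mod_cast h₁.2) hne (θ + 1) (d - 1) hm
  rw [← hn] at key
  have hsub : U ⊆ P.filter (fun x => cap r₁ x a b ≤ ((d - 1 : ℕ) : ℤ)) := by
    intro x hx
    rw [mem_filter]
    refine ⟨hUP hx, ?_⟩
    have h7 := cap_le (r := r₁) (x := x) ha hb
    have h8 := hU1 x hx
    have : ((d - 1 : ℕ) : ℤ) = (d : ℤ) - 1 := by
      rw [Nat.cast_sub hd]; norm_num
    rw [this]
    linarith
  have hcard := card_le_card hsub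
  have hd1 : d - 1 + 1 = d := by omega
  rw [hd1] at key
  -- arithmetic
  have hq : 0 < q := by
    have : 0 < annC n := by unfold annC; positivity
    exact lt_of_lt_of_le (by positivity) hbig
  set T := (θ + 1) / kap n + 1 with hT
  have hTk : θ + 1 < kap n * T := by
    rw [hT]
    exact Nat.lt_mul_div_succ (θ + 1) hk
  have h9 : q ≤ n ^ 2 * (kap n * T) := by
    calc q ≤ n ^ 2 * (θ + 1) := hθ3.le
      _ ≤ n ^ 2 * (kap n * T) := Nat.mul_le_mul_left _ hTk.le
  have h10 : T * U.card ≤ 2 * d * P.card := (Nat.mul_le_mul_left _ hcard).trans key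
  have h11 : q * (4 * n * U.card) ≤ q * P.card := by
    calc q * (4 * n * U.card) ≤ (n ^ 2 * (kap n * T)) * (4 * n * U.card) :=
          Nat.mul_le_mul_right _ h9
      _ = 4 * n ^ 3 * kap n * (T * U.card) := by ring
      _ ≤ 4 * n ^ 3 * kap n * (2 * d * P.card) := Nat.mul_le_mul_left _ h10
      _ ≤ (annC n * d) * P.card := by
          unfold annC
          calc 4 * n ^ 3 * kap n * (2 * d * P.card) = (8 * n ^ 3 * kap n * d) * P.card := by ring
            _ ≤ (64 * n ^ 3 * kap n * d) * P.card := by gcongr; norm_num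
      _ ≤ q * P.card := Nat.mul_le_mul_right _ hbig
  exact Nat.le_of_mul_le_mul_left h11 hq

/-- **Ratio of consecutive fat stages.** -/
theorem box_ratio {r₁ r₂ : Finset V → ℤ} {R : ℤ} (hr₁ : SubM r₁ R) (hr₂ : SubM r₂ R)
    {x₀ : V → ℤ} (h₁ : MemJ r₁ R x₀) (h₂ : MemJ r₂ R x₀) {q q' : ℕ} (hqq : q ≤ q')
    (hbig : annC (Fintype.card V) * (q' - q) ≤ q)
    (P P' : Finset (V → ℤ))
    (hP : ∀ x, x ∈ P ↔ MemJ r₁ R x ∧ MemJ r₂ R x ∧ InCube x₀ q x)
    (hP' : ∀ x, x ∈ P' ↔ MemJ r₁ R x ∧ MemJ r₂ R x ∧ InCube x₀ q' x) :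
    P'.card ≤ 2 * P.card := by
  classical
  rcases Nat.eq_or_lt_of_le hqq with heq | hlt
  · have : P' = P := by
      ext x; rw [hP, hP', heq]
    rw [this]; omega
  set d := q' - q with hd
  have hd0 : 0 < d := by omega
  set lo : V → ℤ := fun v => x₀ v - q' with hlo
  set hi : V → ℤ := fun v => x₀ v + q' with hhi
  have hbox : ∀ v, lo v ≤ x₀ v ∧ x₀ v ≤ hi v := by
    intro v; simp only [hlo, hhi]; constructor <;> omega
  have s₁ := subM_boxR hr₁ h₁ hbox
  have s₂ := subM_boxR hr₂ h₂ hbox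
  have m₁ : MemJ (boxR lo hi r₁) R x₀ := (memJ_boxR hr₁ lo hi x₀).2 ⟨h₁, hbox⟩
  have m₂ : MemJ (boxR lo hi r₂) R x₀ := (memJ_boxR hr₂ lo hi x₀).2 ⟨h₂, hbox⟩
  have hPJ : ∀ x, x ∈ P' ↔ MemJ (boxR lo hi r₁) R x ∧ MemJ (boxR lo hi r₂) R x := by
    intro x
    rw [hP', memJ_boxR hr₁, memJ_boxR hr₂]
    unfold InCube
    tauto
  set Up : V → Finset (V → ℤ) := fun v => P'.filter (fun x => x₀ v + q < x v) with hUp
  set Dn : V → Finset (V → ℤ) := fun v => P'.filter (fun x => x v < x₀ v - q) with hDn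
  have hcov : P' ⊆ P ∪ ((Finset.univ : Finset V).biUnion Up ∪ (Finset.univ : Finset V).biUnion Dn) := by
    intro x hx
    by_cases hxP : x ∈ P
    · exact mem_union_left _ hxP
    · apply mem_union_right
      have h3 := (hP' x).1 hx
      have h4 : ¬ InCube x₀ q x := fun h => hxP ((hP x).2 ⟨h3.1, h3.2.1, h⟩)
      unfold InCube at h4
      push Not at h4
      obtain ⟨v, hv⟩ := h4
      by_cases hc : x₀ v - q ≤ x v
      · apply mem_union_left
        rw [mem_biUnion]
        exact ⟨v, mem_univ _, mem_filter.2 ⟨hx, hv hc⟩⟩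
      · apply mem_union_right
        rw [mem_biUnion]
        exact ⟨v, mem_univ _, mem_filter.2 ⟨hx, not_le.1 hc⟩⟩
  have hup : ∀ v, 4 * Fintype.card V * (Up v).card ≤ P'.card := by
    intro v
    refine one_facet s₁ s₂ m₁ m₂ hd0 hbig P' hPJ {v} (Up v) (filter_subset _ _) ?_ ?_
    · intro x hx
      rw [hUp, mem_filter] at hx
      have h3 := ((hPJ x).1 hx.1).1.1 {v}
      rw [sum_singleton] at h3
      unfold slk
      rw [sum_singleton]
      linarith [hx.2]
    · intro x hx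
      rw [hUp, mem_filter] at hx
      have h3 := boxR_le lo hi r₁ {v} ∅
      rw [bx, hr₁.empty, sdiff_empty, sum_singleton, empty_sdiff, sum_empty] at h3
      unfold slk
      rw [sum_singleton]
      have : ((d : ℕ) : ℤ) = q' - q := by rw [hd, Nat.cast_sub hqq]
      rw [this]
      have h4 : hi v = x₀ v + q' := rfl
      linarith [hx.2]
  have hdn : ∀ v, 4 * Fintype.card V * (Dn v).card ≤ P'.card := by
    intro v
    have hsum : ∀ x : V → ℤ, ∑ a, x a = R → ∑ a ∈ ({v}ᶜ : Finset V), x a = R - x v := by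
      intro x hx
      have c4 := Finset.sum_add_sum_compl {v} x
      rw [Finset.sum_singleton, hx] at c4
      linarith
    refine one_facet s₁ s₂ m₁ m₂ hd0 hbig P' hPJ {v}ᶜ (Dn v) (filter_subset _ _) ?_ ?_
    · intro x hx
      rw [hDn, mem_filter] at hx
      have h3 := ((hPJ x).1 hx.1).1.1 {v}ᶜ
      rw [hsum x ((hPJ x).1 hx.1).1.2] at h3
      unfold slk
      rw [hsum x₀ m₁.2]
      linarith [hx.2]
    · intro x hx
      rw [hDn, mem_filter] at hx
      have c3 := boxR_le lo hi r₁ {v}ᶜ Finset.univ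
      have e1 : ({v}ᶜ : Finset V) \ Finset.univ = ∅ := by ext; simp
      have e2 : (Finset.univ : Finset V) \ {v}ᶜ = {v} := by ext; simp
      rw [bx, e1, e2, sum_empty, sum_singleton, hr₁.univ] at c3
      unfold slk
      rw [hsum x ((hPJ x).1 hx.1).1.2]
      have : ((d : ℕ) : ℤ) = q' - q := by rw [hd, Nat.cast_sub hqq]
      rw [this]
      have h4 : lo v = x₀ v - q' := rfl
      linarith [hx.2]
  have hcard : P'.card ≤ P.card + (∑ v, (Up v).card + ∑ v, (Dn v).card) := by
    refine (card_le_card hcov).trans ((card_union_le _ _).trans ?_)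
    refine Nat.add_le_add_left ((card_union_le _ _).trans ?_) _
    exact Nat.add_le_add card_biUnion_le card_biUnion_le
  by_cases hn : Fintype.card V = 0
  · have : IsEmpty V := Fintype.card_eq_zero_iff.1 hn
    simp only [univ_eq_empty, sum_empty, add_zero] at hcard
    omega
  have hn' : 0 < Fintype.card V := Nat.pos_of_ne_zero hn
  have e1 : 4 * Fintype.card V * ∑ v, (Up v).card ≤ Fintype.card V * P'.card := by
    rw [mul_sum]
    calc ∑ v, 4 * Fintype.card V * (Up v).card ≤ ∑ _v : V, P'.card := sum_le_sum fun v _ => hup v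
      _ = Fintype.card V * P'.card := by simp
  have e2 : 4 * Fintype.card V * ∑ v, (Dn v).card ≤ Fintype.card V * P'.card := by
    rw [mul_sum]
    calc ∑ v, 4 * Fintype.card V * (Dn v).card ≤ ∑ _v : V, P'.card := sum_le_sum fun v _ => hdn v
      _ = Fintype.card V * P'.card := by simp
  have e3 : 4 * ∑ v, (Up v).card ≤ P'.card := by
    have : Fintype.card V * (4 * ∑ v, (Up v).card) ≤ Fintype.card V * P'.card := by
      calc _ = 4 * Fintype.card V * ∑ v, (Up v).card := by ring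
        _ ≤ _ := e1
    exact Nat.le_of_mul_le_mul_left this hn'
  have e4 : 4 * ∑ v, (Dn v).card ≤ P'.card := by
    have : Fintype.card V * (4 * ∑ v, (Dn v).card) ≤ Fintype.card V * P'.card := by
      calc _ = 4 * Fintype.card V * ∑ v, (Dn v).card := by ring
        _ ≤ _ := e2
    exact Nat.le_of_mul_le_mul_left this hn'
  omega

end Crest.Agent.R302.AnnBox
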