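import Crest.Agent.R302.Ann425B
import Crest.Agent.R302.Ann425C

/-!
# R302, block ANN (helper425), part D: the schedule

Parameters: `n`, `L` (precision of the start).  `cA n = annC n + 1` = radius of the thin stages,
`T0 n L = n * (L * cA n)` thin stages, then the fat stages.

* `stQ n L t` : radius of the cube of stage `t`; `stK n L t` : exponent number of the thin weight;
* `stOm n L t x₀ x` : weight of stage `t` (separable, dyadic, log-concave);
* `stW L x₀ s t x` : weight of the hole state `(x, x + s)` at stage `t` (`s = 0`: perfect states);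
* `stW_mono`, `stage_ratio` : `Σ W_t ≤ Σ W_{t+1} ≤ 2 Σ W_t`;
* `stage_first`, `stage_last`, `nStages`.
-/

set_option autoImplicit false

namespace Crest.Agent.R302.AnnBox

open Finset Crest.Agent.R302.Facet Crest.Agent.R302.EDM

/-! ## radii -/

/-- growth constant -/
def cA (n : ℕ) : ℕ := annC n + 1

/-- radii of the fat stages -/
def rad (n : ℕ) : ℕ → ℕ
  | 0 => cA n
  | i + 1 => rad n i + rad n i / cA n

theorem cA_pos (n : ℕ) : 0 < cA n := Nat.succ_pos _

theorem rad_succ (n i : ℕ) : rad n (i + 1) = rad n i + rad n i / cA n := rfl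

theorem rad_mono_succ (n i : ℕ) : rad n i ≤ rad n (i + 1) := Nat.le_add_right _ _

theorem rad_mono (n : ℕ) : Monotone (rad n) := monotone_nat_of_le_succ (rad_mono_succ n)

theorem cA_le_rad (n i : ℕ) : cA n ≤ rad n i := rad_mono n (Nat.zero_le i)

theorem rad_step (n i : ℕ) : annC n * (rad n (i + 1) - rad n i) ≤ rad n i := by
  rw [rad_succ, Nat.add_sub_cancel_left]
  calc annC n * (rad n i / cA n) ≤ cA n * (rad n i / cA n) :=
        Nat.mul_le_mul_right _ (Nat.le_succ _)
    _ ≤ rad n i := Nat.mul_div_le _ _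

theorem rad_add (n i k : ℕ) : rad n i + k * (rad n i / cA n) ≤ rad n (i + k) := by
  induction k with
  | zero => simp
  | succ k ih =>
    calc rad n i + (k + 1) * (rad n i / cA n)
        = rad n i + k * (rad n i / cA n) + rad n i / cA n := by ring
      _ ≤ rad n (i + k) + rad n (i + k) / cA n :=
        Nat.add_le_add ih (Nat.div_le_div_right (rad_mono n (Nat.le_add_right i k)))
      _ = rad n (i + (k + 1)) := rfl

theorem rad_double (n i : ℕ) : 2 * rad n i ≤ rad n (i + 2 * cA n) := by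
  refine le_trans ?_ (rad_add n i (2 * cA n))
  have h1 : cA n ≤ rad n i := cA_le_rad n i
  have h2 : 1 ≤ rad n i / cA n := (Nat.one_le_div_iff (cA_pos n)).2 h1
  have h3 : rad n i < cA n * (rad n i / cA n + 1) := Nat.lt_mul_div_succ _ (cA_pos n)
  have h4 : cA n * 1 ≤ cA n * (rad n i / cA n) := Nat.mul_le_mul_left _ h2
  nlinarith

theorem rad_pow (n j : ℕ) : 2 ^ j ≤ rad n (2 * cA n * j) := by
  induction j with
  | zero =>
    simp only [pow_zero, mul_zero]
    exact (Nat.succ_le_of_lt (cA_pos n))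
  | succ j ih =>
    calc 2 ^ (j + 1) = 2 * 2 ^ j := by ring
      _ ≤ 2 * rad n (2 * cA n * j) := Nat.mul_le_mul_left _ ih
      _ ≤ rad n (2 * cA n * j + 2 * cA n) := rad_double n _
      _ = rad n (2 * cA n * (j + 1)) := by rw [mul_add, mul_one]

/-! ## stage parameters -/

/-- number of thin stages -/
def T0 (n L : ℕ) : ℕ := n * (L * cA n)

/-- radius of stage `t` -/
def stQ (n L t : ℕ) : ℕ := rad n (t - T0 n L)

/-- thin exponent number of stage `t` -/
def stK (n L t : ℕ) : ℕ := T0 n L - t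

/-- total number of stages if `J` lies in the cube of radius `K` -/
def nStages (n L K : ℕ) : ℕ := T0 n L + 2 * cA n * Nat.clog 2 K

theorem stQ_mono (n L : ℕ) : Monotone (stQ n L) := fun _ _ h =>
  rad_mono n (Nat.sub_le_sub_right h _)

theorem stQ_thin {n L t : ℕ} (h : t ≤ T0 n L) : stQ n L t = cA n := by
  unfold stQ
  rw [Nat.sub_eq_zero_of_le h]; rfl

theorem stQ_last (n L K : ℕ) {t : ℕ} (ht : nStages n L K ≤ t) : K ≤ stQ n L t := by
  have h1 : 2 * cA n * Nat.clog 2 K ≤ t - T0 n L := by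
    unfold nStages at ht; omega
  calc K ≤ 2 ^ Nat.clog 2 K := Nat.le_pow_clog (by norm_num) K
    _ ≤ rad n (2 * cA n * Nat.clog 2 K) := rad_pow n _
    _ ≤ stQ n L t := rad_mono n h1

theorem InCube.mono {V : Type*} {x₀ x : V → ℤ} {q q' : ℕ} (h : q ≤ q') (hx : InCube x₀ q x) :
    InCube x₀ q' x := fun v => by
  have := hx v
  have h' : (q : ℤ) ≤ q' := by exact_mod_cast h
  constructor <;> linarith

section stage

variable {n : ℕ}

/-- coordinate weights of stage `t`: `1` in the fat stages -/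
noncomputable def stOm1 (n L t : ℕ) (v : Fin n) (c k : ℤ) : ℝ :=
  if t < T0 n L then om1 (cA n) (av n (stK n L t) v) c k else 1

/-- stage weight (separable) -/
noncomputable def stOm (n L t : ℕ) (x₀ x : Fin n → ℤ) : ℝ := ∏ v, stOm1 n L t v (x₀ v) (x v)

theorem stOm1_pos (n L t : ℕ) (v : Fin n) (c k : ℤ) : 0 < stOm1 n L t v c k := by
  unfold stOm1
  split_ifs
  · exact om1_pos _ _ _ _
  · exact one_pos

theorem stOm1_lc (n L t : ℕ) (v : Fin n) (c k : ℤ) :
    stOm1 n L t v c k * stOm1 n L t v c (k + 2) ≤ stOm1 n L t v c (k + 1) ^ 2 := by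
  unfold stOm1
  split_ifs
  · exact om1_lc (cA_pos n) _ _ _
  · norm_num

theorem stOm_thin {L t : ℕ} (h : t < T0 n L) (x₀ x : Fin n → ℤ) :
    stOm n L t x₀ x = thinW n (cA n) (stK n L t) x₀ x := by
  unfold stOm thinW thW
  refine prod_congr rfl fun v _ => ?_
  unfold stOm1
  rw [if_pos h]

theorem stOm_fat {L t : ℕ} (h : T0 n L ≤ t) (x₀ x : Fin n → ℤ) : stOm n L t x₀ x = 1 := by
  unfold stOm
  refine prod_eq_one fun v _ => ?_
  unfold stOm1
  rw [if_neg (not_lt.2 h)]

theorem stOm_pos (n L t : ℕ) (x₀ x : Fin n → ℤ) : 0 < stOm n L t x₀ x :=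
  prod_pos fun _ _ => stOm1_pos _ _ _ _ _ _

theorem stOm_le_one (n L t : ℕ) (x₀ x : Fin n → ℤ) : stOm n L t x₀ x ≤ 1 := by
  rcases Nat.lt_or_ge t (T0 n L) with h | h
  · rw [stOm_thin h]; exact thinW_le_one _ _ _ _ _
  · rw [stOm_fat h]

/-- exponent of the stage weight: `stOm = (1/2) ^ stH` -/
def stH (n L t : ℕ) (x₀ x : Fin n → ℤ) : ℕ :=
  if t < T0 n L then thH (cA n) (av n (stK n L t)) x₀ x else 0

theorem stOm_eq (n L t : ℕ) (x₀ x : Fin n → ℤ) : stOm n L t x₀ x = (1 / 2) ^ stH n L t x₀ x := by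
  unfold stH
  split_ifs with h
  · rw [stOm_thin h]; unfold thinW; rw [thW_eq]
  · rw [stOm_fat (not_lt.1 h), pow_zero]

/-- weight of the (hole) state `(x, x + s)` at stage `t` -/
noncomputable def stW (L : ℕ) (x₀ s : Fin n → ℤ) (t : ℕ) (x : Fin n → ℤ) : ℝ :=
  if InCube x₀ (stQ n L t) x ∧ InCube x₀ (stQ n L t) (fun v => x v + s v)
  then stOm n L t x₀ x else 0

theorem stW_nonneg (L : ℕ) (x₀ s : Fin n → ℤ) (t : ℕ) (x : Fin n → ℤ) : 0 ≤ stW L x₀ s t x := by
  unfold stW
  split_ifs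
  · exact (stOm_pos _ _ _ _ _).le
  · exact le_rfl

theorem stW_le_one (L : ℕ) (x₀ s : Fin n → ℤ) (t : ℕ) (x : Fin n → ℤ) : stW L x₀ s t x ≤ 1 := by
  unfold stW
  split_ifs
  · exact stOm_le_one _ _ _ _ _
  · exact zero_le_one

/-- pointwise monotonicity -/
theorem stOm_mono (L t : ℕ) (x₀ x : Fin n → ℤ) :
    stOm n L t x₀ x ≤ stOm n L (t + 1) x₀ x := by
  rcases Nat.lt_or_ge t (T0 n L) with h | h
  · rcases Nat.lt_or_ge (t + 1) (T0 n L) with h' | h'
    · rw [stOm_thin h, stOm_thin h']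
      have e : stK n L t = stK n L (t + 1) + 1 := by unfold stK; omega
      rw [e]
      exact thinW_succ_le _ _ _ _ _
    · rw [stOm_fat h']
      exact stOm_le_one _ _ _ _ _
  · rw [stOm_fat h, stOm_fat (h.trans (Nat.le_succ t))]

theorem stOm_ratio {L t : ℕ} {x₀ x : Fin n → ℤ} (hx : InCube x₀ (stQ n L t) x) :
    stOm n L (t + 1) x₀ x ≤ 2 * stOm n L t x₀ x := by
  rcases Nat.lt_or_ge t (T0 n L) with h | h
  · rw [stQ_thin h.le] at hx
    have e : stK n L t = stK n L (t + 1) + 1 := by unfold stK; omega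
    have h1 : thinW n (cA n) (stK n L (t + 1)) x₀ x ≤ 2 * stOm n L t x₀ x := by
      rw [stOm_thin h, e]
      exact thinW_le_succ _ hx
    rcases Nat.lt_or_ge (t + 1) (T0 n L) with h' | h'
    · rw [stOm_thin h']; exact h1
    · rw [stOm_fat h']
      have e2 : stK n L (t + 1) = 0 := by unfold stK; omega
      rw [e2, thinW_zero hx] at h1
      exact h1
  · rw [stOm_fat h, stOm_fat (h.trans (Nat.le_succ t))]; norm_num

theorem stW_mono (L : ℕ) (x₀ s : Fin n → ℤ) (t : ℕ) (x : Fin n → ℤ) :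
    stW L x₀ s t x ≤ stW L x₀ s (t + 1) x := by
  unfold stW
  have hq := stQ_mono n L (Nat.le_succ t)
  split_ifs with h1 h2
  · exact stOm_mono L t x₀ x
  · exact absurd ⟨InCube.mono hq h1.1, InCube.mono hq h1.2⟩ h2
  · exact (stOm_pos _ _ _ _ _).le
  · exact le_rfl

/-- **Ratio of consecutive stages** (total masses; all hole types). -/
theorem stage_ratio {r₁ r₂ : Finset (Fin n) → ℤ} {R : ℤ} (hr₁ : SubM r₁ R) (hr₂ : SubM r₂ R)
    {x₀ : Fin n → ℤ} (h₁ : MemJ r₁ R x₀) (h₂ : MemJ r₂ R x₀) {s : Fin n → ℤ}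
    (hs0 : ∑ v, s v = 0) (hs1 : ∀ A : Finset (Fin n), |∑ v ∈ A, s v| ≤ 1) (L t : ℕ)
    (P : Finset (Fin n → ℤ))
    (hP : ∀ x, x ∈ P ↔ MemJ r₁ R x ∧ MemJ r₂ R (fun v => x v + s v)) :
    ∑ x ∈ P, stW L x₀ s (t + 1) x ≤ 2 * ∑ x ∈ P, stW L x₀ s t x := by
  classical
  rcases Nat.lt_or_ge t (T0 n L) with h | h
  · -- thin stage: pointwise
    rw [mul_sum]
    refine sum_le_sum fun x _ => ?_
    have e2 : stQ n L (t + 1) = cA n := stQ_thin h
    have e3 : stQ n L t = cA n := stQ_thin h.le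
    unfold stW
    rw [e2, e3]
    split_ifs with h1
    · exact stOm_ratio (by rw [e3]; exact h1.1)
    · simp
  · -- fat stage
    have e3 : stQ n L (t + 1) = rad n (t - T0 n L + 1) := by
      unfold stQ; congr 1; omega
    have key := hole_ratio hr₁ hr₂ h₁ h₂ hs0 hs1 (q := stQ n L t) (q' := stQ n L (t + 1))
      (stQ_mono n L (Nat.le_succ t))
      (by
        rw [e3, Fintype.card_fin]
        exact rad_step n (t - T0 n L))
      (P.filter fun x => InCube x₀ (stQ n L t) x ∧ InCube x₀ (stQ n L t) (fun v => x v + s v))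
      (P.filter fun x => InCube x₀ (stQ n L (t + 1)) x ∧
        InCube x₀ (stQ n L (t + 1)) (fun v => x v + s v))
      (fun x => by rw [mem_filter, hP]; tauto) (fun x => by rw [mem_filter, hP]; tauto)
    have aux : ∀ u, T0 n L ≤ u → ∑ x ∈ P, stW L x₀ s u x = ((P.filter fun x =>
        InCube x₀ (stQ n L u) x ∧ InCube x₀ (stQ n L u) (fun v => x v + s v)).card : ℝ) := by
      intro u hu
      rw [card_eq_sum_ones, Nat.cast_sum, sum_filter]
      refine sum_congr rfl fun x _ => ?_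
      unfold stW
      rw [stOm_fat hu]
      split_ifs <;> simp
    rw [aux t h, aux (t + 1) (h.trans (Nat.le_succ t))]
    exact_mod_cast key

/-- weight of the start point -/
theorem stW_self (L : ℕ) (x₀ : Fin n → ℤ) (t : ℕ) : stW L x₀ 0 t x₀ = 1 := by
  unfold stW
  have h : InCube x₀ (stQ n L t) x₀ := fun v => by constructor <;> simp
  have h' : InCube x₀ (stQ n L t) (fun v => x₀ v + (0 : Fin n → ℤ) v) := by
    simpa using h
  rw [if_pos ⟨h, h'⟩]
  rcases Nat.lt_or_ge t (T0 n L) with h | h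
  · rw [stOm_thin h, thinW_self (cA_pos n)]
  · rw [stOm_fat h]

/-- **First stage**: total mass at most `1 + 8 n / 2 ^ L`, for all hole types. -/
theorem stage_first {L : ℕ} (hL : 1 ≤ L)
    (hL2 : 8 * (n : ℝ) * (1 / 2) ^ L ≤ 1) (x₀ s : Fin n → ℤ) (P : Finset (Fin n → ℤ)) :
    ∑ x ∈ P, stW L x₀ s 0 x ≤ 1 + 8 * n * (1 / 2) ^ L := by
  classical
  have hL2' : 8 * (Fintype.card (Fin n) : ℝ) * (1 / 2) ^ L ≤ 1 := by
    rw [Fintype.card_fin]; exact hL2
  have h1 := first_mass hL hL2' x₀ (stQ n L 0) (P.filter fun x => InCube x₀ (stQ n L 0) x)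
    (fun x hx v => (mem_filter.1 hx).2 v)
  rw [Fintype.card_fin] at h1
  refine le_trans ?_ h1
  rw [sum_filter]
  refine sum_le_sum fun x _ => ?_
  unfold stW
  have hq0 : stQ n L 0 = cA n := stQ_thin (Nat.zero_le _)
  split_ifs with h2 h3 h4
  · have hc := h2.1
    rw [hq0] at hc
    rcases Nat.eq_zero_or_pos (T0 n L) with h0 | h0
    · -- `n = 0`
      have hn : n = 0 := by
        unfold T0 at h0
        have := cA_pos n
        rcases Nat.mul_eq_zero.1 h0 with h | h
        · exact h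
        · rcases Nat.mul_eq_zero.1 h with h | h <;> omega
      subst hn
      rw [stOm_fat h0.le]
      have : l1 x₀ x = 0 := by simp [l1]
      rw [this, mul_zero, pow_zero]
    · rw [stOm_thin h0]
      have : stK n L 0 = n * (L * cA n) := by unfold stK T0; omega
      rw [this, thinW_top (cA_pos n) L hc]
  · exact absurd h2.1 h3
  · positivity
  · exact le_rfl

/-- **Last stage**: the weight is one on everything. -/
theorem stage_last {L K t : ℕ} (ht : nStages n L K ≤ t) {x₀ s x : Fin n → ℤ}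
    (hx : InCube x₀ K x) (hx' : InCube x₀ K (fun v => x v + s v)) : stW L x₀ s t x = 1 := by
  have hq := stQ_last n L K ht
  unfold stW
  rw [if_pos ⟨InCube.mono hq hx, InCube.mono hq hx'⟩]
  exact stOm_fat (by unfold nStages at ht; omega) _ _

end stage

end Crest.Agent.R302.AnnBox
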