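import Mathlib
import Crest.Agent.R309.Tape

/-!
# R302, block LOOP: the adaptive outer loop of the sampler (helper272)

Population of particles; at every stage the first particle is used up as the centre, the next `K` particles are
used up for the update of the gauge, and all the other particles are moved by the (centre, gauge)-chain of the
stage.  The error analysis is a backward induction which only needs

* the one-particle statement (for good centre and good gauge the moved particle has the law of the next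
  stage, up to `e`, if the particle has the law of the present stage),
* most particles are good centres,
* the gauge update yields a good gauge with probability at least `1 - e`.
-/

set_option autoImplicit false

namespace Crest.Agent.R302.Loop

open Finset Crest.Agent.R309.Tape

variable {S G : Type*}

/-- a finitely supported probability law -/
structure Law (S : Type*) where
  supp : Finset S
  wt : S → ℝ
  nonneg : ∀ x ∈ supp, 0 ≤ wt x
  sum_eq : ∑ x ∈ supp, wt x = 1

namespace Law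

/-- expectation -/
def E (μ : Law S) (φ : S → ℝ) : ℝ := ∑ x ∈ μ.supp, μ.wt x * φ x

theorem E_const (μ : Law S) (c : ℝ) : μ.E (fun _ => c) = c := by
  unfold E; rw [← Finset.sum_mul, μ.sum_eq, one_mul]

theorem E_mono (μ : Law S) {φ ψ : S → ℝ} (h : ∀ x ∈ μ.supp, φ x ≤ ψ x) : μ.E φ ≤ μ.E ψ :=
  Finset.sum_le_sum fun x hx => mul_le_mul_of_nonneg_left (h x hx) (μ.nonneg x hx)

theorem E_congr (μ : Law S) {φ ψ : S → ℝ} (h : ∀ x ∈ μ.supp, φ x = ψ x) : μ.E φ = μ.E ψ :=
  Finset.sum_congr rfl fun x hx => by rw [h x hx]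

theorem E_add (μ : Law S) (φ ψ : S → ℝ) : μ.E (fun x => φ x + ψ x) = μ.E φ + μ.E ψ := by
  unfold E; rw [← Finset.sum_add_distrib]; exact Finset.sum_congr rfl fun x _ => by ring

theorem E_sub (μ : Law S) (φ ψ : S → ℝ) : μ.E (fun x => φ x - ψ x) = μ.E φ - μ.E ψ := by
  unfold E; rw [← Finset.sum_sub_distrib]; exact Finset.sum_congr rfl fun x _ => by ring

theorem E_mul_left (μ : Law S) (c : ℝ) (φ : S → ℝ) : μ.E (fun x => c * φ x) = c * μ.E φ := by
  unfold E; rw [Finset.mul_sum]; exact Finset.sum_congr rfl fun x _ => by ring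

theorem abs_E_le (μ : Law S) (φ : S → ℝ) : |μ.E φ| ≤ μ.E (fun x => |φ x|) := by
  unfold E
  refine (Finset.abs_sum_le_sum_abs _ _).trans (Finset.sum_le_sum fun x hx => ?_)
  rw [abs_mul, abs_of_nonneg (μ.nonneg x hx)]

/-- exchange with the average over a tape -/
theorem E_avg (μ : Law S) (R : ℕ) (F : S → List Bool → ℝ) :
    μ.E (fun x => avg R (F x)) = avg R (fun l => μ.E (fun x => F x l)) := by
  unfold E
  rw [avg_sum μ.supp R (fun x l => μ.wt x * F x l)]
  exact Finset.sum_congr rfl fun x _ => (avg_mul_left R (μ.wt x) (F x)).symm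

/-- expectation over `n` independent particles -/
def EN (μ : Law S) : ℕ → (List S → ℝ) → ℝ
  | 0, Φ => Φ []
  | n + 1, Φ => μ.E (fun x => EN μ n (fun xs => Φ (x :: xs)))

@[simp] theorem EN_zero (μ : Law S) (Φ : List S → ℝ) : μ.EN 0 Φ = Φ [] := rfl

theorem EN_succ (μ : Law S) (n : ℕ) (Φ : List S → ℝ) :
    μ.EN (n + 1) Φ = μ.E (fun x => μ.EN n (fun xs => Φ (x :: xs))) := rfl

theorem EN_mono (μ : Law S) (n : ℕ) {Φ Ψ : List S → ℝ}
    (h : ∀ xs : List S, xs.length = n → (∀ x ∈ xs, x ∈ μ.supp) → Φ xs ≤ Ψ xs) :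
    μ.EN n Φ ≤ μ.EN n Ψ := by
  induction n generalizing Φ Ψ with
  | zero => exact h [] rfl (by simp)
  | succ n ih =>
    refine μ.E_mono fun x hx => ih fun xs hxs hm => h (x :: xs) (by simp [hxs]) ?_
    intro y hy
    rcases List.mem_cons.mp hy with rfl | hy
    · exact hx
    · exact hm y hy

theorem EN_congr (μ : Law S) (n : ℕ) {Φ Ψ : List S → ℝ}
    (h : ∀ xs : List S, xs.length = n → (∀ x ∈ xs, x ∈ μ.supp) → Φ xs = Ψ xs) :
    μ.EN n Φ = μ.EN n Ψ :=
  le_antisymm (μ.EN_mono n fun xs h1 h2 => (h xs h1 h2).le) (μ.EN_mono n fun xs h1 h2 => (h xs h1 h2).ge)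

@[simp] theorem EN_const (μ : Law S) (n : ℕ) (c : ℝ) : μ.EN n (fun _ => c) = c := by
  induction n with
  | zero => rfl
  | succ n ih => rw [EN_succ]; simp only [ih]; exact μ.E_const c

theorem EN_add (μ : Law S) (n : ℕ) (Φ Ψ : List S → ℝ) :
    μ.EN n (fun xs => Φ xs + Ψ xs) = μ.EN n Φ + μ.EN n Ψ := by
  induction n generalizing Φ Ψ with
  | zero => rfl
  | succ n ih =>
    rw [EN_succ, EN_succ, EN_succ, ← E_add]
    exact μ.E_congr fun x _ => ih _ _

theorem EN_sub (μ : Law S) (n : ℕ) (Φ Ψ : List S → ℝ) :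
    μ.EN n (fun xs => Φ xs - Ψ xs) = μ.EN n Φ - μ.EN n Ψ := by
  induction n generalizing Φ Ψ with
  | zero => rfl
  | succ n ih =>
    rw [EN_succ, EN_succ, EN_succ, ← E_sub]
    exact μ.E_congr fun x _ => ih _ _

theorem EN_mul_left (μ : Law S) (n : ℕ) (c : ℝ) (Φ : List S → ℝ) :
    μ.EN n (fun xs => c * Φ xs) = c * μ.EN n Φ := by
  induction n generalizing Φ with
  | zero => rfl
  | succ n ih =>
    rw [EN_succ, EN_succ, ← E_mul_left]
    exact μ.E_congr fun x _ => ih _

theorem abs_EN_le (μ : Law S) (n : ℕ) (Φ : List S → ℝ) : |μ.EN n Φ| ≤ μ.EN n (fun xs => |Φ xs|) := by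
  induction n generalizing Φ with
  | zero => exact le_rfl
  | succ n ih =>
    rw [EN_succ, EN_succ]
    exact (μ.abs_E_le _).trans (μ.E_mono fun x _ => ih _)

theorem EN_avg (μ : Law S) (n R : ℕ) (F : List S → List Bool → ℝ) :
    μ.EN n (fun xs => avg R (F xs)) = avg R (fun l => μ.EN n (fun xs => F xs l)) := by
  induction n generalizing F with
  | zero => rfl
  | succ n ih =>
    rw [EN_succ]
    rw [μ.E_congr (ψ := fun x => avg R (fun l => μ.EN n (fun xs => F (x :: xs) l)))
      (fun x _ => ih (fun xs => F (x :: xs)))]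
    rw [μ.E_avg R (fun x l => μ.EN n (fun xs => F (x :: xs) l))]
    rfl

theorem EN_append (μ : Law S) (m n : ℕ) (Φ : List S → ℝ) :
    μ.EN (m + n) Φ = μ.EN m (fun ys => μ.EN n (fun xs => Φ (ys ++ xs))) := by
  induction m generalizing Φ with
  | zero => simp
  | succ m ih =>
    rw [show m + 1 + n = (m + n) + 1 by ring, EN_succ, EN_succ]
    exact μ.E_congr fun x _ => ih _

theorem E_mem01 (μ : Law S) {φ : S → ℝ} (h : ∀ x, 0 ≤ φ x ∧ φ x ≤ 1) : 0 ≤ μ.E φ ∧ μ.E φ ≤ 1 := by
  constructor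
  · have := μ.E_mono (φ := fun _ => (0 : ℝ)) (ψ := φ) fun x _ => (h x).1
    rwa [μ.E_const] at this
  · have := μ.E_mono (φ := φ) (ψ := fun _ => (1 : ℝ)) fun x _ => (h x).2
    rwa [μ.E_const] at this

theorem EN_mem01 (μ : Law S) (n : ℕ) {Φ : List S → ℝ} (h : ∀ x, 0 ≤ Φ x ∧ Φ x ≤ 1) :
    0 ≤ μ.EN n Φ ∧ μ.EN n Φ ≤ 1 := by
  constructor
  · have := μ.EN_mono n (Φ := fun _ => (0 : ℝ)) (Ψ := Φ) fun x _ _ => (h x).1
    rwa [μ.EN_const] at this
  · have := μ.EN_mono n (Φ := Φ) (Ψ := fun _ => (1 : ℝ)) fun x _ _ => (h x).2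
    rwa [μ.EN_const] at this

end Law

theorem avg_mem01 (R : ℕ) {g : List Bool → ℝ} (h : ∀ l, 0 ≤ g l ∧ g l ≤ 1) :
    0 ≤ avg R g ∧ avg R g ≤ 1 :=
  ⟨avg_nonneg fun l _ => (h l).1, avg_le_const fun l _ => (h l).2⟩

variable {Ω : Type*}

/-- move every particle, `ρ` bits for each -/
def mapRun (f : S → List Bool → Ω) (ρ : ℕ) : List S → List Bool → List Ω
  | [], _ => []
  | x :: xs, l => f x (l.take ρ) :: mapRun f ρ xs (l.drop ρ)

@[simp] theorem length_mapRun (f : S → List Bool → Ω) (ρ : ℕ) (xs : List S) (l : List Bool) :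
    (mapRun f ρ xs l).length = xs.length := by
  induction xs generalizing l with
  | nil => rfl
  | cons x xs ih => simp [mapRun, ih]

theorem mapRun_take (f : S → List Bool → Ω) (ρ : ℕ) (xs : List S) (l : List Bool) {R : ℕ}
    (h : xs.length * ρ ≤ R) : mapRun f ρ xs (l.take R) = mapRun f ρ xs l := by
  induction xs generalizing l R with
  | nil => rfl
  | cons x xs ih =>
    have h1 : xs.length * ρ + ρ ≤ R := by
      have : (xs.length + 1) * ρ ≤ R := by simpa using h
      linarith [show (xs.length + 1) * ρ = xs.length * ρ + ρ by ring]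
    simp only [mapRun]
    rw [List.take_take, min_eq_left (by omega), List.drop_take]
    rw [ih (l.drop ρ) (by omega)]

/-- **Hybrid argument**: `n` independent particles moved independently. -/
theorem hybrid (μ : Law S) (ν : Law Ω) (f : S → List Bool → Ω) (ρ : ℕ) (e : ℝ)
    (h : ∀ φ : Ω → ℝ, (∀ x, 0 ≤ φ x ∧ φ x ≤ 1) → |μ.E (fun x => avg ρ (fun l => φ (f x l))) - ν.E φ| ≤ e)
    (n : ℕ) : ∀ Ψ : List Ω → ℝ, (∀ x, 0 ≤ Ψ x ∧ Ψ x ≤ 1) →
      |μ.EN n (fun xs => avg (n * ρ) (fun l => Ψ (mapRun f ρ xs l))) - ν.EN n Ψ| ≤ n * e := by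
  induction n with
  | zero => intro Ψ _; simp [mapRun]
  | succ n ih =>
    intro Ψ hΨ
    have hφ : ∀ y, 0 ≤ μ.EN n (fun xs => avg (n * ρ) (fun l' => Ψ (y :: mapRun f ρ xs l'))) ∧
        μ.EN n (fun xs => avg (n * ρ) (fun l' => Ψ (y :: mapRun f ρ xs l'))) ≤ 1 := fun y =>
      μ.EN_mem01 n fun xs => avg_mem01 _ fun l => hΨ _
    have key : μ.EN (n + 1) (fun xs => avg ((n + 1) * ρ) (fun l => Ψ (mapRun f ρ xs l))) =
        μ.E (fun x => avg ρ (fun l => μ.EN n (fun xs =>
          avg (n * ρ) (fun l' => Ψ (f x l :: mapRun f ρ xs l'))))) := by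
      rw [Law.EN_succ]
      refine μ.E_congr fun x _ => ?_
      rw [← μ.EN_avg n ρ]
      refine μ.EN_congr n fun xs _ _ => ?_
      rw [show (n + 1) * ρ = ρ + n * ρ by ring]
      simp only [mapRun]
      exact avg_take_drop ρ (n * ρ) (fun l l' => Ψ (f x l :: mapRun f ρ xs l'))
    rw [key, Law.EN_succ]
    have h1 := h (fun y => μ.EN n (fun xs => avg (n * ρ) (fun l' => Ψ (y :: mapRun f ρ xs l')))) hφ
    have h2 : |ν.E (fun y => μ.EN n (fun xs => avg (n * ρ) (fun l' => Ψ (y :: mapRun f ρ xs l')))) -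
        ν.E (fun y => ν.EN n (fun xs => Ψ (y :: xs)))| ≤ n * e := by
      rw [← ν.E_sub]
      refine (ν.abs_E_le _).trans ?_
      refine (ν.E_mono fun y _ => ih (fun xs => Ψ (y :: xs)) (fun xs => hΨ _)).trans ?_
      rw [ν.E_const]
    have h3 := abs_sub_le
      (μ.E (fun x => avg ρ (fun l => μ.EN n (fun xs =>
          avg (n * ρ) (fun l' => Ψ (f x l :: mapRun f ρ xs l'))))))
      (ν.E (fun y => μ.EN n (fun xs => avg (n * ρ) (fun l' => Ψ (y :: mapRun f ρ xs l')))))
      (ν.E (fun y => ν.EN n (fun xs => Ψ (y :: xs))))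
    push_cast
    linarith

/-- the start: replacing the law by a point mass -/
theorem EN_replicate (μ : Law S) (x0 : S) (e : ℝ)
    (h : ∀ φ : S → ℝ, (∀ x, 0 ≤ φ x ∧ φ x ≤ 1) → |φ x0 - μ.E φ| ≤ e)
    (n : ℕ) : ∀ Ψ : List S → ℝ, (∀ x, 0 ≤ Ψ x ∧ Ψ x ≤ 1) →
      |Ψ (List.replicate n x0) - μ.EN n Ψ| ≤ n * e := by
  induction n with
  | zero => intro Ψ _; simp
  | succ n ih =>
    intro Ψ hΨ
    have h1 := h (fun y => μ.EN n (fun xs => Ψ (y :: xs))) (fun y => μ.EN_mem01 n fun xs => hΨ _)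
    have h2 := ih (fun xs => Ψ (x0 :: xs)) (fun xs => hΨ _)
    have h3 := abs_sub_le (Ψ (x0 :: List.replicate n x0)) (μ.EN n (fun xs => Ψ (x0 :: xs)))
      (μ.E (fun y => μ.EN n (fun xs => Ψ (y :: xs))))
    rw [List.replicate_succ, Law.EN_succ]
    push_cast
    linarith

/-! ### the loop -/

/-- the program of the loop -/
structure Sys (S G : Type*) where
  /-- stage, centre, (new) gauge, particle, tape -/
  run : ℕ → S → G → S → List Bool → S
  /-- stage, centre, (old) gauge, estimator particles, tape -/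
  gup : ℕ → S → G → List S → List Bool → G
  /-- bits per particle move -/
  ρ : ℕ
  /-- bits per gauge update -/
  ρ1 : ℕ
  /-- number of estimator particles -/
  K : ℕ

/-- one stage; state = (stage, gauge, population) -/
def stage (A : Sys S G) (s : ℕ × G × List S) (l : List Bool) : ℕ × G × List S :=
  match s.2.2 with
  | [] => (s.1 + 1, s.2.1, [])
  | c :: rest =>
    (s.1 + 1, A.gup s.1 c s.2.1 (rest.take A.K) (l.take A.ρ1),
      mapRun (A.run s.1 c (A.gup s.1 c s.2.1 (rest.take A.K) (l.take A.ρ1))) A.ρ (rest.drop A.K)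
        (l.drop A.ρ1))

theorem stage_cons (A : Sys S G) (t : ℕ) (g : G) (c : S) (ys xs : List S) (hy : ys.length = A.K)
    (l : List Bool) :
    stage A (t, g, c :: (ys ++ xs)) l = (t + 1, A.gup t c g ys (l.take A.ρ1),
      mapRun (A.run t c (A.gup t c g ys (l.take A.ρ1))) A.ρ xs (l.drop A.ρ1)) := by
  simp only [stage]
  rw [← hy, List.take_left', List.drop_left'] <;> rfl

/-- the hypotheses on one stage; the errors: `eC` (centre), `eG` (gauge update), `eM` (one particle) -/
structure StageOK (A : Sys S G) (μ ν : Law S) (t : ℕ) (Good Good' : G → Prop) (GoodC : S → Prop)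
    (eC eG eM : ℝ) : Prop where
  /-- most particles are good centres -/
  centre : 1 - eC ≤ μ.E (fun c => ind (GoodC c))
  /-- the gauge update works -/
  gauge : ∀ c, c ∈ μ.supp → GoodC c → ∀ g, Good g →
    1 - eG ≤ μ.EN A.K (fun ys => avg A.ρ1 (fun l => ind (Good' (A.gup t c g ys l))))
  /-- the one-particle statement -/
  move : ∀ c, c ∈ μ.supp → GoodC c → ∀ g, Good' g → ∀ φ : S → ℝ, (∀ x, 0 ≤ φ x ∧ φ x ≤ 1) →
    |μ.E (fun x => avg A.ρ (fun l => φ (A.run t c g x l))) - ν.E φ| ≤ eM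

theorem stage_bound {A : Sys S G} {μ ν : Law S} {t : ℕ} {Good Good' : G → Prop} {GoodC : S → Prop}
    {eC eG eM : ℝ} (heG : 0 ≤ eG) (heM : 0 ≤ eM)
    (H : StageOK A μ ν t Good Good' GoodC eC eG eM) (n r : ℕ) (hr : A.ρ1 + n * A.ρ ≤ r)
    (Ψ : ℕ × G × List S → ℝ) (hΨ : ∀ s, 0 ≤ Ψ s ∧ Ψ s ≤ 1) (v δ : ℝ) (hv : 0 ≤ v ∧ v ≤ 1) (hδ : 0 ≤ δ)
    (IH : ∀ g, Good' g → |ν.EN n (fun xs => Ψ (t + 1, g, xs)) - v| ≤ δ) (g : G) (hg : Good g) :
    |μ.EN (1 + A.K + n) (fun X => avg r (fun l => Ψ (stage A (t, g, X) l))) - v| ≤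
      δ + (eC + eG + n * eM) := by
  classical
  -- the inner quantity
  set B : S → G → ℝ := fun c g' =>
    μ.EN n (fun xs => avg (n * A.ρ) (fun l => Ψ (t + 1, g', mapRun (A.run t c g') A.ρ xs l))) with hB
  have hB01 : ∀ c g', 0 ≤ B c g' ∧ B c g' ≤ 1 := fun c g' =>
    μ.EN_mem01 n fun xs => avg_mem01 _ fun l => hΨ _
  have key : μ.EN (1 + A.K + n) (fun X => avg r (fun l => Ψ (stage A (t, g, X) l))) =
      μ.E (fun c => μ.EN A.K (fun ys => avg A.ρ1 (fun l => B c (A.gup t c g ys l)))) := by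
    rw [show 1 + A.K + n = (A.K + n) + 1 by ring, Law.EN_succ]
    refine μ.E_congr fun c _ => ?_
    rw [Law.EN_append]
    refine μ.EN_congr A.K fun ys hys _ => ?_
    rw [hB]
    simp only
    rw [← μ.EN_avg n A.ρ1 (fun xs l => avg (n * A.ρ) (fun l' =>
      Ψ (t + 1, A.gup t c g ys l, mapRun (A.run t c (A.gup t c g ys l)) A.ρ xs l')))]
    refine μ.EN_congr n fun xs hxs _ => ?_
    obtain ⟨r', rfl⟩ : ∃ r', r = A.ρ1 + r' := ⟨r - A.ρ1, by omega⟩
    simp only [stage_cons A t g c ys xs hys]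
    rw [avg_take_drop A.ρ1 r' (fun l l' => Ψ (t + 1, A.gup t c g ys l,
      mapRun (A.run t c (A.gup t c g ys l)) A.ρ xs l'))]
    refine avg_congr fun l _ => ?_
    have h1 : n * A.ρ ≤ r' := by omega
    rw [← avg_take h1 (fun l' => Ψ (t + 1, A.gup t c g ys l,
      mapRun (A.run t c (A.gup t c g ys l)) A.ρ xs l'))]
    refine avg_congr fun l' _ => ?_
    rw [mapRun_take _ _ _ _ (by rw [hxs])]
  rw [key]
  -- pointwise bounds
  have hBgood : ∀ c, c ∈ μ.supp → GoodC c → ∀ g', Good' g' → |B c g' - v| ≤ δ + n * eM := by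
    intro c hc hc' g' hg'
    have h1 := hybrid μ ν (A.run t c g') A.ρ eM (H.move c hc hc' g' hg') n
      (fun xs => Ψ (t + 1, g', xs)) (fun xs => hΨ _)
    have h2 := IH g' hg'
    have h3 := abs_sub_le (B c g') (ν.EN n (fun xs => Ψ (t + 1, g', xs))) v
    linarith
  have hone : ∀ x : ℝ, 0 ≤ x ∧ x ≤ 1 → |x - v| ≤ 1 := fun x hx => by
    rw [abs_le]; constructor <;> linarith [hx.1, hx.2, hv.1, hv.2]
  have hne : 0 ≤ (n : ℝ) * eM := by positivity
  have hBall : ∀ c, c ∈ μ.supp → GoodC c → ∀ g', |B c g' - v| ≤ (δ + n * eM) + (1 - ind (Good' g')) := by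
    intro c hc hc' g'
    by_cases h : Good' g'
    · rw [ind_of h]; simpa using hBgood c hc hc' g' h
    · rw [ind_of_not h]; have := hone _ (hB01 c g'); linarith
  have hC : ∀ c, c ∈ μ.supp →
      |μ.EN A.K (fun ys => avg A.ρ1 (fun l => B c (A.gup t c g ys l))) - v| ≤
        (δ + n * eM + eG) + (1 - ind (GoodC c)) := by
    intro c hc
    by_cases h : GoodC c
    · rw [ind_of h]
      have e1 : μ.EN A.K (fun ys => avg A.ρ1 (fun l => B c (A.gup t c g ys l))) - v =
          μ.EN A.K (fun ys => avg A.ρ1 (fun l => B c (A.gup t c g ys l) - v)) := by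
        rw [show v = μ.EN A.K (fun _ => avg A.ρ1 (fun _ => v)) by simp, ← Law.EN_sub]
        refine μ.EN_congr _ fun ys _ _ => ?_
        rw [← avg_sub]; simp
      rw [e1]
      refine (μ.abs_EN_le _ _).trans ?_
      have e2 : μ.EN A.K (fun ys => |avg A.ρ1 (fun l => B c (A.gup t c g ys l) - v)|) ≤
          μ.EN A.K (fun ys => (δ + n * eM + 1) - avg A.ρ1 (fun l => ind (Good' (A.gup t c g ys l)))) := by
        refine μ.EN_mono _ fun ys _ _ => ?_
        refine (abs_avg_le _ _).trans ?_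
        have := avg_mono (R := A.ρ1) (g := fun l => |B c (A.gup t c g ys l) - v|)
          (h := fun l => (δ + n * eM + 1) - ind (Good' (A.gup t c g ys l)))
          (fun l _ => by have := hBall c hc h (A.gup t c g ys l); linarith)
        rwa [avg_sub, avg_const] at this
      refine e2.trans ?_
      rw [Law.EN_sub, Law.EN_const]
      have := H.gauge c hc h g hg
      linarith
    · rw [ind_of_not h]
      have h1 : 0 ≤ μ.EN A.K (fun ys => avg A.ρ1 (fun l => B c (A.gup t c g ys l))) ∧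
          μ.EN A.K (fun ys => avg A.ρ1 (fun l => B c (A.gup t c g ys l))) ≤ 1 :=
        μ.EN_mem01 _ fun ys => avg_mem01 _ fun l => hB01 _ _
      have := hone _ h1
      linarith
  have e3 : μ.E (fun c => μ.EN A.K (fun ys => avg A.ρ1 (fun l => B c (A.gup t c g ys l)))) - v =
      μ.E (fun c => μ.EN A.K (fun ys => avg A.ρ1 (fun l => B c (A.gup t c g ys l))) - v) := by
    rw [Law.E_sub, Law.E_const]
  rw [e3]
  refine (μ.abs_E_le _).trans ?_
  refine (μ.E_mono hC).trans ?_
  have e4 : μ.E (fun c => (δ + n * eM + eG) + (1 - ind (GoodC c))) =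
      (δ + n * eM + eG) + (1 - μ.E (fun c => ind (GoodC c))) := by
    rw [Law.E_add, Law.E_const, Law.E_sub, Law.E_const]
  rw [e4]
  have := H.centre
  linarith

/-- population size with `j` stages to go (`m + 1` particles at the end) -/
def popSize (A : Sys S G) (m : ℕ) : ℕ → ℕ
  | 0 => m
  | j + 1 => 1 + A.K + popSize A m j

theorem popSize_eq (A : Sys S G) (m j : ℕ) : popSize A m j = m + j * (1 + A.K) := by
  induction j with
  | zero => simp [popSize]
  | succ j ih => rw [popSize, ih]; ring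

/-- **The loop**: backward induction over the stages.  The error per stage is `eC + eG + popSize * eM`. -/
theorem loop {A : Sys S G} {T : ℕ} {μ : ℕ → Law S} {Good : ℕ → G → Prop} {GoodC : ℕ → S → Prop}
    {eC eG eM : ℝ} (heC : 0 ≤ eC) (heG : 0 ≤ eG) (heM : 0 ≤ eM)
    (H : ∀ t < T, StageOK A (μ t) (μ (t + 1)) t (Good t) (Good (t + 1)) (GoodC t) eC eG eM)
    (m r : ℕ) (hr : A.ρ1 + popSize A m T * A.ρ ≤ r)
    (Φ : List S → ℝ) (hΦ : ∀ s, 0 ≤ Φ s ∧ Φ s ≤ 1) :
    ∀ j t, t + j = T → ∀ g, Good t g →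
      |(μ t).EN (popSize A m j) (fun X =>
          (markov (stage A) r)^[j] (fun s => Φ s.2.2) (t, g, X)) - (μ T).EN m Φ| ≤
        j * (eC + eG + popSize A m T * eM) := by
  intro j
  induction j with
  | zero =>
    intro t ht g _
    have : t = T := by omega
    subst this
    simp [popSize]
  | succ j ih =>
    intro t ht g hg
    have hmono : popSize A m j ≤ popSize A m T := by
      rw [popSize_eq, popSize_eq]
      have : j ≤ T := by omega
      gcongr
    have h01 : ∀ i (s : ℕ × G × List S), 0 ≤ (markov (stage A) r)^[i] (fun s => Φ s.2.2) s ∧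
        (markov (stage A) r)^[i] (fun s => Φ s.2.2) s ≤ 1 := by
      intro i
      induction i with
      | zero => intro s; simpa using hΦ s.2.2
      | succ i ihi =>
        intro s
        rw [Function.iterate_succ_apply']
        exact avg_mem01 _ fun l => ihi _
    have hpop : (0 : ℝ) ≤ eC + eG + popSize A m T * eM := by positivity
    have h1 := stage_bound heG heM (H t (by omega)) (popSize A m j) r
      (by have := Nat.mul_le_mul_right A.ρ hmono; omega)
      ((markov (stage A) r)^[j] (fun s => Φ s.2.2)) (h01 j) ((μ T).EN m Φ)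
      (j * (eC + eG + popSize A m T * eM)) ((μ T).EN_mem01 m hΦ) (by positivity)
      (fun g' hg' => ih (t + 1) (by omega) g' hg') g hg
    rw [popSize]
    have h2 : (fun X => (markov (stage A) r)^[j + 1] (fun s => Φ s.2.2) (t, g, X)) =
        fun X => avg r (fun l => (markov (stage A) r)^[j] (fun s => Φ s.2.2) (stage A (t, g, X) l)) := by
      funext X
      rw [Function.iterate_succ_apply']
      rfl
    rw [h2]
    have h3 : ((popSize A m j : ℕ) : ℝ) ≤ popSize A m T := by exact_mod_cast hmono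
    have h4 : (popSize A m j : ℝ) * eM ≤ popSize A m T * eM :=
      mul_le_mul_of_nonneg_right h3 heM
    push_cast
    linarith

/-- **The sampler**: run the loop from `popSize` copies of `x0`; the law of the first surviving particle is
within `T (eC + eG + popSize eM) + popSize e0` of the law of the last stage. -/
theorem loop_sampler {A : Sys S G} {T : ℕ} {μ : ℕ → Law S} {Good : ℕ → G → Prop} {GoodC : ℕ → S → Prop}
    {eC eG eM e0 : ℝ} (heC : 0 ≤ eC) (heG : 0 ≤ eG) (heM : 0 ≤ eM)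
    (H : ∀ t < T, StageOK A (μ t) (μ (t + 1)) t (Good t) (Good (t + 1)) (GoodC t) eC eG eM)
    (r : ℕ) (hr : A.ρ1 + popSize A 1 T * A.ρ ≤ r) (x0 d : S) (g0 : G) (hg0 : Good 0 g0)
    (h0 : ∀ φ : S → ℝ, (∀ x, 0 ≤ φ x ∧ φ x ≤ 1) → |φ x0 - (μ 0).E φ| ≤ e0)
    (φ : S → ℝ) (hφ : ∀ x, 0 ≤ φ x ∧ φ x ≤ 1) :
    |avg (T * r) (fun l => φ ((runSteps (stage A) r T
        (0, g0, List.replicate (popSize A 1 T) x0) l).2.2.headD d)) - (μ T).E φ| ≤
      T * (eC + eG + popSize A 1 T * eM) + popSize A 1 T * e0 := by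
  have h1 := loop heC heG heM H 1 r hr (fun X => φ (X.headD d)) (fun X => hφ _) T 0 (by omega) g0 hg0
  have h01 : ∀ i (s : ℕ × G × List S), 0 ≤ (markov (stage A) r)^[i] (fun s => φ (s.2.2.headD d)) s ∧
      (markov (stage A) r)^[i] (fun s => φ (s.2.2.headD d)) s ≤ 1 := by
    intro i
    induction i with
    | zero => intro s; simpa using hφ _
    | succ i ihi =>
      intro s
      rw [Function.iterate_succ_apply']
      exact avg_mem01 _ fun l => ihi _
  have h2 := EN_replicate (μ 0) x0 e0 h0 (popSize A 1 T)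
    (fun X => (markov (stage A) r)^[T] (fun s => φ (s.2.2.headD d)) (0, g0, X)) (fun X => h01 T _)
  have h3 : avg (T * r) (fun l => φ ((runSteps (stage A) r T
        (0, g0, List.replicate (popSize A 1 T) x0) l).2.2.headD d)) =
      (markov (stage A) r)^[T] (fun s => φ (s.2.2.headD d)) (0, g0, List.replicate (popSize A 1 T) x0) :=
    avg_runSteps (stage A) r T (fun s => φ (s.2.2.headD d)) _
  rw [h3]
  have h4 : (μ T).EN 1 (fun X => φ (X.headD d)) = (μ T).E φ := by
    rw [Law.EN_succ]; simp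
  rw [h4] at h1
  have h5 := abs_sub_le ((markov (stage A) r)^[T] (fun s => φ (s.2.2.headD d))
    (0, g0, List.replicate (popSize A 1 T) x0))
    ((μ 0).EN (popSize A 1 T) (fun X => (markov (stage A) r)^[T] (fun s => φ (s.2.2.headD d)) (0, g0, X)))
    ((μ T).E φ)
  linarith

end Crest.Agent.R302.Loop
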