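import Crest.Agent.R302.Ann425D
import Crest.Agent.R302.Loop272A

/-!
# R302, block ANN (helper425), part E: the stage laws

`stLaw t` = law of the perfect states at stage `t`, `Nst u v t` = one-link (hole) counts.
-/

set_option autoImplicit false

namespace Crest.Agent.R302.AnnBox

open Finset Crest.Agent.R302.Facet Crest.Agent.R302.EDM Crest.Agent.R302.Loop

variable {V : Type*} [Fintype V] [DecidableEq V]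

/-- `e_u - e_v` -/
def hs (u v : V) : V → ℤ := fun w => (if w = u then 1 else 0) - if w = v then 1 else 0

omit [Fintype V] in
theorem hs_sum (u v : V) (A : Finset V) :
    ∑ w ∈ A, hs u v w = (if u ∈ A then 1 else 0) - if v ∈ A then 1 else 0 := by
  unfold hs
  rw [sum_sub_distrib, sum_ite_eq', sum_ite_eq']

theorem hs_sum_univ (u v : V) : ∑ w, hs u v w = 0 := by
  rw [hs_sum]; simp

omit [Fintype V] in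
theorem hs_abs (u v : V) (A : Finset V) : |∑ w ∈ A, hs u v w| ≤ 1 := by
  rw [hs_sum]
  split_ifs <;> simp

omit [Fintype V] in
theorem hs_self (u : V) : hs u u = 0 := by
  funext w; simp [hs]

omit [Fintype V] [DecidableEq V] in
theorem zero_abs (A : Finset V) : |∑ w ∈ A, (0 : V → ℤ) w| ≤ 1 := by simp

/-- the (finite) set of hole states of type `s` -/
theorem exists_PH {r₁ r₂ : Finset V → ℤ} {R : ℤ} (hr₁ : SubM r₁ R) (s : V → ℤ) :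
    ∃ P : Finset (V → ℤ), ∀ x, x ∈ P ↔ MemJ r₁ R x ∧ MemJ r₂ R (fun v => x v + s v) := by
  classical
  obtain ⟨P, hP⟩ := exists_finset (r₂ := r₁) hr₁
  exact ⟨P.filter fun x => MemJ r₂ R (fun v => x v + s v), fun x => by
    rw [mem_filter, hP]; tauto⟩

/-- data of an annealing run -/
structure AnnData (n : ℕ) where
  r₁ : Finset (Fin n) → ℤ
  r₂ : Finset (Fin n) → ℤ
  R : ℤ
  sub₁ : SubM r₁ R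
  sub₂ : SubM r₂ R
  x₀ : Fin n → ℤ
  mem₁ : MemJ r₁ R x₀
  mem₂ : MemJ r₂ R x₀
  L : ℕ
  hL : 1 ≤ L
  hL2 : 8 * (n : ℝ) * (1 / 2) ^ L ≤ 1

namespace AnnData

variable {n : ℕ} (𝒜 : AnnData n)

/-- hole states of type `s` -/
noncomputable def PH (s : Fin n → ℤ) : Finset (Fin n → ℤ) :=
  (exists_PH (r₁ := 𝒜.r₁) (r₂ := 𝒜.r₂) (R := 𝒜.R) 𝒜.sub₁ s).choose

theorem mem_PH (s x : Fin n → ℤ) :
    x ∈ 𝒜.PH s ↔ MemJ 𝒜.r₁ 𝒜.R x ∧ MemJ 𝒜.r₂ 𝒜.R (fun v => x v + s v) :=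
  (exists_PH (r₁ := 𝒜.r₁) (r₂ := 𝒜.r₂) (R := 𝒜.R) 𝒜.sub₁ s).choose_spec x

theorem mem_P (x : Fin n → ℤ) : x ∈ 𝒜.PH 0 ↔ MemJ 𝒜.r₁ 𝒜.R x ∧ MemJ 𝒜.r₂ 𝒜.R x := by
  rw [mem_PH]; simp

theorem x₀_mem : 𝒜.x₀ ∈ 𝒜.PH 0 := (𝒜.mem_P _).2 ⟨𝒜.mem₁, 𝒜.mem₂⟩

/-- mass of the hole states of type `s` at stage `t` -/
noncomputable def Ns (s : Fin n → ℤ) (t : ℕ) : ℝ := ∑ x ∈ 𝒜.PH s, stW 𝒜.L 𝒜.x₀ s t x

/-- mass of the perfect states at stage `t` -/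
noncomputable def Z (t : ℕ) : ℝ := 𝒜.Ns 0 t

/-- one-link counts -/
noncomputable def Nst (t : ℕ) (u v : Fin n) : ℝ := 𝒜.Ns (hs u v) t

theorem Ns_nonneg (s : Fin n → ℤ) (t : ℕ) : 0 ≤ 𝒜.Ns s t :=
  sum_nonneg fun _ _ => stW_nonneg _ _ _ _ _

theorem one_le_Z (t : ℕ) : 1 ≤ 𝒜.Z t := by
  unfold Z Ns
  calc (1 : ℝ) = stW 𝒜.L 𝒜.x₀ 0 t 𝒜.x₀ := (stW_self _ _ _).symm
    _ ≤ _ := single_le_sum (f := fun x => stW 𝒜.L 𝒜.x₀ 0 t x) (fun _ _ => stW_nonneg _ _ _ _ _)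
      𝒜.x₀_mem

theorem Z_pos (t : ℕ) : 0 < 𝒜.Z t := lt_of_lt_of_le one_pos (𝒜.one_le_Z t)

theorem Ns_mono (s : Fin n → ℤ) (t : ℕ) : 𝒜.Ns s t ≤ 𝒜.Ns s (t + 1) :=
  sum_le_sum fun _ _ => stW_mono _ _ _ _ _

theorem Z_mono (t : ℕ) : 𝒜.Z t ≤ 𝒜.Z (t + 1) := 𝒜.Ns_mono 0 t

theorem Z_ratio (t : ℕ) : 𝒜.Z (t + 1) ≤ 2 * 𝒜.Z t :=
  stage_ratio 𝒜.sub₁ 𝒜.sub₂ 𝒜.mem₁ 𝒜.mem₂ (by simp) zero_abs 𝒜.L t _ (𝒜.mem_PH 0)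

theorem Nst_mono (t : ℕ) (u v : Fin n) : 𝒜.Nst t u v ≤ 𝒜.Nst (t + 1) u v := 𝒜.Ns_mono _ t

theorem Nst_ratio (t : ℕ) (u v : Fin n) : 𝒜.Nst (t + 1) u v ≤ 2 * 𝒜.Nst t u v :=
  stage_ratio 𝒜.sub₁ 𝒜.sub₂ 𝒜.mem₁ 𝒜.mem₂ (hs_sum_univ u v) (hs_abs u v) 𝒜.L t _ (𝒜.mem_PH _)

theorem Nst_self (t : ℕ) (u : Fin n) : 𝒜.Nst t u u = 𝒜.Z t := by
  unfold Nst Z; rw [hs_self]

theorem Nst_nonneg (t : ℕ) (u v : Fin n) : 0 ≤ 𝒜.Nst t u v := 𝒜.Ns_nonneg _ t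

theorem Ns_first (s : Fin n → ℤ) : 𝒜.Ns s 0 ≤ 1 + 8 * n * (1 / 2) ^ 𝒜.L :=
  stage_first 𝒜.hL 𝒜.hL2 _ _ _

/-- the one-link counts of the first stage -/
theorem Nst_first (u v : Fin n) : 𝒜.Nst 0 u v ≤ 2 * 𝒜.Z 0 := by
  have h1 := 𝒜.Ns_first (hs u v)
  have h2 := 𝒜.one_le_Z 0
  have h3 := 𝒜.hL2
  unfold Nst
  linarith

/-- particles of the perfect states -/
noncomputable def PL : Finset (List ℤ) :=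
  (𝒜.PH 0).map ⟨List.ofFn, List.ofFn_injective⟩

theorem sum_PL (f : List ℤ → ℝ) : ∑ l ∈ 𝒜.PL, f l = ∑ x ∈ 𝒜.PH 0, f (List.ofFn x) := by
  unfold PL
  rw [sum_map]
  rfl

theorem mem_PL (l : List ℤ) : l ∈ 𝒜.PL ↔ ∃ x ∈ 𝒜.PH 0, List.ofFn x = l := by
  unfold PL
  rw [mem_map]
  rfl

/-- list to vector -/
def toV (n : ℕ) (l : List ℤ) : Fin n → ℤ := fun v => l.getD v 0

theorem toV_ofFn (x : Fin n → ℤ) : toV n (List.ofFn x) = x := by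
  funext v
  unfold toV
  rw [List.getD_eq_getElem?_getD, List.getElem?_eq_getElem (by rw [List.length_ofFn]; exact v.2)]
  simp

/-- law of the perfect states at stage `t`, on lists -/
noncomputable def stLaw (t : ℕ) : Law (List ℤ) where
  supp := 𝒜.PL
  wt := fun l => stW 𝒜.L 𝒜.x₀ 0 t (toV n l) / 𝒜.Z t
  nonneg := fun _ _ => div_nonneg (stW_nonneg _ _ _ _ _) (𝒜.Z_pos t).le
  sum_eq := by
    rw [sum_PL]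
    simp only [toV_ofFn]
    rw [← sum_div]
    exact div_self (𝒜.Z_pos t).ne'

theorem stLaw_E (t : ℕ) (φ : List ℤ → ℝ) :
    (𝒜.stLaw t).E φ = (∑ x ∈ 𝒜.PH 0, stW 𝒜.L 𝒜.x₀ 0 t x * φ (List.ofFn x)) / 𝒜.Z t := by
  unfold Law.E
  show ∑ l ∈ 𝒜.PL, stW 𝒜.L 𝒜.x₀ 0 t (toV n l) / 𝒜.Z t * φ l = _
  rw [sum_PL, sum_div]
  refine sum_congr rfl fun x _ => ?_
  rw [toV_ofFn]
  ring

/-- the density of `stLaw t` with respect to `stLaw (t + 1)` is at most `2` -/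
theorem stLaw_wt_le (t : ℕ) (l : List ℤ) : (𝒜.stLaw t).wt l ≤ 2 * (𝒜.stLaw (t + 1)).wt l := by
  set x := toV n l with hx
  show stW 𝒜.L 𝒜.x₀ 0 t x / 𝒜.Z t ≤ 2 * (stW 𝒜.L 𝒜.x₀ 0 (t + 1) x / 𝒜.Z (t + 1))
  have h1 := stW_mono 𝒜.L 𝒜.x₀ 0 t x
  have h2 := 𝒜.Z_ratio t
  have h3 := 𝒜.Z_pos t
  have h4 := 𝒜.Z_pos (t + 1)
  have h5 := stW_nonneg 𝒜.L 𝒜.x₀ 0 t x
  rw [← mul_div_assoc, div_le_div_iff₀ h3 h4]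
  calc stW 𝒜.L 𝒜.x₀ 0 t x * 𝒜.Z (t + 1) ≤ stW 𝒜.L 𝒜.x₀ 0 t x * (2 * 𝒜.Z t) :=
        mul_le_mul_of_nonneg_left h2 h5
    _ ≤ stW 𝒜.L 𝒜.x₀ 0 (t + 1) x * (2 * 𝒜.Z t) :=
        mul_le_mul_of_nonneg_right h1 (by linarith)
    _ = 2 * stW 𝒜.L 𝒜.x₀ 0 (t + 1) x * 𝒜.Z t := by ring

theorem stLaw_E_le (t : ℕ) {φ : List ℤ → ℝ} (hφ : ∀ x, 0 ≤ φ x) :
    (𝒜.stLaw t).E φ ≤ 2 * (𝒜.stLaw (t + 1)).E φ := by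
  unfold Law.E
  rw [mul_sum]
  refine sum_le_sum fun x _ => ?_
  calc (𝒜.stLaw t).wt x * φ x ≤ (2 * (𝒜.stLaw (t + 1)).wt x) * φ x :=
        mul_le_mul_of_nonneg_right (𝒜.stLaw_wt_le t x) (hφ x)
    _ = 2 * ((𝒜.stLaw (t + 1)).wt x * φ x) := by ring

/-- the first law is almost the point mass at `x₀` -/
theorem stLaw_start {φ : List ℤ → ℝ} (hφ : ∀ x, 0 ≤ φ x ∧ φ x ≤ 1) :
    |(𝒜.stLaw 0).E φ - φ (List.ofFn 𝒜.x₀)| ≤ 8 * n * (1 / 2) ^ 𝒜.L := by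
  classical
  set e : ℝ := 8 * n * (1 / 2) ^ 𝒜.L with he
  have he0 : 0 ≤ e := by positivity
  have hZ1 := 𝒜.one_le_Z 0
  have hZ2 : 𝒜.Z 0 ≤ 1 + e := 𝒜.Ns_first 0
  rw [𝒜.stLaw_E]
  have hsplit : ∑ x ∈ 𝒜.PH 0, stW 𝒜.L 𝒜.x₀ 0 0 x * φ (List.ofFn x) = φ (List.ofFn 𝒜.x₀) +
      ∑ x ∈ (𝒜.PH 0).erase 𝒜.x₀, stW 𝒜.L 𝒜.x₀ 0 0 x * φ (List.ofFn x) := by
    rw [← add_sum_erase _ _ 𝒜.x₀_mem, stW_self, one_mul]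
  have hsplit1 : 𝒜.Z 0 = 1 + ∑ x ∈ (𝒜.PH 0).erase 𝒜.x₀, stW 𝒜.L 𝒜.x₀ 0 0 x := by
    unfold Z Ns
    rw [← add_sum_erase _ _ 𝒜.x₀_mem, stW_self]
  set S := ∑ x ∈ (𝒜.PH 0).erase 𝒜.x₀, stW 𝒜.L 𝒜.x₀ 0 0 x with hS
  set S' := ∑ x ∈ (𝒜.PH 0).erase 𝒜.x₀, stW 𝒜.L 𝒜.x₀ 0 0 x * φ (List.ofFn x) with hS'
  have hSe : S ≤ e := by linarith
  have hS'0 : 0 ≤ S' := sum_nonneg fun x _ => mul_nonneg (stW_nonneg _ _ _ _ _) (hφ _).1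
  have hS'S : S' ≤ S := by
    refine sum_le_sum fun x _ => ?_
    have := mul_le_mul_of_nonneg_left (hφ (List.ofFn x)).2 (stW_nonneg 𝒜.L 𝒜.x₀ 0 0 x)
    linarith
  have hp := hφ (List.ofFn 𝒜.x₀)
  have hZp : 0 < 𝒜.Z 0 := 𝒜.Z_pos 0
  rw [hsplit]
  have key : (φ (List.ofFn 𝒜.x₀) + S') / 𝒜.Z 0 - φ (List.ofFn 𝒜.x₀)
      = (S' - φ (List.ofFn 𝒜.x₀) * S) / 𝒜.Z 0 := by
    rw [div_sub' hZp.ne']
    congr 1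
    rw [hsplit1]; ring
  rw [key, abs_div, abs_of_pos hZp, div_le_iff₀ hZp]
  have h1 : |S' - φ (List.ofFn 𝒜.x₀) * S| ≤ S := by
    rw [abs_le]
    have hS0 : 0 ≤ S := hS'0.trans hS'S
    have h2 : φ (List.ofFn 𝒜.x₀) * S ≤ S := by nlinarith
    have h3 : 0 ≤ φ (List.ofFn 𝒜.x₀) * S := mul_nonneg hp.1 hS0
    constructor <;> linarith
  calc |S' - φ (List.ofFn 𝒜.x₀) * S| ≤ S := h1
    _ ≤ e := hSe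
    _ ≤ e * 𝒜.Z 0 := le_mul_of_one_le_right he0 hZ1

/-- the last law is uniform on `J` -/
theorem stLaw_last {K t : ℕ} (ht : nStages n 𝒜.L K ≤ t)
    (hK : ∀ x ∈ 𝒜.PH 0, InCube 𝒜.x₀ K x) (φ : List ℤ → ℝ) :
    (𝒜.stLaw t).E φ = (∑ x ∈ 𝒜.PH 0, φ (List.ofFn x)) / (𝒜.PH 0).card := by
  have h1 : ∀ x ∈ 𝒜.PH 0, stW 𝒜.L 𝒜.x₀ 0 t x = 1 := by
    intro x hx
    exact stage_last ht (hK x hx) (by simpa using hK x hx)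
  rw [𝒜.stLaw_E]
  unfold Z Ns
  rw [sum_congr rfl fun x hx => by rw [h1 x hx, one_mul], sum_congr rfl h1]
  simp

/-! ### the rank functions of stage `t` -/

/-- rank function of side `r` at stage `t` -/
noncomputable def stR (r : Finset (Fin n) → ℤ) (t : ℕ) : Finset (Fin n) → ℤ :=
  boxR (fun v => 𝒜.x₀ v - stQ n 𝒜.L t) (fun v => 𝒜.x₀ v + stQ n 𝒜.L t) r

theorem stR_sub {r : Finset (Fin n) → ℤ} (hr : SubM r 𝒜.R) (hx : MemJ r 𝒜.R 𝒜.x₀) (t : ℕ) :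
    SubM (𝒜.stR r t) 𝒜.R :=
  subM_boxR hr hx (fun v => by constructor <;> simp)

theorem mem_stR {r : Finset (Fin n) → ℤ} (hr : SubM r 𝒜.R) (t : ℕ) (x : Fin n → ℤ) :
    MemJ (𝒜.stR r t) 𝒜.R x ↔ MemJ r 𝒜.R x ∧ InCube 𝒜.x₀ (stQ n 𝒜.L t) x :=
  memJ_boxR hr _ _ _

/-- one-link counts in terms of the stage polytopes and the stage weight -/
theorem Ns_eq (s : Fin n → ℤ) (t : ℕ) (P : Finset (Fin n → ℤ))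
    (hP : ∀ x, x ∈ P ↔ MemJ (𝒜.stR 𝒜.r₁ t) 𝒜.R x ∧ MemJ (𝒜.stR 𝒜.r₂ t) 𝒜.R (fun v => x v + s v)) :
    𝒜.Ns s t = ∑ x ∈ P, stOm n 𝒜.L t 𝒜.x₀ x := by
  classical
  have hPP : P = (𝒜.PH s).filter fun x => InCube 𝒜.x₀ (stQ n 𝒜.L t) x ∧
      InCube 𝒜.x₀ (stQ n 𝒜.L t) (fun v => x v + s v) := by
    ext x
    rw [hP, mem_filter, mem_PH, 𝒜.mem_stR 𝒜.sub₁, 𝒜.mem_stR 𝒜.sub₂]
    tauto
  rw [hPP, sum_filter]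
  rfl

/-- the start point is a centre of all stages if it is a centre of `J` -/
theorem stR_center {C : ℕ} (hC : 1 ≤ C) (hc : IsCenter 𝒜.r₁ 𝒜.r₂ (𝒜.PH 0) C 𝒜.x₀) (t : ℕ)
    (P : Finset (Fin n → ℤ))
    (hP : ∀ x, x ∈ P ↔ MemJ (𝒜.stR 𝒜.r₁ t) 𝒜.R x ∧ MemJ (𝒜.stR 𝒜.r₂ t) 𝒜.R x) :
    IsCenter (𝒜.stR 𝒜.r₁ t) (𝒜.stR 𝒜.r₂ t) P (2 * C) 𝒜.x₀ := by
  refine center_box 𝒜.sub₁ 𝒜.sub₂ 𝒜.mem_P hC 𝒜.x₀_mem hc (stQ n 𝒜.L t) fun x => ?_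
  rw [hP, 𝒜.mem_stR 𝒜.sub₁, 𝒜.mem_stR 𝒜.sub₂]
  tauto

end AnnData

end Crest.Agent.R302.AnnBox
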