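import Crest.Agent.R302.Ann425E
import Crest.Agent.R309.PTSolve
import Crest.Agent.Lib.PT.ListFns2
import Crest.Agent.Lib.PT.ArithMore
import Crest.Agent.Lib.PT.ArithInt

/-!
# R302, block ANN (helper425), part F: list-coded stage parameters and their complexity

All functions are oracle free (`PTF`/`PTU` of `Crest.Agent.Lib.PT`).
-/

set_option autoImplicit false

namespace Crest.Agent.R302.AnnBox

open Finset Crest.Agent.Lib.PT Crest.Agent.R309.PTX Crest.Agent.R302.Facet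
  Crest.Agent.R302.EDM

variable {γ : Type} [PTCode γ]

theorem ptu_zBn {n : γ → ℕ} (hn : PTU n) : PTU (fun c => zBn (n c)) := by
  unfold zBn; fun_prop

theorem ptu_kap {n : γ → ℕ} (hn : PTU n) : PTU (fun c => kap (n c)) := by
  have := ptu_zBn hn
  unfold kap; fun_prop

theorem ptu_annC {n : γ → ℕ} (hn : PTU n) : PTU (fun c => annC (n c)) := by
  have := ptu_kap hn
  unfold annC; fun_prop

theorem ptu_cA {n : γ → ℕ} (hn : PTU n) : PTU (fun c => cA (n c)) := by
  have := ptu_annC hn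
  unfold cA; fun_prop

theorem rad_eq_iter (n i : ℕ) : rad n i = (fun r => r + r / cA n)^[i] (cA n) := by
  induction i with
  | zero => rfl
  | succ i ih => rw [rad_succ, Function.iterate_succ_apply', ← ih]

theorem rad_le (n i : ℕ) : rad n i ≤ cA n * 2 ^ i := by
  induction i with
  | zero => simp [rad]
  | succ i ih =>
    rw [rad_succ]
    have : rad n i / cA n ≤ rad n i := Nat.div_le_self _ _
    calc rad n i + rad n i / cA n ≤ 2 * rad n i := by omega
      _ ≤ 2 * (cA n * 2 ^ i) := Nat.mul_le_mul_left _ ih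
      _ = cA n * 2 ^ (i + 1) := by ring

theorem size_rad_le (n i : ℕ) : (rad n i).size ≤ cA n + i + 1 := by
  have h1 : rad n i < 2 ^ (cA n + i + 1) := by
    calc rad n i ≤ cA n * 2 ^ i := rad_le n i
      _ < 2 ^ cA n * 2 ^ i * 2 := by
        have := Nat.lt_two_pow_self (n := cA n)
        have h2 : 0 < 2 ^ i := by positivity
        nlinarith
      _ = 2 ^ (cA n + i + 1) := by ring
  exact Nat.size_le.2 h1

theorem ptf_rad {n i : γ → ℕ} (hn : PTU n) (hi : PTU i) : PTF (fun c => rad (n c) (i c)) := by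
  have hA := ptu_cA hn
  have hA' : PTF (fun c => cA (n c)) := PTU.toPTF hA
  have hstep : PTF₂ (fun (c : γ) (r : ℕ) => r + r / cA (n c)) := by
    show PTF (fun p : γ × ℕ => p.2 + p.2 / cA (n p.1))
    have h1 : PTF (fun p : γ × ℕ => cA (n p.1)) :=
      PTF.comp (g := fun c : γ => cA (n c)) (f := fun p : γ × ℕ => p.1) hA' PTF.fst
    exact PTF.natAdd PTF.snd (PTF.natDiv PTF.snd h1)
  have key := PTF.iterate' (a := fun c => cA (n c)) hi hstep hA'
    (B := fun c => cA (n c) + i c + 1) (PB.add (PB.add hA.pb hi.pb) (PB.const 1))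
    (fun c j hj => by
      rw [← rad_eq_iter, sz_nat]
      exact (size_rad_le _ _).trans (by omega))
  exact PTF.of_eq key (fun c => (rad_eq_iter _ _).symm)

theorem ptu_T0 {n L : γ → ℕ} (hn : PTU n) (hL : PTU L) : PTU (fun c => T0 (n c) (L c)) := by
  have := ptu_cA hn
  unfold T0; fun_prop

theorem ptf_stQ {n L t : γ → ℕ} (hn : PTU n) (hL : PTU L) (ht : PTU t) :
    PTF (fun c => stQ (n c) (L c) (t c)) := by
  unfold stQ
  exact ptf_rad hn (PTU.sub ht (ptu_T0 hn hL))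

theorem ptu_stK {n L t : γ → ℕ} (hn : PTU n) (hL : PTU L) (ht : PTU t) :
    PTU (fun c => stK (n c) (L c) (t c)) := by
  unfold stK
  exact PTU.sub (ptu_T0 hn hL) ht

theorem clog_two_eq_size (K : ℕ) : Nat.clog 2 K = (K - 1).size := by
  rcases Nat.lt_or_ge K 2 with h | h
  · have : K - 1 = 0 := by omega
    rw [this, Nat.size_zero, Nat.clog_of_right_le_one (by omega)]
  · apply le_antisymm
    · rw [Nat.clog_le_iff_le_pow (by norm_num)]
      have := Nat.lt_size_self (K - 1)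
      omega
    · rw [Nat.size_le]
      have := Nat.le_pow_clog (b := 2) (by norm_num) K
      omega

theorem ptu_nStages {n L K : γ → ℕ} (hn : PTU n) (hL : PTU L) (hK : PTF K) :
    PTU (fun c => nStages (n c) (L c) (K c)) := by
  have h1 := ptu_T0 hn hL
  have h2 := ptu_cA hn
  have h3 : PTU (fun c => Nat.clog 2 (K c)) :=
    PTU.of_eq (PTF.natSizeUn (PTF.natSub hK (PTF.const 1)))
      (fun c => (clog_two_eq_size _).symm)
  unfold nStages
  fun_prop

/-! ### the thin exponent on lists -/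

theorem ptf_hW {q a t : γ → ℕ} (hq : PTF q) (ha : PTF a) (ht : PTF t) :
    PTF (fun c => hW (q c) (a c) (t c)) := by
  unfold hW
  exact PTF.natAdd (PTF.natMul ht (PTF.natDiv ha hq))
    (PTF.natSub (PTF.natAdd ht (PTF.natMod ha hq)) hq)

/-- total exponent on lists -/
def thHL (n q k : ℕ) (x₀ x : List ℤ) : ℕ :=
  ((List.range n).map fun v => hW q ((k + v) / n) (x.getD v 0 - x₀.getD v 0).natAbs).sum

theorem thHL_eq (n q k : ℕ) (x₀ x : List ℤ) :
    thHL n q k x₀ x = thH q (av n k) (AnnData.toV n x₀) (AnnData.toV n x) := by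
  unfold thHL thH
  rw [Finset.sum_fin_eq_sum_range]
  rw [← List.sum_toFinset _ List.nodup_range]
  have : (List.range n).toFinset = Finset.range n := by ext; simp
  rw [this]
  refine Finset.sum_congr rfl fun v hv => ?_
  rw [dif_pos (Finset.mem_range.1 hv)]
  rfl

theorem ptf_thHL {n q k : γ → ℕ} {x₀ x : γ → List ℤ} (hn : PTU n) (hq : PTF q) (hk : PTF k)
    (hx₀ : PTF x₀) (hx : PTF x) : PTF (fun c => thHL (n c) (q c) (k c) (x₀ c) (x c)) := by
  have hn' : PTF n := PTU.toPTF hn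
  unfold thHL
  refine PTF.natListSum (PTF.map (PTF.range hn) ?_)
  show PTF (fun p : γ × ℕ => hW (q p.1) ((k p.1 + p.2) / n p.1)
    ((x p.1).getD p.2 0 - (x₀ p.1).getD p.2 0).natAbs)
  apply ptf_hW
  · exact PTF.comp hq PTF.fst
  · exact PTF.natDiv (PTF.natAdd (PTF.comp hk PTF.fst) PTF.snd) (PTF.comp hn' PTF.fst)
  · apply PTF.intNatAbs
    apply PTF.intSub
    · exact ptf_getD' PTF.snd (PTF.comp hx PTF.fst) (PTF.const 0)
    · exact ptf_getD' PTF.snd (PTF.comp hx₀ PTF.fst) (PTF.const 0)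

/-- exponent of the stage weight on lists -/
def stHL (n L t : ℕ) (x₀ x : List ℤ) : ℕ :=
  if t < T0 n L then thHL n (cA n) (stK n L t) x₀ x else 0

theorem stHL_eq (n L t : ℕ) (x₀ x : List ℤ) :
    stHL n L t x₀ x = stH n L t (AnnData.toV n x₀) (AnnData.toV n x) := by
  unfold stHL stH
  rw [thHL_eq]

theorem ptf_stHL {n L t : γ → ℕ} {x₀ x : γ → List ℤ} (hn : PTU n) (hL : PTU L) (ht : PTU t)
    (hx₀ : PTF x₀) (hx : PTF x) : PTF (fun c => stHL (n c) (L c) (t c) (x₀ c) (x c)) := by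
  unfold stHL
  exact PTF.ite (PTU.lt ht (ptu_T0 hn hL))
    (ptf_thHL hn (PTU.toPTF (ptu_cA hn)) (PTU.toPTF (ptu_stK hn hL ht)) hx₀ hx) (PTF.const 0)

/-! ### corners of the stage box -/

/-- lower corner: `max (lo v) (x₀ v - q)` -/
def loL (n q : ℕ) (x₀ lo : List ℤ) : List ℤ :=
  (List.range n).map fun v => max (lo.getD v 0) (x₀.getD v 0 - (q : ℤ))

/-- upper corner: `min (hi v) (x₀ v + q)` -/
def hiL (n q : ℕ) (x₀ hi : List ℤ) : List ℤ :=
  (List.range n).map fun v => min (hi.getD v 0) (x₀.getD v 0 + (q : ℤ))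

theorem toV_range_map (n : ℕ) (f : ℕ → ℤ) :
    AnnData.toV n ((List.range n).map f) = fun v : Fin n => f v := by
  funext v
  unfold AnnData.toV
  rw [List.getD_eq_getElem?_getD, List.getElem?_map, List.getElem?_range v.2]
  rfl

theorem toV_loL (n q : ℕ) (x₀ lo : List ℤ) : AnnData.toV n (loL n q x₀ lo) =
    fun v => max (AnnData.toV n lo v) (AnnData.toV n x₀ v - (q : ℤ)) := by
  unfold loL
  rw [toV_range_map]
  rfl

theorem toV_hiL (n q : ℕ) (x₀ hi : List ℤ) : AnnData.toV n (hiL n q x₀ hi) =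
    fun v => min (AnnData.toV n hi v) (AnnData.toV n x₀ v + (q : ℤ)) := by
  unfold hiL
  rw [toV_range_map]
  rfl

theorem length_loL (n q : ℕ) (x₀ lo : List ℤ) : (loL n q x₀ lo).length = n := by simp [loL]

theorem length_hiL (n q : ℕ) (x₀ hi : List ℤ) : (hiL n q x₀ hi).length = n := by simp [hiL]

theorem ptf_loL {n q : γ → ℕ} {x₀ lo : γ → List ℤ} (hn : PTU n) (hq : PTF q) (hx₀ : PTF x₀)
    (hlo : PTF lo) : PTF (fun c => loL (n c) (q c) (x₀ c) (lo c)) := by
  unfold loL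
  refine PTF.map (PTF.range hn) ?_
  show PTF (fun p : γ × ℕ => max ((lo p.1).getD p.2 0) ((x₀ p.1).getD p.2 0 - (q p.1 : ℤ)))
  exact PTF.intMax (ptf_getD' PTF.snd (PTF.comp hlo PTF.fst) (PTF.const 0))
    (PTF.intSub (ptf_getD' PTF.snd (PTF.comp hx₀ PTF.fst) (PTF.const 0))
      (PTF.intNatCast (PTF.comp hq PTF.fst)))

theorem ptf_hiL {n q : γ → ℕ} {x₀ hi : γ → List ℤ} (hn : PTU n) (hq : PTF q) (hx₀ : PTF x₀)
    (hhi : PTF hi) : PTF (fun c => hiL (n c) (q c) (x₀ c) (hi c)) := by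
  unfold hiL
  refine PTF.map (PTF.range hn) ?_
  show PTF (fun p : γ × ℕ => min ((hi p.1).getD p.2 0) ((x₀ p.1).getD p.2 0 + (q p.1 : ℤ)))
  exact PTF.intMin (ptf_getD' PTF.snd (PTF.comp hhi PTF.fst) (PTF.const 0))
    (PTF.intAdd (ptf_getD' PTF.snd (PTF.comp hx₀ PTF.fst) (PTF.const 0))
      (PTF.intNatCast (PTF.comp hq PTF.fst)))

/-- the stage box of a box instance, semantically -/
theorem memJ_stage_box {n : ℕ} {r : Finset (Fin n) → ℤ} {R : ℤ} (hr : SubM r R)
    {lo hi x₀ : Fin n → ℤ} (hx₀ : MemJ r R x₀) (hb : ∀ v, lo v ≤ x₀ v ∧ x₀ v ≤ hi v) (q : ℕ)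
    (x : Fin n → ℤ) :
    MemJ (boxR (fun v => x₀ v - q) (fun v => x₀ v + q) (boxR lo hi r)) R x ↔
      MemJ r R x ∧ ∀ v, max (lo v) (x₀ v - q) ≤ x v ∧ x v ≤ min (hi v) (x₀ v + q) := by
  rw [memJ_boxR (subM_boxR hr hx₀ hb), memJ_boxR hr]
  simp only [max_le_iff, le_min_iff]
  constructor
  · rintro ⟨⟨h1, h2⟩, h3⟩
    exact ⟨h1, fun v => ⟨⟨(h2 v).1, (h3 v).1⟩, (h2 v).2, (h3 v).2⟩⟩
  · rintro ⟨h1, h2⟩
    exact ⟨⟨h1, fun v => ⟨(h2 v).1.1, (h2 v).2.1⟩⟩, fun v => ⟨(h2 v).1.2, (h2 v).2.2⟩⟩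

end Crest.Agent.R302.AnnBox
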