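import Crest.Agent.R302.Ann425F

/-!
# R302, block ANN (helper425), part G: numeric bounds for the constants
-/

set_option autoImplicit false

namespace Crest.Agent.R302.AnnBox

open Crest.Agent.R302.Facet

theorem zBn_le {n : ℕ} (hn : 1 ≤ n) : zBn n ≤ 4 * n ^ 3 := by
  unfold zBn
  calc n ^ 2 * (2 * n + 2) ≤ n ^ 2 * (4 * n) := Nat.mul_le_mul_left _ (by omega)
    _ = 4 * n ^ 3 := by ring

theorem kap_le {n : ℕ} (hn : 1 ≤ n) : kap n ≤ 360 * n ^ 8 := by
  have h1 := zBn_le hn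
  have h3 : 1 ≤ n ^ 3 := Nat.one_le_pow _ _ hn
  unfold kap
  calc 8 * (4 * n + 1) * n ^ 4 * (2 * zBn n + 1)
      ≤ 8 * (5 * n) * n ^ 4 * (9 * n ^ 3) := by
        apply Nat.mul_le_mul
        · apply Nat.mul_le_mul_right
          apply Nat.mul_le_mul_left
          omega
        · omega
    _ = 360 * n ^ 8 := by ring

theorem annC_le {n : ℕ} (hn : 1 ≤ n) : annC n ≤ 23040 * n ^ 11 := by
  unfold annC
  calc 64 * n ^ 3 * kap n ≤ 64 * n ^ 3 * (360 * n ^ 8) := Nat.mul_le_mul_left _ (kap_le hn)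
    _ = 23040 * n ^ 11 := by ring

theorem cA_le {n : ℕ} (hn : 1 ≤ n) : cA n ≤ 2 ^ 15 * n ^ 11 := by
  have h1 := annC_le hn
  have h3 : 1 ≤ n ^ 11 := Nat.one_le_pow _ _ hn
  unfold cA
  omega

theorem nStages_eq (n L K : ℕ) : nStages n L K = cA n * (n * L + 2 * Nat.clog 2 K) := by
  unfold nStages T0; ring

theorem clog_two_le_size (K : ℕ) : Nat.clog 2 K ≤ K.size := by
  rw [clog_two_eq_size]
  exact Nat.size_le_size (Nat.sub_le _ _)

/-- number of stages, explicit bound -/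
theorem nStages_le {n : ℕ} (hn : 1 ≤ n) (L K : ℕ) :
    nStages n L K ≤ 2 ^ 15 * n ^ 11 * (n * L + 2 * K.size) := by
  rw [nStages_eq]
  exact Nat.mul_le_mul (cA_le hn) (by have := clog_two_le_size K; omega)

theorem T0_le {n : ℕ} (hn : 1 ≤ n) (L : ℕ) : T0 n L ≤ 2 ^ 15 * n ^ 12 * L := by
  unfold T0
  calc n * (L * cA n) ≤ n * (L * (2 ^ 15 * n ^ 11)) :=
        Nat.mul_le_mul_left _ (Nat.mul_le_mul_left _ (cA_le hn))
    _ = 2 ^ 15 * n ^ 12 * L := by ring

theorem rad_mono_right (n : ℕ) : Monotone (rad n) := rad_mono n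

/-- the radius of the last stage is at most `2 K`-ish: every radius is at most `2 ^ i * cA n` -/
theorem stQ_le (n L t : ℕ) : stQ n L t ≤ cA n * 2 ^ (t - T0 n L) := rad_le _ _

end Crest.Agent.R302.AnnBox
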