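import Crest.Agent.R302.Soft907
import Crest.Agent.R302.EDMBox

/-!
# R302: the annealing family `r^(k)(A) = min (r A + k) R`

Author: helper907.
-/

set_option autoImplicit false

namespace Crest.Agent.R302.Ann

open Finset Crest.Agent.R302.Facet

variable {V : Type*} [Fintype V] [DecidableEq V]

/-! ## 1. The truncated relaxed rank function -/

/-- Monotone set function. -/
def Mono (r : Finset V → ℤ) : Prop := ∀ A B, A ⊆ B → r A ≤ r B

/-- `r^(k)` -/
def tr (r : Finset V → ℤ) (R k : ℤ) : Finset V → ℤ :=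
  fun A => if A = ∅ then 0 else min (r A + k) R

omit [Fintype V] in
theorem tr_empty (r : Finset V → ℤ) (R k : ℤ) : tr r R k ∅ = 0 := by simp [tr]

omit [Fintype V] in
theorem tr_ne {A : Finset V} (hA : A ≠ ∅) (r : Finset V → ℤ) (R k : ℤ) :
    tr r R k A = min (r A + k) R := by simp [tr, hA]

omit [Fintype V] [DecidableEq V] in
theorem nonneg_of_mono {r : Finset V → ℤ} (h0 : r ∅ = 0) (hm : Mono r) (A : Finset V) : 0 ≤ r A :=
  h0 ▸ hm ∅ A (empty_subset _)

theorem le_R {r : Finset V → ℤ} {R : ℤ} (hr : SubM r R) (hm : Mono r) (A : Finset V) : r A ≤ R :=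
  hr.univ ▸ hm A univ (subset_univ _)

theorem tr_subM {r : Finset V → ℤ} {R k : ℤ} (hr : SubM r R) (hm : Mono r) (hk : 0 ≤ k) :
    SubM (tr r R k) R := by
  have h0 : ∀ A, 0 ≤ r A := nonneg_of_mono hr.empty hm
  have hR : 0 ≤ R := (h0 univ).trans (hr.univ).le
  refine ⟨?_, tr_empty r R k, ?_⟩
  · intro A B
    by_cases hA : A = ∅
    · subst hA; simp [tr_empty]
    by_cases hB : B = ∅
    · subst hB; simp [tr_empty]
    have hAB : A ∪ B ≠ ∅ := fun h => hA (union_eq_empty.1 h).1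
    rw [tr_ne hA, tr_ne hB, tr_ne hAB]
    have h1 := hr.sub A B
    have h2 := h0 (A ∩ B)
    have h3 := h0 A
    have h4 := h0 B
    have h5 := hm A (A ∪ B) subset_union_left
    have h6 := hm B (A ∪ B) subset_union_right
    have h7 := hm (A ∩ B) A inter_subset_left
    have h8 := hm (A ∩ B) B inter_subset_right
    by_cases hI : A ∩ B = ∅
    · rw [hI, tr_empty]
      have h9 := min_le_left (r (A ∪ B) + k) R
      have h10 := min_le_right (r (A ∪ B) + k) R
      rcases min_choice (r A + k) R with h | h <;> rcases min_choice (r B + k) R with h' | h' <;>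
        rw [h, h'] <;> linarith
    · rw [tr_ne hI]
      have h9 := min_le_left (r (A ∪ B) + k) R
      have h10 := min_le_right (r (A ∪ B) + k) R
      have h11 := min_le_left (r (A ∩ B) + k) R
      have h12 := min_le_right (r (A ∩ B) + k) R
      rcases min_choice (r A + k) R with h | h <;> rcases min_choice (r B + k) R with h' | h' <;>
        rw [h, h'] <;> linarith
  · by_cases hu : (univ : Finset V) = ∅
    · rw [hu, tr_empty]
      rw [← hr.univ, hu, hr.empty]
    · rw [tr_ne hu, hr.univ]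
      exact min_eq_right (by linarith)

omit [Fintype V] in
theorem tr_mono {r : Finset V → ℤ} {R k : ℤ} (h0 : r ∅ = 0) (hm : Mono r) (hR : 0 ≤ R)
    (hk : 0 ≤ k) : Mono (tr r R k) := by
  intro A B hAB
  by_cases hB : B = ∅
  · subst hB
    rw [subset_empty.1 hAB]
  by_cases hA : A = ∅
  · subst hA
    rw [tr_empty, tr_ne hB]
    exact le_min (by linarith [nonneg_of_mono h0 hm B]) hR
  · rw [tr_ne hA, tr_ne hB]
    exact min_le_min_right _ (by linarith [hm A B hAB])

theorem tr_zero {r : Finset V → ℤ} {R : ℤ} (hr : SubM r R) (hm : Mono r) : tr r R 0 = r := by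
  funext A
  by_cases hA : A = ∅
  · subst hA; rw [tr_empty, hr.empty]
  · rw [tr_ne hA, add_zero]
    exact min_eq_left (le_R hr hm A)

theorem memJ_nonneg {r : Finset V → ℤ} {R : ℤ} (hr : SubM r R) (hm : Mono r) {x : V → ℤ}
    (hx : MemJ r R x) (v : V) : 0 ≤ x v := by
  have h1 := hx.1 (univ.erase v)
  have h2 := sum_erase_add univ x (mem_univ v)
  have h3 := le_R hr hm (univ.erase v)
  have h4 := hx.2
  linarith

/-- Membership in the `k`-th polytope. -/
theorem memJ_tr_iff {r : Finset V → ℤ} {R k : ℤ} (hr : SubM r R) (hm : Mono r) (hk : 0 ≤ k)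
    (x : V → ℤ) : MemJ (tr r R k) R x ↔
      (∀ v, 0 ≤ x v) ∧ (∀ A, A ≠ ∅ → ∑ a ∈ A, x a ≤ r A + k) ∧ ∑ a, x a = R := by
  have h0 : ∀ A, 0 ≤ r A := nonneg_of_mono hr.empty hm
  have hR : 0 ≤ R := (h0 univ).trans (hr.univ).le
  constructor
  · intro hx
    refine ⟨memJ_nonneg (tr_subM hr hm hk) (tr_mono hr.empty hm hR hk) hx, ?_, hx.2⟩
    intro A hA
    have := hx.1 A
    rw [tr_ne hA] at this
    exact this.trans (min_le_left _ _)
  · rintro ⟨h1, h2, h3⟩
    refine ⟨fun A => ?_, h3⟩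
    by_cases hA : A = ∅
    · subst hA; simp [tr_empty]
    · rw [tr_ne hA]
      refine le_min (h2 A hA) ?_
      rw [← h3]
      exact sum_le_univ_sum_of_nonneg h1

/-- the family is increasing -/
theorem memJ_tr_mono {r : Finset V → ℤ} {R k l : ℤ} (hr : SubM r R) (hm : Mono r) (hk : 0 ≤ k)
    (hkl : k ≤ l) {x : V → ℤ} (hx : MemJ (tr r R k) R x) : MemJ (tr r R l) R x := by
  rw [memJ_tr_iff hr hm hk] at hx
  rw [memJ_tr_iff hr hm (hk.trans hkl)]
  exact ⟨hx.1, fun A hA => (hx.2.1 A hA).trans (by linarith), hx.2.2⟩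

/-- the last member is the simplex -/
theorem memJ_tr_top {r : Finset V → ℤ} {R k : ℤ} (hr : SubM r R) (hm : Mono r) (hk : R ≤ k)
    (x : V → ℤ) : MemJ (tr r R k) R x ↔ (∀ v, 0 ≤ x v) ∧ ∑ a, x a = R := by
  have h0 : ∀ A, 0 ≤ r A := nonneg_of_mono hr.empty hm
  have hR : 0 ≤ R := (h0 univ).trans (hr.univ).le
  rw [memJ_tr_iff hr hm (hR.trans hk)]
  constructor
  · rintro ⟨h1, _, h3⟩; exact ⟨h1, h3⟩
  · rintro ⟨h1, h3⟩
    refine ⟨h1, fun A _ => ?_, h3⟩
    have := sum_le_univ_sum_of_nonneg h1 (s := A)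
    linarith [h0 A]

/-! ## 2. The centre of the `k`-th member -/

/-- `(1 - t) y + t (R / n) 1` with `t = k / (2 R)` -/
noncomputable def ctr (y : V → ℤ) (R k : ℤ) : V → ℝ :=
  fun v => (1 - (k : ℝ) / (2 * R)) * y v + (k : ℝ) / (2 * Fintype.card V)

omit [DecidableEq V] in
theorem ctr_sum {y : V → ℤ} {R k : ℤ} (hy : ∑ a, y a = R) (hR : 0 < R) (hn : 0 < Fintype.card V) :
    ∑ v, ctr y R k v = R := by
  unfold ctr
  rw [sum_add_distrib, ← mul_sum]
  have h1 : ∑ v, (y v : ℝ) = R := by exact_mod_cast hy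
  rw [h1, sum_const, card_univ, nsmul_eq_mul]
  have h2 : (R : ℝ) ≠ 0 := by exact_mod_cast hR.ne'
  have h3 : (Fintype.card V : ℝ) ≠ 0 := by exact_mod_cast hn.ne'
  field_simp
  ring

/-- slack of the centre -/
theorem ctr_slack {r : Finset V → ℤ} {R k : ℤ} (hr : SubM r R) (hm : Mono r) {y : V → ℤ}
    (hy : MemJ r R y) (hk : 0 ≤ k) (hkR : k ≤ R) (hR : 0 < R) {A : Finset V} (hA : A ≠ ∅)
    (hAu : A ≠ univ) :
    (k : ℝ) / (2 * Fintype.card V) ≤ tr r R k A - ∑ a ∈ A, ctr y R k a := by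
  have hne : A.Nonempty := nonempty_iff_ne_empty.2 hA
  have hn1 : 1 ≤ A.card := hne.card_pos
  have hcard : A.card < Fintype.card V := (card_lt_univ_of_notMem (x := (by
    classical
    exact (not_forall.1 (fun h => hAu (eq_univ_iff_forall.2 h))).choose)) (by
    classical
    exact (not_forall.1 (fun h => hAu (eq_univ_iff_forall.2 h))).choose_spec))
  have hn : (0 : ℝ) < Fintype.card V := by
    have : 0 < Fintype.card V := by omega
    exact_mod_cast this
  have hRr : (0 : ℝ) < R := by exact_mod_cast hR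
  have hkr : (0 : ℝ) ≤ k := by exact_mod_cast hk
  have hkRr : (k : ℝ) ≤ R := by exact_mod_cast hkR
  have hy0 := memJ_nonneg hr hm hy
  have hyA0 : (0 : ℝ) ≤ ∑ a ∈ A, (y a : ℝ) := sum_nonneg (fun a _ => by exact_mod_cast hy0 a)
  have hyA : (∑ a ∈ A, (y a : ℝ)) ≤ r A := by
    have := hy.1 A
    exact_mod_cast this
  have hyAR : (∑ a ∈ A, (y a : ℝ)) ≤ R := by
    have := hy.1 A
    have h2 := le_R hr hm A
    exact_mod_cast this.trans h2
  have hsum : ∑ a ∈ A, ctr y R k a = (1 - (k : ℝ) / (2 * R)) * ∑ a ∈ A, (y a : ℝ) +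
      (A.card : ℝ) * (k / (2 * Fintype.card V)) := by
    unfold ctr
    rw [sum_add_distrib, ← mul_sum, sum_const, nsmul_eq_mul]
  rw [hsum, tr_ne hA]
  have ht0 : 0 ≤ (k : ℝ) / (2 * R) := by positivity
  have ht1 : (k : ℝ) / (2 * R) ≤ 1 / 2 := by
    rw [div_le_div_iff₀ (by positivity) (by norm_num)]
    linarith
  have hcard' : (A.card : ℝ) + 1 ≤ Fintype.card V := by exact_mod_cast hcard
  have hq : 0 ≤ (k : ℝ) / (2 * Fintype.card V) := by positivity
  have hnq : (Fintype.card V : ℝ) * (k / (2 * Fintype.card V)) = k / 2 := by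
    field_simp
  rcases min_choice (r A + k) R with h | h
  · rw [h]
    push_cast
    have h1 : (A.card : ℝ) * (k / (2 * Fintype.card V)) ≤ k / 2 - k / (2 * Fintype.card V) := by
      rw [← hnq]
      nlinarith
    have h2 : (1 - (k : ℝ) / (2 * R)) * ∑ a ∈ A, (y a : ℝ) ≤ ∑ a ∈ A, (y a : ℝ) := by
      nlinarith
    linarith
  · rw [h]
    have h1 : (A.card : ℝ) * (k / (2 * Fintype.card V)) ≤ k / 2 - k / (2 * Fintype.card V) := by
      rw [← hnq]
      nlinarith
    have h2 : (1 - (k : ℝ) / (2 * R)) * ∑ a ∈ A, (y a : ℝ) ≤ (1 - (k : ℝ) / (2 * R)) * R :=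
      mul_le_mul_of_nonneg_left hyAR (by linarith)
    have h3 : (1 - (k : ℝ) / (2 * R)) * R = R - k / 2 := by
      field_simp
    linarith

theorem ctr_le {r : Finset V → ℤ} {R k : ℤ} (hr : SubM r R) (hm : Mono r) {y : V → ℤ}
    (hy : MemJ r R y) (hk : 0 ≤ k) (hkR : k ≤ R) (hR : 0 < R) (hn : 0 < Fintype.card V)
    (A : Finset V) : ∑ a ∈ A, ctr y R k a ≤ (tr r R k A : ℝ) := by
  by_cases hA : A = ∅
  · subst hA; simp [tr_empty]
  by_cases hAu : A = univ
  · subst hAu
    rw [ctr_sum hy.2 hR hn, (tr_subM hr hm hk).univ]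
  · have := ctr_slack hr hm hy hk hkR hR hA hAu
    have h2 : (0 : ℝ) ≤ (k : ℝ) / (2 * Fintype.card V) := by
      have : (0 : ℝ) ≤ k := by exact_mod_cast hk
      positivity
    linarith

/-! ## 3. Consecutive stages -/

/-- the list of all ordered pairs, each `δ` times -/
noncomputable def allPairs (V : Type*) [Fintype V] [DecidableEq V] (δ : ℕ) : List (V × V) :=
  (List.replicate δ (univ.offDiag : Finset (V × V)).toList).flatten

theorem mem_allPairs {δ : ℕ} {p : V × V} (hp : p ∈ allPairs V δ) : p.1 ≠ p.2 := by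
  unfold allPairs at hp
  rw [List.mem_flatten] at hp
  obtain ⟨l, hl, hp⟩ := hp
  rw [List.mem_replicate] at hl
  rw [hl.2, mem_toList, mem_offDiag] at hp
  exact hp.2.2

theorem sum_allPairs (δ : ℕ) (w : V × V → ℝ) :
    ((allPairs V δ).map w).sum = δ * ∑ p ∈ univ.offDiag, w p := by
  unfold allPairs
  induction δ with
  | zero => simp
  | succ δ ih =>
    rw [List.replicate_succ, List.flatten_cons, List.map_append, List.sum_append, ih,
      sum_map_toList]
    push_cast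
    ring

theorem sum_allPairs_int (δ : ℕ) (w : V × V → ℤ) :
    ((allPairs V δ).map w).sum = δ * ∑ p ∈ univ.offDiag, w p := by
  unfold allPairs
  induction δ with
  | zero => simp
  | succ δ ih =>
    rw [List.replicate_succ, List.flatten_cons, List.map_append, List.sum_append, ih,
      sum_map_toList]
    push_cast
    ring

/-- relaxing every pair by `δ` dominates raising all proper nonempty sets by `δ` -/
theorem add_le_relaxL (r : Finset V → ℤ) (δ : ℕ) {A : Finset V} (hA : A ≠ ∅) (hAu : A ≠ univ) :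
    r A + δ ≤ relaxL r (allPairs V δ) A := by
  rw [relaxL_eq, sum_allPairs_int]
  obtain ⟨g, hg⟩ := nonempty_iff_ne_empty.2 hA
  obtain ⟨h, hh⟩ : ∃ h, h ∉ A := by
    by_contra hcon
    push Not at hcon
    exact hAu (eq_univ_iff_forall.2 hcon)
  have h1 : (1 : ℤ) ≤ ∑ p ∈ (univ.offDiag : Finset (V × V)),
      (if p.1 ∈ A ∧ p.2 ∉ A then (1 : ℤ) else 0) := by
    have hmem : (g, h) ∈ (univ.offDiag : Finset (V × V)) := by
      rw [mem_offDiag]
      refine ⟨mem_univ _, mem_univ _, fun e => hh ?_⟩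
      have e' : g = h := e
      rw [← e']; exact hg
    calc (1 : ℤ) = (if (g, h).1 ∈ A ∧ (g, h).2 ∉ A then (1 : ℤ) else 0) := by simp [hg, hh]
      _ ≤ _ := single_le_sum (f := fun p : V × V => if p.1 ∈ A ∧ p.2 ∉ A then (1 : ℤ) else 0)
          (fun p _ => by split_ifs <;> norm_num) hmem
  nlinarith [Int.natCast_nonneg δ]

theorem memJ_of_le {r r' : Finset V → ℤ} {R : ℤ} (h : ∀ A, A ≠ ∅ → A ≠ univ → r A ≤ r' A)
    (hr' : SubM r' R) {x : V → ℤ} (hx : MemJ r R x) : MemJ r' R x := by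
  refine ⟨fun A => ?_, hx.2⟩
  by_cases hA : A = ∅
  · subst hA; simp [hr'.empty]
  by_cases hAu : A = univ
  · subst hAu; rw [hx.2, hr'.univ]
  · exact (hx.1 A).trans (h A hA hAu)

/-- **Consecutive fat stages** are within a constant factor. -/
theorem stage_ratio {r₁ r₂ : Finset V → ℤ} {R : ℤ} (hr₁ : SubM r₁ R) (hr₂ : SubM r₂ R)
    (hm₁ : Mono r₁) (hm₂ : Mono r₂) {y : V → ℤ} (hy₁ : MemJ r₁ R y) (hy₂ : MemJ r₂ R y)
    (hR : 0 < R) (k δ m : ℕ) (hkR : (k : ℤ) ≤ R) (hm : 4 * kap (Fintype.card V) ≤ m)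
    (hmk : 2 * Fintype.card V * m ≤ k)
    (P P' : Finset (V → ℤ))
    (hP : ∀ x, x ∈ P ↔ MemJ (tr r₁ R k) R x ∧ MemJ (tr r₂ R k) R x)
    (hP' : ∀ x, x ∈ P' ↔ MemJ (tr r₁ R (k + δ)) R x ∧ MemJ (tr r₂ R (k + δ)) R x) :
    (P'.card : ℝ) ≤
      Real.exp (8 * kap (Fintype.card V) * (Fintype.card V : ℝ) ^ 2 * δ / m) * P.card := by
  classical
  rcases isEmpty_or_nonempty V with hV | hV
  · -- no elements: contradiction with `0 < R`
    exfalso
    have h1 := hr₁.univ
    have : (univ : Finset V) = ∅ := by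
      apply eq_empty_of_isEmpty
    rw [this, hr₁.empty] at h1
    omega
  have hn : 0 < Fintype.card V := Fintype.card_pos
  have hk0 : (0 : ℤ) ≤ k := by positivity
  have hs₁ := tr_subM (k := (k : ℤ)) hr₁ hm₁ hk0
  have hs₂ := tr_subM (k := (k : ℤ)) hr₂ hm₂ hk0
  set n := Fintype.card V with hn'
  have hmk' : (m : ℝ) ≤ (k : ℝ) / (2 * n) := by
    rw [le_div_iff₀ (by positivity)]
    have : m * (2 * n) ≤ k := by linarith
    exact_mod_cast this
  obtain ⟨Q, hQ⟩ := exists_finset (r₁ := relaxL (tr r₁ R k) (allPairs V δ))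
    (r₂ := relaxL (tr r₂ R k) (allPairs V δ)) (R := R) (relaxL_subM hs₁ _)
  have hg := growth_iter hs₁ hs₂ P hP (c := ctr y R k)
    (ctr_le hr₁ hm₁ hy₁ hk0 hkR hR hn) (ctr_le hr₂ hm₂ hy₂ hk0 hkR hR hn)
    (ctr_sum hy₁.2 hR hn) (fun _ => m) (fun _ => m) (allPairs V δ) (allPairs V δ)
    (fun p hp => ⟨mem_allPairs hp, hm, fun A hA1 hA2 => hmk'.trans (by
      have := ctr_slack hr₁ hm₁ hy₁ hk0 hkR hR (A := A) (fun h => by simp [h] at hA1)
        (fun h => hA2 (h ▸ mem_univ _))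
      simpa only [Int.cast_natCast] using this)⟩)
    (fun p hp => ⟨mem_allPairs hp, hm, fun A hA1 hA2 => hmk'.trans (by
      have := ctr_slack hr₂ hm₂ hy₂ hk0 hkR hR (A := A) (fun h => by simp [h] at hA1)
        (fun h => hA2 (h ▸ mem_univ _))
      simpa only [Int.cast_natCast] using this)⟩) Q hQ
  have hsub : P' ⊆ Q := by
    intro x hx
    rw [hP'] at hx
    rw [hQ]
    have key : ∀ r : Finset V → ℤ, ∀ A : Finset V, A ≠ ∅ → A ≠ univ →
        tr r R (k + δ) A ≤ relaxL (tr r R k) (allPairs V δ) A := by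
      intro r A hA hAu
      refine le_trans ?_ (add_le_relaxL (tr r R k) δ hA hAu)
      rw [tr_ne hA, tr_ne hA]
      rcases min_choice (r A + k) R with h | h <;> rw [h]
      · exact (min_le_left _ _).trans (by linarith)
      · exact (min_le_right _ _).trans (by linarith [Int.natCast_nonneg δ])
    exact ⟨memJ_of_le (key r₁) (relaxL_subM hs₁ _) hx.1,
      memJ_of_le (key r₂) (relaxL_subM hs₂ _) hx.2⟩
  have h1 : (P'.card : ℝ) ≤ Q.card := by exact_mod_cast card_le_card hsub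
  refine h1.trans (hg.trans ?_)
  apply mul_le_mul_of_nonneg_right _ (by positivity)
  apply Real.exp_le_exp.2
  have hκ : 0 < kap n := kap_pos hn
  have hmpos : (0 : ℝ) < m := by
    have : 0 < m := by omega
    exact_mod_cast this
  rw [sum_allPairs, sum_const, nsmul_eq_mul, offDiag_card, card_univ, ← hn']
  have h2 : (((n * n - n : ℕ) : ℝ)) ≤ (n : ℝ) ^ 2 := by
    have : n * n - n ≤ n ^ 2 := by
      rw [sq]; exact Nat.sub_le _ _
    exact_mod_cast this
  have h3 : (δ : ℝ) * (((n * n - n : ℕ) : ℝ) * (4 * (kap n : ℝ) / m)) ≤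
      δ * ((n : ℝ) ^ 2 * (4 * (kap n : ℝ) / m)) := by
    apply mul_le_mul_of_nonneg_left _ (by positivity)
    apply mul_le_mul_of_nonneg_right h2 (by positivity)
  calc _ ≤ δ * ((n : ℝ) ^ 2 * (4 * (kap n : ℝ) / m)) + δ * ((n : ℝ) ^ 2 * (4 * (kap n : ℝ) / m)) :=
        add_le_add h3 h3
    _ = 8 * kap n * (n : ℝ) ^ 2 * δ / m := by
        field_simp
        ring

/-! ## 4. Proximity -/

/-- **Proximity**: a point violating both systems by at most `k` is within `ℓ^∞` distance `2 k` of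
a common base (if there is one). -/
theorem proximity {r₁ r₂ : Finset V → ℤ} {R : ℤ} (hr₁ : SubM r₁ R) (hr₂ : SubM r₂ R)
    {y : V → ℤ} (hy₁ : MemJ r₁ R y) (hy₂ : MemJ r₂ R y) {k : ℤ} (hk : 0 ≤ k) {x : V → ℤ}
    (hxR : ∑ a, x a = R) (hx₁ : ∀ A, ∑ a ∈ A, x a ≤ r₁ A + k) (hx₂ : ∀ A, ∑ a ∈ A, x a ≤ r₂ A + k) :
    ∃ z : V → ℤ, MemJ r₁ R z ∧ MemJ r₂ R z ∧ ∀ v, |z v - x v| ≤ 2 * k := by
  classical
  have h1 : EDM.SubOn univ r₁ := fun A B _ _ => hr₁.sub A B
  have h2 : EDM.SubOn univ r₂ := fun A B _ _ => hr₂.sub A B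
  have key := (EDM.exists_common_box h1 h2 hr₁.empty hr₂.empty hr₁.univ hr₂.univ
    (fun v => x v - 2 * k) (fun v => x v + 2 * k)).2 ?_
  · obtain ⟨z, hz, hzR, hz1, hz2⟩ := key
    refine ⟨z, ⟨hz1, hzR⟩, ⟨hz2, hzR⟩, fun v => ?_⟩
    have := hz v
    rw [abs_le]
    constructor <;> linarith [this.1, this.2]
  · refine ⟨fun v => by linarith, fun X Y => ?_⟩
    have e1 := hx₁ X
    have e2 := hx₂ Yᶜ
    have e3 := sum_add_sum_compl Y x
    rw [hxR] at e3
    unfold EDM.bx
    rw [sum_add_distrib, sum_sub_distrib, sum_const, sum_const, nsmul_eq_mul, nsmul_eq_mul]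
    have a6 : ∑ i ∈ Y \ X, x i + ∑ i ∈ X, x i = ∑ i ∈ X \ Y, x i + ∑ i ∈ Y, x i := by
      have b1 := Finset.sum_sdiff (s₁ := X) (s₂ := X ∪ Y) (f := x) subset_union_left
      have b2 := Finset.sum_sdiff (s₁ := Y) (s₂ := X ∪ Y) (f := x) subset_union_right
      rw [union_sdiff_left] at b1
      rw [union_sdiff_right] at b2
      linarith
    by_cases hXY : X = Y
    · subst hXY
      have f1 := hy₁.1 X
      have f2 := hy₂.1 Xᶜ
      have f3 := sum_add_sum_compl X y
      rw [hy₁.2] at f3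
      simp only [sdiff_self, bot_eq_empty, sum_empty, card_empty]
      push_cast
      linarith
    · have hcard : 1 ≤ (Y \ X).card + (X \ Y).card := by
        by_contra hcon
        push Not at hcon
        have g1 : (Y \ X).card = 0 := by omega
        have g2 : (X \ Y).card = 0 := by omega
        rw [card_eq_zero, sdiff_eq_empty_iff_subset] at g1 g2
        exact hXY (Subset.antisymm g2 g1)
      have hcard' : (1 : ℤ) ≤ ((Y \ X).card : ℤ) + ((X \ Y).card : ℤ) := by exact_mod_cast hcard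
      nlinarith

end Crest.Agent.R302.Ann
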