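import Crest.Agent.R302.Joint342
import Crest.Agent.R302.Ann425B

/-!
R302 (helper536): windowed LINK and JOINT.  The link window `|β k - s k| ≤ K` is small, the support
of the block contents is not; the states outside the window only contribute to the defect.
-/

set_option autoImplicit false
set_option linter.unusedSectionVars false

namespace Crest.Agent.R302.Joint

open Finset Macro Lor Link

section win

variable {V : Type*} [Fintype V] [DecidableEq V]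

/-- the window -/
def InW (s : V → ℤ) (K : ℕ) (β : V → ℤ) : Prop := ∀ k, |β k - s k| ≤ K

instance (s : V → ℤ) (K : ℕ) : DecidablePred (InW s K) := fun β => by unfold InW; infer_instance

/-- convex distance to the window -/
def wd (K : ℕ) (t : ℤ) : ℤ := max (|t| - K) 0

theorem wd_nonneg (K : ℕ) (t : ℤ) : 0 ≤ wd K t := le_max_right _ _

theorem wd_conv (K : ℕ) (t : ℤ) : 2 * wd K (t + 1) ≤ wd K t + wd K (t + 2) := by
  unfold wd
  rcases max_cases (|t| - (K : ℤ)) 0 with ⟨h1, h1'⟩ | ⟨h1, h1'⟩ <;>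
  rcases max_cases (|t + 1| - (K : ℤ)) 0 with ⟨h2, h2'⟩ | ⟨h2, h2'⟩ <;>
  rcases max_cases (|t + 2| - (K : ℤ)) 0 with ⟨h3, h3'⟩ | ⟨h3, h3'⟩ <;>
  rcases abs_cases t with ⟨a1, a1'⟩ | ⟨a1, a1'⟩ <;>
  rcases abs_cases (t + 1) with ⟨a2, a2'⟩ | ⟨a2, a2'⟩ <;>
  rcases abs_cases (t + 2) with ⟨a3, a3'⟩ | ⟨a3, a3'⟩ <;> omega

theorem LA.window {d : ℤ} {c : (V → ℤ) → ℝ} (h : LA d c) (s : V → ℤ) (K : ℕ) :
    LA d (fun β => if InW s K β then c β else 0) := by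
  obtain ⟨cn, h1, h2, h3, h4⟩ := h.ex
  set ω : ℕ → V → ℤ → ℝ := fun n v t => Real.exp (-(n : ℝ) * wd K (t - s v)) with hω
  have hωpos : ∀ n v t, 0 < ω n v t := fun n v t => Real.exp_pos _
  have hωlc : ∀ n v k, ω n v k * ω n v (k + 2) ≤ ω n v (k + 1) ^ 2 := by
    intro n v k
    simp only [hω]
    rw [← Real.exp_add, ← Real.exp_nat_mul, Real.exp_le_exp]
    have h5 := wd_conv K (k - s v)
    have h6 : ((2 * wd K (k - s v + 1) : ℤ) : ℝ) ≤ ((wd K (k - s v) + wd K (k - s v + 2) : ℤ) : ℝ) := by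
      exact_mod_cast h5
    have e1 : k + 1 - s v = k - s v + 1 := by ring
    have e2 : k + 2 - s v = k - s v + 2 := by ring
    rw [e1, e2]
    push_cast at h6 ⊢
    have hn : (0 : ℝ) ≤ n := Nat.cast_nonneg n
    nlinarith
  refine ⟨fun β => ?_, fun β hβ => ?_, fun n β => cn n β * ∏ v, ω n v (β v), ?_, ?_, ?_, ?_⟩
  · show 0 ≤ if InW s K β then c β else 0
    split_ifs
    · exact h.nonneg β
    · exact le_rfl
  · refine h.deg β fun h0 => hβ ?_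
    show (if InW s K β then c β else 0) = 0
    rw [h0]; simp
  · exact fun n γ => mul_nonneg (h1 n γ) (Finset.prod_pos fun v _ => hωpos n v _).le
  · exact fun n γ => AnnBox.af_mul_sep (h1 n) (h2 n) (hωpos n) (hωlc n) γ
  · exact fun n γ hγ => mul_pos (h3 n γ hγ) (Finset.prod_pos fun v _ => hωpos n v _)
  · intro β hβ
    have hprod : ∀ n : ℕ, ∏ v, ω n v (β v)
        = Real.exp (-(n : ℝ) * ∑ v, (wd K (β v - s v) : ℝ)) := by
      intro n
      simp only [hω]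
      rw [← Real.exp_sum, Finset.mul_sum]
    simp only [hprod]
    have hc' := h4 β hβ
    by_cases hW : InW s K β
    · have h0 : ∑ v, (wd K (β v - s v) : ℝ) = 0 := by
        refine Finset.sum_eq_zero fun v _ => ?_
        have := hW v
        have e : wd K (β v - s v) = 0 := by unfold wd; exact max_eq_right (by omega)
        rw [e]; simp
      simp only [h0, mul_zero, Real.exp_zero, mul_one, if_pos hW]
      exact hc'
    · rw [if_neg hW]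
      have hpos : (1 : ℝ) ≤ ∑ v, (wd K (β v - s v) : ℝ) := by
        unfold InW at hW
        push Not at hW
        obtain ⟨k, hk⟩ := hW
        have h5 : (1 : ℝ) ≤ (wd K (β k - s k) : ℝ) := by
          have : 1 ≤ wd K (β k - s k) := by unfold wd; exact le_max_of_le_left (by omega)
          exact_mod_cast this
        exact h5.trans (Finset.single_le_sum (f := fun v => (wd K (β v - s v) : ℝ))
          (fun v _ => by exact_mod_cast wd_nonneg K _) (mem_univ k))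
      have he : Filter.Tendsto (fun n : ℕ => Real.exp (-(n : ℝ) * ∑ v, (wd K (β v - s v) : ℝ)))
          Filter.atTop (nhds 0) := by
        refine Real.tendsto_exp_atBot.comp ?_
        have h6 : Filter.Tendsto (fun n : ℕ => (n : ℝ) * ∑ v, (wd K (β v - s v) : ℝ))
            Filter.atTop Filter.atTop :=
          tendsto_natCast_atTop_atTop.atTop_mul_const (by linarith)
        have h7 := Filter.tendsto_neg_atTop_atBot.comp h6
        refine h7.congr fun n => ?_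
        simp [neg_mul]
      have := hc'.mul he
      rwa [mul_zero] at this

/-- **LINK with a window** -/
theorem link_win {c : (V → ℤ) → ℝ} {d : ℤ} (hc : LA d c) {Λ : Finset (V → ℤ)}
    (hΛ : ∀ γ, c γ ≠ 0 → γ ∈ Λ) (s : V → ℤ) (K : ℕ) {h : (V → ℤ) → ℝ} {M : ℝ}
    (hM : ∀ β, |h β| ≤ M) :
    vr Λ c h ≤ KL V (2 * K) * ∑ p, ∑ q, Dm Λ c (ev q - ev p) 1 h
      + 4 * M ^ 2 * ∑ β ∈ Λ.filter (fun β => ¬ InW s K β), c β := by
  set c' : (V → ℤ) → ℝ := fun β => if InW s K β then c β else 0 with hc'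
  have hL := LA.window hc s K
  have hle : ∀ β, c' β ≤ c β := by
    intro β; simp only [hc']; split_ifs
    · exact le_rfl
    · exact hc.nonneg β
  have h0 : ∀ β, 0 ≤ c' β := fun β => hL.nonneg β
  have h1 := link_fin hL (Λ := Λ) (lo := fun k => s k - K) (m := 2 * K)
    (fun γ hγ => hΛ γ (by
      intro h2; apply hγ; show (if InW s K γ then c γ else 0) = 0
      rw [h2]; simp))
    (fun γ hγ k => by
      have hW : InW s K γ := by
        by_contra h2; apply hγ; show (if InW s K γ then c γ else 0) = 0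
        rw [if_neg h2]
      have := abs_le.1 (hW k)
      push_cast
      constructor <;> linarith [this.1, this.2]) h
  have h2 : ∑ p, ∑ q, Dm Λ c' (ev q - ev p) 1 h ≤ ∑ p, ∑ q, Dm Λ c (ev q - ev p) 1 h := by
    refine Finset.sum_le_sum fun p _ => Finset.sum_le_sum fun q _ => ?_
    unfold Dm
    exact Finset.sum_le_sum fun β _ => mul_le_mul_of_nonneg_right
      (min_le_min (hle _) (hle _)) (sq_nonneg _)
  -- variance comparison
  have hM0 : 0 ≤ M := (abs_nonneg _).trans (hM 0)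
  have h3 : vr Λ c h ≤ vr Λ c' h + 4 * M ^ 2 * ∑ β ∈ Λ.filter (fun β => ¬ InW s K β), c β := by
    have hm : |mn Λ c' h| ≤ M := by
      have := cm_abs_le (X := Unit) (Λ := Λ) (ν := fun p => c' p.2) (f := fun p => h p.2) (M := M)
        (x := ()) (fun y _ => h0 y) (fun p => hM _) hM0
      exact this
    refine (vr_le' (fun y _ => hc.nonneg y) h (mn Λ c' h)).trans ?_
    unfold vr S
    rw [← Finset.sum_filter_add_sum_filter_not Λ (fun β => InW s K β)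
      (fun y => c y * (h y - mn Λ c' h) ^ 2),
      ← Finset.sum_filter_add_sum_filter_not Λ (fun β => InW s K β)
      (fun y => c' y * (h y - mn Λ c' h) ^ 2)]
    have e1 : ∑ y ∈ Λ.filter (fun β => InW s K β), c y * (h y - mn Λ c' h) ^ 2
        = ∑ y ∈ Λ.filter (fun β => InW s K β), c' y * (h y - mn Λ c' h) ^ 2 :=
      Finset.sum_congr rfl fun y hy => by
        simp only [hc', if_pos (mem_filter.1 hy).2]
    have e2 : ∑ y ∈ Λ.filter (fun β => ¬ InW s K β), c' y * (h y - mn Λ c' h) ^ 2 = 0 :=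
      Finset.sum_eq_zero fun y hy => by
        have hy2 := (mem_filter.1 hy).2
        show (if InW s K y then c y else 0) * _ = 0
        rw [if_neg hy2, zero_mul]
    have e3 : ∑ y ∈ Λ.filter (fun β => ¬ InW s K β), c y * (h y - mn Λ c' h) ^ 2
        ≤ 4 * M ^ 2 * ∑ β ∈ Λ.filter (fun β => ¬ InW s K β), c β := by
      rw [Finset.mul_sum]
      refine Finset.sum_le_sum fun y _ => ?_
      have h4 := abs_le.1 (hM y)
      have h5 := abs_le.1 hm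
      have h6 : (h y - mn Λ c' h) ^ 2 ≤ 4 * M ^ 2 := by nlinarith
      have := mul_le_mul_of_nonneg_left h6 (hc.nonneg y)
      linarith
    rw [e1, e2, add_zero]
    linarith
  have h4 := mul_le_mul_of_nonneg_left h2 (KL_nonneg V (2 * K))
  linarith

end win

section main

variable {X V₁ V₂ : Type*} [AddCommGroup X] [DecidableEq X] [Fintype V₁] [DecidableEq V₁]
  [Fintype V₂] [DecidableEq V₂]

/-- link hypotheses with windows: one side -/
structure LinkW {V : Type*} [Fintype V] [DecidableEq V] (B : Finset X)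
    (a : X → (V → ℤ) → ℝ) (Λ : Finset (V → ℤ)) : Prop where
  la : ∀ x ∈ B, ∃ d : ℤ, LA d (a x)
  supp : ∀ x ∈ B, ∀ β, a x β ≠ 0 → β ∈ Λ

variable {B : Finset X} {a₁ : X → (V₁ → ℤ) → ℝ} {a₂ : X → (V₂ → ℤ) → ℝ}
  {Λ₁ : Finset (V₁ → ℤ)} {Λ₂ : Finset (V₂ → ℤ)} {K₁ K₂ : ℕ} {s₁ : X → V₁ → ℤ} {s₂ : X → V₂ → ℤ}

theorem LinkW.nonneg {V : Type*} [Fintype V] [DecidableEq V] {a : X → (V → ℤ) → ℝ}
    {Λ : Finset (V → ℤ)} (h : LinkW B a Λ) {x : X} (hx : x ∈ B) (β : V → ℤ) :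
    0 ≤ a x β := by
  obtain ⟨d, hd⟩ := h.la x hx
  exact hd.nonneg β

/-- mass of the states with a far link -/
noncomputable def farM (B : Finset X) (a₁ : X → (V₁ → ℤ) → ℝ) (a₂ : X → (V₂ → ℤ) → ℝ)
    (Λ₁ : Finset (V₁ → ℤ)) (Λ₂ : Finset (V₂ → ℤ)) (s₁ : X → V₁ → ℤ) (s₂ : X → V₂ → ℤ)
    (K : ℕ) : ℝ :=
  ∑ p ∈ (B ×ˢ (Λ₁ ×ˢ Λ₂)).filter
    (fun p => ¬ (InW (s₁ p.1) K p.2.1 ∧ InW (s₂ p.1) K p.2.2)), nu a₁ a₂ p

/-- the conditional variances are bounded by the link energies and the far mass -/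
theorem sum_cv_le_win (h1 : LinkW B a₁ Λ₁) (h2 : LinkW B a₂ Λ₂) (K : ℕ)
    {f : X × ((V₁ → ℤ) × (V₂ → ℤ)) → ℝ} {M : ℝ} (hM : ∀ p, |f p| ≤ M) :
    ∑ x ∈ B, cv (Λ₁ ×ˢ Λ₂) (nu a₁ a₂) f x
      ≤ KL V₁ (2 * K) * E₁ B Λ₁ Λ₂ (nu a₁ a₂) f + KL V₂ (2 * K) * E₂ B Λ₁ Λ₂ (nu a₁ a₂) f
        + 8 * M ^ 2 * farM B a₁ a₂ Λ₁ Λ₂ s₁ s₂ K := by
  have key : ∀ x ∈ B, cv (Λ₁ ×ˢ Λ₂) (nu a₁ a₂) f x
      ≤ KL V₁ (2 * K) * ∑ p, ∑ q, Dm (Λ₁ ×ˢ Λ₂) (fun y => nu a₁ a₂ (x, y))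
            (ev q - ev p, (0 : V₂ → ℤ)) 1 (fun y => f (x, y))
        + KL V₂ (2 * K) * ∑ p, ∑ q, Dm (Λ₁ ×ˢ Λ₂) (fun y => nu a₁ a₂ (x, y))
            ((0 : V₁ → ℤ), ev q - ev p) 1 (fun y => f (x, y))
        + 8 * M ^ 2 * ∑ y ∈ (Λ₁ ×ˢ Λ₂).filter
            (fun y => ¬ (InW (s₁ x) K y.1 ∧ InW (s₂ x) K y.2)), nu a₁ a₂ (x, y) := by
    intro x hx
    have hn1 := fun β => h1.nonneg hx β
    have hn2 := fun β => h2.nonneg hx β
    obtain ⟨d1, hd1⟩ := h1.la x hx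
    obtain ⟨d2, hd2⟩ := h2.la x hx
    set Fr := ∑ y ∈ (Λ₁ ×ˢ Λ₂).filter
            (fun y => ¬ (InW (s₁ x) K y.1 ∧ InW (s₂ x) K y.2)), nu a₁ a₂ (x, y) with hFr
    have hf1 : ∑ y ∈ Λ₂, a₂ x y * ∑ β ∈ Λ₁.filter (fun β => ¬ InW (s₁ x) K β), a₁ x β ≤ Fr := by
      have e : ∑ y ∈ Λ₂, a₂ x y * ∑ β ∈ Λ₁.filter (fun β => ¬ InW (s₁ x) K β), a₁ x β
          = ∑ p ∈ (Λ₁.filter (fun β => ¬ InW (s₁ x) K β)) ×ˢ Λ₂, nu a₁ a₂ (x, p) := by
        rw [Finset.sum_product, Finset.sum_comm]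
        refine Finset.sum_congr rfl fun y _ => ?_
        rw [Finset.mul_sum]
        exact Finset.sum_congr rfl fun β _ => by simp only [nu]; ring
      rw [e, hFr]
      refine Finset.sum_le_sum_of_subset_of_nonneg ?_ fun p hp _ =>
        mul_nonneg (hn1 _) (hn2 _)
      intro p hp
      simp only [mem_product, mem_filter] at hp ⊢
      exact ⟨⟨hp.1.1, hp.2⟩, fun hh => hp.1.2 hh.1⟩
    have hf2 : ∑ y ∈ Λ₁, a₁ x y * ∑ β ∈ Λ₂.filter (fun β => ¬ InW (s₂ x) K β), a₂ x β ≤ Fr := by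
      have e : ∑ y ∈ Λ₁, a₁ x y * ∑ β ∈ Λ₂.filter (fun β => ¬ InW (s₂ x) K β), a₂ x β
          = ∑ p ∈ Λ₁ ×ˢ (Λ₂.filter (fun β => ¬ InW (s₂ x) K β)), nu a₁ a₂ (x, p) := by
        rw [Finset.sum_product]
        refine Finset.sum_congr rfl fun y _ => ?_
        rw [Finset.mul_sum]
        rfl
      rw [e, hFr]
      refine Finset.sum_le_sum_of_subset_of_nonneg ?_ fun p hp _ =>
        mul_nonneg (hn1 _) (hn2 _)
      intro p hp
      simp only [mem_product, mem_filter] at hp ⊢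
      exact ⟨⟨hp.1, hp.2.1⟩, fun hh => hp.2.2 hh.2⟩
    unfold cv
    refine (vr_tensor (a := a₁ x) (b := a₂ x) (fun β _ => hn1 β) (fun β _ => hn2 β)
      (fun y => f (x, y))).trans ?_
    have t1 : ∑ y ∈ Λ₂, a₂ x y * vr Λ₁ (a₁ x) (fun z => f (x, (z, y)))
        ≤ KL V₁ (2 * K) * ∑ p, ∑ q, Dm (Λ₁ ×ˢ Λ₂) (fun y => nu a₁ a₂ (x, y))
            (ev q - ev p, (0 : V₂ → ℤ)) 1 (fun y => f (x, y)) + 4 * M ^ 2 * Fr := by
      calc ∑ y ∈ Λ₂, a₂ x y * vr Λ₁ (a₁ x) (fun z => f (x, (z, y)))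
          ≤ ∑ y ∈ Λ₂, a₂ x y * (KL V₁ (2 * K) * ∑ p, ∑ q, Dm Λ₁ (a₁ x) (ev q - ev p) 1
              (fun z => f (x, (z, y)))
              + 4 * M ^ 2 * ∑ β ∈ Λ₁.filter (fun β => ¬ InW (s₁ x) K β), a₁ x β) :=
            Finset.sum_le_sum fun y _ => mul_le_mul_of_nonneg_left
              (link_win hd1 (h1.supp x hx) (s₁ x) K fun β => hM _) (hn2 y)
        _ = KL V₁ (2 * K) * ∑ p, ∑ q, Dm (Λ₁ ×ˢ Λ₂) (fun y => nu a₁ a₂ (x, y))
            (ev q - ev p, (0 : V₂ → ℤ)) 1 (fun y => f (x, y))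
            + 4 * M ^ 2 * ∑ y ∈ Λ₂, a₂ x y *
              ∑ β ∈ Λ₁.filter (fun β => ¬ InW (s₁ x) K β), a₁ x β := by
            have e : ∀ p q, Dm (Λ₁ ×ˢ Λ₂) (fun y => nu a₁ a₂ (x, y))
                (ev q - ev p, (0 : V₂ → ℤ)) 1 (fun y => f (x, y))
                = ∑ y ∈ Λ₂, a₂ x y * Dm Λ₁ (a₁ x) (ev q - ev p) 1 (fun z => f (x, (z, y))) := by
              intro p q
              rw [Dm_fst]
              simp only [one_smul, nu, Dm, Finset.mul_sum]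
              rw [Finset.sum_comm]
              refine Finset.sum_congr rfl fun y _ => Finset.sum_congr rfl fun z _ => ?_
              rw [← min_mul_of_nonneg _ _ (hn2 y)]
              ring
            simp only [e, Finset.mul_sum, mul_add, Finset.sum_add_distrib]
            congr 1
            · rw [Finset.sum_comm]
              refine Finset.sum_congr rfl fun p _ => ?_
              rw [Finset.sum_comm]
              refine Finset.sum_congr rfl fun q _ => Finset.sum_congr rfl fun y _ => ?_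
              ring
            · refine Finset.sum_congr rfl fun y _ => Finset.sum_congr rfl fun z _ => ?_
              ring
        _ ≤ _ := by
            have := mul_le_mul_of_nonneg_left hf1 (by positivity : 0 ≤ 4 * M ^ 2)
            linarith
    have t2 : ∑ y ∈ Λ₁, a₁ x y * vr Λ₂ (a₂ x) (fun z => f (x, (y, z)))
        ≤ KL V₂ (2 * K) * ∑ p, ∑ q, Dm (Λ₁ ×ˢ Λ₂) (fun y => nu a₁ a₂ (x, y))
            ((0 : V₁ → ℤ), ev q - ev p) 1 (fun y => f (x, y)) + 4 * M ^ 2 * Fr := by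
      calc ∑ y ∈ Λ₁, a₁ x y * vr Λ₂ (a₂ x) (fun z => f (x, (y, z)))
          ≤ ∑ y ∈ Λ₁, a₁ x y * (KL V₂ (2 * K) * ∑ p, ∑ q, Dm Λ₂ (a₂ x) (ev q - ev p) 1
              (fun z => f (x, (y, z)))
              + 4 * M ^ 2 * ∑ β ∈ Λ₂.filter (fun β => ¬ InW (s₂ x) K β), a₂ x β) :=
            Finset.sum_le_sum fun y _ => mul_le_mul_of_nonneg_left
              (link_win hd2 (h2.supp x hx) (s₂ x) K fun β => hM _) (hn1 y)
        _ = KL V₂ (2 * K) * ∑ p, ∑ q, Dm (Λ₁ ×ˢ Λ₂) (fun y => nu a₁ a₂ (x, y))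
            ((0 : V₁ → ℤ), ev q - ev p) 1 (fun y => f (x, y))
            + 4 * M ^ 2 * ∑ y ∈ Λ₁, a₁ x y *
              ∑ β ∈ Λ₂.filter (fun β => ¬ InW (s₂ x) K β), a₂ x β := by
            have e : ∀ p q, Dm (Λ₁ ×ˢ Λ₂) (fun y => nu a₁ a₂ (x, y))
                ((0 : V₁ → ℤ), ev q - ev p) 1 (fun y => f (x, y))
                = ∑ y ∈ Λ₁, a₁ x y * Dm Λ₂ (a₂ x) (ev q - ev p) 1 (fun z => f (x, (y, z))) := by
              intro p q
              rw [Dm_snd]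
              refine Finset.sum_congr rfl fun y _ => ?_
              exact Dm_mul Λ₂ (hn1 y) _ _ _
            simp only [e, Finset.mul_sum, mul_add, Finset.sum_add_distrib]
            congr 1
            · rw [Finset.sum_comm]
              refine Finset.sum_congr rfl fun p _ => ?_
              rw [Finset.sum_comm]
              refine Finset.sum_congr rfl fun q _ => Finset.sum_congr rfl fun y _ => ?_
              ring
            · refine Finset.sum_congr rfl fun y _ => Finset.sum_congr rfl fun z _ => ?_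
              ring
        _ ≤ _ := by
            have := mul_le_mul_of_nonneg_left hf2 (by positivity : 0 ≤ 4 * M ^ 2)
            linarith
    have t3 := add_le_add t1 t2
    refine t3.trans (le_of_eq ?_)
    ring
  refine (Finset.sum_le_sum key).trans (le_of_eq ?_)
  rw [Finset.sum_add_distrib, Finset.sum_add_distrib, ← Finset.mul_sum, ← Finset.mul_sum,
    ← Finset.mul_sum]
  unfold E₁ E₂ farM
  congr 1
  · congr 2
    · rw [Finset.sum_comm]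
      refine Finset.sum_congr rfl fun p _ => ?_
      rw [Finset.sum_comm]
      exact Finset.sum_congr rfl fun q _ => (Dm_snd B (Λ₁ ×ˢ Λ₂) (nu a₁ a₂) f _ 1).symm
    · rw [Finset.sum_comm]
      refine Finset.sum_congr rfl fun p _ => ?_
      rw [Finset.sum_comm]
      exact Finset.sum_congr rfl fun q _ => (Dm_snd B (Λ₁ ×ˢ Λ₂) (nu a₁ a₂) f _ 1).symm
  · congr 1
    rw [Finset.sum_filter, Finset.sum_product]
    refine Finset.sum_congr rfl fun x _ => ?_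
    rw [Finset.sum_filter]

/-- **JOINT with windows.** -/
theorem joint_win {ι : Type*} [Fintype ι] (h1 : LinkW B a₁ Λ₁) (h2 : LinkW B a₂ Λ₂) (Kw : ℕ)
    (s₁ : X → V₁ → ℤ) (s₂ : X → V₂ → ℤ)
    {c : ι → X} {l : ι → ℕ} (hl : ∀ j, 1 ≤ l j) {δ : ι → ℝ} (hδ0 : ∀ j, 0 < δ j)
    (hδ1 : ∀ j, δ j ≤ 1)
    (hcmp : ∀ j, ∀ s ≤ l j, ∀ x ∈ B, x + s • c j ∈ B → ∀ y ∈ Λ₁ ×ˢ Λ₂,
      δ j * nu a₁ a₂ (x, y) ≤ nu a₁ a₂ (x + s • c j, y))
    {K : ι → ℝ} (hK : ∀ j, 0 ≤ K j) {ε M : ℝ} (hM : 0 ≤ M)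
    (hx : ∀ g : X → ℝ, (∀ x, |g x| ≤ M) → vr B (mar (Λ₁ ×ˢ Λ₂) (nu a₁ a₂)) g
      ≤ ∑ j, K j * aDm B (mar (Λ₁ ×ˢ Λ₂) (nu a₁ a₂)) (c j) (l j) g + ε * M ^ 2)
    {f : X × ((V₁ → ℤ) × (V₂ → ℤ)) → ℝ} (hf : ∀ p, |f p| ≤ M) :
    vr (B ×ˢ (Λ₁ ×ˢ Λ₂)) (nu a₁ a₂) f
      ≤ ∑ j, 3 * K j / δ j * aDm (B ×ˢ (Λ₁ ×ˢ Λ₂)) (nu a₁ a₂) (c j, 0) (l j) f
        + (1 + ∑ j, 6 * K j / δ j) * (KL V₁ (2 * Kw) * E₁ B Λ₁ Λ₂ (nu a₁ a₂) f
          + KL V₂ (2 * Kw) * E₂ B Λ₁ Λ₂ (nu a₁ a₂) f)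
        + (ε + (1 + ∑ j, 6 * K j / δ j) * (8 * farM B a₁ a₂ Λ₁ Λ₂ s₁ s₂ Kw)) * M ^ 2 := by
  classical
  have hν : ∀ x ∈ B, ∀ y ∈ Λ₁ ×ˢ Λ₂, 0 ≤ nu a₁ a₂ (x, y) := fun x hx y _ =>
    mul_nonneg (h1.nonneg hx _) (h2.nonneg hx _)
  -- the conditional mean, cut off outside `B`
  set g : X → ℝ := fun x => if x ∈ B then cm (Λ₁ ×ˢ Λ₂) (nu a₁ a₂) f x else 0 with hg
  have hgM : ∀ x, |g x| ≤ M := by
    intro x
    simp only [hg]
    split_ifs with hxB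
    · exact cm_abs_le (hν x hxB) hf hM
    · rw [abs_zero]; exact hM
  have hS : ∀ x ∈ B, g x = cm (Λ₁ ×ˢ Λ₂) (nu a₁ a₂) f x := fun x hxB => if_pos hxB
  have hvr : vr B (mar (Λ₁ ×ˢ Λ₂) (nu a₁ a₂)) (cm (Λ₁ ×ˢ Λ₂) (nu a₁ a₂) f)
      = vr B (mar (Λ₁ ×ˢ Λ₂) (nu a₁ a₂)) g := by
    have hw : ∀ x ∈ B, 0 ≤ mar (Λ₁ ×ˢ Λ₂) (nu a₁ a₂) x := fun x hx => Finset.sum_nonneg (hν x hx)
    have e2 : ∑ x ∈ B, mar (Λ₁ ×ˢ Λ₂) (nu a₁ a₂) x * cm (Λ₁ ×ˢ Λ₂) (nu a₁ a₂) f x ^ 2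
        = ∑ x ∈ B, mar (Λ₁ ×ˢ Λ₂) (nu a₁ a₂) x * g x ^ 2 :=
      Finset.sum_congr rfl fun x hxB => by rw [hS x hxB]
    have e1 : ∑ x ∈ B, mar (Λ₁ ×ˢ Λ₂) (nu a₁ a₂) x * cm (Λ₁ ×ˢ Λ₂) (nu a₁ a₂) f x
        = ∑ x ∈ B, mar (Λ₁ ×ˢ Λ₂) (nu a₁ a₂) x * g x :=
      Finset.sum_congr rfl fun x hxB => by rw [hS x hxB]
    rw [vr_eq hw, vr_eq hw, e1, e2]
  have hDm : ∀ j, aDm B (mar (Λ₁ ×ˢ Λ₂) (nu a₁ a₂)) (c j) (l j) g
      = aDm B (mar (Λ₁ ×ˢ Λ₂) (nu a₁ a₂)) (c j) (l j) (cm (Λ₁ ×ˢ Λ₂) (nu a₁ a₂) f) := by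
    intro j
    unfold aDm Dm
    congr 1
    refine Finset.sum_congr rfl fun s _ => Finset.sum_congr rfl fun x hxf => ?_
    rw [hS x (mem_filter.1 hxf).1, hS _ (mem_filter.1 hxf).2]
  have h3 := hx g hgM
  rw [← hvr] at h3
  rw [vr_fibre hν f]
  have hcv := sum_cv_le_win (s₁ := s₁) (s₂ := s₂) h1 h2 Kw hf
  set CV := ∑ x ∈ B, cv (Λ₁ ×ˢ Λ₂) (nu a₁ a₂) f x with hCV
  have hCV0 : 0 ≤ CV := Finset.sum_nonneg fun x hx => vr_nonneg (hν x hx) _
  set EE := KL V₁ (2 * Kw) * E₁ B Λ₁ Λ₂ (nu a₁ a₂) f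
    + KL V₂ (2 * Kw) * E₂ B Λ₁ Λ₂ (nu a₁ a₂) f with hEE
  have h4 : ∑ j, K j * aDm B (mar (Λ₁ ×ˢ Λ₂) (nu a₁ a₂)) (c j) (l j) g
      ≤ ∑ j, 3 * K j / δ j * aDm (B ×ˢ (Λ₁ ×ˢ Λ₂)) (nu a₁ a₂) (c j, 0) (l j) f
        + (∑ j, 6 * K j / δ j) * CV := by
    rw [Finset.sum_mul, ← Finset.sum_add_distrib]
    refine Finset.sum_le_sum fun j _ => ?_
    rw [hDm j]
    have h5 := mul_le_mul_of_nonneg_left
      (aDm_marginal hν (hl j) (hδ0 j) (hδ1 j) (hcmp j) f) (hK j)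
    refine h5.trans (le_of_eq ?_)
    rw [← hCV]
    have := (hδ0 j).ne'
    field_simp
    ring
  have hsum : 0 ≤ ∑ j, 6 * K j / δ j :=
    Finset.sum_nonneg fun j _ => div_nonneg (by have := hK j; linarith) (hδ0 j).le
  have h6 := mul_le_mul_of_nonneg_left hcv hsum
  nlinarith

end main

end Crest.Agent.R302.Joint
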