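import Crest.Agent.R302.S1x893B

/-!
R302 (helper893), block (S1x), part C: Poincare inequality with defect for the marginal weight
`W₁ W₂` along the macro moves.
-/

set_option autoImplicit false
set_option linter.unusedSectionVars false
set_option linter.unusedVariables false

namespace Crest.Agent.R302.T893

open Finset Lor
open Crest.Agent.R302.Tree (RTree)
open Crest.Agent.R302.Inst

variable {E : Type*} [Fintype E] [DecidableEq E]

/-- the mass of the states outside some window -/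
noncomputable def badm (T₁ T₂ : MP3.Forest E) (L c : Tok E → ℝ) (w : (E → ℤ) → ℝ)
    (Bp : Finset (E → ℤ)) : ℝ := by
  classical
  exact ∑ y ∈ Bp.filter (fun y => ∃ p : Tok E, p ≠ none ∧ ¬ |lvl T₁ T₂ p y - c p| ≤ L p - 2), w y

section Sums

variable {V : Type*} [Fintype V] [DecidableEq V]

/-- splitting of the sum over the moves -/
theorem sum_moves (F0 : V → Prop) [DecidablePred F0] (r : V) (g : E → V → ℝ) :
    ∑ i, ∑ p ∈ univ.erase r, g i p =
      ∑ j : E × {p : V // p ≠ r ∧ F0 p}, g j.1 j.2 +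
      ∑ j : E × {p : V // p ≠ r ∧ ¬ F0 p}, g j.1 j.2 := by
  rw [Fintype.sum_prod_type, Fintype.sum_prod_type, ← Finset.sum_add_distrib]
  refine Finset.sum_congr rfl fun i _ => ?_
  have e1 : univ.erase r = univ.filter (fun p => p ≠ r) := by
    ext p; simp
  rw [e1, ← Finset.sum_filter_add_sum_filter_not (univ.filter (fun p => p ≠ r)) F0,
    Finset.filter_filter, Finset.filter_filter]
  congr 1
  · exact Finset.sum_subtype _ (fun p => by simp) _
  · exact Finset.sum_subtype _ (fun p => by simp) _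

end Sums

variable {S₁ S₂ : Side E} {b₁ D₁ b₂ D₂ : E → ℝ} {θ : ℝ} {μ : E → ℝ} {β₀ : ℝ}
  {order : List E} {R : E → Tok E → E → ℤ} {b' : Tok E → ℝ}

theorem badm_nonneg {w : (E → ℤ) → ℝ} (hw : ∀ y, 0 ≤ w y) (T₁ T₂ : MP3.Forest E)
    (L c : Tok E → ℝ) (Bp : Finset (E → ℤ)) : 0 ≤ badm T₁ T₂ L c w Bp :=
  Finset.sum_nonneg fun y _ => hw y

/-- the constant of the fine inequality -/
noncomputable def CC (N : ℕ) (κ PP : ℝ) : ℝ := C1 N κ PP * κ ^ 2

/-- the constant of the defect -/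
noncomputable def CD (n N m : ℕ) (κ KS : ℝ) : ℝ :=
  2 * (n * N) * C2 m n κ + 24 * KS + (72 * KS + 48 * κ ^ 3 * KS + 48 * (n * N) ^ 2) * (n * N)

theorem CC_nonneg {N : ℕ} {κ PP : ℝ} (hκ : 1 ≤ κ) (hPP : 0 ≤ PP) : 0 ≤ CC N κ PP :=
  mul_nonneg (C1_nonneg hκ hPP) (by positivity)

/-- **(S1x)**: Poincare inequality with defect for the marginal weight `W₁ W₂` on a box, along
the macro moves `c_{i,p}` with lengths `≤ l p`. -/
theorem S1x (h : Pair S₁ S₂ b₁ D₁ b₂ D₂ θ μ β₀)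
    (hAF : ∀ d, AF (fun p q => FF S₁ S₂ θ μ 0 (d + ev p + ev q)))
    {PP : ℝ} {L c : Tok E → ℝ} (hL : ∀ p, 1 ≤ L p)
    (hPP : ∑ q ∈ univ.erase (none : Tok E),
      (2 * kap θ β₀ * tB S₁ S₂ θ b₁ b₂ q + 1 / L q) ^ 2 * L q ^ 2 ≤ PP)
    (hsL : ∀ p : Tok E, p ≠ none →
      6 * (Fintype.card (Tok E) * ∑ q ∈ ((tree S₁.T S₂.T).desc p).erase p,
        ts S₁ S₂ θ b₁ b₂ D₁ D₂ β₀ q * L q ^ 2) ≤ L p ^ 2)
    (hnd : order.Nodup) (hall : ∀ e, e ∈ order)
    (hRep : Rep (tree S₁.T S₂.T) tX tY b' order R)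
    (hmono : ∀ p q, (tree S₁.T S₂.T).par p ≠ none → q ≠ none → b' q ≤ b' p →
      tb S₁ S₂ θ b₁ b₂ q ≤ tb S₁ S₂ θ b₁ b₂ p)
    {l : Tok E → ℕ} (hl1 : ∀ p, 1 ≤ l p) (hlthin : ∀ p, (tree S₁.T S₂.T).par p = none → l p = 1)
    (hls : (Fintype.card E * Fintype.card (Tok E) : ℝ) *
      ∑ p ∈ univ.filter (fun p => (tree S₁.T S₂.T).par p ≠ none),
        tb S₁ S₂ θ b₁ b₂ p * l p ≤ 1)
    (x : E → ℤ) (m : ℕ) (B Bp : Finset (E → ℤ))
    (hB : B = Fintype.piFinset fun e => Icc (x e) (x e + m))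
    (hBp : Bp = Fintype.piFinset fun e => Icc (x e - 1) (x e + m + 1))
    {lm : ℕ} (hlm : ∀ p, l p ≤ lm)
    (hwin : ∀ y, (∀ p : Tok E, p ≠ none → |lvl S₁.T S₂.T p y - c p| ≤ L p - 2) →
      ∀ e, x e + 2 * lm ≤ y e ∧ y e + 2 * lm ≤ x e + m)
    {A0 KS : ℝ}
    (hA0fat : ∀ p, (tree S₁.T S₂.T).par p ≠ none →
      144 * (CC (Fintype.card (Tok E)) (kap θ β₀) PP * L p ^ 2 / (l p : ℝ) ^ 2)
        + 18 * (Fintype.card E * Fintype.card (Tok E)) ≤ A0)
    (hA0thin : ∀ p : Tok E, p ≠ none → (tree S₁.T S₂.T).par p = none →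
      6 * (kap θ β₀ ^ 3 * (CC (Fintype.card (Tok E)) (kap θ β₀) PP * L p ^ 2)) ≤ A0)
    (hKS : ∑ _i : E, ∑ p ∈ univ.erase (none : Tok E),
      CC (Fintype.card (Tok E)) (kap θ β₀) PP * L p ^ 2 ≤ KS)
    (f : (E → ℤ) → ℝ) {A : ℝ} (hf : ∀ y, |f y| ≤ A) :
    Macro.vr B (ww S₁ S₂ θ μ) f ≤
      A0 * ∑ i, ∑ p ∈ univ.erase (none : Tok E),
        Macro.aDm B (ww S₁ S₂ θ μ) (cdir (tree S₁.T S₂.T) R i p) (l p) f
      + CD (Fintype.card E) (Fintype.card (Tok E)) m (kap θ β₀) KS * A ^ 2 *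
        badm S₁.T S₂.T L c (ww S₁ S₂ θ μ) Bp := by
  classical
  set w := ww S₁ S₂ θ μ with hwdef
  set T := tree S₁.T S₂.T with hT
  set N := Fintype.card (Tok E) with hN
  set n := Fintype.card E with hn
  set κ := kap θ β₀ with hκdef
  set bad := badm S₁.T S₂.T L c w Bp with hbad
  have hκ1 : 1 ≤ κ := h.kap_ge
  have hw : ∀ y, 0 ≤ w y := fun y => (ww_pos h y).le
  have hbad0 : 0 ≤ bad := badm_nonneg hw _ _ _ _ _
  have hA : 0 ≤ A := (abs_nonneg _).trans (hf 0)
  have hPP0 : 0 ≤ PP := le_trans (Finset.sum_nonneg fun q _ => by positivity) hPP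
  have hCC : 0 ≤ CC N κ PP := CC_nonneg hκ1 hPP0
  have hroot : T.root = none := rfl
  have hBsub : B ⊆ Bp := by
    intro y hy
    rw [hB, Fintype.mem_piFinset] at hy
    rw [hBp, Fintype.mem_piFinset]
    intro e
    have := Finset.mem_Icc.1 (hy e)
    rw [Finset.mem_Icc]
    constructor <;> linarith [this.1, this.2]
  have hBne : B.Nonempty := by
    refine ⟨x, ?_⟩
    rw [hB, Fintype.mem_piFinset]
    intro e
    rw [Finset.mem_Icc]
    constructor
    · exact le_rfl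
    · have : (0 : ℤ) ≤ m := by positivity
      linarith
  have hm : ∑ y ∈ B, w y ≠ 0 := (Finset.sum_pos (fun y _ => ww_pos h y) hBne).ne'
  -- the moves have entries at most 2
  have hcd : ∀ i p e, |cdir T R i p e| ≤ 2 := by
    intro i p e
    have h1 := abs_le.1 (hRep.bd i p e)
    have h2 := abs_le.1 (hRep.bd i (T.par p) e)
    unfold cdir
    rw [Pi.sub_apply, abs_le]
    constructor <;> linarith [h1.1, h1.2, h2.1, h2.2]
  -- a state of `Bp` in all windows stays in `B`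
  have hgood : ∀ y, (∀ p : Tok E, p ≠ none → |lvl S₁.T S₂.T p y - c p| ≤ L p - 2) →
      ∀ i p, ∀ s ≤ lm, y + s • cdir T R i p ∈ B := by
    intro y hy i p s hs
    rw [hB, Fintype.mem_piFinset]
    intro e
    have h1 := hwin y hy e
    have h2 := abs_le.1 (hcd i p e)
    rw [Finset.mem_Icc, Pi.add_apply, Pi.smul_apply, nsmul_eq_mul]
    have hs0 : (0 : ℤ) ≤ s := by positivity
    have hs1 : (s : ℤ) ≤ lm := by exact_mod_cast hs
    have h3 : -(2 * (lm : ℤ)) ≤ s * cdir T R i p e := by nlinarith [h2.1]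
    have h4 : s * cdir T R i p e ≤ 2 * lm := by nlinarith [h2.2]
    constructor <;> linarith [h1.1, h1.2]
  have hbadsub : ∀ (P : (E → ℤ) → Prop) [DecidablePred P] (B' : Finset (E → ℤ)), B' ⊆ Bp →
      (∀ y ∈ B', P y → ∃ p : Tok E, p ≠ none ∧ ¬ |lvl S₁.T S₂.T p y - c p| ≤ L p - 2) →
      ∑ y ∈ B'.filter P, w y ≤ bad := by
    intro P _ B' hB' hP
    rw [hbad]
    unfold badm
    refine Finset.sum_le_sum_of_subset_of_nonneg ?_ fun y _ _ => hw y
    intro y hy
    rw [Finset.mem_filter] at hy ⊢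
    exact ⟨hB' hy.1, hP y hy.1 hy.2⟩
  have hrim : ∀ i p, Macro.rim B w (cdir T R i p) (l p) ≤ bad := by
    intro i p
    unfold Macro.rim
    refine hbadsub _ B hBsub ?_
    rintro y hy ⟨s, hs, hys⟩
    by_contra hcon
    push Not at hcon
    exact hys (hgood y hcon i p s (by have := Finset.mem_range.1 hs; have := hlm p; omega))
  have hdiff : ∑ y ∈ Bp \ B, w y ≤ bad := by
    have h1 : Bp \ B = (Bp.filter (fun y => y ∉ B)) := by
      ext y; simp
    rw [h1]
    refine hbadsub _ Bp (Finset.Subset.refl _) ?_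
    intro y hy hyB
    by_contra hcon
    push Not at hcon
    refine hyB ?_
    rw [hB, Fintype.mem_piFinset]
    intro e
    have h2 := hwin y hcon e
    rw [Finset.mem_Icc]
    have : (0 : ℤ) ≤ lm := by positivity
    constructor <;> linarith [h2.1, h2.2]
  have htails : ∑ p ∈ univ.erase (none : Tok E),
      ∑ y ∈ B.filter (fun y => ¬ |lvl S₁.T S₂.T p y - c p| ≤ L p - 2), w y ≤ N * bad := by
    calc _ ≤ ∑ _p ∈ univ.erase (none : Tok E), bad := by
          refine Finset.sum_le_sum fun p hp => hbadsub _ B hBsub ?_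
          intro y _ hy
          exact ⟨p, Finset.ne_of_mem_erase hp, hy⟩
      _ ≤ _ := by
          rw [Finset.sum_const, nsmul_eq_mul]
          refine mul_le_mul_of_nonneg_right ?_ hbad0
          exact_mod_cast (Finset.card_le_card (Finset.erase_subset _ _)).trans
            (le_of_eq Finset.card_univ)
  -- the two families
  set ι := E × {p : Tok E // p ≠ none ∧ T.par p ≠ none} with hι
  set ι' := E × {p : Tok E // p ≠ none ∧ ¬ T.par p ≠ none} with hι'
  have hcardι : (Fintype.card ι : ℝ) ≤ n * N := by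
    show ((Fintype.card (E × {p : Tok E // p ≠ none ∧ T.par p ≠ none}) : ℕ) : ℝ) ≤ _
    rw [Fintype.card_prod]
    push_cast
    refine mul_le_mul_of_nonneg_left ?_ (by positivity)
    exact_mod_cast Fintype.card_subtype_le _
  have hsplit := fun g : E → Tok E → ℝ => sum_moves (E := E) (V := Tok E)
    (fun p => T.par p ≠ none) none g
  -- fine inequality
  have hfine : ∀ g : (E → ℤ) → ℝ, (∀ y, |g y| ≤ A) → Macro.vr B w g ≤
      ∑ j : ι, CC N κ PP * L j.2 ^ 2 *
        Macro.S Bp w (fun y => (g (y + cdir T R j.1 j.2) - g y) ^ 2)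
      + ∑ j : ι', κ ^ 3 * (CC N κ PP * L j.2 ^ 2) * Macro.Dm B w (cdir T R j.1 j.2) 1 g
      + ((n * (C2 m n κ * N) + 8 * KS) * bad) * A ^ 2 := by
    intro g hg
    have h1 := msp_FF h hAF hL hPP hsL order hnd hall R hRep g hg x m B Bp hB hBp (c := c)
    have h2 : ∀ j : ι', Macro.S Bp w (fun y => (g (y + cdir T R j.1 j.2) - g y) ^ 2) ≤
        κ ^ 3 * Macro.Dm B w (cdir T R j.1 j.2) 1 g + 8 * A ^ 2 * bad := by
      intro j
      have hsq : ∀ y, (g (y + cdir T R j.1 j.2) - g y) ^ 2 ≤ 4 * A ^ 2 := by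
        intro y
        have a1 := abs_le.1 (hg (y + cdir T R j.1 j.2))
        have a2 := abs_le.1 (hg y)
        nlinarith [a1.1, a1.2, a2.1, a2.2]
      unfold Macro.S Macro.Dm
      simp only [one_smul]
      have h3 : ∑ y ∈ Bp, w y * (g (y + cdir T R j.1 j.2) - g y) ^ 2 =
          ∑ y ∈ Bp \ B, w y * (g (y + cdir T R j.1 j.2) - g y) ^ 2 +
          (∑ y ∈ B.filter (fun y => y + cdir T R j.1 j.2 ∈ B),
            w y * (g (y + cdir T R j.1 j.2) - g y) ^ 2 +
          ∑ y ∈ B.filter (fun y => ¬ y + cdir T R j.1 j.2 ∈ B),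
            w y * (g (y + cdir T R j.1 j.2) - g y) ^ 2) := by
        rw [Finset.sum_filter_add_sum_filter_not, Finset.sum_sdiff hBsub]
      rw [h3]
      have h4 : ∑ y ∈ Bp \ B, w y * (g (y + cdir T R j.1 j.2) - g y) ^ 2 ≤ 4 * A ^ 2 * bad := by
        calc _ ≤ ∑ y ∈ Bp \ B, w y * (4 * A ^ 2) :=
              Finset.sum_le_sum fun y _ => mul_le_mul_of_nonneg_left (hsq y) (hw y)
          _ = (∑ y ∈ Bp \ B, w y) * (4 * A ^ 2) := by rw [Finset.sum_mul]
          _ ≤ bad * (4 * A ^ 2) := mul_le_mul_of_nonneg_right hdiff (by positivity)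
          _ = _ := by ring
      have h5 : ∑ y ∈ B.filter (fun y => ¬ y + cdir T R j.1 j.2 ∈ B),
          w y * (g (y + cdir T R j.1 j.2) - g y) ^ 2 ≤ 4 * A ^ 2 * bad := by
        have h6 : ∑ y ∈ B.filter (fun y => ¬ y + cdir T R j.1 j.2 ∈ B), w y ≤ bad := by
          refine hbadsub _ B hBsub ?_
          intro y hy hys
          by_contra hcon
          push Not at hcon
          have := hgood y hcon j.1 j.2 1 ((hl1 none).trans (hlm none))
          rw [one_smul] at this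
          exact hys this
        calc _ ≤ ∑ y ∈ B.filter (fun y => ¬ y + cdir T R j.1 j.2 ∈ B), w y * (4 * A ^ 2) :=
              Finset.sum_le_sum fun y _ => mul_le_mul_of_nonneg_left (hsq y) (hw y)
          _ = (∑ y ∈ B.filter (fun y => ¬ y + cdir T R j.1 j.2 ∈ B), w y) * (4 * A ^ 2) := by
              rw [Finset.sum_mul]
          _ ≤ bad * (4 * A ^ 2) := mul_le_mul_of_nonneg_right h6 (by positivity)
          _ = _ := by ring
      have h7 : ∑ y ∈ B.filter (fun y => y + cdir T R j.1 j.2 ∈ B),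
          w y * (g (y + cdir T R j.1 j.2) - g y) ^ 2 ≤
          κ ^ 3 * ∑ y ∈ B.filter (fun y => y + cdir T R j.1 j.2 ∈ B),
            min (w y) (w (y + cdir T R j.1 j.2)) * (g (y + cdir T R j.1 j.2) - g y) ^ 2 := by
        rw [Finset.mul_sum]
        refine Finset.sum_le_sum fun y _ => ?_
        rw [← mul_assoc]
        refine mul_le_mul_of_nonneg_right ?_ (sq_nonneg _)
        rcases le_total (w y) (w (y + cdir T R j.1 j.2)) with h8 | h8
        · rw [min_eq_left h8]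
          have : 1 ≤ κ ^ 3 := one_le_pow₀ hκ1
          nlinarith [hw y]
        · rw [min_eq_right h8]
          exact ww_any h hRep j.1 j.2 j.2.2.1 y
      linarith
    have h9 : ∀ j : ι', CC N κ PP * L j.2 ^ 2 *
        Macro.S Bp w (fun y => (g (y + cdir T R j.1 j.2) - g y) ^ 2) ≤
        κ ^ 3 * (CC N κ PP * L j.2 ^ 2) * Macro.Dm B w (cdir T R j.1 j.2) 1 g +
        CC N κ PP * L j.2 ^ 2 * (8 * A ^ 2 * bad) := by
      intro j
      have := mul_le_mul_of_nonneg_left (h2 j) (mul_nonneg hCC (sq_nonneg (L j.2)))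
      refine this.trans (le_of_eq (by ring))
    have h10 := (Finset.sum_le_sum fun j (_ : j ∈ (univ : Finset ι')) => h9 j)
    rw [Finset.sum_add_distrib, ← Finset.sum_mul] at h10
    have h11 : ∑ j : ι', CC N κ PP * L j.2 ^ 2 ≤ KS := by
      refine le_trans ?_ hKS
      rw [hsplit (fun _ p => CC N κ PP * L p ^ 2)]
      have : 0 ≤ ∑ j : E × {p : Tok E // p ≠ none ∧ T.par p ≠ none}, CC N κ PP * L j.2 ^ 2 :=
        Finset.sum_nonneg fun j _ => mul_nonneg hCC (sq_nonneg _)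
      linarith
    have h12 : (∑ j : ι', CC N κ PP * L j.2 ^ 2) * (8 * A ^ 2 * bad) ≤ KS * (8 * A ^ 2 * bad) :=
      mul_le_mul_of_nonneg_right h11 (by positivity)
    have h13 : (n : ℝ) * (C2 m n κ * A ^ 2 * ∑ p ∈ univ.erase (none : Tok E),
        ∑ y ∈ B.filter (fun y => ¬ |lvl S₁.T S₂.T p y - c p| ≤ L p - 2), w y) ≤
        n * (C2 m n κ * A ^ 2 * (N * bad)) := by
      refine mul_le_mul_of_nonneg_left (mul_le_mul_of_nonneg_left htails ?_) (by positivity)
      exact mul_nonneg (C2_nonneg hκ1) (sq_nonneg _)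
    have h14 := hsplit (fun i p => CC N κ PP * L p ^ 2 *
      Macro.S Bp w (fun y => (g (y + cdir T R i p) - g y) ^ 2))
    refine h1.trans ?_
    have h15 : ∑ i, ∑ p ∈ univ.erase (none : Tok E), C1 N κ PP * κ ^ 2 * L p ^ 2 *
        Macro.S Bp w (fun y => (g (y + (R i p - R i (T.par p))) - g y) ^ 2) =
        ∑ i, ∑ p ∈ univ.erase (none : Tok E), CC N κ PP * L p ^ 2 *
        Macro.S Bp w (fun y => (g (y + cdir T R i p) - g y) ^ 2) := rfl
    rw [h15, h14]
    calc _ ≤ ∑ j : ι, CC N κ PP * L j.2 ^ 2 *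
          Macro.S Bp w (fun y => (g (y + cdir T R j.1 j.2) - g y) ^ 2)
        + (∑ j : ι', κ ^ 3 * (CC N κ PP * L j.2 ^ 2) * Macro.Dm B w (cdir T R j.1 j.2) 1 g
          + KS * (8 * A ^ 2 * bad)) + n * (C2 m n κ * A ^ 2 * (N * bad)) :=
          add_le_add (add_le_add le_rfl (h10.trans (add_le_add le_rfl h12))) h13
      _ = _ := by ring
  have htb : ∀ p, 0 ≤ tb S₁ S₂ θ b₁ b₂ p := h.tb_nonneg
  have key := Macro.macro_full (B := B) (w := w) (c := fun j : ι => cdir T R j.1 j.2)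
    (l := fun j : ι => l j.2)
    (R := fun j : ι => Real.exp (N * tb S₁ S₂ θ b₁ b₂ j.2 * l j.2)) (Bp := Bp) hBsub
    (d := fun j : ι' => cdir T R j.1 j.2) (fun y _ => hw y) hm (fun j => hl1 _) ?_ ?_ ?_
    (K := fun j : ι => CC N κ PP * L j.2 ^ 2)
    (fun j => mul_nonneg hCC (sq_nonneg _))
    (K' := fun j : ι' => κ ^ 3 * (CC N κ PP * L j.2 ^ 2))
    (fun j => mul_nonneg (by positivity) (mul_nonneg hCC (sq_nonneg _))) hfine hf
  · have hD0 : ∀ i p, 0 ≤ Macro.aDm B w (cdir T R i p) (l p) f := fun i p =>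
      Macro.aDm_nonneg (fun y _ => hw y) _ f
    have k1 : ∀ j : ι, (144 * (CC N κ PP * L j.2 ^ 2 / (l j.2 : ℝ) ^ 2) + 18 * Fintype.card ι) *
        Macro.aDm B w (cdir T R j.1 j.2) (l j.2) f ≤
        A0 * Macro.aDm B w (cdir T R j.1 j.2) (l j.2) f := by
      intro j
      refine mul_le_mul_of_nonneg_right ?_ (hD0 _ _)
      have := hA0fat j.2 j.2.2.2
      linarith
    have k2 : ∀ j : ι', 6 * (κ ^ 3 * (CC N κ PP * L j.2 ^ 2)) *
        Macro.Dm B w (cdir T R j.1 j.2) 1 f ≤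
        A0 * Macro.aDm B w (cdir T R j.1 j.2) (l j.2) f := by
      intro j
      have hp : T.par j.2 = none := not_not.1 j.2.2.2
      have e1 : Macro.aDm B w (cdir T R j.1 j.2) (l j.2) f =
          Macro.Dm B w (cdir T R j.1 j.2) 1 f := by
        rw [hlthin _ hp]
        unfold Macro.aDm
        simp
      rw [e1]
      exact mul_le_mul_of_nonneg_right (hA0thin j.2 j.2.2.1 hp) (Macro.Dm_nonneg (fun y _ => hw y) _ f)
    have k3 := Finset.sum_le_sum fun j (_ : j ∈ (univ : Finset ι)) => k1 j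
    have k4 := Finset.sum_le_sum fun j (_ : j ∈ (univ : Finset ι')) => k2 j
    rw [← Finset.mul_sum] at k3 k4
    have k5 := hsplit (fun i p => Macro.aDm B w (cdir T R i p) (l p) f)
    rw [k5, mul_add]
    refine key.trans (add_le_add (add_le_add k3 k4) ?_)
    -- the defect
    have hKSn : 0 ≤ KS := le_trans (Finset.sum_nonneg fun _ _ => Finset.sum_nonneg fun _ _ =>
      mul_nonneg hCC (sq_nonneg _)) hKS
    have hsumK := hsplit (fun _ p => CC N κ PP * L p ^ 2)
    have hnn1 : 0 ≤ ∑ j : ι, CC N κ PP * L j.2 ^ 2 :=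
      Finset.sum_nonneg fun j _ => mul_nonneg hCC (sq_nonneg _)
    have hnn2 : 0 ≤ ∑ j : ι', CC N κ PP * L j.2 ^ 2 :=
      Finset.sum_nonneg fun j _ => mul_nonneg hCC (sq_nonneg _)
    have d1 : ∑ j : ι, CC N κ PP * L j.2 ^ 2 ≤ KS := by
      have := hKS
      rw [hsumK] at this
      linarith
    have d2 : ∑ j : ι', CC N κ PP * L j.2 ^ 2 ≤ KS := by
      have := hKS
      rw [hsumK] at this
      linarith
    have d3 : ∑ j : ι, CC N κ PP * L j.2 ^ 2 / (l j.2 : ℝ) ^ 2 ≤ KS := by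
      refine le_trans (Finset.sum_le_sum fun j _ => ?_) d1
      have h1 : (1 : ℝ) ≤ (l j.2 : ℝ) := by exact_mod_cast hl1 j.2
      have h2 : (1 : ℝ) ≤ (l j.2 : ℝ) ^ 2 := one_le_pow₀ h1
      exact div_le_self (mul_nonneg hCC (sq_nonneg _)) h2
    have d4 : ∑ j : ι', κ ^ 3 * (CC N κ PP * L j.2 ^ 2) ≤ κ ^ 3 * KS := by
      rw [← Finset.mul_sum]
      exact mul_le_mul_of_nonneg_left d2 (by positivity)
    have d5 : ∑ j : ι, Macro.rim B w (cdir T R j.1 j.2) (l j.2) ≤ n * N * bad := by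
      calc _ ≤ ∑ _j : ι, bad := Finset.sum_le_sum fun j _ => hrim _ _
        _ = Fintype.card ι * bad := by rw [Finset.sum_const, Finset.card_univ, nsmul_eq_mul]
        _ ≤ _ := mul_le_mul_of_nonneg_right hcardι hbad0
    have hnN : (0 : ℝ) ≤ n * N := by positivity
    have hcsq : (Fintype.card ι : ℝ) ^ 2 ≤ (n * N) ^ 2 :=
      pow_le_pow_left₀ (Nat.cast_nonneg _) hcardι 2
    have hrim0 : 0 ≤ ∑ j : ι, Macro.rim B w (cdir T R j.1 j.2) (l j.2) :=
      Finset.sum_nonneg fun j _ => Macro.rim_nonneg fun y _ => hw y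
    have d6 : (72 * ∑ j : ι, CC N κ PP * L j.2 ^ 2 / (l j.2 : ℝ) ^ 2
        + 48 * ∑ j : ι', κ ^ 3 * (CC N κ PP * L j.2 ^ 2)
          + 48 * (Fintype.card ι : ℝ) ^ 2) *
        ∑ j : ι, Macro.rim B w (cdir T R j.1 j.2) (l j.2) ≤
        (72 * KS + 48 * κ ^ 3 * KS + 48 * (n * N) ^ 2) * (n * N * bad) := by
      refine mul_le_mul ?_ d5 hrim0 ?_
      · linarith
      · positivity
    have d7 : 8 * (∑ j : ι, CC N κ PP * L j.2 ^ 2) * ∑ y ∈ Bp \ B, w y ≤ 8 * KS * bad := by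
      refine mul_le_mul (by linarith) hdiff (Finset.sum_nonneg fun y _ => hw y) (by positivity)
    have d8 : 2 * ((n * (C2 m n κ * N) + 8 * KS) * bad) +
        (72 * ∑ j : ι, CC N κ PP * L j.2 ^ 2 / (l j.2 : ℝ) ^ 2
        + 48 * ∑ j : ι', κ ^ 3 * (CC N κ PP * L j.2 ^ 2)
          + 48 * (Fintype.card ι : ℝ) ^ 2) *
        ∑ j : ι, Macro.rim B w (cdir T R j.1 j.2) (l j.2)
        + 8 * (∑ j : ι, CC N κ PP * L j.2 ^ 2) * ∑ y ∈ Bp \ B, w y ≤
        CD n N m κ KS * bad := by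
      refine (add_le_add (add_le_add le_rfl d6) d7).trans (le_of_eq ?_)
      unfold CD
      ring
    calc _ ≤ (CD n N m κ KS * bad) * A ^ 2 := mul_le_mul_of_nonneg_right d8 (sq_nonneg _)
      _ = _ := by ring
  · -- ratios
    intro j s hs y _ _
    have hs' : s ≤ l j.2 := hs
    have h1 := ww_fat h hRep j.1 j.2 j.2.2.1
      (fun q hq hbq => hmono j.2 q j.2.2.2 hq hbq) s y
    refine h1.trans (mul_le_mul_of_nonneg_right ?_ (hw _))
    refine Real.exp_le_exp.2 ?_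
    have : (s : ℝ) ≤ l j.2 := by exact_mod_cast hs'
    exact mul_le_mul_of_nonneg_left this (mul_nonneg (by positivity) (htb _))
  · intro j
    exact Real.one_le_exp (mul_nonneg (mul_nonneg (by positivity) (htb _)) (by positivity))
  · -- product of the ratios
    rw [← Real.exp_sum]
    have h1 : ∑ j : ι, (N : ℝ) * tb S₁ S₂ θ b₁ b₂ j.2 * l j.2 =
        (n * N : ℝ) * ∑ p ∈ univ.filter (fun p => T.par p ≠ none),
          tb S₁ S₂ θ b₁ b₂ p * l p := by
      show ∑ j : E × {p : Tok E // p ≠ none ∧ T.par p ≠ none},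
        (N : ℝ) * tb S₁ S₂ θ b₁ b₂ j.2 * l j.2 = _
      rw [Fintype.sum_prod_type]
      simp only
      have hmem : ∀ p : Tok E, p ∈ univ.filter (fun p => T.par p ≠ none) ↔
          (p ≠ none ∧ T.par p ≠ none) := by
        intro p
        rw [Finset.mem_filter]
        constructor
        · rintro ⟨_, h2⟩
          refine ⟨?_, h2⟩
          rintro rfl
          exact h2 rfl
        · rintro ⟨_, h2⟩
          exact ⟨Finset.mem_univ _, h2⟩
      rw [Finset.sum_const, Finset.card_univ, nsmul_eq_mul,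
        Finset.sum_subtype _ hmem (fun p => tb S₁ S₂ θ b₁ b₂ p * (l p : ℝ)), mul_assoc]
      refine congrArg _ ?_
      rw [Finset.mul_sum]
      refine Finset.sum_congr rfl fun p _ => ?_
      ring
    rw [h1]
    have h2 : Real.exp ((n * N : ℝ) * ∑ p ∈ univ.filter (fun p => T.par p ≠ none),
          tb S₁ S₂ θ b₁ b₂ p * l p) ≤ Real.exp 1 := Real.exp_le_exp.2 hls
    have h3 := Real.exp_one_lt_d9
    linarith

end Crest.Agent.R302.T893
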