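import Crest.Agent.R302.Tail907D
import Crest.Agent.R302.S1x893C
import Crest.Agent.R302.Joint536

/-!
# R302: the defect mass `badm` of the x-marginal

Author: helper907.  `badm_fat` : the mass outside the windows is at most the mass of the states
with more than `h₀` links plus an exponentially small multiple of the hard link mass;
`badm_thin` : the same without the second term if there are no fat edges (arbitrary weights `g`);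
`far3_le_farM` : the mass with more than `h₀` links in the form of `Joint536`.
-/

set_option autoImplicit false
set_option linter.unusedSectionVars false

namespace Crest.Agent.R302.Tail907

open Finset Crest.Agent.R302.Facet
open Crest.Agent.R302.Inst Crest.Agent.R302.Lor
open Crest.Agent.R302.T893 (lvl badm ww)

variable {E : Type*} [Fintype E] [DecidableEq E]

/-! ### Monomials -/

theorem mon_add {μ : E → ℝ} (hμ : ∀ e, 0 < μ e) (y z : E → ℤ) :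
    mon μ (y + z) = mon μ y * mon μ z := by
  unfold mon
  rw [← prod_mul_distrib]
  exact prod_congr rfl fun e _ => by rw [Pi.add_apply, zpow_add₀ (hμ e).ne']

theorem mon_inv (μ : E → ℝ) (z : E → ℤ) : mon (fun e => (μ e)⁻¹) z = (mon μ z)⁻¹ := by
  unfold mon
  rw [← prod_inv_distrib]
  exact prod_congr rfl fun e _ => by rw [inv_zpow]

theorem mon_rootPart {S : Side E} {μ : E → ℝ} (hμ : S.Gauge μ) (z : E → ℤ) :
    mon μ z = mon μ (rootPart S.T.par (bs S.T z)) := by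
  rw [Side.mon_eq hμ]
  unfold mon rootPart
  have h1 : ∀ e, μ e ^ (if S.T.par e = none then bs S.T z e else 0) =
      if S.T.par e = none then μ e ^ bs S.T z e else 1 := by
    intro e; split_ifs
    · rfl
    · exact zpow_zero _
  rw [prod_congr rfl fun e _ => h1 e, ← prod_filter]
  exact (prod_subtype (p := fun a => S.T.par a = none) (univ.filter (fun a => S.T.par a = none))
      (fun a => by simp) (fun a => μ a ^ bs S.T z a)).symm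

/-- weight of the link vectors -/
noncomputable def Gl (θ : ℝ) (μ : E → ℝ) (s₁ s₂ : E → ℤ) : ℝ :=
  θ ^ (∑ v, (s₁ v).natAbs + ∑ v, (s₂ v).natAbs) * (mon μ s₁ * mon (fun e => (μ e)⁻¹) s₂)

theorem Gl_nonneg {θ : ℝ} (hθ : 0 ≤ θ) {μ : E → ℝ} (hμ : ∀ e, 0 < μ e) (s₁ s₂ : E → ℤ) :
    0 ≤ Gl θ μ s₁ s₂ :=
  mul_nonneg (pow_nonneg hθ _) (mul_nonneg (mon_pos hμ _).le
    (mon_pos (fun e => inv_pos.2 (hμ e)) _).le)

theorem prod_wk (S : Side E) (θ : ℝ) (τ : E → ℤ) :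
    ∏ a, S.wk θ a (τ a) =
      θ ^ (∑ v, (rootPart S.T.par τ v).natAbs) * prodK S.T.par S.κ τ := by
  rw [prodK_eq, ← prod_pow_eq_pow_sum, ← prod_mul_distrib]
  apply prod_congr rfl
  intro a _
  unfold Side.wk rootPart
  by_cases h : S.T.par a = none <;> simp [h]

/-- one triple -/
noncomputable def w1 (S : Side E) (θ : ℝ) (μ : E → ℝ) (x z : E → ℤ) : ℝ :=
  (mon μ z * S.g z) * ∏ a, S.wk θ a (bs S.T z a - bs S.T x a)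

theorem w1_mul {S₁ S₂ : Side E} (θ : ℝ) {μ : E → ℝ} (h₁ : S₁.Gauge μ) (h₂ : S₂.Gauge μ)
    (x z₁ z₂ : E → ℤ) :
    w1 S₁ θ μ x z₁ * w1 S₂ θ (fun e => (μ e)⁻¹) x z₂ =
      S₁.g z₁ * S₂.g z₂ * wt3 S₁.T S₂.T S₁.κ S₂.κ (Gl θ μ) x z₁ z₂ := by
  have hμ := h₁.1
  have h2' : S₂.Gauge (fun e => (μ e)⁻¹) :=
    ⟨fun e => inv_pos.2 (hμ e), fun a b h => by simp only; rw [h₂.2 a b h]⟩
  have e1 : mon μ z₁ * mon (fun e => (μ e)⁻¹) z₂ =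
      mon μ (rootPart S₁.T.par (bs S₁.T (z₁ - x))) *
        mon (fun e => (μ e)⁻¹) (rootPart S₂.T.par (bs S₂.T (z₂ - x))) := by
    rw [← mon_rootPart h₁, ← mon_rootPart h2']
    have a1 : mon μ z₁ = mon μ (z₁ - x) * mon μ x := by
      rw [← mon_add hμ]; congr 1; funext v; simp
    have a2 : mon (fun e => (μ e)⁻¹) z₂ =
        mon (fun e => (μ e)⁻¹) (z₂ - x) * mon (fun e => (μ e)⁻¹) x := by
      rw [← mon_add (fun e => inv_pos.2 (hμ e))]; congr 1; funext v; simp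
    have a3 : mon μ x * mon (fun e => (μ e)⁻¹) x = 1 := by
      rw [mon_inv, mul_inv_cancel₀ (mon_pos hμ x).ne']
    rw [a1, a2]
    calc _ = mon μ (z₁ - x) * mon (fun e => (μ e)⁻¹) (z₂ - x) *
          (mon μ x * mon (fun e => (μ e)⁻¹) x) := by ring
      _ = _ := by rw [a3, mul_one]
  have hb : ∀ (S : Side E) (z : E → ℤ), (fun a => bs S.T z a - bs S.T x a) = bs S.T (z - x) := by
    intro S z; funext a; rw [bs_sub]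
  have e2 : ∀ (S : Side E) (z : E → ℤ), ∏ a, S.wk θ a (bs S.T z a - bs S.T x a) =
      θ ^ (∑ v, (rootPart S.T.par (bs S.T (z - x)) v).natAbs) *
        prodK S.T.par S.κ (bs S.T (z - x)) := by
    intro S z
    rw [← prod_wk, ← hb S z]
  unfold w1 wt3 Gl
  rw [e2, e2, pow_add]
  calc _ = (mon μ z₁ * mon (fun e => (μ e)⁻¹) z₂) * (S₁.g z₁ * S₂.g z₂) *
      ((θ ^ (∑ v, (rootPart S₁.T.par (bs S₁.T (z₁ - x)) v).natAbs) *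
        prodK S₁.T.par S₁.κ (bs S₁.T (z₁ - x))) *
      (θ ^ (∑ v, (rootPart S₂.T.par (bs S₂.T (z₂ - x)) v).natAbs) *
        prodK S₂.T.par S₂.κ (bs S₂.T (z₂ - x)))) := by ring
    _ = _ := by rw [e1]; ring

/-- the weight of the x-marginal as a sum over pairs of points -/
theorem ww_eq {S₁ S₂ : Side E} (θ : ℝ) {μ : E → ℝ} (h₁ : S₁.Gauge μ) (h₂ : S₂.Gauge μ)
    (x : E → ℤ) :
    ww S₁ S₂ θ μ x = ∑ z₁ ∈ S₁.J, ∑ z₂ ∈ S₂.J,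
      S₁.g z₁ * S₂.g z₂ * wt3 S₁.T S₂.T S₁.κ S₂.κ (Gl θ μ) x z₁ z₂ := by
  unfold ww
  have : S₁.W θ μ x * S₂.W θ (fun e => (μ e)⁻¹) x =
      (∑ z₁ ∈ S₁.J, w1 S₁ θ μ x z₁) * ∑ z₂ ∈ S₂.J, w1 S₂ θ (fun e => (μ e)⁻¹) x z₂ := rfl
  rw [this, sum_mul_sum]
  exact sum_congr rfl fun z₁ _ => sum_congr rfl fun z₂ _ => w1_mul θ h₁ h₂ x z₁ z₂

/-- mass of the states with more than `h₀` links -/
noncomputable def far3 (S₁ S₂ : Side E) (θ : ℝ) (μ : E → ℝ) (h₀ : ℕ) (B : Finset (E → ℤ)) : ℝ :=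
  ∑ x ∈ B, ∑ z₁ ∈ S₁.J, ∑ z₂ ∈ S₂.J, (if (h₀ : ℤ) < nlink S₁.T S₂.T x z₁ z₂ then
    S₁.g z₁ * S₂.g z₂ * wt3 S₁.T S₂.T S₁.κ S₂.κ (Gl θ μ) x z₁ z₂ else 0)

/-! ### The windows of `S1x` -/

variable {r₁ r₂ : Finset E → ℤ} {R : ℤ} {c : E → ℤ} {m₁ m₂ : E → ℕ} {h₀ b : ℕ} {bt₁ bt₂ : E → ℤ}
  {A ε : ℝ} {S₁ S₂ : Side E} {θ : ℝ} {μ : E → ℝ}

/-- a bad point violates one of the integral windows -/
theorem bad_of {T₁ T₂ : MP3.Forest E} {L c' : Tok E → ℝ} {lam : ℕ} {M₁ M₂ : E → ℤ}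
    (hM₁ : ∀ e z, MemJ r₁ R z → MemJ r₂ R z → |bs T₁ z e - bs T₁ c e| ≤ M₁ e)
    (hM₂ : ∀ e z, MemJ r₁ R z → MemJ r₂ R z → |bs T₂ z e - bs T₂ c e| ≤ M₂ e)
    (hc₁ : ∀ e, c' (tX e) = bs T₁ c e) (hc₂ : ∀ e, c' (tY e) = bs T₂ c e)
    (hL₁ : ∀ e, ((lam * (M₁ e + Fintype.card E * (3 * Fintype.card E + 4)) + h₀ : ℤ) : ℝ) ≤
      L (tX e) - 2)
    (hL₂ : ∀ e, ((lam * (M₂ e + Fintype.card E * (3 * Fintype.card E + 4)) + h₀ : ℤ) : ℝ) ≤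
      L (tY e) - 2)
    {y : E → ℤ} (hy : ∃ p : Tok E, p ≠ none ∧ ¬ |lvl T₁ T₂ p y - c' p| ≤ L p - 2) :
    ∃ (U : Finset E) (M : ℤ),
      (∀ z, MemJ r₁ R z → MemJ r₂ R z → |∑ a ∈ U, z a - ∑ a ∈ U, c a| ≤ M) ∧
      lam * (M + Fintype.card E * (3 * Fintype.card E + 4)) + h₀ <
        |∑ a ∈ U, y a - ∑ a ∈ U, c a| := by
  obtain ⟨p, hp, hlt⟩ := hy
  rcases p with _ | e | e
  · exact absurd rfl hp
  · refine ⟨T₁.sub e, M₁ e, fun z h1 h2 => hM₁ e z h1 h2, ?_⟩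
    have h3 : lvl T₁ T₂ (some (Sum.inl e)) y = (bs T₁ y e : ℝ) := rfl
    have h4 : c' (some (Sum.inl e)) = (bs T₁ c e : ℝ) := hc₁ e
    rw [h3, h4, not_le] at hlt
    have h5 := lt_of_le_of_lt (hL₁ e) hlt
    have h6 : |(bs T₁ y e : ℝ) - bs T₁ c e| = ((|bs T₁ y e - bs T₁ c e| : ℤ) : ℝ) := by push_cast; rfl
    rw [h6] at h5
    exact_mod_cast h5
  · refine ⟨T₂.sub e, M₂ e, fun z h1 h2 => hM₂ e z h1 h2, ?_⟩
    have h3 : lvl T₁ T₂ (some (Sum.inr e)) y = (bs T₂ y e : ℝ) := rfl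
    have h4 : c' (some (Sum.inr e)) = (bs T₂ c e : ℝ) := hc₂ e
    rw [h3, h4, not_le] at hlt
    have h5 := lt_of_le_of_lt (hL₂ e) hlt
    have h6 : |(bs T₂ y e : ℝ) - bs T₂ c e| = ((|bs T₂ y e - bs T₂ c e| : ℤ) : ℝ) := by push_cast; rfl
    rw [h6] at h5
    exact_mod_cast h5

open Classical in
theorem badm_eq (h₁ : S₁.Gauge μ) (h₂ : S₂.Gauge μ) (L c' : Tok E → ℝ) (B : Finset (E → ℤ)) :
    badm S₁.T S₂.T L c' (ww S₁ S₂ θ μ) B =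
      ∑ x ∈ B, ∑ z₁ ∈ S₁.J, ∑ z₂ ∈ S₂.J,
        (if (∃ p : Tok E, p ≠ none ∧ ¬ |lvl S₁.T S₂.T p x - c' p| ≤ L p - 2) then
          S₁.g z₁ * S₂.g z₂ * wt3 S₁.T S₂.T S₁.κ S₂.κ (Gl θ μ) x z₁ z₂ else 0) := by
  unfold badm
  rw [sum_filter]
  apply sum_congr rfl
  intro x _
  rw [ww_eq θ h₁ h₂]
  split_ifs
  · rfl
  · simp

/-- **The defect mass, fat stages** (`g = 1`). -/
theorem badm_fat (hr₁ : SubM r₁ R) (hr₂ : SubM r₂ R) (hc₁ : MemJ r₁ R c) (hc₂ : MemJ r₂ R c)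
    (hJ₁ : ∀ z, z ∈ S₁.J ↔ MemJ r₁ R z) (hJ₂ : ∀ z, z ∈ S₂.J ↔ MemJ r₂ R z)
    (hg₁ : ∀ z ∈ S₁.J, S₁.g z = 1) (hg₂ : ∀ z ∈ S₂.J, S₂.g z = 1)
    (D₁ : SideData S₁.T S₁.κ r₁ c m₁ h₀ bt₁ A ε) (D₂ : SideData S₂.T S₂.κ r₂ c m₂ h₀ bt₂ A ε)
    (hbt₁ : ∀ p, S₁.T.par p ≠ none → bt₁ p ≤ b * m₁ p)
    (hbt₂ : ∀ p, S₂.T.par p ≠ none → bt₂ p ≤ b * m₂ p)
    (hA : 1 ≤ A) (hε : 0 ≤ ε) (hθ : 0 ≤ θ) (h₁ : S₁.Gauge μ) (h₂ : S₂.Gauge μ)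
    (B : Finset (E → ℤ)) (lam : ℕ) (hlam : Fintype.card E * b + 1 ≤ lam) (hlam' : h₀ ≤ lam)
    {L c' : Tok E → ℝ} {M₁ M₂ : E → ℤ}
    (hM₁ : ∀ e z, MemJ r₁ R z → MemJ r₂ R z → |bs S₁.T z e - bs S₁.T c e| ≤ M₁ e)
    (hM₂ : ∀ e z, MemJ r₁ R z → MemJ r₂ R z → |bs S₂.T z e - bs S₂.T c e| ≤ M₂ e)
    (hc'₁ : ∀ e, c' (tX e) = bs S₁.T c e) (hc'₂ : ∀ e, c' (tY e) = bs S₂.T c e)
    (hL₁ : ∀ e, ((lam * (M₁ e + Fintype.card E * (3 * Fintype.card E + 4)) + h₀ : ℤ) : ℝ) ≤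
      L (tX e) - 2)
    (hL₂ : ∀ e, ((lam * (M₂ e + Fintype.card E * (3 * Fintype.card E + 4)) + h₀ : ℤ) : ℝ) ≤
      L (tY e) - 2) :
    badm S₁.T S₂.T L c' (ww S₁ S₂ θ μ) B ≤ far3 S₁ S₂ θ μ h₀ B +
      2 * Fintype.card E * (ε * A ^ (2 * Fintype.card E)) *
        ∑ s₁ ∈ linkSet S₁.T.par h₀, ∑ s₂ ∈ linkSet S₂.T.par h₀, gN S₁.J S₂.J (Gl θ μ) h₀ s₁ s₂ := by
  classical
  have h := fat_tail hr₁ hr₂ hc₁ hc₂ S₁.J S₂.J hJ₁ hJ₂ D₁ D₂ hbt₁ hbt₂ hA hε (Gl θ μ)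
    (Gl_nonneg hθ h₁.1) B lam hlam hlam'
    (fun x => ∃ p : Tok E, p ≠ none ∧ ¬ |lvl S₁.T S₂.T p x - c' p| ≤ L p - 2)
    (fun x hx => bad_of hM₁ hM₂ hc'₁ hc'₂ hL₁ hL₂ hx)
  have e1 : badm S₁.T S₂.T L c' (ww S₁ S₂ θ μ) B =
      ∑ x ∈ B, ∑ z₁ ∈ S₁.J, ∑ z₂ ∈ S₂.J,
        (if (∃ p : Tok E, p ≠ none ∧ ¬ |lvl S₁.T S₂.T p x - c' p| ≤ L p - 2) then
          wt3 S₁.T S₂.T S₁.κ S₂.κ (Gl θ μ) x z₁ z₂ else 0) := by
    rw [badm_eq h₁ h₂]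
    refine sum_congr rfl fun x _ => sum_congr rfl fun z₁ hz₁ => sum_congr rfl fun z₂ hz₂ => ?_
    rw [hg₁ z₁ hz₁, hg₂ z₂ hz₂, one_mul, one_mul]
  have e2 : far3 S₁ S₂ θ μ h₀ B = ∑ x ∈ B, ∑ z₁ ∈ S₁.J, ∑ z₂ ∈ S₂.J,
      (if (h₀ : ℤ) < nlink S₁.T S₂.T x z₁ z₂ then
        wt3 S₁.T S₂.T S₁.κ S₂.κ (Gl θ μ) x z₁ z₂ else 0) := by
    unfold far3
    refine sum_congr rfl fun x _ => sum_congr rfl fun z₁ hz₁ => sum_congr rfl fun z₂ hz₂ => ?_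
    rw [hg₁ z₁ hz₁, hg₂ z₂ hz₂, one_mul, one_mul]
  rw [e1, e2]
  exact h

/-- **The defect mass, thin stages** (no fat edge, arbitrary `g ≥ 0`). -/
theorem badm_thin (hr₁ : SubM r₁ R) (hr₂ : SubM r₂ R) (hc₁ : MemJ r₁ R c) (hc₂ : MemJ r₂ R c)
    (hJ₁ : ∀ z, z ∈ S₁.J ↔ MemJ r₁ R z) (hJ₂ : ∀ z, z ∈ S₂.J ↔ MemJ r₂ R z)
    (hg₁ : ∀ z ∈ S₁.J, 0 ≤ S₁.g z) (hg₂ : ∀ z ∈ S₂.J, 0 ≤ S₂.g z)
    (hT₁ : ∀ p, S₁.T.par p = none) (hT₂ : ∀ p, S₂.T.par p = none)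
    (hθ : 0 ≤ θ) (h₁ : S₁.Gauge μ) (h₂ : S₂.Gauge μ)
    (B : Finset (E → ℤ)) (lam : ℕ) (hlam : 1 ≤ lam) (hlam' : h₀ ≤ lam)
    {L c' : Tok E → ℝ} {M₁ M₂ : E → ℤ}
    (hM₁ : ∀ e z, MemJ r₁ R z → MemJ r₂ R z → |bs S₁.T z e - bs S₁.T c e| ≤ M₁ e)
    (hM₂ : ∀ e z, MemJ r₁ R z → MemJ r₂ R z → |bs S₂.T z e - bs S₂.T c e| ≤ M₂ e)
    (hc'₁ : ∀ e, c' (tX e) = bs S₁.T c e) (hc'₂ : ∀ e, c' (tY e) = bs S₂.T c e)
    (hL₁ : ∀ e, ((lam * (M₁ e + Fintype.card E * (3 * Fintype.card E + 4)) + h₀ : ℤ) : ℝ) ≤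
      L (tX e) - 2)
    (hL₂ : ∀ e, ((lam * (M₂ e + Fintype.card E * (3 * Fintype.card E + 4)) + h₀ : ℤ) : ℝ) ≤
      L (tY e) - 2) :
    badm S₁.T S₂.T L c' (ww S₁ S₂ θ μ) B ≤ far3 S₁ S₂ θ μ h₀ B := by
  classical
  have D₁ : SideData S₁.T S₁.κ r₁ c (fun _ => 0) h₀ (fun _ => 0) 1 0 :=
    ⟨fun p q h => by rw [hT₁ p] at h; exact absurd h (by simp), fun p h => absurd (hT₁ p) h,
      fun p h => absurd (hT₁ p) h, fun p h => absurd (hT₁ p) h⟩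
  have D₂ : SideData S₂.T S₂.κ r₂ c (fun _ => 0) h₀ (fun _ => 0) 1 0 :=
    ⟨fun p q h => by rw [hT₂ p] at h; exact absurd h (by simp), fun p h => absurd (hT₂ p) h,
      fun p h => absurd (hT₂ p) h, fun p h => absurd (hT₂ p) h⟩
  rw [badm_eq h₁ h₂]
  unfold far3
  refine sum_le_sum fun x _ => sum_le_sum fun z₁ hz₁ => sum_le_sum fun z₂ hz₂ => ?_
  have hw : 0 ≤ S₁.g z₁ * S₂.g z₂ * wt3 S₁.T S₂.T S₁.κ S₂.κ (Gl θ μ) x z₁ z₂ :=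
    mul_nonneg (mul_nonneg (hg₁ z₁ hz₁) (hg₂ z₂ hz₂)) (mul_nonneg (Gl_nonneg hθ h₁.1 _ _)
      (mul_nonneg (prodK_nonneg' D₁ _) (prodK_nonneg' D₂ _)))
  by_cases hb : ∃ p : Tok E, p ≠ none ∧ ¬ |lvl S₁.T S₂.T p x - c' p| ≤ L p - 2
  · rw [if_pos hb]
    rcases bad_cases (b := 0) hr₁ hr₂ hc₁ hc₂ hJ₁ hJ₂ D₁ D₂ (fun p h => absurd (hT₁ p) h)
      (fun p h => absurd (hT₂ p) h) (lam := lam) (by simpa using hlam) hlam'
      (bad_of hM₁ hM₂ hc'₁ hc'₂ hL₁ hL₂ hb) hz₁ hz₂ with h | ⟨p, hp, _⟩ | ⟨p, hp, _⟩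
    · rw [if_pos h]
    · exact absurd (hT₁ p) hp
    · exact absurd (hT₂ p) hp
  · rw [if_neg hb]
    split_ifs
    · exact hw
    · exact le_rfl

/-! ### The mass with many links in the form of `Joint536` -/

theorem lw_eq {S : Side E} (θ : ℝ) {μ : E → ℝ} (h : S.Gauge μ) (x : E → ℤ) (β : S.Blk → ℤ) :
    S.lw θ μ x β = ∑ z ∈ S.J, if S.blk z = β then w1 S θ μ x z else 0 := by
  classical
  unfold Side.lw Side.ff
  rw [mul_sum]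
  apply sum_congr rfl
  intro z _
  split_ifs with hz
  · subst hz
    have e1 : ∏ a, S.fk x (S.blk z) z a
        = ∏ a, (if S.T.par a = none then 1 else S.κ a (bs S.T z a - bs S.T x a)) := by
      refine Finset.prod_congr rfl fun a _ => ?_
      unfold Side.fk Side.blk
      by_cases h : S.T.par a = none
      · simp [h]
      · simp [h]
    have e2 : ∏ a, S.wk θ a (bs S.T z a - bs S.T x a)
        = (∏ a, (if S.T.par a = none then θ ^ (bs S.T z a - bs S.T x a).natAbs else 1))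
          * ∏ a, (if S.T.par a = none then 1 else S.κ a (bs S.T z a - bs S.T x a)) := by
      rw [← Finset.prod_mul_distrib]
      refine Finset.prod_congr rfl fun a _ => ?_
      unfold Side.wk
      by_cases h : S.T.par a = none
      · simp [h]
      · simp [h]
    have e3 : ∏ a, (if S.T.par a = none then θ ^ (bs S.T z a - bs S.T x a).natAbs else 1)
        = ∏ r : S.Blk, θ ^ (S.blk z r - bs S.T x r).natAbs := by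
      rw [← Finset.prod_filter, Finset.prod_subtype (p := fun a => S.T.par a = none)
        (univ.filter (fun a => S.T.par a = none))
        (fun a => by simp) (fun a => θ ^ (bs S.T z a - bs S.T x a).natAbs)]
      rfl
    unfold w1
    rw [e1, e2, e3, Side.mon_eq h]
    unfold Side.blk
    ring
  · obtain ⟨r, hr⟩ := Function.ne_iff.1 hz
    have : ∏ a, S.fk x β z a = 0 := by
      refine Finset.prod_eq_zero (mem_univ (r : E)) ?_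
      unfold Side.fk
      rw [dif_pos r.2, if_neg]
      exact hr
    rw [this]
    ring

theorem w1_nonneg {S : Side E} (hθ : 0 ≤ θ) {μ : E → ℝ} (hμ : ∀ e, 0 < μ e)
    (hκ : ∀ p, S.T.par p ≠ none → ∀ t, 0 ≤ S.κ p t) (x : E → ℤ) {z : E → ℤ} (hg : 0 ≤ S.g z) :
    0 ≤ w1 S θ μ x z := by
  unfold w1
  refine mul_nonneg (mul_nonneg (mon_pos hμ _).le hg) (prod_nonneg fun a _ => ?_)
  unfold Side.wk
  split_ifs with h
  · exact pow_nonneg hθ _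
  · exact hκ a h _

/-- sum over the link states as a sum over the points of `J` -/
theorem sum_lw {S : Side E} (θ : ℝ) {μ : E → ℝ} (h : S.Gauge μ) (x : E → ℤ)
    (Λ : Finset (S.Blk → ℤ)) (hΛ : ∀ z ∈ S.J, S.blk z ∈ Λ) (P : (S.Blk → ℤ) → ℝ) :
    ∑ β ∈ Λ, P β * S.lw θ μ x β = ∑ z ∈ S.J, P (S.blk z) * w1 S θ μ x z := by
  classical
  simp only [lw_eq θ h, mul_sum]
  rw [sum_comm]
  apply sum_congr rfl
  intro z hz
  rw [sum_eq_single (S.blk z)]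
  · rw [if_pos rfl]
  · intro β _ hne
    rw [if_neg (Ne.symm hne), mul_zero]
  · intro h; exact absurd (hΛ z hz) h

theorem rootPart_abs_sum (S : Side E) (x z : E → ℤ) {K : ℕ} (h : Joint.InW (S.blk x) K (S.blk z)) :
    ∑ v, |rootPart S.T.par (bs S.T (z - x)) v| ≤ Fintype.card E * K := by
  have h1 : ∀ v, |rootPart S.T.par (bs S.T (z - x)) v| ≤ (K : ℤ) := by
    intro v
    unfold rootPart
    split_ifs with hv
    · have := h ⟨v, hv⟩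
      unfold Side.blk at this
      rw [bs_sub]
      exact this
    · simp
  calc _ ≤ ∑ _v : E, (K : ℤ) := sum_le_sum fun v _ => h1 v
    _ = _ := by rw [sum_const, card_univ, nsmul_eq_mul]

/-- **the mass with more than `h₀` links is at most the far mass of `Joint536`** -/
theorem far3_le_farM (hg₁ : ∀ z ∈ S₁.J, 0 ≤ S₁.g z) (hg₂ : ∀ z ∈ S₂.J, 0 ≤ S₂.g z)
    (hκ₁ : ∀ p, S₁.T.par p ≠ none → ∀ t, 0 ≤ S₁.κ p t)
    (hκ₂ : ∀ p, S₂.T.par p ≠ none → ∀ t, 0 ≤ S₂.κ p t)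
    (hθ : 0 ≤ θ) (h₁ : S₁.Gauge μ) (h₂ : S₂.Gauge μ) (B : Finset (E → ℤ))
    (Λ₁ : Finset (S₁.Blk → ℤ)) (hΛ₁ : ∀ z ∈ S₁.J, S₁.blk z ∈ Λ₁)
    (Λ₂ : Finset (S₂.Blk → ℤ)) (hΛ₂ : ∀ z ∈ S₂.J, S₂.blk z ∈ Λ₂) {K : ℕ}
    (hK : 2 * Fintype.card E * K ≤ h₀) :
    far3 S₁ S₂ θ μ h₀ B ≤ Joint.farM B (fun x β => S₁.lw θ μ x β)
      (fun x β => S₂.lw θ (fun e => (μ e)⁻¹) x β) Λ₁ Λ₂ (fun x => S₁.blk x) (fun x => S₂.blk x) K := by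
  classical
  have h2' : S₂.Gauge (fun e => (μ e)⁻¹) :=
    ⟨fun e => inv_pos.2 (h₁.1 e), fun a b h => by simp only; rw [h₂.2 a b h]⟩
  unfold Joint.farM far3
  rw [sum_filter, sum_product]
  apply sum_le_sum
  intro x _
  have e1 : ∑ y ∈ Λ₁ ×ˢ Λ₂, (if ¬ (Joint.InW (S₁.blk x) K y.1 ∧ Joint.InW (S₂.blk x) K y.2) then
      Joint.nu (fun x β => S₁.lw θ μ x β) (fun x β => S₂.lw θ (fun e => (μ e)⁻¹) x β) (x, y)
        else 0) =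
      ∑ z₁ ∈ S₁.J, ∑ z₂ ∈ S₂.J,
        (if ¬ (Joint.InW (S₁.blk x) K (S₁.blk z₁) ∧ Joint.InW (S₂.blk x) K (S₂.blk z₂)) then
          w1 S₁ θ μ x z₁ * w1 S₂ θ (fun e => (μ e)⁻¹) x z₂ else 0) := by
    rw [sum_product]
    have e2 : ∀ β₁ ∈ Λ₁, ∑ β₂ ∈ Λ₂,
        (if ¬ (Joint.InW (S₁.blk x) K β₁ ∧ Joint.InW (S₂.blk x) K β₂) then
          Joint.nu (fun x β => S₁.lw θ μ x β) (fun x β => S₂.lw θ (fun e => (μ e)⁻¹) x β)
            (x, β₁, β₂) else 0) =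
        (∑ z₂ ∈ S₂.J, (if ¬ (Joint.InW (S₁.blk x) K β₁ ∧ Joint.InW (S₂.blk x) K (S₂.blk z₂)) then 1
          else 0) * w1 S₂ θ (fun e => (μ e)⁻¹) x z₂) * S₁.lw θ μ x β₁ := by
      intro β₁ _
      have h3 := sum_lw θ h2' x Λ₂ hΛ₂
        (fun β₂ => if ¬ (Joint.InW (S₁.blk x) K β₁ ∧ Joint.InW (S₂.blk x) K β₂) then 1 else 0)
      rw [← h3, sum_mul]
      apply sum_congr rfl
      intro β₂ _
      unfold Joint.nu
      split_ifs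
      · ring
      · ring
    rw [sum_congr rfl e2]
    have h4 := sum_lw θ h₁ x Λ₁ hΛ₁ (fun β₁ => ∑ z₂ ∈ S₂.J,
      (if ¬ (Joint.InW (S₁.blk x) K β₁ ∧ Joint.InW (S₂.blk x) K (S₂.blk z₂)) then 1
          else 0) * w1 S₂ θ (fun e => (μ e)⁻¹) x z₂)
    rw [h4]
    apply sum_congr rfl
    intro z₁ _
    rw [sum_mul]
    apply sum_congr rfl
    intro z₂ _
    split_ifs
    · ring
    · ring
  rw [e1]
  refine sum_le_sum fun z₁ hz₁ => sum_le_sum fun z₂ hz₂ => ?_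
  have hw : 0 ≤ w1 S₁ θ μ x z₁ * w1 S₂ θ (fun e => (μ e)⁻¹) x z₂ :=
    mul_nonneg (w1_nonneg hθ h₁.1 hκ₁ x (hg₁ z₁ hz₁)) (w1_nonneg hθ h2'.1 hκ₂ x (hg₂ z₂ hz₂))
  rw [w1_mul θ h₁ h₂] at hw ⊢
  by_cases hl : (h₀ : ℤ) < nlink S₁.T S₂.T x z₁ z₂
  · rw [if_pos hl, if_pos]
    rintro ⟨k1, k2⟩
    have a1 := rootPart_abs_sum S₁ x z₁ k1
    have a2 := rootPart_abs_sum S₂ x z₂ k2
    have a3 : (2 * Fintype.card E * K : ℤ) ≤ h₀ := by exact_mod_cast hK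
    unfold nlink at hl
    linarith
  · rw [if_neg hl]
    split_ifs <;> first | exact hw | exact le_rfl

end Crest.Agent.R302.Tail907
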