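import Mathlib
import Crest.Agent.R302.Lor151

/-!
R302 (helper970), block GAUGE, part A: elementary consequences of the Alexandrov-Fenchel inequality
for a symmetric function `N : (V → ℤ) → ℝ` all of whose second difference matrices
`N (β + e_u + e_v)` are `AF`.

* `AF.two_mul` : `Q v v * Q u w ≤ 2 * Q v u * Q v w` for nonnegative entries;
* `cyc` : `N (e - f) * N (f - g) ≤ 2 * N 0 * N (e - g)`;
* `gauge` : the explicit product gauge `lam e = N 0 / N (e - f0)`.
-/

set_option autoImplicit false

namespace Crest.Agent.R302.Gau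

open Finset Crest.Agent.R302.Lor

variable {V : Type*} [Fintype V] [DecidableEq V]

omit [DecidableEq V] in
theorem Q_add_right (A : V → V → ℝ) (x y y' : V → ℝ) : Q A x (y + y') = Q A x y + Q A x y' := by
  simp only [Q, Pi.add_apply, mul_add, add_mul, Finset.sum_add_distrib]

omit [DecidableEq V] in
theorem Q_smul_right (A : V → V → ℝ) (t : ℝ) (x y : V → ℝ) : Q A x (t • y) = t * Q A x y := by
  simp only [Q, Pi.smul_apply, smul_eq_mul, Finset.mul_sum]
  exact Finset.sum_congr rfl fun a _ => Finset.sum_congr rfl fun b _ => by ring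

omit [DecidableEq V] in
/-- reverse Khovanskii-Teissier inequality -/
theorem AF_two_mul {A : V → V → ℝ} (hA : ∀ a b, A a b = A b a) (h : AF A) {v u w : V → ℝ}
    (hvv : 0 ≤ Q A v v) (huu : 0 ≤ Q A u u) (hww : 0 ≤ Q A w w) (huv : 0 ≤ Q A u v)
    (hwv : 0 ≤ Q A w v) :
    Q A v v * Q A u w ≤ 2 * (Q A u v * Q A w v) := by
  rcases hvv.eq_or_lt with h0 | hpos
  · rw [← h0, zero_mul]; positivity
  · -- B x y = Q x v * Q y v - Q v v * Q x y is positive semidefinite
    have key : ∀ t : ℝ, 0 ≤ (Q A u v + t * Q A w v) ^ 2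
        - Q A v v * (Q A u u + 2 * t * Q A u w + t ^ 2 * Q A w w) := by
      intro t
      have h1 := h (u + t • w) v hvv
      have h2 : Q A (u + t • w) (u + t • w) = Q A u u + 2 * t * Q A u w + t ^ 2 * Q A w w := by
        rw [Q_add_left, Q_add_right, Q_add_right, Q_smul_left, Q_smul_left, Q_smul_right,
          Q_smul_right, Q_comm hA w u]
        ring
      have h3 : Q A (u + t • w) v = Q A u v + t * Q A w v := by
        rw [Q_add_left, Q_smul_left]
      rw [h2, h3] at h1
      linarith
    -- discriminant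
    set a := (Q A u v) ^ 2 - Q A v v * Q A u u with ha
    set b := Q A u v * Q A w v - Q A v v * Q A u w with hb
    set c := (Q A w v) ^ 2 - Q A v v * Q A w w with hc
    have key2 : ∀ t : ℝ, 0 ≤ c * (t * t) + (2 * b) * t + a := by
      intro t
      have := key t
      nlinarith
    have hd := discrim_le_zero key2
    unfold discrim at hd
    have hb2 : b ^ 2 ≤ a * c := by nlinarith
    have ha0 : 0 ≤ a := by simpa using key2 0
    have ha1 : a ≤ (Q A u v) ^ 2 := by rw [ha]; nlinarith [mul_nonneg hvv huu]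
    have hc1 : c ≤ (Q A w v) ^ 2 := by rw [hc]; nlinarith [mul_nonneg hvv hww]
    have hac : a * c ≤ (Q A u v * Q A w v) ^ 2 := by
      rw [mul_pow]
      rcases le_or_gt 0 c with hc0 | hc0
      · exact mul_le_mul ha1 hc1 hc0 (by positivity)
      · have : a * c ≤ 0 := mul_nonpos_of_nonneg_of_nonpos ha0 hc0.le
        have h5 : 0 ≤ (Q A u v) ^ 2 * (Q A w v) ^ 2 := by positivity
        linarith
    have hb3 : |b| ≤ Q A u v * Q A w v :=
      abs_le_of_sq_le_sq (hb2.trans hac) (mul_nonneg huv hwv)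
    have := neg_le_of_abs_le hb3
    rw [hb] at this
    linarith

/-- entries of the form at unit vectors -/
theorem Q_single (A : V → V → ℝ) (a b : V) :
    Q A (Pi.single a 1) (Pi.single b 1) = A a b := by
  unfold Q
  rw [Finset.sum_eq_single a, Finset.sum_eq_single b]
  · simp
  · intro c _ hc; simp [hc]
  · simp
  · intro c _ hc
    apply Finset.sum_eq_zero
    intro d _
    simp [hc]
  · simp

/-- "Lorentzian": every second difference matrix is `AF` -/
def LorN (N : (V → ℤ) → ℝ) : Prop := ∀ β, AF (fun u v => N (β + ev u + ev v))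

theorem LorN.sq_le {N : (V → ℤ) → ℝ} (h : LorN N) (h0 : ∀ β, 0 ≤ N β) (β : V → ℤ) (a b : V) :
    N (β + ev a + ev a) * N (β + ev b + ev b) ≤ (N (β + ev a + ev b)) ^ 2 := by
  have := h β (Pi.single a 1) (Pi.single b 1) (by rw [Q_single]; exact h0 _)
  simpa only [Q_single] using this

theorem LorN.tri {N : (V → ℤ) → ℝ} (h : LorN N) (h0 : ∀ β, 0 ≤ N β) (β : V → ℤ) (v u w : V) :
    N (β + ev v + ev v) * N (β + ev u + ev w) ≤
      2 * (N (β + ev u + ev v) * N (β + ev w + ev v)) := by
  have := AF_two_mul (A := fun u v => N (β + ev u + ev v))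
    (fun a b => by rw [add_right_comm]) (h β) (v := Pi.single v 1) (u := Pi.single u 1)
    (w := Pi.single w 1) (by rw [Q_single]; exact h0 _) (by rw [Q_single]; exact h0 _)
    (by rw [Q_single]; exact h0 _) (by rw [Q_single]; exact h0 _) (by rw [Q_single]; exact h0 _)
  simpa only [Q_single] using this

/-- the cycle inequality -/
theorem cyc {N : (V → ℤ) → ℝ} (h : LorN N) (h0 : ∀ β, 0 ≤ N β) (e f g : V) :
    N (ev e - ev f) * N (ev f - ev g) ≤ 2 * (N 0 * N (ev e - ev g)) := by
  have := h.tri h0 (-ev f - ev g) f e g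
  have e1 : (-ev f - ev g + ev f + ev f : V → ℤ) = ev f - ev g := by abel
  have e2 : (-ev f - ev g + ev e + ev g : V → ℤ) = ev e - ev f := by abel
  have e3 : (-ev f - ev g + ev e + ev f : V → ℤ) = ev e - ev g := by abel
  have e4 : (-ev f - ev g + ev g + ev f : V → ℤ) = 0 := by abel
  rw [e1, e2, e3, e4] at this
  linarith

/-- **explicit gauge** : with `lam e = N 0 / N (e - f0)` all normalised one-link counts are
at most `2 N 0`. -/
theorem gauge {N : (V → ℤ) → ℝ} (h : LorN N) (h0 : ∀ β, 0 ≤ N β) (f0 : V)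
    (hpos : ∀ e, 0 < N (ev e - ev f0)) (e f : V) :
    (N 0 / N (ev e - ev f0)) / (N 0 / N (ev f - ev f0)) * N (ev e - ev f) ≤ 2 * N 0 := by
  have hN0 : 0 < N 0 := by simpa using hpos f0
  have h1 := cyc h h0 e f f0
  have h2 := hpos e
  have h3 := hpos f
  rw [div_div_div_cancel_left' _ _ hN0.ne', div_mul_eq_mul_div, div_le_iff₀ h2]
  nlinarith

end Crest.Agent.R302.Gau
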