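import Crest.Agent.R302.Soft151
import Crest.Agent.R302.Facet907

/-!
R302 (helper151): integer points of base polytopes are M-convex; products; instances.
-/

set_option autoImplicit false

namespace Crest.Agent.R302.Lor

open Finset Crest.Agent.R302.Facet

section Base

variable {V : Type*} [Fintype V] [DecidableEq V]

/-- **integer points of a base polytope are M-convex** -/
theorem mcx_memJ {r : Finset V → ℤ} {R : ℤ} (hr : SubM r R) : MCx {x : V → ℤ | MemJ r R x} where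
  deg x hx y hy := by rw [hx.2, hy.2]
  exch x hx y hy u hu := by
    obtain ⟨hx1, hx2⟩ := hx
    obtain ⟨hy1, hy2⟩ := hy
    -- smallest `y`-tight set containing `u`
    obtain ⟨D, hD, hDmin⟩ := Finset.exists_min_image
      ((univ : Finset (Finset V)).filter fun A => u ∈ A ∧ ∑ a ∈ A, y a = r A) Finset.card
      ⟨univ, by simp [hy2, hr.univ]⟩
    simp only [mem_filter, mem_univ, true_and] at hD hDmin
    have hDsub : ∀ A, u ∈ A → ∑ a ∈ A, y a = r A → D ⊆ A := by
      intro A huA hA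
      have h1 := hr.sub A D
      have h2 := hy1 (A ∪ D)
      have h3 := hy1 (A ∩ D)
      have h4 : ∑ a ∈ A ∪ D, y a + ∑ a ∈ A ∩ D, y a = ∑ a ∈ A, y a + ∑ a ∈ D, y a :=
        Finset.sum_union_inter
      have h5 : ∑ a ∈ A ∩ D, y a = r (A ∩ D) := by linarith [hD.2]
      have h6 := hDmin (A ∩ D) ⟨mem_inter.2 ⟨huA, hD.1⟩, h5⟩
      have h7 : A ∩ D = D := Finset.eq_of_subset_of_card_le inter_subset_right h6
      rw [← h7]; exact inter_subset_left
    -- largest `x`-tight set not containing `u`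
    obtain ⟨F, hF, hFmax⟩ := Finset.exists_max_image
      ((univ : Finset (Finset V)).filter fun A => u ∉ A ∧ ∑ a ∈ A, x a = r A) Finset.card
      ⟨∅, by simp [hr.empty]⟩
    simp only [mem_filter, mem_univ, true_and] at hF hFmax
    have hFsup : ∀ A, u ∉ A → ∑ a ∈ A, x a = r A → A ⊆ F := by
      intro A huA hA
      have h1 := hr.sub A F
      have h2 := hx1 (A ∪ F)
      have h3 := hx1 (A ∩ F)
      have h4 : ∑ a ∈ A ∪ F, x a + ∑ a ∈ A ∩ F, x a = ∑ a ∈ A, x a + ∑ a ∈ F, x a :=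
        Finset.sum_union_inter
      have h5 : ∑ a ∈ A ∪ F, x a = r (A ∪ F) := by linarith [hF.2]
      have h6 := hFmax (A ∪ F) ⟨by simp [huA, hF.1], h5⟩
      have h7 : F = A ∪ F := Finset.eq_of_subset_of_card_le subset_union_right h6
      rw [h7]; exact subset_union_left
    -- the exchange partner
    obtain ⟨v, hvD, hvF, hv⟩ : ∃ v, v ∈ D ∧ v ∉ F ∧ x v < y v := by
      by_contra hcon
      push Not at hcon
      have h1 := hr.sub D F
      have h2 := hx1 (D ∪ F)
      have h3 := hy1 (D ∩ F)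
      have e1 : ∑ a ∈ D \ F, y a + ∑ a ∈ D ∩ F, y a = ∑ a ∈ D, y a := by
        rw [← Finset.sum_union (Finset.disjoint_left.2 fun a ha hb =>
          (mem_sdiff.1 ha).2 (mem_inter.1 hb).2), Finset.sdiff_union_inter]
      have e2 : ∑ a ∈ D ∪ F, x a = ∑ a ∈ D \ F, x a + ∑ a ∈ F, x a := by
        rw [← Finset.sum_union (Finset.sdiff_disjoint), Finset.sdiff_union_self_eq_union]
      have h4 : ∑ a ∈ D \ F, y a < ∑ a ∈ D \ F, x a := by
        refine Finset.sum_lt_sum (fun a ha => ?_) ⟨u, mem_sdiff.2 ⟨hD.1, hF.1⟩, hu⟩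
        rw [mem_sdiff] at ha
        exact hcon a ha.1 ha.2
      linarith [hD.2, hF.2]
    have huv : u ≠ v := by rintro rfl; omega
    have hsum : ∀ (z : V → ℤ) (a b : V) (A : Finset V), ∑ w ∈ A, (z - ev a + ev b) w
        = ∑ w ∈ A, z w - (if a ∈ A then 1 else 0) + (if b ∈ A then 1 else 0) := by
      intro z a b A
      have h1 : ∀ a : V, ∑ w ∈ A, ev a w = if a ∈ A then 1 else 0 := by
        intro a
        by_cases h : a ∈ A
        · rw [if_pos h, Finset.sum_eq_single a]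
          · exact ev_self a
          · intro b _ hb; exact ev_ne hb.symm
          · intro h'; exact absurd h h'
        · rw [if_neg h]
          exact Finset.sum_eq_zero fun w hw => ev_ne (by rintro rfl; exact h hw)
      simp only [Pi.add_apply, Pi.sub_apply, Finset.sum_add_distrib, Finset.sum_sub_distrib, h1]
    refine ⟨v, hv, ⟨fun A => ?_, ?_⟩, ⟨fun A => ?_, ?_⟩⟩
    · rw [hsum]
      have h1 := hx1 A
      by_cases hvA : v ∈ A
      · by_cases huA : u ∈ A
        · simp [hvA, huA, h1]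
        · have : ∑ a ∈ A, x a ≠ r A := fun h => hvF (hFsup A huA h hvA)
          simp only [hvA, huA, if_true, if_false]
          omega
      · by_cases huA : u ∈ A
        · simp only [hvA, huA, if_true, if_false]; omega
        · simp [hvA, huA, h1]
    · have := hsum x u v univ
      simp only [mem_univ, if_true] at this
      omega
    · have e : y + ev u - ev v = y - ev v + ev u := by abel
      rw [e, hsum]
      have h1 := hy1 A
      by_cases huA : u ∈ A
      · by_cases hvA : v ∈ A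
        · simp [hvA, huA, h1]
        · have : ∑ a ∈ A, y a ≠ r A := fun h => hvA (hDsub A huA h hvD)
          simp only [hvA, huA, if_true, if_false]
          omega
      · by_cases hvA : v ∈ A
        · simp only [hvA, huA, if_true, if_false]; omega
        · simp [hvA, huA, h1]
    · have e : y + ev u - ev v = y - ev v + ev u := by abel
      rw [e]
      have := hsum y v u univ
      simp only [mem_univ, if_true] at this
      omega

/-- reflection of an M-convex set -/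
theorem MCx.reflect {S : Set (V → ℤ)} (h : MCx S) (κ : V → ℤ) : MCx {x | κ - x ∈ S} where
  deg x hx y hy := by
    have := h.deg _ hx _ hy
    simp only [Pi.sub_apply, Finset.sum_sub_distrib] at this
    omega
  exch x hx y hy u hu := by
    obtain ⟨v, hv, h1, h2⟩ := h.exch _ hy _ hx u (by simp only [Pi.sub_apply]; omega)
    refine ⟨v, by simp only [Pi.sub_apply] at hv; omega, ?_, ?_⟩
    · show κ - (x - ev u + ev v) ∈ S
      have e : κ - (x - ev u + ev v) = κ - x + ev u - ev v := by abel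
      rw [e]; exact h2
    · show κ - (y + ev u - ev v) ∈ S
      have e : κ - (y + ev u - ev v) = κ - y - ev u + ev v := by abel
      rw [e]; exact h1

/-- indicator of the integer points of a base polytope -/
theorem Lz.memJ {r : Finset V → ℤ} {R : ℤ} (hr : SubM r R) {c : (V → ℤ) → ℝ}
    (hc1 : ∀ γ, MemJ r R γ → c γ = 1) (hc0 : ∀ γ, ¬ MemJ r R γ → c γ = 0) : Lz R c :=
  Lz.indicator (mcx_memJ hr) (fun _ hx => hx.2) hc1 hc0

/-- reflected indicator -/
theorem Lz.memJ_reflect {r : Finset V → ℤ} {R : ℤ} (hr : SubM r R) (κ : V → ℤ)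
    {c : (V → ℤ) → ℝ} (hc1 : ∀ γ, MemJ r R (κ - γ) → c γ = 1)
    (hc0 : ∀ γ, ¬ MemJ r R (κ - γ) → c γ = 0) : Lz (∑ v, κ v - R) c := by
  refine Lz.indicator ((mcx_memJ hr).reflect κ) (fun x hx => ?_) hc1 hc0
  have := hx.2
  simp only [Pi.sub_apply, Finset.sum_sub_distrib] at this
  omega

end Base

/-! ### products -/

section Prod

variable {V₁ V₂ : Type*} [Fintype V₁] [DecidableEq V₁] [Fintype V₂] [DecidableEq V₂]

/-- product weight on the disjoint union -/
def pw (c₁ : (V₁ → ℤ) → ℝ) (c₂ : (V₂ → ℤ) → ℝ) : (V₁ ⊕ V₂ → ℤ) → ℝ :=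
  fun β => c₁ (fun v => β (Sum.inl v)) * c₂ (fun v => β (Sum.inr v))

theorem ev_inl_inl (u : V₁) : (fun v => ev (Sum.inl u : V₁ ⊕ V₂) (Sum.inl v)) = ev u := by
  funext v
  by_cases h : u = v
  · subst h; rw [ev_self, ev_self]
  · rw [ev_ne h, ev_ne (by simpa using h)]

theorem ev_inl_inr (u : V₁) : (fun v => ev (Sum.inl u : V₁ ⊕ V₂) (Sum.inr v)) = 0 := by
  funext v; exact ev_ne (by simp)

theorem ev_inr_inl (u : V₂) : (fun v => ev (Sum.inr u : V₁ ⊕ V₂) (Sum.inl v)) = 0 := by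
  funext v; exact ev_ne (by simp)

theorem ev_inr_inr (u : V₂) : (fun v => ev (Sum.inr u : V₁ ⊕ V₂) (Sum.inr v)) = ev u := by
  funext v
  by_cases h : u = v
  · subst h; rw [ev_self, ev_self]
  · rw [ev_ne h, ev_ne (by simpa using h)]

omit [Fintype V₁] [DecidableEq V₁] [Fintype V₂] [DecidableEq V₂] in
theorem inl_add (β γ : V₁ ⊕ V₂ → ℤ) : (fun v => (β + γ) (Sum.inl v))
    = (fun v => β (Sum.inl v)) + fun v => γ (Sum.inl v) := rfl

omit [Fintype V₁] [DecidableEq V₁] [Fintype V₂] [DecidableEq V₂] in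
theorem inr_add (β γ : V₁ ⊕ V₂ → ℤ) : (fun v => (β + γ) (Sum.inr v))
    = (fun v => β (Sum.inr v)) + fun v => γ (Sum.inr v) := rfl

/-- base AF for products -/
theorem af_pw {d₁ d₂ : ℤ} {c₁ : (V₁ → ℤ) → ℝ} {c₂ : (V₂ → ℤ) → ℝ} (h₁ : Lz d₁ c₁)
    (h₂ : Lz d₂ c₂) (β : V₁ ⊕ V₂ → ℤ) : AF (fun u v => pw c₁ c₂ (β + ev u + ev v)) := by
  set β₁ : V₁ → ℤ := fun v => β (Sum.inl v) with hβ₁
  set β₂ : V₂ → ℤ := fun v => β (Sum.inr v) with hβ₂
  have e11 : ∀ u v : V₁, pw c₁ c₂ (β + ev (Sum.inl u) + ev (Sum.inl v))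
      = c₁ (β₁ + ev u + ev v) * c₂ β₂ := by
    intro u v
    unfold pw
    rw [inl_add, inl_add, inr_add, inr_add, ev_inl_inl, ev_inl_inl, ev_inl_inr, ev_inl_inr,
      add_zero, add_zero]
  have e12 : ∀ (u : V₁) (v : V₂), pw c₁ c₂ (β + ev (Sum.inl u) + ev (Sum.inr v))
      = c₁ (β₁ + ev u) * c₂ (β₂ + ev v) := by
    intro u v
    unfold pw
    rw [inl_add, inl_add, inr_add, inr_add, ev_inl_inl, ev_inr_inl, ev_inl_inr, ev_inr_inr,
      add_zero, add_zero]
  have e21 : ∀ (u : V₂) (v : V₁), pw c₁ c₂ (β + ev (Sum.inr u) + ev (Sum.inl v))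
      = c₁ (β₁ + ev v) * c₂ (β₂ + ev u) := by
    intro u v
    rw [add_right_comm, e12]
  have e22 : ∀ u v : V₂, pw c₁ c₂ (β + ev (Sum.inr u) + ev (Sum.inr v))
      = c₁ β₁ * c₂ (β₂ + ev u + ev v) := by
    intro u v
    unfold pw
    rw [inl_add, inl_add, inr_add, inr_add, ev_inr_inl, ev_inr_inl, ev_inr_inr, ev_inr_inr,
      add_zero, add_zero]
  have hs₁ : ∀ u : V₁, ∑ v, (β₁ + ev u) v = ∑ v, β₁ v + 1 := fun u => by
    simp only [Pi.add_apply, Finset.sum_add_distrib, sum_ev]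
  have hs₂ : ∀ u : V₂, ∑ v, (β₂ + ev u) v = ∑ v, β₂ v + 1 := fun u => by
    simp only [Pi.add_apply, Finset.sum_add_distrib, sum_ev]
  -- the three slices
  by_cases hA : ∑ v, β₂ v = d₂
  · -- only the (1,1) block
    have z12 : ∀ v : V₂, c₂ (β₂ + ev v) = 0 := fun v => by
      by_contra h
      have := h₂.deg _ h
      rw [hs₂] at this; omega
    have z22 : ∀ u v : V₂, c₂ (β₂ + ev u + ev v) = 0 := fun u v => by
      by_contra h
      have := h₂.deg _ h
      simp only [Pi.add_apply, Finset.sum_add_distrib, sum_ev] at this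
      omega
    refine (h₁.af [] (by simp) β₁).pull (h₂.nonneg β₂) (fun x v => x (Sum.inl v)) ?_
    intro x y
    unfold Q
    rw [Fintype.sum_sum_type]
    simp only [Fintype.sum_sum_type, e11, e12, e21, e22, z12, z22, mul_zero,
      Finset.sum_const_zero, add_zero, mat, br_nil, Finset.mul_sum]
    exact Finset.sum_congr rfl fun u _ => Finset.sum_congr rfl fun v _ => by ring
  by_cases hB : ∑ v, β₁ v = d₁
  · have z11 : ∀ u v : V₁, c₁ (β₁ + ev u + ev v) = 0 := fun u v => by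
      by_contra h
      have := h₁.deg _ h
      simp only [Pi.add_apply, Finset.sum_add_distrib, sum_ev] at this
      omega
    have z12 : ∀ v : V₁, c₁ (β₁ + ev v) = 0 := fun v => by
      by_contra h
      have := h₁.deg _ h
      rw [hs₁] at this; omega
    refine (h₂.af [] (by simp) β₂).pull (h₁.nonneg β₁) (fun x v => x (Sum.inr v)) ?_
    intro x y
    unfold Q
    rw [Fintype.sum_sum_type]
    simp only [Fintype.sum_sum_type, e11, e12, e21, e22, z12, z11, zero_mul, mul_zero,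
      Finset.sum_const_zero, zero_add, mat, br_nil, Finset.mul_sum]
    exact Finset.sum_congr rfl fun u _ => Finset.sum_congr rfl fun v _ => by ring
  · -- rank one bipartite
    have z11 : ∀ u v : V₁, pw c₁ c₂ (β + ev (Sum.inl u) + ev (Sum.inl v)) = 0 := fun u v => by
      rw [e11]
      have : c₂ β₂ = 0 := by by_contra h; exact hA (h₂.deg _ h)
      rw [this, mul_zero]
    have z22 : ∀ u v : V₂, pw c₁ c₂ (β + ev (Sum.inr u) + ev (Sum.inr v)) = 0 := fun u v => by
      rw [e22]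
      have : c₁ β₁ = 0 := by by_contra h; exact hB (h₁.deg _ h)
      rw [this, zero_mul]
    intro x y _
    set a : (V₁ ⊕ V₂ → ℝ) → ℝ := fun x => ∑ u, x (Sum.inl u) * c₁ (β₁ + ev u) with ha
    set b : (V₁ ⊕ V₂ → ℝ) → ℝ := fun x => ∑ u, x (Sum.inr u) * c₂ (β₂ + ev u) with hb
    have hQ : ∀ x y, Q (fun u v => pw c₁ c₂ (β + ev u + ev v)) x y
        = a x * b y + a y * b x := by
      intro x y
      unfold Q
      rw [Fintype.sum_sum_type]
      simp only [Fintype.sum_sum_type, z11, z22, e12, e21, mul_zero, Finset.sum_const_zero,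
        zero_add, add_zero, ha, hb, Finset.sum_mul_sum]
      rw [Finset.sum_comm (s := (univ : Finset V₂))]
      congr 1
      · exact Finset.sum_congr rfl fun u _ => Finset.sum_congr rfl fun v _ => by ring
      · exact Finset.sum_congr rfl fun u _ => Finset.sum_congr rfl fun v _ => by ring
    rw [hQ, hQ, hQ]
    nlinarith [sq_nonneg (a x * b y - a y * b x)]

theorem mcx_prod_hyper (d₁ d₂ : ℤ) : MCx {γ : V₁ ⊕ V₂ → ℤ |
    ∑ v, γ (Sum.inl v) = d₁ ∧ ∑ v, γ (Sum.inr v) = d₂} where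
  deg x hx y hy := by
    rw [Fintype.sum_sum_type, Fintype.sum_sum_type, hx.1, hx.2, hy.1, hy.2]
  exch x hx y hy u hu := by
    have hs1 : ∀ (u : V₁), ∑ v, ev (Sum.inl u : V₁ ⊕ V₂) (Sum.inl v) = 1 := fun u => by
      rw [ev_inl_inl u]; exact sum_ev u
    have hs2 : ∀ (u : V₁), ∑ v, ev (Sum.inl u : V₁ ⊕ V₂) (Sum.inr v) = 0 := fun u =>
      Finset.sum_eq_zero fun v _ => ev_ne (by simp)
    have hs3 : ∀ (u : V₂), ∑ v, ev (Sum.inr u : V₁ ⊕ V₂) (Sum.inl v) = 0 := fun u =>
      Finset.sum_eq_zero fun v _ => ev_ne (by simp)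
    have hs4 : ∀ (u : V₂), ∑ v, ev (Sum.inr u : V₁ ⊕ V₂) (Sum.inr v) = 1 := fun u => by
      rw [ev_inr_inr u]; exact sum_ev u
    obtain ⟨hx1, hx2⟩ := hx
    obtain ⟨hy1, hy2⟩ := hy
    cases u with
    | inl u =>
      obtain ⟨v, hv, _, _⟩ := (mcx_hyper d₁).exch (fun v => x (Sum.inl v)) hx1
        (fun v => y (Sum.inl v)) hy1 u hu
      refine ⟨Sum.inl v, hv, ⟨?_, ?_⟩, ⟨?_, ?_⟩⟩ <;>
        simp only [Pi.add_apply, Pi.sub_apply, Finset.sum_add_distrib, Finset.sum_sub_distrib,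
          hs1, hs2, hx1, hx2, hy1, hy2] <;> omega
    | inr u =>
      obtain ⟨v, hv, _, _⟩ := (mcx_hyper d₂).exch (fun v => x (Sum.inr v)) hx2
        (fun v => y (Sum.inr v)) hy2 u hu
      refine ⟨Sum.inr v, hv, ⟨?_, ?_⟩, ⟨?_, ?_⟩⟩ <;>
        simp only [Pi.add_apply, Pi.sub_apply, Finset.sum_add_distrib, Finset.sum_sub_distrib,
          hs3, hs4, hx1, hx2, hy1, hy2] <;> omega

/-- **products of Lorentzian weights are Lorentzian** -/
theorem Lz.prod {d₁ d₂ : ℤ} {c₁ : (V₁ → ℤ) → ℝ} {c₂ : (V₂ → ℤ) → ℝ} (h₁ : Lz d₁ c₁)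
    (h₂ : Lz d₂ c₂) {C₁ C₂ : ℝ} (hC₁ : ∀ β, c₁ β ≤ C₁) (hC₂ : ∀ β, c₂ β ≤ C₂) :
    Lz (d₁ + d₂) (pw c₁ c₂) := by
  have hfull : ∀ c₁ c₂, Lz (V := V₁) d₁ c₁ → Lz (V := V₂) d₂ c₂ →
      (∀ β, ∑ v, β v = d₁ → 0 < c₁ β) → (∀ β, ∑ v, β v = d₂ → 0 < c₂ β) →
      Lz (d₁ + d₂) (pw c₁ c₂) := by
    intro c₁ c₂ h₁ h₂ hp₁ hp₂
    refine Lz.of_base (fun β => mul_nonneg (h₁.nonneg _) (h₂.nonneg _)) ?_ ?_ (af_pw h₁ h₂)
    · intro β h
      rw [Fintype.sum_sum_type, h₁.deg _ (left_ne_zero_of_mul h), h₂.deg _ (right_ne_zero_of_mul h)]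
    · have : {γ | 0 < pw c₁ c₂ γ} = {γ : V₁ ⊕ V₂ → ℤ |
          ∑ v, γ (Sum.inl v) = d₁ ∧ ∑ v, γ (Sum.inr v) = d₂} := by
        ext γ
        simp only [Set.mem_ofPred_eq]
        constructor
        · intro h
          have hne : pw c₁ c₂ γ ≠ 0 := h.ne'
          exact ⟨h₁.deg _ (left_ne_zero_of_mul hne), h₂.deg _ (right_ne_zero_of_mul hne)⟩
        · rintro ⟨h, h'⟩
          exact mul_pos (hp₁ _ h) (hp₂ _ h')
      rw [this]; exact mcx_prod_hyper d₁ d₂
  by_cases hz₁ : ∃ ξ, 0 < c₁ ξ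
  · by_cases hz₂ : ∃ ξ, 0 < c₂ ξ
    · obtain ⟨ξ₁, hξ₁⟩ := hz₁
      obtain ⟨ξ₂, hξ₂⟩ := hz₂
      choose a a1 a2 a3 a4 using fun k : ℕ => h₁.perturb hC₁ hξ₁ (ε := 1 / ((k : ℝ) + 1))
        (by positivity)
      choose b b1 b2 b3 b4 using fun k : ℕ => h₂.perturb hC₂ hξ₂ (ε := 1 / ((k : ℝ) + 1))
        (by positivity)
      have hlim₁ : ∀ β, Filter.Tendsto (fun k => a k β) Filter.atTop (nhds (c₁ β)) := by
        intro β
        have h5 : Filter.Tendsto (fun k : ℕ => c₁ β + 1 / ((k : ℝ) + 1)) Filter.atTop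
            (nhds (c₁ β + 0)) := tendsto_const_nhds.add tendsto_one_div_add_atTop_nhds_zero_nat
        rw [add_zero] at h5
        exact tendsto_of_tendsto_of_tendsto_of_le_of_le tendsto_const_nhds h5
          (fun k => a3 k β) (fun k => a4 k β)
      have hlim₂ : ∀ β, Filter.Tendsto (fun k => b k β) Filter.atTop (nhds (c₂ β)) := by
        intro β
        have h5 : Filter.Tendsto (fun k : ℕ => c₂ β + 1 / ((k : ℝ) + 1)) Filter.atTop
            (nhds (c₂ β + 0)) := tendsto_const_nhds.add tendsto_one_div_add_atTop_nhds_zero_nat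
        rw [add_zero] at h5
        exact tendsto_of_tendsto_of_tendsto_of_le_of_le tendsto_const_nhds h5
          (fun k => b3 k β) (fun k => b4 k β)
      exact Lz.lim (F := Filter.atTop) (c' := fun k => pw (a k) (b k))
        (fun β => (hlim₁ _).mul (hlim₂ _)) (fun k => hfull _ _ (a1 k) (b1 k) (a2 k) (b2 k))
    · have hz : pw c₁ c₂ = fun _ => 0 := by
        funext β
        have : c₂ (fun v => β (Sum.inr v)) = 0 := by
          by_contra hne
          exact hz₂ ⟨_, lt_of_le_of_ne (h₂.nonneg _) (Ne.symm hne)⟩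
        unfold pw; rw [this, mul_zero]
      rw [hz]; exact Lz.zero _
  · have hz : pw c₁ c₂ = fun _ => 0 := by
      funext β
      have : c₁ (fun v => β (Sum.inl v)) = 0 := by
        by_contra hne
        exact hz₁ ⟨_, lt_of_le_of_ne (h₁.nonneg _) (Ne.symm hne)⟩
      unfold pw; rw [this, zero_mul]
    rw [hz]; exact Lz.zero _

end Prod

end Crest.Agent.R302.Lor
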