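import Mathlib
import Crest.Agent.R302.Gau970A
import Crest.Agent.R302.MConv151

/-!
R302 (helper970), block GAUGE, part B.

* `Lz.multi` : finite families of cells in one formula: if `c` is Lorentzian (`Lz`) and bounded,
  then `β ↦ ∑_{S ∈ ∏ [0, κ i]} (∏ q i (S i)) c (β + ∑ S i • (e_{X i} - e_{Y i}))` is Lorentzian.
* `cnt` : the number (weight) of states with `h` link pairs, `cnt_lc` its log-concavity,
  `growth` : `cnt h ≤ K ^ h * A 0`, and the link mass bounds.
-/

set_option autoImplicit false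
set_option linter.unusedSectionVars false

namespace Crest.Agent.R302.Gau

open Finset Crest.Agent.R302.Lor

section Multi

variable {V : Type*} [Fintype V] [DecidableEq V]

/-- action of a finitely supported weight on functions -/
noncomputable def act (c : (V → ℤ) → ℝ) (β : V → ℤ) (P : AddMonoidAlgebra ℝ (V → ℤ)) : ℝ :=
  P.coeff.sum fun δ a => a * c (β + δ)

omit [Fintype V] [DecidableEq V] in
theorem act_add (c : (V → ℤ) → ℝ) (β : V → ℤ) (P Q : AddMonoidAlgebra ℝ (V → ℤ)) :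
    act c β (P + Q) = act c β P + act c β Q := by
  classical
  unfold act
  rw [AddMonoidAlgebra.coeff_add]
  exact Finsupp.sum_add_index' (by simp) (by intros; ring)

omit [Fintype V] [DecidableEq V] in
theorem act_zero (c : (V → ℤ) → ℝ) (β : V → ℤ) : act c β 0 = 0 := by
  simp [act]

omit [Fintype V] [DecidableEq V] in
theorem act_single (c : (V → ℤ) → ℝ) (β δ : V → ℤ) (a : ℝ) :
    act c β (AddMonoidAlgebra.single δ a) = a * c (β + δ) := by
  unfold act
  rw [AddMonoidAlgebra.coeff_single]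
  exact Finsupp.sum_single_index (by simp)

omit [Fintype V] [DecidableEq V] in
theorem act_sum {ι : Type*} (c : (V → ℤ) → ℝ) (β : V → ℤ) (s : Finset ι)
    (P : ι → AddMonoidAlgebra ℝ (V → ℤ)) :
    act c β (∑ i ∈ s, P i) = ∑ i ∈ s, act c β (P i) := by
  classical
  induction s using Finset.induction_on with
  | empty => simp [act_zero]
  | insert i s hi ih => rw [Finset.sum_insert hi, Finset.sum_insert hi, act_add, ih]

omit [Fintype V] [DecidableEq V] in
theorem act_single_mul (c : (V → ℤ) → ℝ) (β δ : V → ℤ) (a : ℝ)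
    (P : AddMonoidAlgebra ℝ (V → ℤ)) :
    act c β (AddMonoidAlgebra.single δ a * P) = a * act c (β + δ) P := by
  induction P using AddMonoidAlgebra.induction_linear with
  | zero => simp [act_zero]
  | add P Q hP hQ => rw [mul_add, act_add, act_add, hP, hQ]; ring
  | single ξ b =>
    rw [AddMonoidAlgebra.single_mul_single, act_single, act_single, add_assoc]; ring

/-- one cell, normalised -/
theorem cell1 {d : ℤ} {c : (V → ℤ) → ℝ} (h : Lz d c) {C : ℝ} (hC : ∀ β, c β ≤ C)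
    {q : ℕ → ℝ} {κ : ℕ} (X Y : V) (hq : ∀ j ≤ κ, 0 < q j)
    (hlc : ∀ j, j + 2 ≤ κ → q j * q (j + 2) ≤ q (j + 1) ^ 2) :
    Lz d (fun β => ∑ s ∈ range (κ + 1), q s * c (β + (s : ℤ) • (ev X - ev Y))) := by
  have h1 := (h.cell hC X Y hq hlc).shift (-(κ : ℤ) • ev Y)
  have e1 : d - (κ : ℤ) - ∑ v, ((-(κ : ℤ)) • ev Y) v = d := by
    rw [sum_smul_ev]; ring
  rw [e1] at h1
  have e2 : (fun γ => Lor.cell q κ X Y c (γ + (-(κ : ℤ)) • ev Y)) =
      fun β => ∑ s ∈ range (κ + 1), q s * c (β + (s : ℤ) • (ev X - ev Y)) := by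
    funext β
    unfold Lor.cell
    refine Finset.sum_congr rfl fun j _ => ?_
    congr 2
    rw [smul_sub, sub_smul, neg_smul]
    abel
  rw [e2] at h1
  exact h1

/-- **families of cells** -/
theorem multi {d : ℤ} {c : (V → ℤ) → ℝ} (h : Lz d c) {C : ℝ} (hC : ∀ β, c β ≤ C)
    {ι : Type*} [Fintype ι] [DecidableEq ι] (X Y : ι → V) (q : ι → ℕ → ℝ) (κ : ι → ℕ)
    (hq : ∀ i, ∀ j ≤ κ i, 0 < q i j)
    (hlc : ∀ i j, j + 2 ≤ κ i → q i j * q i (j + 2) ≤ q i (j + 1) ^ 2) :
    Lz d (fun β => ∑ S ∈ Fintype.piFinset (fun i => range (κ i + 1)),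
      (∏ i, q i (S i)) * c (β + ∑ i, (S i : ℤ) • (ev (X i) - ev (Y i)))) ∧
    ∃ C', ∀ β, ∑ S ∈ Fintype.piFinset (fun i => range (κ i + 1)),
      (∏ i, q i (S i)) * c (β + ∑ i, (S i : ℤ) • (ev (X i) - ev (Y i))) ≤ C' := by
  classical
  set P : ι → AddMonoidAlgebra ℝ (V → ℤ) := fun i => ∑ s ∈ range (κ i + 1),
    AddMonoidAlgebra.single ((s : ℤ) • (ev (X i) - ev (Y i))) (q i s) with hP
  have key : ∀ t : Finset ι, Lz d (fun β => act c β (∏ i ∈ t, P i)) ∧
      ∃ C', ∀ β, act c β (∏ i ∈ t, P i) ≤ C' := by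
    intro t
    induction t using Finset.induction_on with
    | empty =>
      have e : ∀ β, act c β (∏ i ∈ (∅ : Finset ι), P i) = c β := by
        intro β
        rw [Finset.prod_empty, AddMonoidAlgebra.one_def, act_single, one_mul, add_zero]
      simp only [e]
      exact ⟨h, C, hC⟩
    | insert i t hi ih =>
      obtain ⟨ih1, C', ih2⟩ := ih
      have e : ∀ β, act c β (∏ i ∈ insert i t, P i) = ∑ s ∈ range (κ i + 1), q i s *
          (fun β => act c β (∏ i ∈ t, P i)) (β + (s : ℤ) • (ev (X i) - ev (Y i))) := by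
        intro β
        rw [Finset.prod_insert hi]
        simp only [hP]
        rw [Finset.sum_mul, act_sum]
        exact Finset.sum_congr rfl fun s _ => act_single_mul _ _ _ _ _
      simp only [e]
      refine ⟨cell1 ih1 ih2 (X i) (Y i) (hq i) (hlc i), ∑ s ∈ range (κ i + 1), q i s * C', ?_⟩
      intro β
      exact Finset.sum_le_sum fun s hs =>
        mul_le_mul_of_nonneg_left (ih2 _) (hq i s (by simpa [Nat.lt_succ_iff] using hs)).le
  have e : ∀ β, act c β (∏ i, P i) = ∑ S ∈ Fintype.piFinset (fun i => range (κ i + 1)),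
      (∏ i, q i (S i)) * c (β + ∑ i, (S i : ℤ) • (ev (X i) - ev (Y i))) := by
    intro β
    simp only [hP]
    rw [Finset.prod_univ_sum, act_sum]
    refine Finset.sum_congr rfl fun S _ => ?_
    rw [AddMonoidAlgebra.prod_single, act_single]
  have := key univ
  simp only [e] at this
  exact this

end Multi

/-! ### log-concave sequences -/

theorem lc_pos {c : ℕ → ℝ} (hpos : ∀ h, 0 < c h) (hlc : ∀ h, c h * c (h + 2) ≤ c (h + 1) ^ 2) :
    ∀ h, c h * c 0 ^ h ≤ c 0 * c 1 ^ h := by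
  -- ratios are nonincreasing
  have h1 : ∀ h, c (h + 1) * c 0 ≤ c h * c 1 := by
    intro h
    induction h with
    | zero => rw [mul_comm]
    | succ h ih =>
      have h2 := hlc h
      have p0 := hpos h
      have p1 := hpos (h + 1)
      -- c (h+2) c 0 ≤ c (h+1) c 1
      have h3 : c h * (c (h + 2) * c 0) ≤ c h * (c (h + 1) * c 1) := by
        calc c h * (c (h + 2) * c 0) = (c h * c (h + 2)) * c 0 := by ring
          _ ≤ c (h + 1) ^ 2 * c 0 := mul_le_mul_of_nonneg_right h2 (hpos 0).le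
          _ = c (h + 1) * (c (h + 1) * c 0) := by ring
          _ ≤ c (h + 1) * (c h * c 1) := mul_le_mul_of_nonneg_left ih p1.le
          _ = _ := by ring
      exact le_of_mul_le_mul_left h3 p0
  intro h
  induction h with
  | zero => simp
  | succ h ih =>
    calc c (h + 1) * c 0 ^ (h + 1) = (c (h + 1) * c 0) * c 0 ^ h := by ring
      _ ≤ (c h * c 1) * c 0 ^ h :=
          mul_le_mul_of_nonneg_right (h1 h) (pow_nonneg (hpos 0).le _)
      _ = (c h * c 0 ^ h) * c 1 := by ring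
      _ ≤ (c 0 * c 1 ^ h) * c 1 := mul_le_mul_of_nonneg_right ih (hpos 1).le
      _ = _ := by ring

/-! ### hubs -/

section Hub

variable {V : Type*} [Fintype V] [DecidableEq V]

/-- the indicator of `0` on the two hubs -/
noncomputable def d0 : (Bool → ℤ) → ℝ := fun α => if α = 0 then 1 else 0

theorem Lz_d0 : Lz 0 d0 := by
  refine Lz.indicator (S := {0}) ⟨?_, ?_⟩ ?_ ?_ ?_
  · intro x hx y hy
    rw [Set.mem_singleton_iff] at hx hy
    rw [hx, hy]
  · intro x hx y hy u hu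
    rw [Set.mem_singleton_iff] at hx hy
    rw [hx, hy] at hu
    exact absurd hu (lt_irrefl _)
  · intro x hx
    rw [Set.mem_singleton_iff] at hx
    rw [hx]; simp
  · intro γ hγ
    rw [Set.mem_singleton_iff] at hγ
    simp [d0, hγ]
  · intro γ hγ
    rw [Set.mem_singleton_iff] at hγ
    simp [d0, hγ]

variable {ι : Type*} [Fintype ι] [DecidableEq ι]

/-- the base point of the hubs -/
def pt (p q : ℤ) : V ⊕ Bool → ℤ := Sum.elim (fun _ => 0) (fun b => if b then -q else p)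

/-- the hub sums -/
noncomputable def hub (A : (V → ℤ) → ℝ) (g : ι → V) (w : ι → ℝ) (κ : ℕ) (β : V ⊕ Bool → ℤ) : ℝ :=
  ∑ T ∈ Fintype.piFinset (fun _ : ι => range (κ + 1)), (∏ i, (w i)⁻¹ ^ T i) *
    ∑ S ∈ Fintype.piFinset (fun _ : ι => range (κ + 1)), (∏ i, w i ^ S i) *
      pw A d0 (β + ∑ i, (T i : ℤ) • (ev (Sum.inr true) - ev (Sum.inl (g i)))
        + ∑ i, (S i : ℤ) • (ev (Sum.inl (g i)) - ev (Sum.inr false)))

theorem pow_lc {x : ℝ} (j : ℕ) : x ^ j * x ^ (j + 2) ≤ (x ^ (j + 1)) ^ 2 := by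
  apply le_of_eq; ring

theorem Lz_hub {A : (V → ℤ) → ℝ} {d : ℤ} (hA : Lz d A) {C : ℝ} (hC : ∀ β, A β ≤ C) (g : ι → V)
    {w : ι → ℝ} (hw : ∀ i, 0 < w i) (κ : ℕ) :
    Lz d (hub A g w κ) ∧ ∃ C', ∀ β, hub A g w κ β ≤ C' := by
  have hd : ∀ α : Bool → ℤ, d0 α ≤ 1 := by
    intro α; unfold d0; split <;> norm_num
  have h0 : Lz d (pw A d0) := by
    have := Lz.prod hA Lz_d0 hC hd
    rwa [add_zero] at this
  have hb0 : ∀ β, pw A d0 β ≤ |C| := by
    intro β
    unfold pw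
    have h1 := hA.nonneg fun v => β (Sum.inl v)
    have h2 := hd fun v => β (Sum.inr v)
    have h3 : 0 ≤ d0 fun v => β (Sum.inr v) := Lz_d0.nonneg _
    have h4 := hC fun v => β (Sum.inl v)
    have h5 := le_abs_self C
    nlinarith
  obtain ⟨h1, C1, h1'⟩ := multi h0 hb0 (fun i => Sum.inl (g i)) (fun _ : ι => Sum.inr false)
    (fun i s => w i ^ s) (fun _ => κ) (fun i j _ => pow_pos (hw i) j) (fun i j _ => pow_lc j)
  exact multi h1 h1' (fun _ => Sum.inr true) (fun i : ι => Sum.inl (g i))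
    (fun i s => (w i)⁻¹ ^ s) (fun _ => κ) (fun i j _ => pow_pos (inv_pos.2 (hw i)) j)
    (fun i j _ => pow_lc j)

theorem pw_pt (A : (V → ℤ) → ℝ) (g : ι → V) (p q : ℤ) (S T : ι → ℕ) :
    pw A d0 (pt p q + ∑ i, (T i : ℤ) • (ev (Sum.inr true) - ev (Sum.inl (g i)))
        + ∑ i, (S i : ℤ) • (ev (Sum.inl (g i)) - ev (Sum.inr false))) =
      if (∑ i, (S i : ℤ)) = p ∧ (∑ i, (T i : ℤ)) = q then A (∑ i, ((S i : ℤ) - T i) • ev (g i))
      else 0 := by
  have e1 : (fun v => (pt p q + ∑ i, (T i : ℤ) • (ev (Sum.inr true) - ev (Sum.inl (g i)))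
        + ∑ i, (S i : ℤ) • (ev (Sum.inl (g i)) - ev (Sum.inr false)) : V ⊕ Bool → ℤ) (Sum.inl v))
      = ∑ i, ((S i : ℤ) - T i) • ev (g i) := by
    funext v
    simp only [pt, Pi.add_apply, Sum.elim_inl, Finset.sum_apply, Pi.smul_apply, Pi.sub_apply,
      smul_eq_mul, zero_add]
    rw [← Finset.sum_add_distrib]
    refine Finset.sum_congr rfl fun i _ => ?_
    have a1 : ev (Sum.inr true : V ⊕ Bool) (Sum.inl v) = 0 := ev_ne (by simp)
    have a2 : ev (Sum.inr false : V ⊕ Bool) (Sum.inl v) = 0 := ev_ne (by simp)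
    have a3 : ev (Sum.inl (g i) : V ⊕ Bool) (Sum.inl v) = ev (g i) v :=
      congrFun (ev_inl_inl (V₂ := Bool) (g i)) v
    rw [a1, a2, a3]; ring
  have e2 : (pt p q + ∑ i, (T i : ℤ) • (ev (Sum.inr true) - ev (Sum.inl (g i)))
        + ∑ i, (S i : ℤ) • (ev (Sum.inl (g i)) - ev (Sum.inr false)) : V ⊕ Bool → ℤ)
        (Sum.inr false) = p - ∑ i, (S i : ℤ) := by
    simp only [pt, Pi.add_apply, Sum.elim_inr, Finset.sum_apply, Pi.smul_apply, Pi.sub_apply,
      smul_eq_mul]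
    have a1 : ev (Sum.inr true : V ⊕ Bool) (Sum.inr false) = 0 := ev_ne (by simp)
    have a2 : ev (Sum.inr false : V ⊕ Bool) (Sum.inr false) = 1 := ev_self _
    have a3 : ∀ i, ev (Sum.inl (g i) : V ⊕ Bool) (Sum.inr false) = 0 := fun i => ev_ne (by simp)
    simp only [a1, a2, a3]
    simp only [sub_zero, mul_zero, Finset.sum_const_zero, zero_sub, mul_neg, mul_one,
      Finset.sum_neg_distrib]
    simp [sub_eq_add_neg]
  have e3 : (pt p q + ∑ i, (T i : ℤ) • (ev (Sum.inr true) - ev (Sum.inl (g i)))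
        + ∑ i, (S i : ℤ) • (ev (Sum.inl (g i)) - ev (Sum.inr false)) : V ⊕ Bool → ℤ)
        (Sum.inr true) = (∑ i, (T i : ℤ)) - q := by
    simp only [pt, Pi.add_apply, Sum.elim_inr, Finset.sum_apply, Pi.smul_apply, Pi.sub_apply,
      smul_eq_mul]
    have a1 : ev (Sum.inr true : V ⊕ Bool) (Sum.inr true) = 1 := ev_self _
    have a2 : ev (Sum.inr false : V ⊕ Bool) (Sum.inr true) = 0 := ev_ne (by simp)
    have a3 : ∀ i, ev (Sum.inl (g i) : V ⊕ Bool) (Sum.inr true) = 0 := fun i => ev_ne (by simp)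
    simp only [a1, a2, a3]
    simp only [sub_zero, mul_zero, Finset.sum_const_zero, mul_one]
    simp [sub_eq_add_neg, add_comm]
  unfold pw
  rw [e1]
  unfold d0
  by_cases hS : (∑ i, (S i : ℤ)) = p
  · by_cases hT : (∑ i, (T i : ℤ)) = q
    · rw [if_pos, if_pos ⟨hS, hT⟩, mul_one]
      funext b
      cases b
      · rw [e2, hS, sub_self]; rfl
      · rw [e3, hT, sub_self]; rfl
    · rw [if_neg, if_neg (fun h => hT h.2), mul_zero]
      intro h
      have := congrFun h true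
      rw [e3] at this
      exact hT (by simpa [sub_eq_zero] using this)
  · rw [if_neg, if_neg (fun h => hS h.1), mul_zero]
    intro h
    have h1 : p - ∑ i, (S i : ℤ) = 0 := e2.symm.trans (congrFun h false)
    exact hS (by linarith)

/-- `cw h` : weight of the states with `h` up-links and `h` down-links (windows `κ`) -/
noncomputable def cnt (A : (V → ℤ) → ℝ) (g : ι → V) (w : ι → ℝ) (κ h : ℕ) : ℝ :=
  hub A g w κ (pt h h)

theorem cnt_eq (A : (V → ℤ) → ℝ) (g : ι → V) (w : ι → ℝ) (κ h : ℕ) :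
    cnt A g w κ h = ∑ T ∈ Fintype.piFinset (fun _ : ι => range (κ + 1)),
      ∑ S ∈ Fintype.piFinset (fun _ : ι => range (κ + 1)),
        if (∑ i, S i) = h ∧ (∑ i, T i) = h then
          (∏ i, (w i)⁻¹ ^ T i) * (∏ i, w i ^ S i) * A (∑ i, ((S i : ℤ) - T i) • ev (g i))
        else 0 := by
  unfold cnt hub
  refine Finset.sum_congr rfl fun T _ => ?_
  rw [Finset.mul_sum]
  refine Finset.sum_congr rfl fun S _ => ?_
  rw [pw_pt]
  by_cases hh : (∑ i, S i) = h ∧ (∑ i, T i) = h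
  · rw [if_pos hh, if_pos ⟨by exact_mod_cast hh.1, by exact_mod_cast hh.2⟩]; ring
  · rw [if_neg hh, if_neg, mul_zero, mul_zero]
    intro h2
    exact hh ⟨by exact_mod_cast h2.1, by exact_mod_cast h2.2⟩

theorem cnt_zero (A : (V → ℤ) → ℝ) (g : ι → V) (w : ι → ℝ) (κ : ℕ) : cnt A g w κ 0 = A 0 := by
  rw [cnt_eq]
  rw [Finset.sum_eq_single (0 : ι → ℕ), Finset.sum_eq_single (0 : ι → ℕ)]
  · simp
  · intro S _ hS
    rw [if_neg]
    rintro ⟨h1, _⟩
    exact hS (funext fun i => (Finset.sum_eq_zero_iff.1 h1) i (mem_univ i))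
  · intro h; exfalso; apply h; simp
  · intro T _ hT
    refine Finset.sum_eq_zero fun S _ => ?_
    rw [if_neg]
    rintro ⟨_, h1⟩
    exact hT (funext fun i => (Finset.sum_eq_zero_iff.1 h1) i (mem_univ i))
  · intro h; exfalso; apply h; simp

/-- functions with sum `1` are unit vectors -/
theorem sum_one {S : ι → ℕ} (h : ∑ i, S i = 1) : ∃ i, S = Pi.single i 1 := by
  obtain ⟨i, hi⟩ : ∃ i, S i ≠ 0 := by
    by_contra hcon
    push Not at hcon
    simp [hcon] at h
  refine ⟨i, funext fun j => ?_⟩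
  have h1 : S i + ∑ k ∈ univ.erase i, S k = 1 := by rw [Finset.add_sum_erase _ _ (mem_univ i), h]
  by_cases hj : j = i
  · subst hj; rw [Pi.single_eq_same]; omega
  · rw [Pi.single_eq_of_ne hj]
    have h2 : ∑ k ∈ univ.erase i, S k = 0 := by omega
    exact (Finset.sum_eq_zero_iff.1 h2) j (mem_erase.2 ⟨hj, mem_univ j⟩)

theorem sum_filter_one (κ : ℕ) (hκ : 1 ≤ κ) (f : (ι → ℕ) → ℝ) :
    (∑ S ∈ Fintype.piFinset (fun _ : ι => range (κ + 1)), if (∑ i, S i) = 1 then f S else 0) =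
      ∑ i, f (Pi.single i 1) := by
  rw [← Finset.sum_filter]
  symm
  refine Finset.sum_bij (fun i _ => Pi.single i 1) ?_ ?_ ?_ ?_
  · intro i _
    rw [mem_filter, Fintype.mem_piFinset]
    refine ⟨fun j => ?_, by simp⟩
    rw [mem_range]
    by_cases hj : j = i
    · subst hj; rw [Pi.single_eq_same]; omega
    · rw [Pi.single_eq_of_ne hj]; omega
  · intro i _ j _ hij
    by_contra hne
    have := congrFun hij i
    rw [Pi.single_eq_same, Pi.single_eq_of_ne hne] at this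
    exact one_ne_zero this
  · intro S hS
    rw [mem_filter] at hS
    obtain ⟨i, hi⟩ := sum_one hS.2
    exact ⟨i, mem_univ _, hi.symm⟩
  · intro i _; rfl

theorem prod_pow_single (x : ι → ℝ) (i : ι) : ∏ j, x j ^ (Pi.single i 1 : ι → ℕ) j = x i := by
  rw [Finset.prod_eq_single i]
  · simp
  · intro j _ hj; simp [Pi.single_eq_of_ne hj]
  · simp

theorem cnt_one (A : (V → ℤ) → ℝ) (g : ι → V) (w : ι → ℝ) (κ : ℕ) (hκ : 1 ≤ κ) :
    cnt A g w κ 1 = ∑ i, ∑ j, w i / w j * A (ev (g i) - ev (g j)) := by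
  rw [cnt_eq]
  have e1 : ∀ T : ι → ℕ, (∑ S ∈ Fintype.piFinset (fun _ : ι => range (κ + 1)),
        if (∑ i, S i) = 1 ∧ (∑ i, T i) = 1 then
          (∏ i, (w i)⁻¹ ^ T i) * (∏ i, w i ^ S i) * A (∑ i, ((S i : ℤ) - T i) • ev (g i))
        else 0) = if (∑ i, T i) = 1 then ∑ i, (∏ i, (w i)⁻¹ ^ T i) * w i *
          A (∑ k, (((Pi.single i 1 : ι → ℕ) k : ℤ) - T k) • ev (g k)) else 0 := by
    intro T
    by_cases hT : (∑ i, T i) = 1
    · rw [if_pos hT]
      simp only [hT, and_true]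
      rw [sum_filter_one κ hκ]
      refine Finset.sum_congr rfl fun i _ => ?_
      rw [prod_pow_single]
    · rw [if_neg hT]
      exact Finset.sum_eq_zero fun S _ => by rw [if_neg (fun h => hT h.2)]
  simp only [e1]
  rw [sum_filter_one κ hκ, Finset.sum_comm]
  refine Finset.sum_congr rfl fun i _ => Finset.sum_congr rfl fun j _ => ?_
  rw [prod_pow_single]
  have e2 : ∑ k, (((Pi.single i 1 : ι → ℕ) k : ℤ) - ((Pi.single j 1 : ι → ℕ) k : ℤ)) • ev (g k)
      = ev (g i) - ev (g j) := by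
    simp only [sub_smul, Finset.sum_sub_distrib]
    congr 1
    · rw [Finset.sum_eq_single i]
      · simp
      · intro k _ hk; simp [Pi.single_eq_of_ne hk]
      · simp
    · rw [Finset.sum_eq_single j]
      · simp
      · intro k _ hk; simp [Pi.single_eq_of_ne hk]
      · simp
  rw [e2]; ring

theorem sum_pt (p q : ℤ) : ∑ v, (pt p q : V ⊕ Bool → ℤ) v = p - q := by
  rw [Fintype.sum_sum_type]
  simp [pt]
  ring

theorem pt_add (p q : ℤ) : (pt p q : V ⊕ Bool → ℤ) + ev (Sum.inr false) = pt (p + 1) q := by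
  funext v
  rcases v with v | b
  · have : ev (Sum.inr false : V ⊕ Bool) (Sum.inl v) = 0 := ev_ne (by simp)
    simp [pt, this]
  · cases b
    · have : ev (Sum.inr false : V ⊕ Bool) (Sum.inr false) = 1 := ev_self _
      simp [pt, this]
    · have : ev (Sum.inr false : V ⊕ Bool) (Sum.inr true) = 0 := ev_ne (by simp)
      simp [pt, this]

theorem pt_add' (p q : ℤ) : (pt p q : V ⊕ Bool → ℤ) + ev (Sum.inr true) = pt p (q - 1) := by
  funext v
  rcases v with v | b
  · have : ev (Sum.inr true : V ⊕ Bool) (Sum.inl v) = 0 := ev_ne (by simp)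
    simp [pt, this]
  · cases b
    · have : ev (Sum.inr true : V ⊕ Bool) (Sum.inr false) = 0 := ev_ne (by simp)
      simp [pt, this]
    · have : ev (Sum.inr true : V ⊕ Bool) (Sum.inr true) = 1 := ev_self _
      simp [pt, this]
      ring

/-- log-concavity along the hubs for any Lorentzian function on `V ⊕ Bool` -/
theorem hub_lc {c : (V ⊕ Bool → ℤ) → ℝ} {d : ℤ} (h : Lz d c) (k : ℕ) :
    c (pt k k) * c (pt (k + 2 : ℕ) (k + 2 : ℕ)) ≤ c (pt (k + 1 : ℕ) (k + 1 : ℕ)) ^ 2 := by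
  have hl : LorN c := fun β => h.af [] (by simp) β
  have h1 := hl.sq_le h.nonneg (pt k (k + 2 : ℕ)) (Sum.inr true) (Sum.inr false)
  rw [pt_add', pt_add', pt_add, pt_add, pt_add] at h1
  push_cast at h1 ⊢
  rw [show (k : ℤ) + 2 - 1 - 1 = k by ring, show (k : ℤ) + 1 + 1 = k + 2 by ring,
    show (k : ℤ) + 2 - 1 = k + 1 by ring] at h1
  exact h1

/-- **growth** : `cnt h * A 0 ^ h ≤ A 0 * cnt 1 ^ h` -/
theorem growth_aux {A : (V → ℤ) → ℝ} {d : ℤ} (hA : Lz d A) {C : ℝ} (hC : ∀ β, A β ≤ C)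
    (hpos : 0 < A 0) (g : ι → V) {w : ι → ℝ} (hw : ∀ i, 0 < w i) (κ h : ℕ) :
    cnt A g w κ h * A 0 ^ h ≤ A 0 * cnt A g w κ 1 ^ h := by
  obtain ⟨hL, C', hC'⟩ := Lz_hub hA hC g hw κ
  have hd : d = 0 := by
    have := hA.deg 0 hpos.ne'
    simpa using this.symm
  subst hd
  have h0 : hub A g w κ (pt 0 0) = A 0 := by
    have := cnt_zero A g w κ
    unfold cnt at this
    simpa using this
  have key : ∀ ε : ℝ, 0 < ε → cnt A g w κ h * A 0 ^ h ≤
      (A 0 + ε) * (cnt A g w κ 1 + ε) ^ h := by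
    intro ε hε
    obtain ⟨c', h1, h2, h3, h4⟩ := hL.perturb hC' (ξ := pt 0 0) (by rw [h0]; exact hpos) hε
    have h5 := lc_pos (c := fun k : ℕ => c' (pt k k)) (fun k => h2 _ (by rw [sum_pt]; ring))
      (fun k => hub_lc h1 k) h
    have c0 : A 0 ≤ c' (pt (0 : ℕ) (0 : ℕ)) := by
      have := h3 (pt (0 : ℕ) (0 : ℕ))
      have e : hub A g w κ (pt (0 : ℕ) (0 : ℕ)) = A 0 := by simpa using h0
      rwa [e] at this
    have c0' : c' (pt (0 : ℕ) (0 : ℕ)) ≤ A 0 + ε := by
      have := h4 (pt (0 : ℕ) (0 : ℕ))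
      have e : hub A g w κ (pt (0 : ℕ) (0 : ℕ)) = A 0 := by simpa using h0
      rwa [e] at this
    have c1 : c' (pt (1 : ℕ) (1 : ℕ)) ≤ cnt A g w κ 1 + ε := h4 (pt (1 : ℕ) (1 : ℕ))
    have ch : cnt A g w κ h ≤ c' (pt (h : ℕ) (h : ℕ)) := h3 (pt (h : ℕ) (h : ℕ))
    have chp : 0 ≤ cnt A g w κ h := hL.nonneg _
    calc cnt A g w κ h * A 0 ^ h ≤ c' (pt (h : ℕ) (h : ℕ)) * c' (pt (0 : ℕ) (0 : ℕ)) ^ h := by
          apply mul_le_mul ch (pow_le_pow_left₀ hpos.le c0 h) (by positivity) (chp.trans ch)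
      _ ≤ c' (pt (0 : ℕ) (0 : ℕ)) * c' (pt (1 : ℕ) (1 : ℕ)) ^ h := h5
      _ ≤ _ := by
          apply mul_le_mul c0' (pow_le_pow_left₀ (h1.nonneg _) c1 h)
            (pow_nonneg (h1.nonneg _) _)
          linarith
  have hc : Filter.Tendsto (fun ε : ℝ => (A 0 + ε) * (cnt A g w κ 1 + ε) ^ h)
      (nhdsWithin 0 (Set.Ioi 0)) (nhds (A 0 * cnt A g w κ 1 ^ h)) := by
    have : Continuous fun ε : ℝ => (A 0 + ε) * (cnt A g w κ 1 + ε) ^ h := by fun_prop
    have h0 := this.tendsto 0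
    simp only [add_zero] at h0
    exact h0.mono_left nhdsWithin_le_nhds
  exact ge_of_tendsto hc (Filter.eventually_of_mem self_mem_nhdsWithin fun ε hε => key ε hε)

/-- **growth** : if the one-link weight is at most `K * A 0`, the weight of the states with `h`
up-links and `h` down-links is at most `K ^ h * A 0`. -/
theorem growth {A : (V → ℤ) → ℝ} {d : ℤ} (hA : Lz d A) {C : ℝ} (hC : ∀ β, A β ≤ C)
    (hpos : 0 < A 0) (g : ι → V) {w : ι → ℝ} (hw : ∀ i, 0 < w i) {K : ℝ}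
    (hK : ∑ i, ∑ j, w i / w j * A (ev (g i) - ev (g j)) ≤ K * A 0) (κ h : ℕ) (hκ : 1 ≤ κ) :
    cnt A g w κ h ≤ K ^ h * A 0 := by
  have h1 := growth_aux hA hC hpos g hw κ h
  rw [cnt_one A g w κ hκ] at h1
  have h2 : 0 ≤ ∑ i, ∑ j, w i / w j * A (ev (g i) - ev (g j)) :=
    Finset.sum_nonneg fun i _ => Finset.sum_nonneg fun j _ =>
      mul_nonneg (div_nonneg (hw i).le (hw j).le) (hA.nonneg _)
  have h3 : cnt A g w κ h * A 0 ^ h ≤ (K ^ h * A 0) * A 0 ^ h := by
    calc _ ≤ A 0 * (K * A 0) ^ h :=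
          h1.trans (mul_le_mul_of_nonneg_left (pow_le_pow_left₀ h2 hK h) hpos.le)
      _ = _ := by rw [mul_pow]; ring
  exact le_of_mul_le_mul_right h3 (pow_pos hpos h)

/-- number of up-links -/
def ups (s : ι → ℤ) : ℕ := ∑ i, (s i).toNat

/-- number of down-links -/
def downs (s : ι → ℤ) : ℕ := ∑ i, (-s i).toNat

theorem ups_sub_downs (s : ι → ℤ) : (ups s : ℤ) - downs s = ∑ i, s i := by
  unfold ups downs
  push_cast
  rw [← Finset.sum_sub_distrib]
  refine Finset.sum_congr rfl fun i _ => ?_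
  omega

theorem ups_add_downs (s : ι → ℤ) : ups s + downs s = ∑ i, (s i).natAbs := by
  unfold ups downs
  rw [← Finset.sum_add_distrib]
  refine Finset.sum_congr rfl fun i _ => ?_
  omega

theorem eq_zero_of_ups {s : ι → ℤ} (h1 : ups s = 0) (h2 : downs s = 0) : s = 0 := by
  have h3 := ups_add_downs s
  rw [h1, h2] at h3
  funext i
  have := (Finset.sum_eq_zero_iff.1 h3.symm) i (mem_univ i)
  simpa using this

theorem class_le {A : (V → ℤ) → ℝ} (hA : ∀ β, 0 ≤ A β) (g : ι → V) {w : ι → ℝ}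
    (hw : ∀ i, 0 < w i) {κ h : ℕ} (hκ : h ≤ κ) (F : Finset (ι → ℤ))
    (hF : ∀ s ∈ F, ups s = h ∧ downs s = h) :
    ∑ s ∈ F, (∏ i, w i ^ s i) * A (∑ i, s i • ev (g i)) ≤ cnt A g w κ h := by
  classical
  rw [cnt_eq, ← Finset.sum_product']
  set f : (ι → ℕ) × (ι → ℕ) → ℝ := fun p => if (∑ i, p.2 i) = h ∧ (∑ i, p.1 i) = h then
          (∏ i, (w i)⁻¹ ^ p.1 i) * (∏ i, w i ^ p.2 i) *
            A (∑ i, ((p.2 i : ℤ) - p.1 i) • ev (g i)) else 0 with hf
  set φ : (ι → ℤ) → (ι → ℕ) × (ι → ℕ) := fun s => (fun i => (-s i).toNat, fun i => (s i).toNat)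
    with hφ
  have hinj : Function.Injective φ := by
    intro s s' hs
    funext i
    have h1 := congrFun (Prod.ext_iff.1 hs).1 i
    have h2 := congrFun (Prod.ext_iff.1 hs).2 i
    simp only [hφ] at h1 h2
    omega
  have h1 : ∑ s ∈ F, (∏ i, w i ^ s i) * A (∑ i, s i • ev (g i)) = ∑ p ∈ F.image φ, f p := by
    rw [Finset.sum_image (fun a _ b _ hab => hinj hab)]
    refine Finset.sum_congr rfl fun s hs => ?_
    obtain ⟨hu, hd⟩ := hF s hs
    simp only [hf, hφ]
    rw [if_pos ⟨hu, hd⟩, ← Finset.prod_mul_distrib]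
    congr 1
    · refine Finset.prod_congr rfl fun i _ => ?_
      rw [inv_pow, ← zpow_natCast, ← zpow_natCast, ← zpow_neg, ← zpow_add₀ (hw i).ne']
      congr 1; omega
    · congr 1
      refine Finset.sum_congr rfl fun i _ => ?_
      congr 1; omega
  rw [h1]
  refine Finset.sum_le_sum_of_subset_of_nonneg ?_ ?_
  · intro p hp
    obtain ⟨s, hs, rfl⟩ := Finset.mem_image.1 hp
    obtain ⟨hu, hd⟩ := hF s hs
    rw [Finset.mem_product, Fintype.mem_piFinset, Fintype.mem_piFinset]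
    refine ⟨fun i => ?_, fun i => ?_⟩
    · rw [mem_range]
      have := Finset.single_le_sum (f := fun i => (-s i).toNat) (fun i _ => Nat.zero_le _)
        (mem_univ i)
      unfold downs at hd
      simp only [hφ]; omega
    · rw [mem_range]
      have := Finset.single_le_sum (f := fun i => (s i).toNat) (fun i _ => Nat.zero_le _)
        (mem_univ i)
      unfold ups at hu
      simp only [hφ]; omega
  · intro p _ _
    simp only [hf]
    split
    · refine mul_nonneg (mul_nonneg ?_ ?_) (hA _)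
      · exact Finset.prod_nonneg fun i _ => pow_nonneg (inv_nonneg.2 (hw i).le) _
      · exact Finset.prod_nonneg fun i _ => pow_nonneg (hw i).le _
    · exact le_rfl

/-- **link mass** : if the one-link weight is at most `K * A 0` and a link pair costs `θ ^ 2` with
`θ ^ 2 * K < 1`, then the states with at least `h₀` link pairs have weight at most
`(θ ^ 2 * K) ^ h₀ / (1 - θ ^ 2 * K) * A 0`. -/
theorem link_mass {A : (V → ℤ) → ℝ} {d : ℤ} (hA : Lz d A) {C : ℝ} (hC : ∀ β, A β ≤ C)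
    (hpos : 0 < A 0) (g : ι → V) {w : ι → ℝ} (hw : ∀ i, 0 < w i) {K : ℝ}
    (hK : ∑ i, ∑ j, w i / w j * A (ev (g i) - ev (g j)) ≤ K * A 0) {θ : ℝ} (hθ : 0 ≤ θ)
    (hq : θ ^ 2 * K < 1) (h₀ : ℕ) (F : Finset (ι → ℤ)) (hF : ∀ s ∈ F, h₀ ≤ ups s) :
    ∑ s ∈ F, θ ^ (∑ i, (s i).natAbs) * (∏ i, w i ^ s i) * A (∑ i, s i • ev (g i)) ≤
      (θ ^ 2 * K) ^ h₀ / (1 - θ ^ 2 * K) * A 0 := by
  classical
  have hd : d = 0 := by
    have := hA.deg 0 hpos.ne'
    simpa using this.symm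
  subst hd
  have hK0 : 0 ≤ K := by
    have h2 : 0 ≤ ∑ i, ∑ j, w i / w j * A (ev (g i) - ev (g j)) :=
      Finset.sum_nonneg fun i _ => Finset.sum_nonneg fun j _ =>
        mul_nonneg (div_nonneg (hw i).le (hw j).le) (hA.nonneg _)
    exact nonneg_of_mul_nonneg_left (h2.trans hK) hpos
  have hq0 : 0 ≤ θ ^ 2 * K := by positivity
  -- only the states with `∑ s = 0`
  set F' := F.filter fun s => ups s = downs s with hF'
  have h1 : ∑ s ∈ F, θ ^ (∑ i, (s i).natAbs) * (∏ i, w i ^ s i) * A (∑ i, s i • ev (g i)) =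
      ∑ s ∈ F', θ ^ (∑ i, (s i).natAbs) * (∏ i, w i ^ s i) * A (∑ i, s i • ev (g i)) := by
    symm
    refine Finset.sum_subset (Finset.filter_subset _ _) fun s hs hs' => ?_
    have h2 : ups s ≠ downs s := fun h => hs' (Finset.mem_filter.2 ⟨hs, h⟩)
    have h3 : A (∑ i, s i • ev (g i)) = 0 := by
      by_contra hne
      have h4 := hA.deg _ hne
      have h5 : ∑ v, (∑ i, s i • ev (g i)) v = ∑ i, s i := by
        simp only [Finset.sum_apply]
        rw [Finset.sum_comm]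
        exact Finset.sum_congr rfl fun i _ => sum_smul_ev (s i) (g i)
      rw [h5, ← ups_sub_downs] at h4
      apply h2; omega
    rw [h3, mul_zero]
  rw [h1]
  -- sort by the number of links
  set H := F'.sup ups with hH
  have hmaps : ∀ s ∈ F', ups s ∈ Finset.Ico h₀ (H + 1) := by
    intro s hs
    rw [Finset.mem_Ico]
    refine ⟨hF s (Finset.mem_filter.1 hs).1, Nat.lt_succ_of_le (Finset.le_sup (f := ups) hs)⟩
  rw [← Finset.sum_fiberwise_of_maps_to hmaps]
  have h2 : ∀ h ∈ Finset.Ico h₀ (H + 1), ∑ s ∈ F' with ups s = h,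
      θ ^ (∑ i, (s i).natAbs) * (∏ i, w i ^ s i) * A (∑ i, s i • ev (g i)) ≤
        (θ ^ 2 * K) ^ h * A 0 := by
    intro h _
    have e1 : ∀ s ∈ F'.filter (fun s => ups s = h), ups s = h ∧ downs s = h := by
      intro s hs
      rw [Finset.mem_filter] at hs
      have := (Finset.mem_filter.1 hs.1).2
      exact ⟨hs.2, by rw [← this]; exact hs.2⟩
    have e2 : ∀ s ∈ F'.filter (fun s => ups s = h), θ ^ (∑ i, (s i).natAbs) * (∏ i, w i ^ s i) *
        A (∑ i, s i • ev (g i)) = θ ^ (2 * h) * ((∏ i, w i ^ s i) * A (∑ i, s i • ev (g i))) := by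
      intro s hs
      obtain ⟨hu, hd⟩ := e1 s hs
      have := ups_add_downs s
      rw [hu, hd] at this
      rw [← this, ← two_mul, mul_assoc]
    rw [Finset.sum_congr rfl e2, ← Finset.mul_sum]
    have h3 := class_le hA.nonneg g hw (κ := h + 1) (h := h) (by omega) _ e1
    have h4 := growth hA hC hpos g hw hK (h + 1) h (by omega)
    calc _ ≤ θ ^ (2 * h) * (K ^ h * A 0) :=
          mul_le_mul_of_nonneg_left (h3.trans h4) (pow_nonneg hθ _)
      _ = _ := by rw [mul_pow, ← pow_mul]; ring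
  refine (Finset.sum_le_sum h2).trans ?_
  rw [← Finset.sum_mul]
  exact mul_le_mul_of_nonneg_right (geom_sum_Ico_le_of_lt_one hq0 hq) hpos.le

/-- total link mass without the states without link -/
theorem link_mass' {A : (V → ℤ) → ℝ} {d : ℤ} (hA : Lz d A) {C : ℝ} (hC : ∀ β, A β ≤ C)
    (hpos : 0 < A 0) (g : ι → V) {w : ι → ℝ} (hw : ∀ i, 0 < w i) {K : ℝ}
    (hK : ∑ i, ∑ j, w i / w j * A (ev (g i) - ev (g j)) ≤ K * A 0) {θ : ℝ} (hθ : 0 ≤ θ)
    (hq : θ ^ 2 * K < 1) (F : Finset (ι → ℤ)) (hF : (0 : ι → ℤ) ∉ F) :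
    ∑ s ∈ F, θ ^ (∑ i, (s i).natAbs) * (∏ i, w i ^ s i) * A (∑ i, s i • ev (g i)) ≤
      (θ ^ 2 * K) / (1 - θ ^ 2 * K) * A 0 := by
  classical
  have hd : d = 0 := by
    have := hA.deg 0 hpos.ne'
    simpa using this.symm
  subst hd
  have h1 := link_mass hA hC hpos g hw hK hθ hq 1 (F.filter fun s => 1 ≤ ups s)
    (fun s hs => (Finset.mem_filter.1 hs).2)
  rw [pow_one] at h1
  refine le_trans (le_of_eq ?_) h1
  symm
  refine Finset.sum_subset (Finset.filter_subset _ _) fun s hs hs' => ?_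
  have h2 : ups s = 0 := by
    by_contra hne
    exact hs' (Finset.mem_filter.2 ⟨hs, by omega⟩)
  have h3 : A (∑ i, s i • ev (g i)) = 0 := by
    by_contra hne
    have h4 := hA.deg _ hne
    have h5 : ∑ v, (∑ i, s i • ev (g i)) v = ∑ i, s i := by
      simp only [Finset.sum_apply]
      rw [Finset.sum_comm]
      exact Finset.sum_congr rfl fun i _ => sum_smul_ev (s i) (g i)
    rw [h5, ← ups_sub_downs, h2] at h4
    have h6 : downs s = 0 := by omega
    rw [eq_zero_of_ups h2 h6] at hs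
    exact hF hs
  rw [h3, mul_zero]

end Hub

end Crest.Agent.R302.Gau
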