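import Crest.Agent.R302.Inst532C
import Crest.Agent.R302.AFTree674
import Crest.Agent.R302.Ann425B

/-!
R302 (helper532): the Alexandrov-Fenchel property of the official function `Inst.FF`
(bridge to helper674's `AFC.FF`), with a separable log-concave stage weight.
-/

set_option linter.unusedSectionVars false
set_option autoImplicit false

namespace Crest.Agent.R302.Inst

open Finset Crest.Agent.R302.Lor
open Crest.Agent.R302.Facet (SubM MemJ)

variable {E : Type*} [Fintype E] [DecidableEq E]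

/-! ### descendants in the token tree -/

theorem tX_inj : Function.Injective (tX : E → Tok E) := fun a b h => by
  simpa [tX] using h

theorem tY_inj : Function.Injective (tY : E → Tok E) := fun a b h => by
  simpa [tY] using h

theorem tree_par_tX (T₁ T₂ : MP3.Forest E) (e : E) :
    (tree T₁ T₂).par (tX e) = (T₁.par e).map Sum.inl := rfl

theorem tree_par_tY (T₁ T₂ : MP3.Forest E) (e : E) :
    (tree T₁ T₂).par (tY e) = (T₂.par e).map Sum.inr := rfl

theorem desc_tX (T₁ T₂ : MP3.Forest E) (a : E) (q : Tok E) :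
    (tree T₁ T₂).Desc (tX a) q ↔ ∃ c, q = tX c ∧ T₁.Le c a := by
  constructor
  · intro h
    induction h with
    | refl => exact ⟨a, rfl, MP3.Forest.Le.refl _ _⟩
    | step q hq h ih =>
      obtain ⟨c, hc, hle⟩ := ih
      rcases q with _ | e | e
      · exact absurd rfl hq
      · refine ⟨e, rfl, ?_⟩
        have h1 : (T₁.par e).map Sum.inl = some (Sum.inl c : E ⊕ E) := hc
        rcases h2 : T₁.par e with _ | b
        · rw [h2] at h1; cases h1
        · rw [h2] at h1
          simp only [Option.map_some, Option.some.injEq, Sum.inl.injEq] at h1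
          subst h1
          exact (MP3.Forest.Le.of_par h2).trans hle
      · have h1 : (T₂.par e).map Sum.inr = some (Sum.inl c : E ⊕ E) := hc
        rcases h2 : T₂.par e with _ | b
        · rw [h2] at h1; cases h1
        · rw [h2] at h1; simp at h1
  · rintro ⟨c, rfl, hle⟩
    induction hle using Relation.ReflTransGen.head_induction_on with
    | refl => exact Tree.RTree.Desc.refl
    | @head x y hx _ ih =>
      refine Tree.RTree.Desc.step (tX x) (by simp [tX, tree]) ?_
      rw [tree_par_tX, hx]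
      exact ih

theorem desc_tY (T₁ T₂ : MP3.Forest E) (a : E) (q : Tok E) :
    (tree T₁ T₂).Desc (tY a) q ↔ ∃ c, q = tY c ∧ T₂.Le c a := by
  constructor
  · intro h
    induction h with
    | refl => exact ⟨a, rfl, MP3.Forest.Le.refl _ _⟩
    | step q hq h ih =>
      obtain ⟨c, hc, hle⟩ := ih
      rcases q with _ | e | e
      · exact absurd rfl hq
      · have h1 : (T₁.par e).map Sum.inl = some (Sum.inr c : E ⊕ E) := hc
        rcases h2 : T₁.par e with _ | b
        · rw [h2] at h1; cases h1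
        · rw [h2] at h1; simp at h1
      · refine ⟨e, rfl, ?_⟩
        have h1 : (T₂.par e).map Sum.inr = some (Sum.inr c : E ⊕ E) := hc
        rcases h2 : T₂.par e with _ | b
        · rw [h2] at h1; cases h1
        · rw [h2] at h1
          simp only [Option.map_some, Option.some.injEq, Sum.inr.injEq] at h1
          subst h1
          exact (MP3.Forest.Le.of_par h2).trans hle
  · rintro ⟨c, rfl, hle⟩
    induction hle using Relation.ReflTransGen.head_induction_on with
    | refl => exact Tree.RTree.Desc.refl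
    | @head x y hx _ ih =>
      refine Tree.RTree.Desc.step (tY x) (by simp [tY, tree]) ?_
      rw [tree_par_tY, hx]
      exact ih

theorem desc_eq_tX (T₁ T₂ : MP3.Forest E) (a : E) :
    (tree T₁ T₂).desc (tX a) = (T₁.sub a).map ⟨tX, tX_inj⟩ := by
  ext q
  rw [Tree.RTree.mem_desc, desc_tX]
  simp only [mem_map, Function.Embedding.coeFn_mk, MP3.Forest.mem_sub]
  constructor
  · rintro ⟨c, h1, h2⟩; exact ⟨c, h2, h1.symm⟩
  · rintro ⟨c, h1, h2⟩; exact ⟨c, h2.symm, h1⟩

theorem desc_eq_tY (T₁ T₂ : MP3.Forest E) (a : E) :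
    (tree T₁ T₂).desc (tY a) = (T₂.sub a).map ⟨tY, tY_inj⟩ := by
  ext q
  rw [Tree.RTree.mem_desc, desc_tY]
  simp only [mem_map, Function.Embedding.coeFn_mk, MP3.Forest.mem_sub]
  constructor
  · rintro ⟨c, h1, h2⟩; exact ⟨c, h2, h1.symm⟩
  · rintro ⟨c, h1, h2⟩; exact ⟨c, h2.symm, h1⟩

theorem icut_tX (T₁ T₂ : MP3.Forest E) (x : Tok E → ℤ) (a : E) :
    AFC.icut (tree T₁ T₂) x (tX a) = bs T₁ (fun e => x (tX e)) a := by
  unfold AFC.icut bs
  rw [desc_eq_tX, Finset.sum_map]
  rfl

theorem icut_tY (T₁ T₂ : MP3.Forest E) (x : Tok E → ℤ) (a : E) :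
    AFC.icut (tree T₁ T₂) x (tY a) = bs T₂ (fun e => x (tY e)) a := by
  unfold AFC.icut bs
  rw [desc_eq_tY, Finset.sum_map]
  rfl

theorem prod_tok {M : Type*} [CommMonoid M] (F : Tok E → M) :
    ∏ q, F q = F none * ((∏ e, F (tX e)) * ∏ e, F (tY e)) := by
  rw [Fintype.prod_option, Fintype.prod_sum_type]
  rfl

theorem sum_tok {M : Type*} [AddCommMonoid M] (F : Tok E → M) :
    ∑ q, F q = F none + ((∑ e, F (tX e)) + ∑ e, F (tY e)) := by
  rw [Fintype.sum_option, Fintype.sum_sum_type]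
  rfl

theorem prod_tok_erase {M : Type*} [CommMonoid M] (T₁ T₂ : MP3.Forest E) (F : Tok E → M) :
    ∏ q ∈ univ.erase (tree T₁ T₂).root, F q = (∏ e, F (tX e)) * ∏ e, F (tY e) := by
  have h := prod_tok (fun q : Tok E => if q = none then 1 else F q)
  simp only [if_true, one_mul] at h
  have h1 : ∀ e : E, (tX e : Tok E) ≠ none := fun e => by simp [tX]
  have h2 : ∀ e : E, (tY e : Tok E) ≠ none := fun e => by simp [tY]
  simp only [h1, h2, if_false] at h
  rw [← h]
  have e1 : (univ : Finset (Tok E)).erase (tree T₁ T₂).root = univ.filter (fun q => q ≠ none) := by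
    ext q; simp [tree]
  rw [e1, Finset.prod_filter]
  refine Finset.prod_congr rfl fun q _ => ?_
  by_cases hq : q = none <;> simp [hq]

/-! ### the direct sum of `r₁` and the reflection of `r₂` -/

/-- preimages -/
noncomputable def preX (A : Finset (Tok E)) : Finset E := univ.filter (fun e => tX e ∈ A)
noncomputable def preY (A : Finset (Tok E)) : Finset E := univ.filter (fun e => tY e ∈ A)

/-- the submodular function on the tokens -/
noncomputable def rTok (r₁ r₂ : Finset E → ℤ) (R m : ℤ) (A : Finset (Tok E)) : ℤ :=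
  r₁ (preX A) + (m * (preY A).card - R + r₂ ((preY A)ᶜ))

theorem sum_A (x : Tok E → ℤ) (A : Finset (Tok E)) :
    ∑ q ∈ A, x q = (if none ∈ A then x none else 0) + (∑ e ∈ preX A, x (tX e)
      + ∑ e ∈ preY A, x (tY e)) := by
  have h := sum_tok (fun q : Tok E => if q ∈ A then x q else 0)
  rw [← Finset.sum_filter] at h
  have e1 : univ.filter (fun q : Tok E => q ∈ A) = A := by ext q; simp
  rw [e1] at h
  rw [h]
  unfold preX preY
  rw [Finset.sum_filter, Finset.sum_filter]

theorem preX_union (A B : Finset (Tok E)) : preX (A ∪ B) = preX A ∪ preX B := by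
  ext e; simp [preX]
theorem preX_inter (A B : Finset (Tok E)) : preX (A ∩ B) = preX A ∩ preX B := by
  ext e; simp [preX]
theorem preY_union (A B : Finset (Tok E)) : preY (A ∪ B) = preY A ∪ preY B := by
  ext e; simp [preY]
theorem preY_inter (A B : Finset (Tok E)) : preY (A ∩ B) = preY A ∩ preY B := by
  ext e; simp [preY]

theorem subM_tok {r₁ r₂ : Finset E → ℤ} {R : ℤ} (h₁ : SubM r₁ R) (h₂ : SubM r₂ R) (m : ℤ) :
    SubM (rTok r₁ r₂ R m) (m * Fintype.card E) where
  sub := by
    intro A B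
    unfold rTok
    rw [preX_union, preX_inter, preY_union, preY_inter, Finset.compl_union, Finset.compl_inter]
    have e1 := h₁.sub (preX A) (preX B)
    have e2 := h₂.sub ((preY A)ᶜ) ((preY B)ᶜ)
    have e3 := Finset.card_union_add_card_inter (preY A) (preY B)
    have e4 : m * ((preY A ∪ preY B).card : ℤ) + m * ((preY A ∩ preY B).card : ℤ)
        = m * ((preY A).card : ℤ) + m * ((preY B).card : ℤ) := by
      rw [← mul_add, ← mul_add]; congr 1; exact_mod_cast e3
    linarith
  empty := by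
    unfold rTok
    have e1 : preX (∅ : Finset (Tok E)) = ∅ := by ext e; simp [preX]
    have e2 : preY (∅ : Finset (Tok E)) = ∅ := by ext e; simp [preY]
    rw [e1, e2, h₁.empty, Finset.compl_empty, h₂.univ]; simp
  univ := by
    unfold rTok
    have e1 : preX (univ : Finset (Tok E)) = univ := by ext e; simp [preX]
    have e2 : preY (univ : Finset (Tok E)) = univ := by ext e; simp [preY]
    rw [e1, e2, h₁.univ, Finset.compl_univ, h₂.empty, Finset.card_univ]; ring

/-- the token vector of a pair -/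
def tok (m : ℤ) (z₁ z₂ : E → ℤ) : Tok E → ℤ := fun p => match p with
  | none => 0
  | some (Sum.inl e) => z₁ e
  | some (Sum.inr e) => m - z₂ e

theorem tok_inj (m : ℤ) {z₁ z₂ z₁' z₂' : E → ℤ} (h : tok m z₁ z₂ = tok m z₁' z₂') :
    z₁ = z₁' ∧ z₂ = z₂' := by
  constructor
  · funext e; exact congrFun h (some (Sum.inl e))
  · funext e
    have : m - z₂ e = m - z₂' e := congrFun h (some (Sum.inr e))
    linarith

theorem memJ_tok {r₁ r₂ : Finset E → ℤ} {R : ℤ} (h₁ : SubM r₁ R) (h₂ : SubM r₂ R) (m : ℤ)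
    (x : Tok E → ℤ) : MemJ (rTok r₁ r₂ R m) (m * Fintype.card E) x ↔
      x none = 0 ∧ MemJ r₁ R (fun e => x (tX e)) ∧ MemJ r₂ R (fun e => m - x (tY e)) := by
  classical
  have hsum : ∀ B : Finset E, ∑ e ∈ B, (m - x (tY e)) = m * B.card - ∑ e ∈ B, x (tY e) := by
    intro B; rw [Finset.sum_sub_distrib, Finset.sum_const, nsmul_eq_mul]; ring
  constructor
  · rintro ⟨hA, htot⟩
    rw [sum_tok] at htot
    -- hub
    have hh1 : x none ≤ 0 := by
      have := hA {none}
      rw [Finset.sum_singleton] at this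
      have e1 : preX ({none} : Finset (Tok E)) = ∅ := by ext e; simp [preX, tX]
      have e2 : preY ({none} : Finset (Tok E)) = ∅ := by ext e; simp [preY, tY]
      unfold rTok at this
      rw [e1, e2, h₁.empty, Finset.compl_empty, h₂.univ] at this
      simpa using this
    have hXY : ∀ B C : Finset E, ∑ e ∈ B, x (tX e) + ∑ e ∈ C, x (tY e)
        ≤ r₁ B + (m * C.card - R + r₂ Cᶜ) := by
      intro B C
      have := hA (B.map ⟨tX, tX_inj⟩ ∪ C.map ⟨tY, tY_inj⟩)
      rw [sum_A] at this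
      have e1 : preX (B.map ⟨tX, tX_inj⟩ ∪ C.map ⟨tY, tY_inj⟩ : Finset (Tok E)) = B := by
        ext e; simp [preX, tX, tY]
      have e2 : preY (B.map ⟨tX, tX_inj⟩ ∪ C.map ⟨tY, tY_inj⟩ : Finset (Tok E)) = C := by
        ext e; simp [preY, tX, tY]
      have e3 : (none : Tok E) ∉ (B.map ⟨tX, tX_inj⟩ ∪ C.map ⟨tY, tY_inj⟩ : Finset (Tok E)) := by
        simp [tX, tY]
      unfold rTok at this
      rw [e1, e2, if_neg e3, zero_add] at this
      exact this
    have hfull := hXY univ univ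
    rw [h₁.univ, Finset.compl_univ, h₂.empty, Finset.card_univ] at hfull
    have hh : x none = 0 := by linarith
    have hX := hXY univ ∅
    have hY := hXY ∅ univ
    rw [h₁.univ, Finset.sum_empty, Finset.card_empty, Finset.compl_empty, h₂.univ] at hX
    rw [h₁.empty, Finset.sum_empty, Finset.card_univ, Finset.compl_univ, h₂.empty] at hY
    push_cast at hX
    have hXe : ∑ e, x (tX e) = R := by linarith
    have hYe : ∑ e, x (tY e) = m * Fintype.card E - R := by linarith
    refine ⟨hh, ⟨fun A => ?_, hXe⟩, ⟨fun A => ?_, ?_⟩⟩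
    · have := hXY A ∅
      rw [Finset.sum_empty, Finset.card_empty, Finset.compl_empty, h₂.univ] at this
      push_cast at this
      linarith
    · have h3 := hXY ∅ Aᶜ
      rw [Finset.sum_empty, h₁.empty, compl_compl] at h3
      have h4 : ∑ e ∈ A, x (tY e) + ∑ e ∈ Aᶜ, x (tY e) = ∑ e, x (tY e) :=
        Finset.sum_add_sum_compl A _
      have h5 : (A.card : ℤ) + (Aᶜ.card : ℤ) = Fintype.card E := by
        exact_mod_cast Finset.card_add_card_compl A
      have h6 : m * (A.card : ℤ) + m * (Aᶜ.card : ℤ) = m * Fintype.card E := by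
        rw [← mul_add, h5]
      rw [hsum]
      linarith
    · rw [hsum, Finset.card_univ]; linarith
  · rintro ⟨hh, ⟨hA1, ht1⟩, ⟨hA2, ht2⟩⟩
    rw [hsum, Finset.card_univ] at ht2
    constructor
    · intro A
      rw [sum_A, hh]
      unfold rTok
      have h1 := hA1 (preX A)
      have h2 := hA2 ((preY A)ᶜ)
      rw [hsum] at h2
      have h4 : ∑ e ∈ preY A, x (tY e) + ∑ e ∈ (preY A)ᶜ, x (tY e) = ∑ e, x (tY e) :=
        Finset.sum_add_sum_compl (preY A) _
      have h5 : ((preY A).card : ℤ) + ((preY A)ᶜ.card : ℤ) = Fintype.card E := by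
        exact_mod_cast Finset.card_add_card_compl (preY A)
      have h6 : m * ((preY A).card : ℤ) + m * ((preY A)ᶜ.card : ℤ) = m * Fintype.card E := by
        rw [← mul_add, h5]
      simp only [ite_self, zero_add]
      linarith
    · rw [sum_tok, hh, ht1]; linarith

/-! ### the bridge -/

section Bridge

variable (S₁ S₂ : Side E)

/-- kernels on the token tree -/
noncomputable def fTok (θ : ℝ) (p : Tok E) (t : ℤ) : ℝ := match p with
  | none => 1
  | some (Sum.inl a) => S₁.wk θ a (-t)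
  | some (Sum.inr a) => S₂.wk θ a t

/-- index set -/
noncomputable def JTok (m : ℤ) : Finset (Tok E → ℤ) :=
  (S₁.J ×ˢ S₂.J).image (fun z => tok m z.1 z.2)

theorem FF_bridge (θ : ℝ) (μ : E → ℝ) (m : ℤ) (c : (Tok E → ℤ) → ℝ) (K : ℝ)
    (hc : ∀ z₁ ∈ S₁.J, ∀ z₂ ∈ S₂.J, c (tok m z₁ z₂)
      = K * ((mon μ z₁ * S₁.g z₁) * (mon (fun e => (μ e)⁻¹) z₂ * S₂.g z₂))) (d : Tok E → ℤ) :
    AFC.FF (tree S₁.T S₂.T) (fTok S₁ S₂ θ) (JTok S₁ S₂ m) c d = K * FF S₁ S₂ θ μ m d := by
  unfold AFC.FF JTok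
  rw [Finset.sum_image]
  · rw [Finset.sum_product]
    unfold FF Side.W
    rw [Finset.sum_mul_sum, Finset.mul_sum]
    refine Finset.sum_congr rfl fun z₁ h₁ => ?_
    rw [Finset.mul_sum]
    refine Finset.sum_congr rfl fun z₂ h₂ => ?_
    rw [hc z₁ h₁ z₂ h₂, prod_tok_erase]
    have e1 : ∏ e, fTok S₁ S₂ θ (tX e) (AFC.icut (tree S₁.T S₂.T) (d - tok m z₁ z₂) (tX e))
        = ∏ a, S₁.wk θ a (bs S₁.T z₁ a - bs S₁.T (fun e => d (tX e)) a) := by
      refine Finset.prod_congr rfl fun a _ => ?_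
      rw [icut_tX]
      show S₁.wk θ a (-_) = _
      congr 1
      have : (fun e => (d - tok m z₁ z₂) (tX e)) = (fun e => d (tX e)) - z₁ := by
        funext e; rfl
      rw [this, bs_sub]; ring
    have e2 : ∏ e, fTok S₁ S₂ θ (tY e) (AFC.icut (tree S₁.T S₂.T) (d - tok m z₁ z₂) (tY e))
        = ∏ a, S₂.wk θ a (bs S₂.T z₂ a - bs S₂.T (fun e => m - d (tY e)) a) := by
      refine Finset.prod_congr rfl fun a _ => ?_
      rw [icut_tY]
      show S₂.wk θ a _ = _
      congr 1
      have : (fun e => (d - tok m z₁ z₂) (tY e)) = z₂ - (fun e => m - d (tY e)) := by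
        funext e
        show d (tY e) - (m - z₂ e) = z₂ e - (m - d (tY e))
        ring
      rw [this, bs_sub]
    rw [e1, e2]
    ring
  · rintro ⟨z₁, z₂⟩ _ ⟨z₁', z₂'⟩ _ h
    obtain ⟨h1, h2⟩ := tok_inj m h
    exact Prod.ext h1 h2

end Bridge

/-- log-concavity -/
def LogC (f : ℤ → ℝ) : Prop := (∀ k, 0 < f k) ∧ ∀ k, f k * f (k + 2) ≤ f (k + 1) ^ 2

theorem LogC.rev {f : ℤ → ℝ} (h : LogC f) (m : ℤ) : LogC (fun k => f (m - k)) :=
  ⟨fun k => h.1 _, fun k => by
    have := h.2 (m - (k + 2))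
    rw [show m - (k + 2) + 2 = m - k from by ring, show m - (k + 2) + 1 = m - (k + 1) from by ring]
      at this
    linarith [mul_comm (f (m - (k + 2))) (f (m - k))]⟩

theorem logC_theta {θ : ℝ} (h0 : 0 < θ) (h1 : θ ≤ 1) : LogC (fun t => θ ^ t.natAbs) := by
  refine ⟨fun k => pow_pos h0 _, fun k => ?_⟩
  simp only
  rw [← pow_add, ← pow_mul]
  refine pow_le_pow_of_le_one h0.le h1 ?_
  omega

theorem logC_one : LogC (fun _ => 1) := ⟨fun _ => one_pos, fun _ => by norm_num⟩

/-- shape hypotheses for the AF property: the `J` are base polytopes, the weights separable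
log-concave, the kernels log-concave -/
structure Shape (S : Side E) (r : Finset E → ℤ) (R : ℤ) (ω : E → ℤ → ℝ) : Prop where
  sub : SubM r R
  mem : ∀ z, z ∈ S.J ↔ MemJ r R z
  wt : ∀ z ∈ S.J, S.g z = ∏ v, ω v (z v)
  ωlc : ∀ v, LogC (ω v)
  κlc : ∀ a, S.T.par a ≠ none → LogC (S.κ a)

/-- **AF property of the official function** -/
theorem hyp_FF {S₁ S₂ : Side E} {r₁ r₂ : Finset E → ℤ} {R : ℤ} {ω₁ ω₂ : E → ℤ → ℝ}
    (h₁ : Shape S₁ r₁ R ω₁) (h₂ : Shape S₂ r₂ R ω₂) {θ : ℝ} (h0 : 0 < θ) (h1 : θ ≤ 1)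
    {μ : E → ℝ} (hμ : ∀ a, 0 < μ a) (m : ℤ) (d : Tok E → ℤ) :
    AF (fun p q => FF S₁ S₂ θ μ m (d + ev p + ev q)) := by
  classical
  set rT := rTok r₁ r₂ R m with hrT
  have hsub : SubM rT (m * Fintype.card E) := subM_tok h₁.sub h₂.sub m
  set ω : Tok E → ℤ → ℝ := fun p k => match p with
    | none => 1
    | some (Sum.inl e) => ω₁ e k
    | some (Sum.inr e) => ω₂ e (m - k) with hω
  have hωlc : ∀ p, LogC (ω p) := by
    rintro (_ | e | e)
    · exact logC_one
    · exact h₁.ωlc e
    · exact (h₂.ωlc e).rev m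
  set l : Tok E → ℝ := fun p => match p with
    | none => 0
    | some (Sum.inl e) => Real.log (μ e)
    | some (Sum.inr e) => Real.log (μ e) with hl
  -- approximants
  set an : ℕ → ℤ → ℝ := fun n k => ((1 : ℝ) / (n + 1)) ^ k with han
  have happ := AFC.approx_indicator
  set c : ℕ → (Tok E → ℤ) → ℝ := fun n z =>
    (Real.exp (∑ i, l i * z i) * an n (AFC.viol rT z)) * ∏ w, ω w (z w) with hc
  set c0 : (Tok E → ℤ) → ℝ := fun z =>
    (Real.exp (∑ i, l i * z i) * (if AFC.viol rT z = 0 then 1 else 0)) * ∏ w, ω w (z w) with hc0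
  have hlcf : ∀ (a : E) (S : Side E), (S.T.par a ≠ none → LogC (S.κ a)) → LogC (S.wk θ a) := by
    intro a S hS
    by_cases ha : S.T.par a = none
    · have : S.wk θ a = fun t => θ ^ t.natAbs := by funext t; simp [Side.wk, ha]
      rw [this]; exact logC_theta h0 h1
    · have : S.wk θ a = S.κ a := by funext t; simp [Side.wk, ha]
      rw [this]; exact hS ha
  have hf : ∀ p, LogC (fTok S₁ S₂ θ p) := by
    rintro (_ | e | e)
    · exact logC_one
    · have e1 : fTok S₁ S₂ θ (some (Sum.inl e)) = fun k => S₁.wk θ e (0 - k) := by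
        funext k; simp [fTok]
      rw [e1]
      exact (hlcf e S₁ (h₁.κlc e)).rev 0
    · exact hlcf e S₂ (h₂.κlc e)
  have hH : AFC.Hyp (AFC.FF (tree S₁.T S₂.T) (fTok S₁ S₂ θ) (JTok S₁ S₂ m) c0) := by
    refine AFC.hyp_tree (fun p s => (hf p).1 s) (fun p s => ?_) (c := c) ?_ ?_ ?_ ?_ ?_
      (R := m * Fintype.card E)
    · have := (hf p).2 (s - 1)
      rwa [show s - 1 + 2 = s + 1 from by ring, show s - 1 + 1 = s from by ring] at this
    · intro n β
      exact mul_pos (mul_pos (Real.exp_pos _) (happ.pos n _))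
        (Finset.prod_pos fun w _ => (hωlc w).1 _)
    · intro n β
      refine AnnBox.af_mul_sep (c := fun z => Real.exp (∑ i, l i * z i) * an n (AFC.viol rT z))
        (fun γ => (mul_pos (Real.exp_pos _) (happ.pos n _)).le) ?_
        (fun v k => (hωlc v).1 k) (fun v k => (hωlc v).2 k) β
      exact (AFC.hyp_viol hsub.sub (fun k => (happ.pos n k).le) (happ.anti n) (happ.lc n)).tilt l
    · intro x
      have := (happ.lim _ (AFC.viol_nonneg hsub.empty x)).const_mul (Real.exp (∑ i, l i * x i))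
      exact this.mul_const _
    · intro z hz
      unfold JTok at hz
      rw [Finset.mem_image] at hz
      obtain ⟨⟨z₁, z₂⟩, hz, rfl⟩ := hz
      rw [Finset.mem_product] at hz
      have hm : MemJ rT (m * Fintype.card E) (tok m z₁ z₂) := by
        rw [hrT, memJ_tok h₁.sub h₂.sub]
        refine ⟨rfl, (h₁.mem _).1 hz.1, ?_⟩
        have : (fun e => m - tok m z₁ z₂ (tY e)) = z₂ := by
          funext e; show m - (m - z₂ e) = z₂ e; ring
        rw [this]
        exact (h₂.mem _).1 hz.2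
      exact hm.2
    · intro x hx hxJ
      have hv : AFC.viol rT x ≠ 0 := by
        intro hv
        apply hxJ
        have hm : MemJ rT (m * Fintype.card E) x := ⟨(AFC.viol_eq_zero_iff hsub.empty x).1 hv, hx⟩
        rw [hrT, memJ_tok h₁.sub h₂.sub] at hm
        unfold JTok
        rw [Finset.mem_image]
        refine ⟨(fun e => x (tX e), fun e => m - x (tY e)), ?_, ?_⟩
        · rw [Finset.mem_product]
          exact ⟨(h₁.mem _).2 hm.2.1, (h₂.mem _).2 hm.2.2⟩
        · funext p
          rcases p with _ | e | e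
          · exact hm.1.symm
          · rfl
          · show m - (m - x (tY e)) = x (some (Sum.inr e))
            have : x (tY e) = x (some (Sum.inr e)) := rfl
            rw [this]; ring
      simp only [hc0, if_neg hv, mul_zero, zero_mul]
  -- constant of proportionality
  set K : ℝ := Real.exp (∑ e, Real.log (μ e) * m) with hK
  have hbr : ∀ d, AFC.FF (tree S₁.T S₂.T) (fTok S₁ S₂ θ) (JTok S₁ S₂ m) c0 d
      = K * FF S₁ S₂ θ μ m d := by
    intro d
    refine FF_bridge S₁ S₂ θ μ m c0 K ?_ d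
    intro z₁ hz₁ z₂ hz₂
    have hmem : MemJ rT (m * Fintype.card E) (tok m z₁ z₂) := by
      rw [hrT, memJ_tok h₁.sub h₂.sub]
      refine ⟨rfl, (h₁.mem _).1 hz₁, ?_⟩
      have : (fun e => m - tok m z₁ z₂ (tY e)) = z₂ := by
        funext e; show m - (m - z₂ e) = z₂ e; ring
      rw [this]
      exact (h₂.mem _).1 hz₂
    have hv := (AFC.viol_eq_zero_iff hsub.empty _).2 hmem.1
    have mexp : ∀ (z : E → ℤ) (ν : E → ℝ), (∀ e, 0 < ν e) →
        mon ν z = Real.exp (∑ e, Real.log (ν e) * z e) := by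
      intro z ν hν
      unfold mon
      rw [Real.exp_sum]
      refine Finset.prod_congr rfl fun e _ => ?_
      rw [Real.exp_mul, Real.exp_log (hν e), Real.rpow_intCast]
    simp only [hc0, if_pos hv, mul_one]
    rw [h₁.wt z₁ hz₁, h₂.wt z₂ hz₂, mexp z₁ μ hμ, mexp z₂ _ (fun e => inv_pos.2 (hμ e)), prod_tok,
      sum_tok]
    have e1 : (l none * ((tok m z₁ z₂ none : ℤ) : ℝ) + (∑ e, l (tX e) * ((tok m z₁ z₂ (tX e) : ℤ) : ℝ)
        + ∑ e, l (tY e) * ((tok m z₁ z₂ (tY e) : ℤ) : ℝ)))
        = ∑ e, Real.log (μ e) * m + (∑ e, Real.log (μ e) * z₁ e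
          + ∑ e, Real.log ((fun e => (μ e)⁻¹) e) * z₂ e) := by
      have a1 : ∑ e, l (tY e) * ((tok m z₁ z₂ (tY e) : ℤ) : ℝ)
          = ∑ e, Real.log (μ e) * m + ∑ e, Real.log ((fun e => (μ e)⁻¹) e) * z₂ e := by
        rw [← Finset.sum_add_distrib]
        refine Finset.sum_congr rfl fun e _ => ?_
        show Real.log (μ e) * ((m - z₂ e : ℤ) : ℝ) = _
        simp only [Real.log_inv]
        push_cast; ring
      have a2 : ∑ e, l (tX e) * ((tok m z₁ z₂ (tX e) : ℤ) : ℝ) = ∑ e, Real.log (μ e) * z₁ e := rfl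
      rw [a1, a2]
      show (0 : ℝ) * _ + _ = _
      ring
    rw [e1, Real.exp_add, Real.exp_add]
    have e2 : ω none (tok m z₁ z₂ none) = 1 := rfl
    have e3 : ∏ e, ω (tX e) (tok m z₁ z₂ (tX e)) = ∏ v, ω₁ v (z₁ v) := rfl
    have e4 : ∏ e, ω (tY e) (tok m z₁ z₂ (tY e)) = ∏ v, ω₂ v (z₂ v) := by
      refine Finset.prod_congr rfl fun e _ => ?_
      show ω₂ e (m - (m - z₂ e)) = _
      congr 1; ring
    rw [e2, e3, e4]
    ring
  have hfin := hH d
  have e5 : (fun u v => AFC.FF (tree S₁.T S₂.T) (fTok S₁ S₂ θ) (JTok S₁ S₂ m) c0 (d + ev u + ev v))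
      = fun u v => K * FF S₁ S₂ θ μ m (d + ev u + ev v) := by
    funext u v; rw [hbr]
  rw [e5] at hfin
  have hKpos : 0 < K := Real.exp_pos _
  have := hfin.smul (inv_pos.2 hKpos).le
  have e6 : (fun u v => K⁻¹ * (K * FF S₁ S₂ θ μ m (d + ev u + ev v)))
      = fun u v => FF S₁ S₂ θ μ m (d + ev u + ev v) := by
    funext u v
    rw [← mul_assoc, inv_mul_cancel₀ hKpos.ne', one_mul]
  rwa [e6] at this

end Crest.Agent.R302.Inst
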