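import Mathlib

/-!
Row 302 (helper541).  MACRO MOVES: a Poincaré inequality (with defect) for unit steps along the
moves `c j` with prefactors `K j`, applied to a local average, gives a Poincaré inequality (with
defect) for the macro chain `x → x + s • c j`, `1 ≤ s ≤ l j`, with prefactors `O(K j / l j ^ 2)`.
-/

set_option autoImplicit false
open Finset

namespace Crest.Agent.R302.Macro

variable {G : Type*} [AddCommGroup G] [DecidableEq G]

/-- weighted sum over the domain -/
def S (B : Finset G) (w h : G → ℝ) : ℝ := ∑ x ∈ B, w x * h x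

/-- average along a segment -/
noncomputable def av (c : G) (l : ℕ) (f : G → ℝ) (x : G) : ℝ :=
  (∑ s ∈ range l, f (x + s • c)) / l

/-- mass of the points of `B` from which a segment leaves `B` -/
noncomputable def rim (B : Finset G) (w : G → ℝ) (c : G) (l : ℕ) : ℝ :=
  ∑ x ∈ B.filter (fun x => ∃ s ∈ range (l + 1), x + s • c ∉ B), w x

/-- one-step energy along `s • c` (weight of the starting point) -/
noncomputable def En (B : Finset G) (w : G → ℝ) (c : G) (s : ℕ) (f : G → ℝ) : ℝ :=
  ∑ x ∈ B.filter (fun x => x + s • c ∈ B), w x * (f (x + s • c) - f x) ^ 2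

/-- one-step Metropolis energy along `s • c` -/
noncomputable def Dm (B : Finset G) (w : G → ℝ) (c : G) (s : ℕ) (f : G → ℝ) : ℝ :=
  ∑ x ∈ B.filter (fun x => x + s • c ∈ B), min (w x) (w (x + s • c)) * (f (x + s • c) - f x) ^ 2

/-- average Metropolis energy of the macro moves `s • c`, `1 ≤ s ≤ l` -/
noncomputable def aDm (B : Finset G) (w : G → ℝ) (c : G) (l : ℕ) (f : G → ℝ) : ℝ :=
  (∑ s ∈ range l, Dm B w c (s + 1) f) / l

section one

variable {B : Finset G} {w : G → ℝ} {c : G} {l : ℕ} {R : ℝ}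

omit [AddCommGroup G] [DecidableEq G] in
theorem S_mono (hw : ∀ x ∈ B, 0 ≤ w x) {h h' : G → ℝ} (hh : ∀ x, h x ≤ h' x) :
    S B w h ≤ S B w h' :=
  sum_le_sum fun x hx => mul_le_mul_of_nonneg_left (hh x) (hw x hx)

omit [AddCommGroup G] [DecidableEq G] in
theorem S_nonneg (hw : ∀ x ∈ B, 0 ≤ w x) {h : G → ℝ} (hh : ∀ x, 0 ≤ h x) :
    0 ≤ S B w h := sum_nonneg fun x hx => mul_nonneg (hw x hx) (hh x)

omit [AddCommGroup G] [DecidableEq G] in
theorem S_add (h h' : G → ℝ) : S B w (fun x => h x + h' x) = S B w h + S B w h' := by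
  unfold S; rw [← sum_add_distrib]; exact sum_congr rfl fun x _ => by ring

omit [AddCommGroup G] [DecidableEq G] in
theorem S_smul (a : ℝ) (h : G → ℝ) : S B w (fun x => a * h x) = a * S B w h := by
  unfold S; rw [mul_sum]; exact sum_congr rfl fun x _ => by ring

theorem rim_nonneg (hw : ∀ x ∈ B, 0 ≤ w x) : 0 ≤ rim B w c l :=
  sum_nonneg fun x hx => hw x (mem_filter.1 hx).1

theorem En_nonneg (hw : ∀ x ∈ B, 0 ≤ w x) (s : ℕ) (f : G → ℝ) : 0 ≤ En B w c s f :=
  sum_nonneg fun x hx => mul_nonneg (hw x (mem_filter.1 hx).1) (sq_nonneg _)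

theorem Dm_nonneg (hw : ∀ x ∈ B, 0 ≤ w x) (s : ℕ) (f : G → ℝ) : 0 ≤ Dm B w c s f :=
  sum_nonneg fun x hx => mul_nonneg
    (le_min (hw x (mem_filter.1 hx).1) (hw _ (mem_filter.1 hx).2)) (sq_nonneg _)

theorem aDm_nonneg (hw : ∀ x ∈ B, 0 ≤ w x) (l : ℕ) (f : G → ℝ) : 0 ≤ aDm B w c l f :=
  div_nonneg (sum_nonneg fun _ _ => Dm_nonneg hw _ f) (Nat.cast_nonneg _)

/-- the set of the points whose `s`-shift leaves `B` has small mass -/
theorem out_le_rim (hw : ∀ x ∈ B, 0 ≤ w x) {s : ℕ} (hs : s ≤ l) :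
    ∑ x ∈ B.filter (fun x => ¬ x + s • c ∈ B), w x ≤ rim B w c l := by
  refine sum_le_sum_of_subset_of_nonneg ?_ fun x hx _ => hw x (mem_filter.1 hx).1
  intro x hx
  rw [mem_filter] at hx ⊢
  exact ⟨hx.1, s, mem_range.2 (by omega), hx.2⟩

/-- change of variables -/
theorem shift_in_le (hw : ∀ x ∈ B, 0 ≤ w x) {s : ℕ}
    (hR : ∀ x ∈ B, x + s • c ∈ B → w x ≤ R * w (x + s • c))
    (hR0 : 0 ≤ R) {h : G → ℝ} (hh : ∀ x, 0 ≤ h x) :
    ∑ x ∈ B.filter (fun x => x + s • c ∈ B), w x * h (x + s • c) ≤ R * S B w h := by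
  calc ∑ x ∈ B.filter (fun x => x + s • c ∈ B), w x * h (x + s • c)
      ≤ ∑ x ∈ B.filter (fun x => x + s • c ∈ B), R * (w (x + s • c) * h (x + s • c)) := by
        refine sum_le_sum fun x hx => ?_
        rw [mem_filter] at hx
        have := mul_le_mul_of_nonneg_right (hR x hx.1 hx.2) (hh (x + s • c))
        linarith [mul_assoc R (w (x + s • c)) (h (x + s • c))]
    _ = R * ∑ x ∈ B.filter (fun x => x + s • c ∈ B), w (x + s • c) * h (x + s • c) := by
        rw [mul_sum]
    _ ≤ R * S B w h := by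
        refine mul_le_mul_of_nonneg_left ?_ hR0
        unfold S
        have h1 : ∑ x ∈ B.filter (fun x => x + s • c ∈ B), w (x + s • c) * h (x + s • c)
            = ∑ y ∈ (B.filter (fun x => x + s • c ∈ B)).image (fun x => x + s • c),
              w y * h y := by
          rw [sum_image]
          intro a _ b _ hab
          exact add_right_cancel hab
        rw [h1]
        refine sum_le_sum_of_subset_of_nonneg ?_ fun x hx _ => mul_nonneg (hw x hx) (hh x)
        intro y hy
        obtain ⟨x, hx, rfl⟩ := mem_image.1 hy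
        exact (mem_filter.1 hx).2

theorem shift_le (hw : ∀ x ∈ B, 0 ≤ w x) {s : ℕ} (hs : s ≤ l)
    (hR : ∀ s ≤ l, ∀ x ∈ B, x + s • c ∈ B → w x ≤ R * w (x + s • c))
    (hR0 : 0 ≤ R) {h : G → ℝ} (hh : ∀ x, 0 ≤ h x) {H : ℝ} (hH : ∀ x, h x ≤ H) :
    S B w (fun x => h (x + s • c)) ≤ R * S B w h + H * rim B w c l := by
  unfold S
  rw [← sum_filter_add_sum_filter_not B (fun x => x + s • c ∈ B)]
  refine add_le_add (shift_in_le hw (hR s hs) hR0 hh) ?_
  have hH0 : 0 ≤ H := (hh 0).trans (hH 0)
  calc ∑ x ∈ B.filter (fun x => ¬ x + s • c ∈ B), w x * h (x + s • c)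
      ≤ ∑ x ∈ B.filter (fun x => ¬ x + s • c ∈ B), H * w x := by
        refine sum_le_sum fun x hx => ?_
        have := mul_le_mul_of_nonneg_left (hH (x + s • c)) (hw x (mem_filter.1 hx).1)
        linarith
    _ = H * ∑ x ∈ B.filter (fun x => ¬ x + s • c ∈ B), w x := by rw [mul_sum]
    _ ≤ H * rim B w c l := mul_le_mul_of_nonneg_left (out_le_rim hw hs) hH0

theorem av_S_le (hw : ∀ x ∈ B, 0 ≤ w x) (hl : 1 ≤ l)
    (hR : ∀ s ≤ l, ∀ x ∈ B, x + s • c ∈ B → w x ≤ R * w (x + s • c))
    (hR0 : 0 ≤ R) {h : G → ℝ} (hh : ∀ x, 0 ≤ h x) {H : ℝ} (hH : ∀ x, h x ≤ H) :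
    S B w (av c l h) ≤ R * S B w h + H * rim B w c l := by
  have hl0 : (0 : ℝ) < l := by exact_mod_cast hl
  have h1 : S B w (av c l h) = (∑ s ∈ range l, S B w (fun x => h (x + s • c))) / l := by
    unfold S av
    rw [sum_comm, sum_div]
    refine sum_congr rfl fun x _ => ?_
    rw [← mul_sum, mul_div_assoc]
  rw [h1, div_le_iff₀ hl0]
  calc ∑ s ∈ range l, S B w (fun x => h (x + s • c))
      ≤ ∑ _s ∈ range l, (R * S B w h + H * rim B w c l) :=
        sum_le_sum fun s hs => shift_le hw (mem_range.1 hs).le hR hR0 hh hH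
    _ = (R * S B w h + H * rim B w c l) * l := by
        rw [sum_const, card_range, nsmul_eq_mul, mul_comm]

omit [DecidableEq G] in
theorem av_sq_le (hl : 1 ≤ l) (g : G → ℝ) (x : G) : (av c l g x) ^ 2 ≤ av c l (fun y => g y ^ 2) x := by
  have hl0 : (0 : ℝ) < l := by exact_mod_cast hl
  unfold av
  rw [div_pow, div_le_div_iff₀ (by positivity) hl0]
  have h2 : (∑ s ∈ range l, g (x + s • c)) ^ 2 ≤ l * ∑ s ∈ range l, g (x + s • c) ^ 2 := by
    have := sq_sum_le_card_mul_sum_sq (s := range l) (f := fun s => g (x + s • c))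
    simpa using this
  calc (∑ s ∈ range l, g (x + s • c)) ^ 2 * l ≤ (l * ∑ s ∈ range l, g (x + s • c) ^ 2) * l :=
        mul_le_mul_of_nonneg_right h2 hl0.le
    _ = (∑ s ∈ range l, g (x + s • c) ^ 2) * (l : ℝ) ^ 2 := by ring

omit [DecidableEq G] in
theorem av_mono (g h : G → ℝ) (hgh : ∀ x, g x ≤ h x) (x : G) : av c l g x ≤ av c l h x :=
  div_le_div_of_nonneg_right (sum_le_sum fun _ _ => hgh _) (Nat.cast_nonneg _)

omit [DecidableEq G] in
theorem av_abs_le (hl : 1 ≤ l) {g : G → ℝ} {M : ℝ} (hg : ∀ x, |g x| ≤ M) (x : G) :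
    |av c l g x| ≤ M := by
  have hl0 : (0 : ℝ) < l := by exact_mod_cast hl
  unfold av
  rw [abs_div, abs_of_pos hl0, div_le_iff₀ hl0]
  calc |∑ s ∈ range l, g (x + s • c)| ≤ ∑ s ∈ range l, |g (x + s • c)| := abs_sum_le_sum_abs _ _
    _ ≤ ∑ _s ∈ range l, M := sum_le_sum fun s _ => hg _
    _ = M * l := by rw [sum_const, card_range, nsmul_eq_mul, mul_comm]

omit [DecidableEq G] in
/-- the averaging operator telescopes on its own gradient -/
theorem av_grad (f : G → ℝ) (x : G) :
    av c l f (x + c) - av c l f x = (f (x + l • c) - f x) / l := by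
  unfold av
  rw [← sub_div, ← sum_sub_distrib]
  congr 1
  have : ∀ s ∈ range l, f (x + c + s • c) - f (x + s • c)
      = f (x + (s + 1) • c) - f (x + s • c) := by
    intro s _
    rw [add_smul, one_smul]
    congr 2
    abel
  rw [sum_congr rfl this, sum_range_sub (fun s => f (x + s • c))]
  simp

/-- one-move replacement error -/
theorem Q_le (hw : ∀ x ∈ B, 0 ≤ w x) (hl : 1 ≤ l) {f : G → ℝ} {M : ℝ} (hf : ∀ x, |f x| ≤ M) :
    S B w (fun x => (f x - av c l f x) ^ 2)
      ≤ (∑ s ∈ range l, En B w c s f) / l + 4 * M ^ 2 * rim B w c l := by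
  have hl0 : (0 : ℝ) < l := by exact_mod_cast hl
  have hM : 0 ≤ M := (abs_nonneg _).trans (hf 0)
  have h1 : ∀ x, (f x - av c l f x) ^ 2 ≤ (∑ s ∈ range l, (f (x + s • c) - f x) ^ 2) / l := by
    intro x
    have e : f x - av c l f x = - av c l (fun y => f y - f x) x := by
      unfold av
      rw [sum_sub_distrib, sum_const, card_range, nsmul_eq_mul, sub_div,
        mul_div_cancel_left₀ _ hl0.ne']
      ring
    rw [e, neg_sq]
    exact av_sq_le hl _ x
  have h2 : ∀ s ∈ range l, S B w (fun x => (f (x + s • c) - f x) ^ 2)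
      ≤ En B w c s f + 4 * M ^ 2 * rim B w c l := by
    intro s hs
    unfold S
    rw [← sum_filter_add_sum_filter_not B (fun x => x + s • c ∈ B)]
    refine add_le_add le_rfl ?_
    calc ∑ x ∈ B.filter (fun x => ¬ x + s • c ∈ B), w x * (f (x + s • c) - f x) ^ 2
        ≤ ∑ x ∈ B.filter (fun x => ¬ x + s • c ∈ B), 4 * M ^ 2 * w x := by
          refine sum_le_sum fun x hx => ?_
          have h3 : (f (x + s • c) - f x) ^ 2 ≤ 4 * M ^ 2 := by
            have a1 := abs_le.1 (hf (x + s • c))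
            have a2 := abs_le.1 (hf x)
            nlinarith
          have := mul_le_mul_of_nonneg_left h3 (hw x (mem_filter.1 hx).1)
          linarith
      _ = 4 * M ^ 2 * ∑ x ∈ B.filter (fun x => ¬ x + s • c ∈ B), w x := by rw [mul_sum]
      _ ≤ 4 * M ^ 2 * rim B w c l :=
          mul_le_mul_of_nonneg_left (out_le_rim hw (mem_range.1 hs).le) (by positivity)
  calc S B w (fun x => (f x - av c l f x) ^ 2)
      ≤ S B w (fun x => (∑ s ∈ range l, (f (x + s • c) - f x) ^ 2) / l) := S_mono hw h1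
    _ = (∑ s ∈ range l, S B w (fun x => (f (x + s • c) - f x) ^ 2)) / l := by
        unfold S
        rw [sum_comm, sum_div]
        refine sum_congr rfl fun x _ => ?_
        rw [← mul_sum, mul_div_assoc]
    _ ≤ (∑ s ∈ range l, (En B w c s f + 4 * M ^ 2 * rim B w c l)) / l :=
        div_le_div_of_nonneg_right (sum_le_sum h2) hl0.le
    _ = (∑ s ∈ range l, En B w c s f) / l + 4 * M ^ 2 * rim B w c l := by
        rw [sum_add_distrib, sum_const, card_range, nsmul_eq_mul, add_div,
          mul_div_cancel_left₀ _ hl0.ne']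

theorem En_le_Dm (hw : ∀ x ∈ B, 0 ≤ w x) {s : ℕ}
    (hR : ∀ x ∈ B, x + s • c ∈ B → w x ≤ R * w (x + s • c)) (hR1 : 1 ≤ R) (f : G → ℝ) :
    En B w c s f ≤ R * Dm B w c s f := by
  unfold En Dm
  rw [mul_sum]
  refine sum_le_sum fun x hx => ?_
  rw [mem_filter] at hx
  rw [← mul_assoc]
  refine mul_le_mul_of_nonneg_right ?_ (sq_nonneg _)
  rcases le_total (w x) (w (x + s • c)) with h | h
  · rw [min_eq_left h]
    exact le_mul_of_one_le_left (hw x hx.1) hR1
  · rw [min_eq_right h]
    exact hR x hx.1 hx.2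

theorem En_zero (f : G → ℝ) : En B w c 0 f = 0 := by
  unfold En
  refine sum_eq_zero fun x _ => ?_
  simp

/-- the longest move against two shorter ones -/
theorem En_split (hw : ∀ x ∈ B, 0 ≤ w x) {s t : ℕ} (hst : s + t ≤ l)
    (hR : ∀ s ≤ l, ∀ x ∈ B, x + s • c ∈ B → w x ≤ R * w (x + s • c))
    (hR0 : 0 ≤ R) {f : G → ℝ} {M : ℝ} (hf : ∀ x, |f x| ≤ M) :
    En B w c (s + t) f ≤ 2 * R * En B w c t f + 2 * En B w c s f + 4 * M ^ 2 * rim B w c l := by
  -- indicator function of the t-move
  let h : G → ℝ := fun y => if y ∈ B ∧ y + t • c ∈ B then (f (y + t • c) - f y) ^ 2 else 0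
  have hh : ∀ y, 0 ≤ h y := by
    intro y; simp only [h]; split_ifs
    · positivity
    · exact le_rfl
  have hS : S B w h = En B w c t f := by
    unfold S En
    rw [sum_filter]
    refine sum_congr rfl fun y hy => ?_
    simp only [h]
    by_cases hc : y + t • c ∈ B
    · rw [if_pos ⟨hy, hc⟩, if_pos hc]
    · rw [if_neg (fun hcc => hc hcc.2), if_neg hc, mul_zero]
  have h1 := shift_in_le hw (hR s (by omega)) hR0 hh
  rw [hS] at h1
  unfold En at h1 ⊢
  rw [← sum_filter_add_sum_filter_not (B.filter (fun x => x + (s + t) • c ∈ B))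
    (fun x => x + s • c ∈ B)]
  refine add_le_add ?_ ?_
  · -- good points
    calc ∑ x ∈ (B.filter (fun x => x + (s + t) • c ∈ B)).filter (fun x => x + s • c ∈ B),
          w x * (f (x + (s + t) • c) - f x) ^ 2
        ≤ ∑ x ∈ (B.filter (fun x => x + (s + t) • c ∈ B)).filter (fun x => x + s • c ∈ B),
          (2 * (w x * h (x + s • c)) + 2 * (w x * (f (x + s • c) - f x) ^ 2)) := by
          refine sum_le_sum fun x hx => ?_
          rw [mem_filter, mem_filter] at hx
          have e : x + (s + t) • c = x + s • c + t • c := by rw [add_smul]; abel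
          have hin : x + s • c + t • c ∈ B := by rw [← e]; exact hx.1.2
          have hv : h (x + s • c) = (f (x + s • c + t • c) - f (x + s • c)) ^ 2 := by
            simp only [h]; rw [if_pos ⟨hx.2, hin⟩]
          rw [hv, e]
          have : (f (x + s • c + t • c) - f x) ^ 2
              ≤ 2 * (f (x + s • c + t • c) - f (x + s • c)) ^ 2
                + 2 * (f (x + s • c) - f x) ^ 2 := by
            nlinarith [sq_nonneg ((f (x + s • c + t • c) - f (x + s • c)) - (f (x + s • c) - f x))]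
          have := mul_le_mul_of_nonneg_left this (hw x hx.1.1)
          linarith
      _ = 2 * ∑ x ∈ (B.filter (fun x => x + (s + t) • c ∈ B)).filter (fun x => x + s • c ∈ B),
            w x * h (x + s • c)
          + 2 * ∑ x ∈ (B.filter (fun x => x + (s + t) • c ∈ B)).filter (fun x => x + s • c ∈ B),
            w x * (f (x + s • c) - f x) ^ 2 := by
          rw [sum_add_distrib, mul_sum, mul_sum]
      _ ≤ 2 * ∑ x ∈ B.filter (fun x => x + s • c ∈ B), w x * h (x + s • c)
          + 2 * ∑ x ∈ B.filter (fun x => x + s • c ∈ B), w x * (f (x + s • c) - f x) ^ 2 := by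
          have hsub : (B.filter (fun x => x + (s + t) • c ∈ B)).filter (fun x => x + s • c ∈ B)
              ⊆ B.filter (fun x => x + s • c ∈ B) := by
            intro x hx
            rw [mem_filter, mem_filter] at hx
            exact mem_filter.2 ⟨hx.1.1, hx.2⟩
          refine add_le_add ?_ ?_ <;> refine mul_le_mul_of_nonneg_left ?_ (by norm_num)
          · exact sum_le_sum_of_subset_of_nonneg hsub fun x hx _ =>
              mul_nonneg (hw x (mem_filter.1 hx).1) (hh _)
          · exact sum_le_sum_of_subset_of_nonneg hsub fun x hx _ =>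
              mul_nonneg (hw x (mem_filter.1 hx).1) (sq_nonneg _)
      _ ≤ _ := by linarith
  · have hM : 0 ≤ M := (abs_nonneg _).trans (hf 0)
    calc ∑ x ∈ (B.filter (fun x => x + (s + t) • c ∈ B)).filter (fun x => ¬ x + s • c ∈ B),
          w x * (f (x + (s + t) • c) - f x) ^ 2
        ≤ ∑ x ∈ (B.filter (fun x => x + (s + t) • c ∈ B)).filter (fun x => ¬ x + s • c ∈ B),
          4 * M ^ 2 * w x := by
          refine sum_le_sum fun x hx => ?_
          rw [mem_filter, mem_filter] at hx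
          have h3 : (f (x + (s + t) • c) - f x) ^ 2 ≤ 4 * M ^ 2 := by
            have a1 := abs_le.1 (hf (x + (s + t) • c))
            have a2 := abs_le.1 (hf x)
            nlinarith
          have := mul_le_mul_of_nonneg_left h3 (hw x hx.1.1)
          linarith
      _ ≤ ∑ x ∈ B.filter (fun x => ¬ x + s • c ∈ B), 4 * M ^ 2 * w x := by
          refine sum_le_sum_of_subset_of_nonneg ?_ fun x hx _ =>
            mul_nonneg (by positivity) (hw x (mem_filter.1 hx).1)
          intro x hx
          rw [mem_filter, mem_filter] at hx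
          exact mem_filter.2 ⟨hx.1.1, hx.2⟩
      _ = 4 * M ^ 2 * ∑ x ∈ B.filter (fun x => ¬ x + s • c ∈ B), w x := by rw [mul_sum]
      _ ≤ 4 * M ^ 2 * rim B w c l :=
          mul_le_mul_of_nonneg_left (out_le_rim hw (by omega)) (by positivity)

/-- the longest move against the average -/
theorem En_long (hw : ∀ x ∈ B, 0 ≤ w x) (hl : 1 ≤ l)
    (hR : ∀ s ≤ l, ∀ x ∈ B, x + s • c ∈ B → w x ≤ R * w (x + s • c))
    (hR1 : 1 ≤ R) {f : G → ℝ} {M : ℝ} (hf : ∀ x, |f x| ≤ M) :
    En B w c l f ≤ (2 * R + 2) * ((∑ s ∈ range l, En B w c (s + 1) f) / l)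
      + 4 * M ^ 2 * rim B w c l := by
  have hl0 : (0 : ℝ) < l := by exact_mod_cast hl
  have hR0 : 0 ≤ R := by linarith
  have h1 : ∀ s ∈ range l, En B w c l f
      ≤ 2 * R * En B w c (l - s) f + 2 * En B w c s f + 4 * M ^ 2 * rim B w c l := by
    intro s hs
    have hs' := mem_range.1 hs
    have := En_split (s := s) (t := l - s) hw (by omega) hR hR0 hf
    rwa [show s + (l - s) = l by omega] at this
  have h2 := sum_le_sum h1
  rw [sum_const, card_range, nsmul_eq_mul, sum_add_distrib, sum_add_distrib, sum_const,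
    card_range, nsmul_eq_mul, ← mul_sum, ← mul_sum] at h2
  have h3 : ∑ s ∈ range l, En B w c (l - s) f = ∑ s ∈ range l, En B w c (s + 1) f := by
    rw [← sum_range_reflect (fun s => En B w c (s + 1) f) l]
    refine sum_congr rfl fun s hs => ?_
    have := mem_range.1 hs
    congr 1
    omega
  have h4 : ∑ s ∈ range l, En B w c s f ≤ ∑ s ∈ range l, En B w c (s + 1) f := by
    have e1 := sum_range_succ (fun s => En B w c s f) l
    have e2 := sum_range_succ' (fun s => En B w c s f) l
    rw [En_zero, add_zero] at e2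
    have := En_nonneg (c := c) hw l f
    linarith
  rw [h3] at h2
  rw [← sub_le_iff_le_add, mul_div_assoc', le_div_iff₀ hl0]
  nlinarith

theorem sum_En_le (hw : ∀ x ∈ B, 0 ≤ w x) (hl : 1 ≤ l)
    (hR : ∀ s ≤ l, ∀ x ∈ B, x + s • c ∈ B → w x ≤ R * w (x + s • c))
    (hR1 : 1 ≤ R) (f : G → ℝ) :
    (∑ s ∈ range l, En B w c (s + 1) f) / l ≤ R * aDm B w c l f := by
  have hl0 : (0 : ℝ) < l := by exact_mod_cast hl
  unfold aDm
  rw [← mul_div_assoc]
  refine div_le_div_of_nonneg_right ?_ hl0.le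
  rw [mul_sum]
  exact sum_le_sum fun s hs => En_le_Dm hw (hR (s + 1) (by have := mem_range.1 hs; omega)) hR1 f

theorem sum_En0_le (hw : ∀ x ∈ B, 0 ≤ w x) (f : G → ℝ) :
    (∑ s ∈ range l, En B w c s f) / l ≤ (∑ s ∈ range l, En B w c (s + 1) f) / l := by
  refine div_le_div_of_nonneg_right ?_ (Nat.cast_nonneg _)
  have e1 := sum_range_succ (fun s => En B w c s f) l
  have e2 := sum_range_succ' (fun s => En B w c s f) l
  rw [En_zero, add_zero] at e2
  have := En_nonneg (c := c) hw l f
  linarith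

end one

section many

variable {ι : Type*} [DecidableEq ι]

/-- iterated local average -/
noncomputable def avL (c : ι → G) (l : ι → ℕ) (L : List ι) (f : G → ℝ) : G → ℝ :=
  L.foldr (fun j g => av (c j) (l j) g) f

omit [DecidableEq G] [DecidableEq ι] in
@[simp] theorem avL_nil (c : ι → G) (l : ι → ℕ) (f : G → ℝ) : avL c l [] f = f := rfl

omit [DecidableEq G] [DecidableEq ι] in
@[simp] theorem avL_cons (c : ι → G) (l : ι → ℕ) (j : ι) (L : List ι) (f : G → ℝ) :
    avL c l (j :: L) f = av (c j) (l j) (avL c l L f) := rfl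

variable {B : Finset G} {w : G → ℝ} {c : ι → G} {l : ι → ℕ} {R : ι → ℝ}

omit [DecidableEq G] [DecidableEq ι] in
theorem avL_abs_le (hl : ∀ j, 1 ≤ l j) {f : G → ℝ} {M : ℝ} (hf : ∀ x, |f x| ≤ M) :
    ∀ (L : List ι) (x : G), |avL c l L f x| ≤ M
  | [], x => hf x
  | j :: L, x => av_abs_le (hl j) (avL_abs_le hl hf L) x

omit [DecidableEq G] [DecidableEq ι] in
theorem avL_mono {g h : G → ℝ} (hgh : ∀ x, g x ≤ h x) :
    ∀ (L : List ι) (x : G), avL c l L g x ≤ avL c l L h x
  | [], x => hgh x
  | _ :: L, x => av_mono _ _ (avL_mono hgh L) x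

omit [DecidableEq G] [DecidableEq ι] in
theorem avL_sq_le (hl : ∀ j, 1 ≤ l j) (g : G → ℝ) :
    ∀ (L : List ι) (x : G), (avL c l L g x) ^ 2 ≤ avL c l L (fun y => g y ^ 2) x
  | [], _ => le_rfl
  | j :: L, x => (av_sq_le (hl j) _ x).trans (av_mono _ _ (avL_sq_le hl g L) x)

omit [DecidableEq G] [DecidableEq ι] in
theorem avL_nonneg {h : G → ℝ} (hh : ∀ x, 0 ≤ h x) :
    ∀ (L : List ι) (x : G), 0 ≤ avL c l L h x
  | [], x => hh x
  | _ :: L, _ => div_nonneg (sum_nonneg fun _ _ => avL_nonneg hh L _) (Nat.cast_nonneg _)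

omit [DecidableEq G] [DecidableEq ι] in
theorem avL_le {h : G → ℝ} (hl : ∀ j, 1 ≤ l j) {H : ℝ} (hH : ∀ x, h x ≤ H) :
    ∀ (L : List ι) (x : G), avL c l L h x ≤ H
  | [], x => hH x
  | j :: L, x => by
    have hl0 : (0 : ℝ) < l j := by exact_mod_cast hl j
    rw [avL_cons, av, div_le_iff₀ hl0]
    calc ∑ s ∈ range (l j), avL c l L h (x + s • c j) ≤ ∑ _s ∈ range (l j), H :=
          sum_le_sum fun s _ => avL_le hl hH L _
      _ = H * l j := by rw [sum_const, card_range, nsmul_eq_mul, mul_comm]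

omit [DecidableEq G] [DecidableEq ι] in
theorem avL_smul (a : ℝ) (g : G → ℝ) :
    ∀ (L : List ι) (x : G), avL c l L (fun y => a * g y) x = a * avL c l L g x
  | [], _ => rfl
  | j :: L, _ => by
    rw [avL_cons, avL_cons, av, av, mul_div_assoc', mul_sum]
    congr 1
    exact sum_congr rfl fun s _ => avL_smul a g L _

omit [DecidableEq G] [DecidableEq ι] in
theorem avL_sub (f g : G → ℝ) :
    ∀ (L : List ι) (x : G), avL c l L (fun y => f y - g y) x = avL c l L f x - avL c l L g x
  | [], _ => rfl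
  | j :: L, _ => by
    rw [avL_cons, avL_cons, avL_cons, av, av, av, ← sub_div, ← sum_sub_distrib]
    congr 1
    exact sum_congr rfl fun s _ => avL_sub f g L _

omit [DecidableEq G] [DecidableEq ι] in
/-- translation invariance -/
theorem avL_shift (g : G → ℝ) (d : G) :
    ∀ (L : List ι) (x : G), avL c l L (fun y => g (y + d)) x = avL c l L g (x + d)
  | [], _ => rfl
  | j :: L, x => by
    rw [avL_cons, avL_cons, av, av]
    congr 1
    refine sum_congr rfl fun s _ => ?_
    rw [avL_shift g d L]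
    congr 1
    abel

omit [DecidableEq G] in
/-- gradient of the iterated average -/
theorem avL_grad (f : G → ℝ) (k : ι) :
    ∀ (L : List ι), k ∈ L → ∀ x : G, avL c l L f (x + c k) - avL c l L f x
      = avL c l (L.erase k) (fun y => (f (y + l k • c k) - f y) / l k) x
  | [], h, _ => absurd h (List.not_mem_nil)
  | j :: L, h, x => by
    by_cases hjk : j = k
    · subst hjk
      rw [List.erase_cons_head, avL_cons, av_grad, ← avL_shift, ← avL_sub]
      have := avL_smul (c := c) (l := l) (1 / (l j : ℝ)) (fun y => f (y + l j • c j) - f y) L x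
      rw [div_eq_inv_mul, ← one_div, ← this]
      congr 1
      funext y
      rw [one_div, div_eq_inv_mul]
    · have hk : k ∈ L := by
        rcases List.mem_cons.1 h with h | h
        · exact absurd h.symm hjk
        · exact h
      rw [List.erase_cons_tail (by simpa using hjk)]
      rw [avL_cons, avL_cons, av, av, av, ← sub_div, ← sum_sub_distrib]
      congr 1
      refine sum_congr rfl fun s _ => ?_
      rw [← avL_grad f k L hk (x + s • c j)]
      congr 2
      abel

omit [DecidableEq ι] in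
/-- iterated change of variables: list version -/
theorem avL_S_le (hw : ∀ x ∈ B, 0 ≤ w x) (hl : ∀ j, 1 ≤ l j)
    (hR : ∀ j, ∀ s ≤ l j, ∀ x ∈ B, x + s • c j ∈ B → w x ≤ R j * w (x + s • c j))
    (hR1 : ∀ j, 1 ≤ R j) {h : G → ℝ} (hh : ∀ x, 0 ≤ h x) {H : ℝ} (hH : ∀ x, h x ≤ H) :
    ∀ L : List ι, S B w (avL c l L h)
      ≤ (L.map R).prod * (S B w h + H * (L.map fun j => rim B w (c j) (l j)).sum)
  | [] => by simp
  | j :: L => by
    have hR0 : 0 ≤ R j := by linarith [hR1 j]
    have hH0 : 0 ≤ H := (hh 0).trans (hH 0)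
    have ih := avL_S_le hw hl hR hR1 hh hH L
    have h1 := av_S_le (c := c j) (l := l j) hw (hl j) (hR j) hR0
      (avL_nonneg (c := c) (l := l) hh L) (avL_le (c := c) hl hH L)
    have hP : 1 ≤ (L.map R).prod := by
      clear ih h1
      induction L with
      | nil => simp
      | cons a L ihL =>
        rw [List.map_cons, List.prod_cons]
        nlinarith [hR1 a]
    have hrj : 0 ≤ rim B w (c j) (l j) := rim_nonneg hw
    rw [avL_cons, List.map_cons, List.prod_cons, List.map_cons, List.sum_cons]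
    calc S B w (av (c j) (l j) (avL c l L h))
        ≤ R j * S B w (avL c l L h) + H * rim B w (c j) (l j) := h1
      _ ≤ R j * ((L.map R).prod * (S B w h + H * (L.map fun j => rim B w (c j) (l j)).sum))
          + H * rim B w (c j) (l j) := by gcongr
      _ ≤ R j * ((L.map R).prod * (S B w h + H * (L.map fun j => rim B w (c j) (l j)).sum))
          + (R j * (L.map R).prod) * (H * rim B w (c j) (l j)) := by
          have h3 : 1 ≤ R j * (L.map R).prod := by nlinarith [hR1 j]
          have h4 : 0 ≤ H * rim B w (c j) (l j) := mul_nonneg hH0 hrj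
          nlinarith
      _ = _ := by ring


omit [DecidableEq G] [DecidableEq ι] in
theorem one_le_prod (hR1 : ∀ j, 1 ≤ R j) : ∀ L : List ι, 1 ≤ (L.map R).prod
  | [] => by simp
  | a :: L => by
    rw [List.map_cons, List.prod_cons]
    nlinarith [hR1 a, one_le_prod hR1 L]

omit [DecidableEq ι] in
/-- replacement error of the iterated average -/
theorem avL_replace (hw : ∀ x ∈ B, 0 ≤ w x) (hl : ∀ j, 1 ≤ l j)
    (hR : ∀ j, ∀ s ≤ l j, ∀ x ∈ B, x + s • c j ∈ B → w x ≤ R j * w (x + s • c j))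
    (hR1 : ∀ j, 1 ≤ R j) {f : G → ℝ} {M : ℝ} (hf : ∀ x, |f x| ≤ M) :
    ∀ L : List ι, S B w (fun x => (f x - avL c l L f x) ^ 2)
      ≤ L.length * ((L.map R).prod * ((L.map fun j => S B w (fun x =>
          (f x - av (c j) (l j) f x) ^ 2)).sum
          + L.length * (4 * M ^ 2 * (L.map fun j => rim B w (c j) (l j)).sum)))
  | [] => by simp [S]
  | j :: L => by
    have hR0 : 0 ≤ R j := by linarith [hR1 j]
    have hM : 0 ≤ M := (abs_nonneg _).trans (hf 0)
    have ih := avL_replace hw hl hR hR1 hf L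
    have hP := one_le_prod hR1 L
    have hP' := one_le_prod hR1 (j :: L)
    rw [List.map_cons, List.prod_cons] at hP'
    have hrj : 0 ≤ rim B w (c j) (l j) := rim_nonneg hw
    have hrL : 0 ≤ (L.map fun j => rim B w (c j) (l j)).sum :=
      List.sum_nonneg (by
        intro a ha
        obtain ⟨i, _, rfl⟩ := List.mem_map.1 ha
        exact rim_nonneg hw)
    have hQj : 0 ≤ S B w (fun x => (f x - av (c j) (l j) f x) ^ 2) :=
      S_nonneg hw fun _ => sq_nonneg _
    have hQL : 0 ≤ (L.map fun j => S B w (fun x => (f x - av (c j) (l j) f x) ^ 2)).sum :=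
      List.sum_nonneg (by
        intro a ha
        obtain ⟨i, _, rfl⟩ := List.mem_map.1 ha
        exact S_nonneg hw fun _ => sq_nonneg _)
    -- the second part
    have hb : S B w (fun x => (av (c j) (l j) (fun y => f y - avL c l L f y) x) ^ 2)
        ≤ R j * S B w (fun x => (f x - avL c l L f x) ^ 2)
          + 4 * M ^ 2 * rim B w (c j) (l j) := by
      refine (S_mono hw fun x => av_sq_le (hl j) _ x).trans ?_
      refine av_S_le hw (hl j) (hR j) hR0 (fun _ => sq_nonneg _) ?_
      intro x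
      have a1 := abs_le.1 (hf x)
      have a2 := abs_le.1 (avL_abs_le (c := c) hl hf L x)
      nlinarith
    have hsplit : ∀ x, f x - avL c l (j :: L) f x
        = (f x - av (c j) (l j) f x) + av (c j) (l j) (fun y => f y - avL c l L f y) x := by
      intro x
      have : av (c j) (l j) (fun y => f y - avL c l L f y) x
          = av (c j) (l j) f x - av (c j) (l j) (avL c l L f) x := by
        unfold av; rw [← sub_div, ← sum_sub_distrib]
      rw [this, avL_cons]; ring
    rw [List.map_cons, List.prod_cons, List.map_cons, List.sum_cons, List.map_cons, List.sum_cons,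
      List.length_cons]
    rcases Nat.eq_zero_or_pos L.length with h0 | hpos
    · have hL : L = [] := List.length_eq_zero_iff.1 h0
      subst hL
      have : S B w (fun x => (f x - avL c l [j] f x) ^ 2)
          = S B w (fun x => (f x - av (c j) (l j) f x) ^ 2) := rfl
      rw [this]
      simp only [List.length_nil, List.map_nil, List.prod_nil, List.sum_nil]
      have h5 : 0 ≤ 4 * M ^ 2 * rim B w (c j) (l j) := by positivity
      push_cast
      nlinarith [hR1 j]
    · set n : ℝ := (L.length : ℝ) with hn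
      have hn1 : 1 ≤ n := by rw [hn]; exact_mod_cast hpos
      have hn0 : 0 < n := by linarith
      have hpt : n * S B w (fun x => (f x - avL c l (j :: L) f x) ^ 2)
          ≤ n * (n + 1) * S B w (fun x => (f x - av (c j) (l j) f x) ^ 2)
            + (n + 1) * S B w (fun x => (av (c j) (l j) (fun y => f y - avL c l L f y) x) ^ 2) := by
        rw [← S_smul, ← S_smul, ← S_smul, ← S_add]
        refine S_mono hw fun x => ?_
        rw [hsplit x]
        nlinarith [sq_nonneg (n * (f x - av (c j) (l j) f x)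
          - av (c j) (l j) (fun y => f y - avL c l L f y) x)]
      set P := S B w (fun x => (f x - avL c l (j :: L) f x) ^ 2) with hPdef
      set Qj := S B w (fun x => (f x - av (c j) (l j) f x) ^ 2) with hQjdef
      set QL := (L.map fun j => S B w (fun x => (f x - av (c j) (l j) f x) ^ 2)).sum with hQLdef
      set rj := rim B w (c j) (l j) with hrjdef
      set rL := (L.map fun j => rim B w (c j) (l j)).sum with hrLdef
      set PR := (L.map R).prod with hPR
      set bb := S B w (fun x => (av (c j) (l j) (fun y => f y - avL c l L f y) x) ^ 2) with hbb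
      set PL := S B w (fun x => (f x - avL c l L f x) ^ 2) with hPL
      have hbb2 : bb ≤ n * (R j * PR * (QL + n * (4 * M ^ 2 * (rj + rL)))) := by
        calc bb ≤ R j * PL + 4 * M ^ 2 * rj := hb
          _ ≤ R j * (n * (PR * (QL + n * (4 * M ^ 2 * rL)))) + 4 * M ^ 2 * rj := by gcongr
          _ ≤ R j * (n * (PR * (QL + n * (4 * M ^ 2 * rL))))
              + (R j * PR) * (n * (n * (4 * M ^ 2 * rj))) := by
              have h5 : 0 ≤ 4 * M ^ 2 * rj := by positivity
              have h6 : 1 ≤ n * n := by nlinarith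
              have h7 : 4 * M ^ 2 * rj ≤ n * (n * (4 * M ^ 2 * rj)) := by nlinarith
              have h8 : 0 ≤ n * (n * (4 * M ^ 2 * rj)) := h5.trans h7
              nlinarith
          _ = _ := by ring
      have hQj2 : Qj ≤ R j * PR * (Qj + 4 * M ^ 2 * (rj + rL)) := by
        have h5 : 0 ≤ 4 * M ^ 2 * (rj + rL) := by positivity
        nlinarith
      have hfin : n * P ≤ n * ((n + 1) * (R j * PR * (Qj + QL
          + (n + 1) * (4 * M ^ 2 * (rj + rL))))) := by
        calc n * P ≤ n * (n + 1) * Qj + (n + 1) * bb := hpt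
          _ ≤ n * (n + 1) * (R j * PR * (Qj + 4 * M ^ 2 * (rj + rL)))
              + (n + 1) * (n * (R j * PR * (QL + n * (4 * M ^ 2 * (rj + rL))))) := by gcongr
          _ = _ := by ring
      have := le_of_mul_le_mul_left hfin hn0
      push_cast
      exact this

/-- the gradient of the iterated average is controlled by the macro moves -/
theorem avL_grad_le (hw : ∀ x ∈ B, 0 ≤ w x) (hl : ∀ j, 1 ≤ l j)
    (hR : ∀ j, ∀ s ≤ l j, ∀ x ∈ B, x + s • c j ∈ B → w x ≤ R j * w (x + s • c j))
    (hR1 : ∀ j, 1 ≤ R j) {f : G → ℝ} {M : ℝ} (hf : ∀ x, |f x| ≤ M) (L : List ι)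
    (hR3 : (L.map R).prod ≤ 3) (k : ι) (hk : k ∈ L) :
    S B w (fun x => (avL c l L f (x + c k) - avL c l L f x) ^ 2)
      ≤ (72 * aDm B w (c k) (l k) f
          + 36 * M ^ 2 * (L.map fun j => rim B w (c j) (l j)).sum) / (l k : ℝ) ^ 2 := by
  have hM : 0 ≤ M := (abs_nonneg _).trans (hf 0)
  have hlk : (0 : ℝ) < l k := by exact_mod_cast hl k
  have hperm := List.perm_cons_erase hk
  have hprod : R k * ((L.erase k).map R).prod = (L.map R).prod := by
    rw [(hperm.map R).prod_eq, List.map_cons, List.prod_cons]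
  have hsum : rim B w (c k) (l k) + ((L.erase k).map fun j => rim B w (c j) (l j)).sum
      = (L.map fun j => rim B w (c j) (l j)).sum := by
    rw [(hperm.map fun j => rim B w (c j) (l j)).sum_eq, List.map_cons, List.sum_cons]
  set ρ := (L.map fun j => rim B w (c j) (l j)).sum with hρ
  have hrk : 0 ≤ rim B w (c k) (l k) := rim_nonneg hw
  have hre : 0 ≤ ((L.erase k).map fun j => rim B w (c j) (l j)).sum :=
    List.sum_nonneg (by
      intro a ha
      obtain ⟨i, _, rfl⟩ := List.mem_map.1 ha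
      exact rim_nonneg hw)
  have hpe := one_le_prod hR1 (L.erase k)
  have hRk3 : R k ≤ 3 := by nlinarith [hR1 k]
  have hpe3 : ((L.erase k).map R).prod ≤ 3 := by nlinarith [hR1 k]
  have hρ0 : 0 ≤ ρ := by linarith
  -- the energy of the longest move
  have hEn : En B w (c k) (l k) f ≤ 24 * aDm B w (c k) (l k) f + 4 * M ^ 2 * rim B w (c k) (l k) := by
    have h1 := En_long hw (hl k) (hR k) (hR1 k) hf
    have h2 := sum_En_le hw (hl k) (hR k) (hR1 k) f
    have h3 := aDm_nonneg (c := c k) hw (l k) f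
    have h4 : (2 * R k + 2) * ((∑ s ∈ range (l k), En B w (c k) (s + 1) f) / l k)
        ≤ 24 * aDm B w (c k) (l k) f := by
      calc (2 * R k + 2) * ((∑ s ∈ range (l k), En B w (c k) (s + 1) f) / l k)
          ≤ (2 * R k + 2) * (R k * aDm B w (c k) (l k) f) :=
            mul_le_mul_of_nonneg_left h2 (by linarith [hR1 k])
        _ = ((2 * R k + 2) * R k) * aDm B w (c k) (l k) f := by ring
        _ ≤ 24 * aDm B w (c k) (l k) f := by
            refine mul_le_mul_of_nonneg_right ?_ h3
            nlinarith [hR1 k]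
    linarith
  have hfull : S B w (fun x => (f (x + l k • c k) - f x) ^ 2)
      ≤ 24 * aDm B w (c k) (l k) f + 8 * M ^ 2 * rim B w (c k) (l k) := by
    have : S B w (fun x => (f (x + l k • c k) - f x) ^ 2)
        ≤ En B w (c k) (l k) f + 4 * M ^ 2 * rim B w (c k) (l k) := by
      unfold S
      rw [← sum_filter_add_sum_filter_not B (fun x => x + l k • c k ∈ B)]
      refine add_le_add le_rfl ?_
      calc ∑ x ∈ B.filter (fun x => ¬ x + l k • c k ∈ B), w x * (f (x + l k • c k) - f x) ^ 2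
          ≤ ∑ x ∈ B.filter (fun x => ¬ x + l k • c k ∈ B), 4 * M ^ 2 * w x := by
            refine sum_le_sum fun x hx => ?_
            have h3 : (f (x + l k • c k) - f x) ^ 2 ≤ 4 * M ^ 2 := by
              have a1 := abs_le.1 (hf (x + l k • c k))
              have a2 := abs_le.1 (hf x)
              nlinarith
            have := mul_le_mul_of_nonneg_left h3 (hw x (mem_filter.1 hx).1)
            linarith
        _ = 4 * M ^ 2 * ∑ x ∈ B.filter (fun x => ¬ x + l k • c k ∈ B), w x := by rw [mul_sum]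
        _ ≤ 4 * M ^ 2 * rim B w (c k) (l k) :=
            mul_le_mul_of_nonneg_left (out_le_rim hw le_rfl) (by positivity)
    linarith
  let u : G → ℝ := fun y => (f (y + l k • c k) - f y) / l k
  have hu2 : ∀ y, u y ^ 2 ≤ 4 * M ^ 2 / (l k : ℝ) ^ 2 := by
    intro y
    simp only [u]
    rw [div_pow]
    refine div_le_div_of_nonneg_right ?_ (by positivity)
    have a1 := abs_le.1 (hf (y + l k • c k))
    have a2 := abs_le.1 (hf y)
    nlinarith
  have hSu : S B w (fun y => u y ^ 2)
      = S B w (fun x => (f (x + l k • c k) - f x) ^ 2) / (l k : ℝ) ^ 2 := by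
    rw [div_eq_inv_mul, ← S_smul]
    unfold S
    refine sum_congr rfl fun x _ => ?_
    simp only [u]
    rw [div_pow, div_eq_inv_mul]
  calc S B w (fun x => (avL c l L f (x + c k) - avL c l L f x) ^ 2)
      = S B w (fun x => (avL c l (L.erase k) u x) ^ 2) := by
        unfold S
        refine sum_congr rfl fun x _ => ?_
        show w x * (avL c l L f (x + c k) - avL c l L f x) ^ 2
          = w x * (avL c l (L.erase k) u x) ^ 2
        rw [avL_grad f k L hk x]
    _ ≤ S B w (avL c l (L.erase k) (fun y => u y ^ 2)) :=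
        S_mono hw fun x => avL_sq_le hl u _ x
    _ ≤ ((L.erase k).map R).prod * (S B w (fun y => u y ^ 2)
        + 4 * M ^ 2 / (l k : ℝ) ^ 2 * ((L.erase k).map fun j => rim B w (c j) (l j)).sum) :=
        avL_S_le hw hl hR hR1 (fun _ => sq_nonneg _) hu2 _
    _ ≤ 3 * ((24 * aDm B w (c k) (l k) f + 8 * M ^ 2 * ρ) / (l k : ℝ) ^ 2
        + 4 * M ^ 2 / (l k : ℝ) ^ 2 * ρ) := by
        rw [hSu]
        have h0 : 0 ≤ S B w (fun x => (f (x + l k • c k) - f x) ^ 2) / (l k : ℝ) ^ 2
            + 4 * M ^ 2 / (l k : ℝ) ^ 2 * ((L.erase k).map fun j => rim B w (c j) (l j)).sum :=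
          add_nonneg (div_nonneg (S_nonneg hw fun _ => sq_nonneg _) (by positivity))
            (mul_nonneg (by positivity) hre)
        refine mul_le_mul hpe3 ?_ h0 (by norm_num)
        refine add_le_add ?_ ?_
        · refine div_le_div_of_nonneg_right ?_ (by positivity)
          refine hfull.trans ?_
          have : 8 * M ^ 2 * rim B w (c k) (l k) ≤ 8 * M ^ 2 * ρ :=
            mul_le_mul_of_nonneg_left (by linarith) (by positivity)
          linarith
        · exact mul_le_mul_of_nonneg_left (by linarith) (by positivity)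
    _ = _ := by field_simp; ring

/-- mean over the domain -/
noncomputable def mn (B : Finset G) (w f : G → ℝ) : ℝ := S B w f / ∑ x ∈ B, w x

/-- unnormalised variance -/
noncomputable def vr (B : Finset G) (w f : G → ℝ) : ℝ := S B w (fun x => (f x - mn B w f) ^ 2)

omit [AddCommGroup G] [DecidableEq G] in
theorem vr_le (hm : ∑ x ∈ B, w x ≠ 0) (hw : ∀ x ∈ B, 0 ≤ w x) (f : G → ℝ) (a : ℝ) :
    vr B w f ≤ S B w (fun x => (f x - a) ^ 2) := by
  have hmn : mn B w f * ∑ x ∈ B, w x = S B w f := div_mul_cancel₀ _ hm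
  have h1 : S B w (fun x => (f x - a) ^ 2)
      = vr B w f + (mn B w f - a) ^ 2 * ∑ x ∈ B, w x := by
    unfold vr
    have e : ∀ x, (f x - a) ^ 2 = (f x - mn B w f) ^ 2
        + (2 * (mn B w f - a) * (f x - mn B w f) + (mn B w f - a) ^ 2) := by
      intro x; ring
    have e2 : S B w (fun x => (f x - a) ^ 2) = S B w (fun x => (f x - mn B w f) ^ 2
        + (2 * (mn B w f - a) * (f x - mn B w f) + (mn B w f - a) ^ 2)) := by
      unfold S
      refine sum_congr rfl fun x _ => ?_
      show w x * (f x - a) ^ 2 = w x * ((f x - mn B w f) ^ 2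
        + (2 * (mn B w f - a) * (f x - mn B w f) + (mn B w f - a) ^ 2))
      rw [e x]
    rw [e2, S_add, S_add, S_smul]
    have e3 : S B w (fun x => f x - mn B w f) = 0 := by
      unfold S
      have : ∑ x ∈ B, w x * (f x - mn B w f) = S B w f - mn B w f * ∑ x ∈ B, w x := by
        unfold S
        rw [mul_sum, ← sum_sub_distrib]
        exact sum_congr rfl fun x _ => by ring
      rw [this, hmn, sub_self]
    rw [e3]
    unfold S
    rw [← sum_mul]
    ring
  rw [h1]
  have : 0 ≤ (mn B w f - a) ^ 2 * ∑ x ∈ B, w x := mul_nonneg (sq_nonneg _) (sum_nonneg hw)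
  linarith


omit [DecidableEq ι] in
/-- **Macro moves.**  From a fine Poincaré inequality with defect (unit steps along the moves
`c j`, prefactors `K j`) to the macro chain. -/
theorem macro_moves [Fintype ι] (hw : ∀ x ∈ B, 0 ≤ w x) (hm : ∑ x ∈ B, w x ≠ 0) (hl : ∀ j, 1 ≤ l j)
    (hR : ∀ j, ∀ s ≤ l j, ∀ x ∈ B, x + s • c j ∈ B → w x ≤ R j * w (x + s • c j))
    (hR1 : ∀ j, 1 ≤ R j) (hR3 : ∏ j, R j ≤ 3) {K : ι → ℝ} (hK : ∀ j, 0 ≤ K j) {ε M : ℝ}
    (hfine : ∀ g : G → ℝ, (∀ x, |g x| ≤ M) → vr B w g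
      ≤ ∑ j, K j * S B w (fun x => (g (x + c j) - g x) ^ 2) + ε * M ^ 2)
    {f : G → ℝ} (hf : ∀ x, |f x| ≤ M) :
    vr B w f ≤ ∑ j, (144 * (K j / (l j : ℝ) ^ 2) + 18 * Fintype.card ι) * aDm B w (c j) (l j) f
      + (2 * ε + (72 * ∑ j, K j / (l j : ℝ) ^ 2 + 48 * (Fintype.card ι : ℝ) ^ 2)
        * ∑ j, rim B w (c j) (l j)) * M ^ 2 := by
  classical
  have hM : 0 ≤ M := (abs_nonneg _).trans (hf 0)
  set L : List ι := Finset.univ.toList with hL
  have hLlen : (L.length : ℝ) = Fintype.card ι := by rw [hL, length_toList, card_univ]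
  have hLR : (L.map R).prod = ∏ j, R j := Finset.prod_map_toList _ _
  have hLr : (L.map fun j => rim B w (c j) (l j)).sum = ∑ j, rim B w (c j) (l j) :=
    Finset.sum_map_toList _ _
  have hLQ : (L.map fun j => S B w (fun x => (f x - av (c j) (l j) f x) ^ 2)).sum
      = ∑ j, S B w (fun x => (f x - av (c j) (l j) f x) ^ 2) := Finset.sum_map_toList _ _
  have hmem : ∀ j, j ∈ L := fun j => by rw [hL, mem_toList]; exact mem_univ j
  set D : ℝ := (Fintype.card ι : ℝ) with hD
  have hD0 : 0 ≤ D := Nat.cast_nonneg _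
  set ρ := ∑ j, rim B w (c j) (l j) with hρ
  have hρj : ∀ j, rim B w (c j) (l j) ≤ ρ := fun j =>
    single_le_sum (f := fun j => rim B w (c j) (l j)) (fun i _ => rim_nonneg hw) (mem_univ j)
  have hρ0 : 0 ≤ ρ := sum_nonneg fun j _ => rim_nonneg hw
  have hRj3 : ∀ j, R j ≤ 3 := by
    intro j
    have h1 : (L.map R).prod = R j * ((L.erase j).map R).prod := by
      rw [((List.perm_cons_erase (hmem j)).map R).prod_eq, List.map_cons, List.prod_cons]
    have h2 := one_le_prod hR1 (L.erase j)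
    rw [← hLR, h1] at hR3
    nlinarith [hR1 j]
  -- A f
  set A : G → ℝ := avL c l L f with hA
  have hAb : ∀ x, |A x| ≤ M := avL_abs_le hl hf L
  have h1 := hfine A hAb
  -- replacement
  have h2 := avL_replace hw hl hR hR1 hf L
  rw [hLR, hLQ, hLr, hLlen] at h2
  have hQ : ∀ j, S B w (fun x => (f x - av (c j) (l j) f x) ^ 2)
      ≤ 3 * aDm B w (c j) (l j) f + 4 * M ^ 2 * ρ := by
    intro j
    have e1 := Q_le (c := c j) (l := l j) hw (hl j) hf
    have e2 := sum_En0_le (c := c j) (l := l j) hw f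
    have e3 := sum_En_le hw (hl j) (hR j) (hR1 j) f
    have e4 := aDm_nonneg (c := c j) hw (l j) f
    have e5 : R j * aDm B w (c j) (l j) f ≤ 3 * aDm B w (c j) (l j) f :=
      mul_le_mul_of_nonneg_right (hRj3 j) e4
    have e6 : 4 * M ^ 2 * rim B w (c j) (l j) ≤ 4 * M ^ 2 * ρ :=
      mul_le_mul_of_nonneg_left (hρj j) (by positivity)
    linarith
  have hQs : ∑ j, S B w (fun x => (f x - av (c j) (l j) f x) ^ 2)
      ≤ 3 * ∑ j, aDm B w (c j) (l j) f + D * (4 * M ^ 2 * ρ) := by
    refine (sum_le_sum fun j _ => hQ j).trans (le_of_eq ?_)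
    rw [sum_add_distrib, ← mul_sum, sum_const, card_univ, nsmul_eq_mul]
  have hQ0 : 0 ≤ ∑ j, S B w (fun x => (f x - av (c j) (l j) f x) ^ 2) :=
    sum_nonneg fun j _ => S_nonneg hw fun _ => sq_nonneg _
  have h3 : S B w (fun x => (f x - A x) ^ 2)
      ≤ 9 * D * ∑ j, aDm B w (c j) (l j) f + 24 * D ^ 2 * M ^ 2 * ρ := by
    have e0 : 0 ≤ ∑ j, S B w (fun x => (f x - av (c j) (l j) f x) ^ 2)
        + D * (4 * M ^ 2 * ρ) := by positivity
    calc S B w (fun x => (f x - A x) ^ 2)
        ≤ D * ((∏ j, R j) * (∑ j, S B w (fun x => (f x - av (c j) (l j) f x) ^ 2)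
          + D * (4 * M ^ 2 * ρ))) := h2
      _ ≤ D * (3 * ((3 * ∑ j, aDm B w (c j) (l j) f + D * (4 * M ^ 2 * ρ))
          + D * (4 * M ^ 2 * ρ))) := by
          refine mul_le_mul_of_nonneg_left ?_ hD0
          refine mul_le_mul hR3 (by linarith) e0 (by norm_num)
      _ = _ := by ring
  -- gradients
  have h4 : ∀ j, K j * S B w (fun x => (A (x + c j) - A x) ^ 2)
      ≤ 72 * (K j / (l j : ℝ) ^ 2) * aDm B w (c j) (l j) f
        + K j / (l j : ℝ) ^ 2 * (36 * M ^ 2 * ρ) := by
    intro j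
    have e1 := avL_grad_le hw hl hR hR1 hf L (by rw [hLR]; exact hR3) j (hmem j)
    rw [hLr] at e1
    have e2 := mul_le_mul_of_nonneg_left e1 (hK j)
    refine e2.trans (le_of_eq ?_)
    ring
  have h5 : ∑ j, K j * S B w (fun x => (A (x + c j) - A x) ^ 2)
      ≤ ∑ j, 72 * (K j / (l j : ℝ) ^ 2) * aDm B w (c j) (l j) f
        + (∑ j, K j / (l j : ℝ) ^ 2) * (36 * M ^ 2 * ρ) := by
    refine (sum_le_sum fun j _ => h4 j).trans (le_of_eq ?_)
    rw [sum_add_distrib, ← sum_mul]
  -- decomposition of the variance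
  have h6 : vr B w f ≤ 2 * vr B w A + 2 * S B w (fun x => (f x - A x) ^ 2) := by
    refine (vr_le hm hw f (mn B w A)).trans ?_
    unfold vr
    rw [← S_smul, ← S_smul, ← S_add]
    refine S_mono hw fun x => ?_
    nlinarith [sq_nonneg ((f x - A x) - (A x - mn B w A))]
  have h7 : ∑ j, (144 * (K j / (l j : ℝ) ^ 2) + 18 * D) * aDm B w (c j) (l j) f
      = 2 * ∑ j, 72 * (K j / (l j : ℝ) ^ 2) * aDm B w (c j) (l j) f
        + 18 * D * ∑ j, aDm B w (c j) (l j) f := by
    rw [mul_sum, mul_sum, ← sum_add_distrib]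
    exact sum_congr rfl fun j _ => by ring
  rw [h7]
  linarith

end many

end Crest.Agent.R302.Macro
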