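import Mathlib
import Crest.Agent.R302.Macro541

/-!
Row 302 (helper541).  Macro moves, general version: besides the long moves `c j` there is a second
family of moves `d i` (unit moves / link moves) which is kept as it is and needs no comparability
of the weight along itself (only Metropolis energies inside the domain).
-/

set_option autoImplicit false
open Finset

namespace Crest.Agent.R302.Macro

variable {G : Type*} [AddCommGroup G] [DecidableEq G] {ι κ : Type*}
variable {B : Finset G} {w : G → ℝ} {c : ι → G} {l : ι → ℕ} {R : ι → ℝ}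

/-- domain of a unit move -/
def Bd (B : Finset G) (d : G) : Finset G := B.filter (fun x => x + d ∈ B)

/-- conductance of a unit move -/
def wd (w : G → ℝ) (d x : G) : ℝ := min (w x) (w (x + d))

theorem Dm_one_eq (d : G) (f : G → ℝ) :
    Dm B w d 1 f = S (Bd B d) (wd w d) (fun x => (f (x + d) - f x) ^ 2) := by
  unfold Dm S Bd wd
  simp only [one_smul]

theorem rim_Bd_le (hw : ∀ x ∈ B, 0 ≤ w x) (d e : G) (m : ℕ) :
    rim (Bd B d) (wd w d) e m ≤ 2 * rim B w e m := by
  unfold rim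
  have h1 : ∑ x ∈ (Bd B d).filter (fun x => ∃ s ∈ range (m + 1), x + s • e ∉ Bd B d), wd w d x
      ≤ ∑ x ∈ (Bd B d).filter (fun x => ∃ s ∈ range (m + 1), x + s • e ∉ B), w x
        + ∑ x ∈ (Bd B d).filter (fun x => ∃ s ∈ range (m + 1), x + d + s • e ∉ B), w (x + d) := by
    have hsub : (Bd B d).filter (fun x => ∃ s ∈ range (m + 1), x + s • e ∉ Bd B d)
        ⊆ (Bd B d).filter (fun x => ∃ s ∈ range (m + 1), x + s • e ∉ B)
          ∪ (Bd B d).filter (fun x => ∃ s ∈ range (m + 1), x + d + s • e ∉ B) := by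
      intro x hx
      rw [mem_filter] at hx
      obtain ⟨hxB, s, hs, hxs⟩ := hx
      rw [mem_union, mem_filter, mem_filter]
      by_cases h : x + s • e ∈ B
      · right
        refine ⟨hxB, s, hs, fun hc => hxs ?_⟩
        unfold Bd
        rw [mem_filter]
        refine ⟨h, ?_⟩
        rwa [show x + s • e + d = x + d + s • e by abel]
      · left
        exact ⟨hxB, s, hs, h⟩
    have hnn : ∀ x ∈ (Bd B d), 0 ≤ wd w d x := by
      intro x hx
      unfold Bd at hx
      rw [mem_filter] at hx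
      exact le_min (hw x hx.1) (hw _ hx.2)
    calc ∑ x ∈ (Bd B d).filter (fun x => ∃ s ∈ range (m + 1), x + s • e ∉ Bd B d), wd w d x
        ≤ ∑ x ∈ (Bd B d).filter (fun x => ∃ s ∈ range (m + 1), x + s • e ∉ B)
          ∪ (Bd B d).filter (fun x => ∃ s ∈ range (m + 1), x + d + s • e ∉ B), wd w d x := by
          refine sum_le_sum_of_subset_of_nonneg hsub fun x hx _ => hnn x ?_
          rcases mem_union.1 hx with h | h <;> exact (mem_filter.1 h).1
      _ ≤ ∑ x ∈ (Bd B d).filter (fun x => ∃ s ∈ range (m + 1), x + s • e ∉ B), wd w d x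
          + ∑ x ∈ (Bd B d).filter (fun x => ∃ s ∈ range (m + 1), x + d + s • e ∉ B), wd w d x := by
          rw [← sum_union_inter]
          have : 0 ≤ ∑ x ∈ (Bd B d).filter (fun x => ∃ s ∈ range (m + 1), x + s • e ∉ B)
              ∩ (Bd B d).filter (fun x => ∃ s ∈ range (m + 1), x + d + s • e ∉ B), wd w d x :=
            sum_nonneg fun x hx => hnn x (mem_filter.1 (mem_inter.1 hx).1).1
          linarith
      _ ≤ _ := add_le_add (sum_le_sum fun x _ => min_le_left _ _)
          (sum_le_sum fun x _ => min_le_right _ _)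
  have h2 : ∑ x ∈ (Bd B d).filter (fun x => ∃ s ∈ range (m + 1), x + s • e ∉ B), w x
      ≤ ∑ x ∈ B.filter (fun x => ∃ s ∈ range (m + 1), x + s • e ∉ B), w x := by
    refine sum_le_sum_of_subset_of_nonneg ?_ fun x hx _ => hw x (mem_filter.1 hx).1
    intro x hx
    unfold Bd at hx
    rw [mem_filter, mem_filter] at hx
    exact mem_filter.2 ⟨hx.1.1, hx.2⟩
  have h3 : ∑ x ∈ (Bd B d).filter (fun x => ∃ s ∈ range (m + 1), x + d + s • e ∉ B), w (x + d)
      ≤ ∑ x ∈ B.filter (fun x => ∃ s ∈ range (m + 1), x + s • e ∉ B), w x := by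
    have : ∑ x ∈ (Bd B d).filter (fun x => ∃ s ∈ range (m + 1), x + d + s • e ∉ B), w (x + d)
        = ∑ y ∈ ((Bd B d).filter (fun x => ∃ s ∈ range (m + 1), x + d + s • e ∉ B)).image
            (fun x => x + d), w y := by
      rw [sum_image]
      intro a _ b _ hab
      exact add_right_cancel hab
    rw [this]
    refine sum_le_sum_of_subset_of_nonneg ?_ fun x hx _ => hw x (mem_filter.1 hx).1
    intro y hy
    obtain ⟨x, hx, rfl⟩ := mem_image.1 hy
    unfold Bd at hx
    rw [mem_filter, mem_filter] at hx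
    exact mem_filter.2 ⟨hx.1.2, hx.2⟩
  linarith

/-- averaging does not increase the energy of a unit move (up to the comparison constant) -/
theorem Dm_avL_le (hw : ∀ x ∈ B, 0 ≤ w x) (hl : ∀ j, 1 ≤ l j)
    (hR : ∀ j, ∀ s ≤ l j, ∀ x ∈ B, x + s • c j ∈ B → w x ≤ R j * w (x + s • c j))
    (hR1 : ∀ j, 1 ≤ R j) {f : G → ℝ} {M : ℝ} (hf : ∀ x, |f x| ≤ M) (L : List ι) (d : G) :
    Dm B w d 1 (avL c l L f) ≤ (L.map R).prod * (Dm B w d 1 f
      + 8 * M ^ 2 * (L.map fun j => rim B w (c j) (l j)).sum) := by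
  have hM : 0 ≤ M := (abs_nonneg _).trans (hf 0)
  rw [Dm_one_eq, Dm_one_eq]
  have hwd : ∀ x ∈ Bd B d, 0 ≤ wd w d x := by
    intro x hx
    unfold Bd at hx
    rw [mem_filter] at hx
    exact le_min (hw x hx.1) (hw _ hx.2)
  have hRd : ∀ j, ∀ s ≤ l j, ∀ x ∈ Bd B d, x + s • c j ∈ Bd B d →
      wd w d x ≤ R j * wd w d (x + s • c j) := by
    intro j s hs x hx hxs
    have hR0 : 0 ≤ R j := by linarith [hR1 j]
    unfold Bd at hx hxs
    rw [mem_filter] at hx hxs
    have h1 := hR j s hs x hx.1 hxs.1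
    have hin : x + d + s • c j ∈ B := by
      rw [show x + d + s • c j = x + s • c j + d by abel]; exact hxs.2
    have h2 := hR j s hs (x + d) hx.2 hin
    rw [show x + d + s • c j = x + s • c j + d by abel] at h2
    unfold wd
    rcases le_total (w (x + s • c j)) (w (x + s • c j + d)) with h | h
    · rw [min_eq_left h]; exact (min_le_left _ _).trans h1
    · rw [min_eq_right h]; exact (min_le_right _ _).trans h2
  have hpt : ∀ x, (avL c l L f (x + d) - avL c l L f x) ^ 2
      ≤ avL c l L (fun y => (f (y + d) - f y) ^ 2) x := by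
    intro x
    rw [← avL_shift, ← avL_sub]
    exact avL_sq_le hl _ L x
  have hH : ∀ x, (f (x + d) - f x) ^ 2 ≤ 4 * M ^ 2 := by
    intro x
    have a1 := abs_le.1 (hf (x + d))
    have a2 := abs_le.1 (hf x)
    nlinarith
  refine (S_mono hwd hpt).trans ?_
  refine (avL_S_le hwd hl hRd hR1 (fun _ => sq_nonneg _) hH L).trans ?_
  have hP : 0 ≤ (L.map R).prod := le_trans zero_le_one (one_le_prod hR1 L)
  refine mul_le_mul_of_nonneg_left (add_le_add le_rfl ?_) hP
  have hsum : (L.map fun j => rim (Bd B d) (wd w d) (c j) (l j)).sum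
      ≤ 2 * (L.map fun j => rim B w (c j) (l j)).sum := by
    clear hpt hP
    induction L with
    | nil => simp
    | cons j L ih =>
      rw [List.map_cons, List.sum_cons, List.map_cons, List.sum_cons]
      have := rim_Bd_le (w := w) hw d (c j) (l j)
      linarith
  calc 4 * M ^ 2 * (L.map fun j => rim (Bd B d) (wd w d) (c j) (l j)).sum
      ≤ 4 * M ^ 2 * (2 * (L.map fun j => rim B w (c j) (l j)).sum) :=
        mul_le_mul_of_nonneg_left hsum (by positivity)
    _ = _ := by ring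

/-- **Macro moves, general version.**  Long moves `c j` (averaged over lengths `l j`), unit moves
`d i` (kept), fine energies possibly summed over a slightly larger domain `Bp ⊇ B`. -/
theorem macro_full [Fintype ι] [Fintype κ] {Bp : Finset G} (hBp : B ⊆ Bp) {d : κ → G}
    (hwp : ∀ x ∈ Bp, 0 ≤ w x) (hm : ∑ x ∈ B, w x ≠ 0) (hl : ∀ j, 1 ≤ l j)
    (hR : ∀ j, ∀ s ≤ l j, ∀ x ∈ B, x + s • c j ∈ B → w x ≤ R j * w (x + s • c j))
    (hR1 : ∀ j, 1 ≤ R j) (hR3 : ∏ j, R j ≤ 3) {K : ι → ℝ} (hK : ∀ j, 0 ≤ K j)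
    {K' : κ → ℝ} (hK' : ∀ i, 0 ≤ K' i) {ε M : ℝ}
    (hfine : ∀ g : G → ℝ, (∀ x, |g x| ≤ M) → vr B w g
      ≤ ∑ j, K j * S Bp w (fun x => (g (x + c j) - g x) ^ 2)
        + ∑ i, K' i * Dm B w (d i) 1 g + ε * M ^ 2)
    {f : G → ℝ} (hf : ∀ x, |f x| ≤ M) :
    vr B w f ≤ ∑ j, (144 * (K j / (l j : ℝ) ^ 2) + 18 * Fintype.card ι) * aDm B w (c j) (l j) f
      + ∑ i, 6 * K' i * Dm B w (d i) 1 f
      + (2 * ε + (72 * ∑ j, K j / (l j : ℝ) ^ 2 + 48 * ∑ i, K' i
          + 48 * (Fintype.card ι : ℝ) ^ 2) * ∑ j, rim B w (c j) (l j)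
          + 8 * (∑ j, K j) * ∑ x ∈ Bp \ B, w x) * M ^ 2 := by
  classical
  have hw : ∀ x ∈ B, 0 ≤ w x := fun x hx => hwp x (hBp hx)
  have hM : 0 ≤ M := (abs_nonneg _).trans (hf 0)
  set L : List ι := Finset.univ.toList with hL
  have hLlen : (L.length : ℝ) = Fintype.card ι := by rw [hL, length_toList, card_univ]
  have hLR : (L.map R).prod = ∏ j, R j := Finset.prod_map_toList _ _
  have hLr : (L.map fun j => rim B w (c j) (l j)).sum = ∑ j, rim B w (c j) (l j) :=
    Finset.sum_map_toList _ _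
  have hLQ : (L.map fun j => S B w (fun x => (f x - av (c j) (l j) f x) ^ 2)).sum
      = ∑ j, S B w (fun x => (f x - av (c j) (l j) f x) ^ 2) := Finset.sum_map_toList _ _
  have hmem : ∀ j, j ∈ L := fun j => by rw [hL, mem_toList]; exact mem_univ j
  set D : ℝ := (Fintype.card ι : ℝ) with hD
  have hD0 : 0 ≤ D := Nat.cast_nonneg _
  set ρ := ∑ j, rim B w (c j) (l j) with hρ
  set τ := ∑ x ∈ Bp \ B, w x with hτ
  have hρj : ∀ j, rim B w (c j) (l j) ≤ ρ := fun j =>
    single_le_sum (f := fun j => rim B w (c j) (l j)) (fun i _ => rim_nonneg hw) (mem_univ j)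
  have hρ0 : 0 ≤ ρ := sum_nonneg fun j _ => rim_nonneg hw
  have hτ0 : 0 ≤ τ := sum_nonneg fun x hx => hwp x (mem_sdiff.1 hx).1
  have hRj3 : ∀ j, R j ≤ 3 := by
    intro j
    have h1 : (L.map R).prod = R j * ((L.erase j).map R).prod := by
      rw [((List.perm_cons_erase (hmem j)).map R).prod_eq, List.map_cons, List.prod_cons]
    have h2 := one_le_prod hR1 (L.erase j)
    rw [← hLR, h1] at hR3
    nlinarith [hR1 j]
  -- A f
  set A : G → ℝ := avL c l L f with hA
  have hAb : ∀ x, |A x| ≤ M := avL_abs_le hl hf L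
  have h1 := hfine A hAb
  -- replacement
  have h2 := avL_replace hw hl hR hR1 hf L
  rw [hLR, hLQ, hLr, hLlen] at h2
  have hQ : ∀ j, S B w (fun x => (f x - av (c j) (l j) f x) ^ 2)
      ≤ 3 * aDm B w (c j) (l j) f + 4 * M ^ 2 * ρ := by
    intro j
    have e1 := Q_le (c := c j) (l := l j) hw (hl j) hf
    have e2 := sum_En0_le (c := c j) (l := l j) hw f
    have e3 := sum_En_le hw (hl j) (hR j) (hR1 j) f
    have e4 := aDm_nonneg (c := c j) hw (l j) f
    have e5 : R j * aDm B w (c j) (l j) f ≤ 3 * aDm B w (c j) (l j) f :=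
      mul_le_mul_of_nonneg_right (hRj3 j) e4
    have e6 : 4 * M ^ 2 * rim B w (c j) (l j) ≤ 4 * M ^ 2 * ρ :=
      mul_le_mul_of_nonneg_left (hρj j) (by positivity)
    linarith
  have hQs : ∑ j, S B w (fun x => (f x - av (c j) (l j) f x) ^ 2)
      ≤ 3 * ∑ j, aDm B w (c j) (l j) f + D * (4 * M ^ 2 * ρ) := by
    refine (sum_le_sum fun j _ => hQ j).trans (le_of_eq ?_)
    rw [sum_add_distrib, ← mul_sum, sum_const, card_univ, nsmul_eq_mul]
  have hQ0 : 0 ≤ ∑ j, S B w (fun x => (f x - av (c j) (l j) f x) ^ 2) :=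
    sum_nonneg fun j _ => S_nonneg hw fun _ => sq_nonneg _
  have h3 : S B w (fun x => (f x - A x) ^ 2)
      ≤ 9 * D * ∑ j, aDm B w (c j) (l j) f + 24 * D ^ 2 * M ^ 2 * ρ := by
    have e0 : 0 ≤ ∑ j, S B w (fun x => (f x - av (c j) (l j) f x) ^ 2)
        + D * (4 * M ^ 2 * ρ) := by positivity
    calc S B w (fun x => (f x - A x) ^ 2)
        ≤ D * ((∏ j, R j) * (∑ j, S B w (fun x => (f x - av (c j) (l j) f x) ^ 2)
          + D * (4 * M ^ 2 * ρ))) := h2
      _ ≤ D * (3 * ((3 * ∑ j, aDm B w (c j) (l j) f + D * (4 * M ^ 2 * ρ))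
          + D * (4 * M ^ 2 * ρ))) := by
          refine mul_le_mul_of_nonneg_left ?_ hD0
          refine mul_le_mul hR3 (by linarith) e0 (by norm_num)
      _ = _ := by ring
  -- gradients
  have h4 : ∀ j, K j * S Bp w (fun x => (A (x + c j) - A x) ^ 2)
      ≤ 72 * (K j / (l j : ℝ) ^ 2) * aDm B w (c j) (l j) f
        + K j / (l j : ℝ) ^ 2 * (36 * M ^ 2 * ρ) + K j * (4 * M ^ 2 * τ) := by
    intro j
    have e1 := avL_grad_le hw hl hR hR1 hf L (by rw [hLR]; exact hR3) j (hmem j)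
    rw [hLr] at e1
    have e3 : S Bp w (fun x => (A (x + c j) - A x) ^ 2)
        ≤ S B w (fun x => (A (x + c j) - A x) ^ 2) + 4 * M ^ 2 * τ := by
      unfold S
      rw [← sum_sdiff hBp, add_comm]
      refine add_le_add le_rfl ?_
      rw [hτ, mul_sum]
      refine sum_le_sum fun x hx => ?_
      have h3 : (A (x + c j) - A x) ^ 2 ≤ 4 * M ^ 2 := by
        have a1 := abs_le.1 (hAb (x + c j))
        have a2 := abs_le.1 (hAb x)
        nlinarith
      have := mul_le_mul_of_nonneg_left h3 (hwp x (mem_sdiff.1 hx).1)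
      linarith
    have e2 := mul_le_mul_of_nonneg_left (e3.trans (add_le_add e1 le_rfl)) (hK j)
    refine e2.trans (le_of_eq ?_)
    ring
  have h5 : ∑ j, K j * S Bp w (fun x => (A (x + c j) - A x) ^ 2)
      ≤ ∑ j, 72 * (K j / (l j : ℝ) ^ 2) * aDm B w (c j) (l j) f
        + (∑ j, K j / (l j : ℝ) ^ 2) * (36 * M ^ 2 * ρ) + (∑ j, K j) * (4 * M ^ 2 * τ) := by
    refine (sum_le_sum fun j _ => h4 j).trans (le_of_eq ?_)
    rw [sum_add_distrib, sum_add_distrib, ← sum_mul, ← sum_mul]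
  -- unit moves
  have h8 : ∑ i, K' i * Dm B w (d i) 1 A
      ≤ ∑ i, 3 * K' i * Dm B w (d i) 1 f + (∑ i, K' i) * (24 * M ^ 2 * ρ) := by
    have e : ∀ i, K' i * Dm B w (d i) 1 A
        ≤ 3 * K' i * Dm B w (d i) 1 f + K' i * (24 * M ^ 2 * ρ) := by
      intro i
      have e1 := Dm_avL_le hw hl hR hR1 hf L (d i)
      rw [hLR, hLr] at e1
      have e0 : 0 ≤ Dm B w (d i) 1 f + 8 * M ^ 2 * ρ :=
        add_nonneg (Dm_nonneg hw _ _) (by positivity)
      have e2 : Dm B w (d i) 1 A ≤ 3 * (Dm B w (d i) 1 f + 8 * M ^ 2 * ρ) :=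
        e1.trans (mul_le_mul_of_nonneg_right hR3 e0)
      have e3 := mul_le_mul_of_nonneg_left e2 (hK' i)
      refine e3.trans (le_of_eq ?_)
      ring
    refine (sum_le_sum fun i _ => e i).trans (le_of_eq ?_)
    rw [sum_add_distrib, ← sum_mul]
  -- decomposition of the variance
  have h6 : vr B w f ≤ 2 * vr B w A + 2 * S B w (fun x => (f x - A x) ^ 2) := by
    refine (vr_le hm hw f (mn B w A)).trans ?_
    unfold vr
    rw [← S_smul, ← S_smul, ← S_add]
    refine S_mono hw fun x => ?_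
    nlinarith [sq_nonneg ((f x - A x) - (A x - mn B w A))]
  have h7 : ∑ j, (144 * (K j / (l j : ℝ) ^ 2) + 18 * D) * aDm B w (c j) (l j) f
      = 2 * ∑ j, 72 * (K j / (l j : ℝ) ^ 2) * aDm B w (c j) (l j) f
        + 18 * D * ∑ j, aDm B w (c j) (l j) f := by
    rw [mul_sum, mul_sum, ← sum_add_distrib]
    exact sum_congr rfl fun j _ => by ring
  have h9 : ∑ i, 6 * K' i * Dm B w (d i) 1 f = 2 * ∑ i, 3 * K' i * Dm B w (d i) 1 f := by
    rw [mul_sum]
    exact sum_congr rfl fun j _ => by ring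
  rw [h7, h9]
  linarith

end Crest.Agent.R302.Macro
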