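import Crest.Agent.R309.MCMetro

/-!
R302 (helper536), block STAGE, part A: from the ideal Metropolis energy to the energy of the
simulated (fresh-slack) Metropolis kernel; tail of the small-`f` region.
-/

set_option autoImplicit false

namespace Crest.Agent.R302.Stage

open Finset Crest.Agent.R309.MC

section Sim

variable {α : Type*} [Fintype α]

/-- Pointwise comparison of the two conductances: if both membership probabilities are at least
`δ`, then the simulated conductance `min (u x) (u y) * (f x * f y)` is at least `δ` times the ideal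
one `min (u x * f x) (u y * f y)`. -/
theorem min_mul_le {ux uy fx fy δ : ℝ} (hux : 0 ≤ ux) (huy : 0 ≤ uy) (hδ : 0 ≤ δ)
    (hx : δ ≤ fx) (hy : δ ≤ fy) :
    δ * min (ux * fx) (uy * fy) ≤ min ux uy * (fx * fy) := by
  have hfx : 0 ≤ fx := hδ.trans hx
  have hfy : 0 ≤ fy := hδ.trans hy
  rcases le_total ux uy with h | h
  · rw [min_eq_left h]
    calc δ * min (ux * fx) (uy * fy) ≤ δ * (ux * fx) := by
          gcongr; exact min_le_left _ _
      _ ≤ fy * (ux * fx) := by gcongr
      _ = ux * (fx * fy) := by ring
  · rw [min_eq_right h]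
    calc δ * min (ux * fx) (uy * fy) ≤ δ * (uy * fy) := by
          gcongr; exact min_le_right _ _
      _ ≤ fx * (uy * fy) := by gcongr
      _ = uy * (fx * fy) := by ring

/-- **Ideal energy ≤ (1/δ) · simulated energy + defect.**
`u` explicit part of the weight, `f` probability part; `g x y ≥ f x * f y` the product of the
membership factors that are really simulated for the move `x → y` (symmetric conductance
`S x y * (min (u x) (u y) * g x y)`). -/
theorem ideal_le_sim {S g : α → α → ℝ} {u f h : α → ℝ} {δ A σ : ℝ}
    (hS : ∀ x y, 0 ≤ S x y) (hsymm : ∀ x y, S x y = S y x) (hσ : ∀ x, ∑ y, S x y ≤ σ)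
    (hu : ∀ x, 0 ≤ u x) (hf : ∀ x, 0 ≤ f x) (hδ : 0 < δ)
    (hg : ∀ x y, f x * f y ≤ g x y) (hh : ∀ x, |h x| ≤ A) :
    ∑ x, ∑ y, S x y * min (u x * f x) (u y * f y) * (h x - h y) ^ 2 ≤
      (1 / δ) * (∑ x, ∑ y, S x y * (min (u x) (u y) * g x y) * (h x - h y) ^ 2) +
        8 * σ * A ^ 2 * ∑ x ∈ univ.filter (fun x => f x < δ), u x * f x := by
  classical
  have hA : ∀ x y, (h x - h y) ^ 2 ≤ 4 * A ^ 2 := by
    intro x y
    have h1 := abs_le.1 (hh x)
    have h2 := abs_le.1 (hh y)
    nlinarith
  set b : α → ℝ := fun x => if f x < δ then 1 else 0 with hb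
  have key : ∀ x y, S x y * min (u x * f x) (u y * f y) * (h x - h y) ^ 2 ≤
      (1 / δ) * (S x y * (min (u x) (u y) * g x y) * (h x - h y) ^ 2) +
        (4 * A ^ 2 * (S x y * (u x * f x * b x)) + 4 * A ^ 2 * (S y x * (u y * f y * b y))) := by
    intro x y
    have hg0 : 0 ≤ g x y := (mul_nonneg (hf x) (hf y)).trans (hg x y)
    have hm0 : 0 ≤ min (u x) (u y) := le_min (hu x) (hu y)
    have hQ : 0 ≤ (1 / δ) * (S x y * (min (u x) (u y) * g x y) * (h x - h y) ^ 2) := by
      have := hS x y
      positivity
    have hbx : 0 ≤ 4 * A ^ 2 * (S x y * (u x * f x * b x)) := by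
      have h1 := hS x y
      have h2 := hu x
      have h3 := hf x
      have h4 : 0 ≤ b x := by simp only [hb]; split_ifs <;> norm_num
      positivity
    have hby : 0 ≤ 4 * A ^ 2 * (S y x * (u y * f y * b y)) := by
      have h1 := hS y x
      have h2 := hu y
      have h3 := hf y
      have h4 : 0 ≤ b y := by simp only [hb]; split_ifs <;> norm_num
      positivity
    by_cases hx : f x < δ
    · have e : b x = 1 := by simp [hb, hx]
      have : S x y * min (u x * f x) (u y * f y) * (h x - h y) ^ 2 ≤
          4 * A ^ 2 * (S x y * (u x * f x * b x)) := by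
        rw [e, mul_one]
        calc S x y * min (u x * f x) (u y * f y) * (h x - h y) ^ 2
            ≤ S x y * (u x * f x) * (4 * A ^ 2) := by
              gcongr
              · exact mul_nonneg (hS x y) (mul_nonneg (hu x) (hf x))
              · exact hS x y
              · exact min_le_left _ _
              · exact hA x y
          _ = _ := by ring
      linarith
    · by_cases hy : f y < δ
      · have e : b y = 1 := by simp [hb, hy]
        have : S x y * min (u x * f x) (u y * f y) * (h x - h y) ^ 2 ≤
            4 * A ^ 2 * (S y x * (u y * f y * b y)) := by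
          rw [e, mul_one, ← hsymm x y]
          calc S x y * min (u x * f x) (u y * f y) * (h x - h y) ^ 2
              ≤ S x y * (u y * f y) * (4 * A ^ 2) := by
                gcongr
                · exact mul_nonneg (hS x y) (mul_nonneg (hu y) (hf y))
                · exact hS x y
                · exact min_le_right _ _
                · exact hA x y
            _ = _ := by ring
        linarith
      · have h1 := min_mul_le (hu x) (hu y) hδ.le (not_lt.1 hx) (not_lt.1 hy)
        have h2 : min (u x * f x) (u y * f y) ≤ (1 / δ) * (min (u x) (u y) * g x y) := by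
          rw [one_div, ← div_eq_inv_mul, le_div_iff₀ hδ, mul_comm]
          exact h1.trans (mul_le_mul_of_nonneg_left (hg x y) hm0)
        have : S x y * min (u x * f x) (u y * f y) * (h x - h y) ^ 2 ≤
            (1 / δ) * (S x y * (min (u x) (u y) * g x y) * (h x - h y) ^ 2) := by
          calc S x y * min (u x * f x) (u y * f y) * (h x - h y) ^ 2
              ≤ S x y * ((1 / δ) * (min (u x) (u y) * g x y)) * (h x - h y) ^ 2 := by
                gcongr
                exact hS x y
            _ = _ := by ring
        linarith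
  have hsumb : ∑ x, ∑ y, 4 * A ^ 2 * (S x y * (u x * f x * b x)) ≤
      4 * σ * A ^ 2 * ∑ x ∈ univ.filter (fun x => f x < δ), u x * f x := by
    have e1 : ∀ x, ∑ y, 4 * A ^ 2 * (S x y * (u x * f x * b x)) =
        (∑ y, S x y) * (4 * A ^ 2 * (u x * f x * b x)) := by
      intro x
      rw [sum_mul]
      exact sum_congr rfl fun y _ => by ring
    simp only [e1]
    have e2 : ∀ x, (∑ y, S x y) * (4 * A ^ 2 * (u x * f x * b x)) ≤
        4 * σ * A ^ 2 * (u x * f x * b x) := by
      intro x
      have h2 := hu x
      have h3 := hf x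
      have h4 : 0 ≤ b x := by simp only [hb]; split_ifs <;> norm_num
      calc (∑ y, S x y) * (4 * A ^ 2 * (u x * f x * b x)) ≤
          σ * (4 * A ^ 2 * (u x * f x * b x)) :=
            mul_le_mul_of_nonneg_right (hσ x) (by positivity)
        _ = _ := by ring
    refine (sum_le_sum fun x _ => e2 x).trans ?_
    rw [← mul_sum]
    have e3 : ∑ x, u x * f x * b x = ∑ x ∈ univ.filter (fun x => f x < δ), u x * f x := by
      rw [sum_filter]
      refine sum_congr rfl fun x _ => ?_
      simp only [hb]
      split_ifs <;> simp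
    rw [e3]
  calc ∑ x, ∑ y, S x y * min (u x * f x) (u y * f y) * (h x - h y) ^ 2
      ≤ ∑ x, ∑ y, ((1 / δ) * (S x y * (min (u x) (u y) * g x y) * (h x - h y) ^ 2) +
        (4 * A ^ 2 * (S x y * (u x * f x * b x)) + 4 * A ^ 2 * (S y x * (u y * f y * b y)))) :=
        sum_le_sum fun x _ => sum_le_sum fun y _ => key x y
    _ = (1 / δ) * (∑ x, ∑ y, S x y * (min (u x) (u y) * g x y) * (h x - h y) ^ 2) +
        (∑ x, ∑ y, 4 * A ^ 2 * (S x y * (u x * f x * b x)) +
          ∑ x, ∑ y, 4 * A ^ 2 * (S y x * (u y * f y * b y))) := by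
        simp only [sum_add_distrib, mul_sum]
    _ ≤ _ := by
        have e4 : ∑ x, ∑ y, 4 * A ^ 2 * (S y x * (u y * f y * b y)) =
            ∑ x, ∑ y, 4 * A ^ 2 * (S x y * (u x * f x * b x)) := by
          rw [sum_comm]
        rw [e4]
        linarith

end Sim

end Crest.Agent.R302.Stage
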