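import Mathlib
import Crest.Agent.R302.Gau970B
import Crest.Agent.R302.Ff838
import Crest.Agent.R302.Inst532D
import Crest.Agent.R302.Ann425B
import Crest.Agent.R302.Stage536

/-!
R302 (helper970), block GAUGE, part C: the soft weights of the official sides are Lorentzian
(`Lz`), hence the link mass bound of `Gau970B` for the official chain.

* `Lz_win`, `Lz_soft` : `p ↦ S.ff p (S.blk p)` is `Lz` (kernels with windows, resp. full kernels);
* `Lz_pair` : `g ↦ ∑_{x ∈ box} F₁ (x + g_X) F₂ (x - g_Y)` is `Lz 0`.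
-/

set_option autoImplicit false
set_option linter.unusedSectionVars false

namespace Crest.Agent.R302.Gau

open Finset Crest.Agent.R302.Lor Crest.Agent.R302.Inst
open Crest.Agent.R302.Facet (MemJ SubM)

variable {E : Type*} [Fintype E] [DecidableEq E]

/-- the weight of the points of a side -/
noncomputable def base (S : Side E) (z : E → ℤ) : ℝ := if z ∈ S.J then S.g z else 0

/-- the soft weight of a side -/
noncomputable def soft (S : Side E) (p : E → ℤ) : ℝ := S.ff p (S.blk p)

theorem base_bdd (S : Side E) : ∃ C, ∀ z, base S z ≤ C := by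
  refine ⟨∑ z ∈ S.J, |S.g z|, fun z => ?_⟩
  unfold base
  split_ifs with h
  · exact (le_abs_self _).trans (Finset.single_le_sum (f := fun z => |S.g z|)
      (fun z _ => abs_nonneg _) h)
  · exact Finset.sum_nonneg fun z _ => abs_nonneg _

/-- the other end of the edge -/
def oth (T : MP3.Forest E) (a : E) : E := (T.par a).getD a

theorem dir_thin {T : MP3.Forest E} {a : E} (h : T.par a = none) :
    (ev a - ev (oth T a) : E → ℤ) = 0 := by
  unfold oth; rw [h]; simp

theorem dir_fat {T : MP3.Forest E} {a : E} (h : T.par a ≠ none) :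
    (ev a - ev (oth T a) : E → ℤ) = dq T a := by
  unfold oth dq
  rcases h' : T.par a with _ | b
  · exact absurd h' h
  · simp

/-- `zpt` through the directions -/
theorem zpt_dir (T : MP3.Forest E) (p t : E → ℤ) :
    zpt T p t = p + ∑ a, t a • (ev a - ev (oth T a)) := by
  unfold zpt
  congr 1
  refine Finset.sum_congr rfl fun a _ => ?_
  by_cases h : T.par a = none
  · rw [if_pos h, dir_thin h, zero_smul, smul_zero]
  · rw [if_neg h, dir_fat h]

theorem blk_eq (S : Side E) (p : E → ℤ) : S.load p (S.blk p) = p := by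
  funext a
  unfold Side.load Side.blk
  split_ifs with h
  · ring
  · rfl

open Classical in
/-- windowed form -/
theorem soft_win {S : Side E} {N : E → ℕ} {κ' : E → ℤ → ℝ}
    (hS : ∀ a, S.T.par a ≠ none → ∀ t : ℤ, S.κ a t = if |t| ≤ N a then κ' a t else 0)
    (p : E → ℤ) :
    soft S p = ∑ t ∈ Fintype.piFinset (fun a => range ((if S.T.par a = none then 0 else 2 * N a) + 1)),
      (∏ a, if S.T.par a = none then 1 else κ' a ((t a : ℤ) - N a)) *
        base S ((p - ∑ a, (N a : ℤ) • (ev a - ev (oth S.T a)))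
          + ∑ a, (t a : ℤ) • (ev a - ev (oth S.T a))) := by
  unfold soft
  rw [S.ff_eq]
  have e1 : ∀ t : E → ℕ, (p - ∑ a, (N a : ℤ) • (ev a - ev (oth S.T a)))
          + ∑ a, (t a : ℤ) • (ev a - ev (oth S.T a)) = zpt S.T p (fun a => (t a : ℤ) - N a) := by
    intro t
    rw [zpt_dir]
    simp only [sub_smul, Finset.sum_sub_distrib]
    abel
  simp only [e1]
  -- restrict both sums
  set t0 : (E → ℕ) → E → ℤ := fun t a => if S.T.par a = none then 0 else (t a : ℤ) - N a with ht0
  have e2 : ∀ t : E → ℕ, zpt S.T p (fun a => (t a : ℤ) - N a) = zpt S.T p (t0 t) := by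
    intro t
    rw [zpt_dir, zpt_dir]
    congr 1
    refine Finset.sum_congr rfl fun a _ => ?_
    by_cases h : S.T.par a = none
    · rw [dir_thin h, smul_zero, smul_zero]
    · simp only [ht0, if_neg h]
  have hiff : ∀ (t : E → ℕ) (z : E → ℤ), zpt S.T p (t0 t) = z ↔
      S.Cons (S.blk p) z ∧ t0 t = S.tv p z := by
    intro t z
    have := S.zpt_load_iff p (S.blk p) (t0 t) z (fun a ha => by simp only [ht0, if_pos ha])
    rwa [blk_eq] at this
  -- left side: only the points with slacks in the windows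
  have hL : ∑ z ∈ S.J, (if S.Cons (S.blk p) z then S.g z * S.slw (S.tv p z) else 0) =
      ∑ z ∈ S.J.filter (fun z => S.Cons (S.blk p) z ∧ ∀ a, |S.tv p z a| ≤ N a),
        S.g z * S.slw (S.tv p z) := by
    rw [Finset.sum_filter]
    refine Finset.sum_congr rfl fun z _ => ?_
    by_cases hc : S.Cons (S.blk p) z
    · by_cases hw : ∀ a, |S.tv p z a| ≤ N a
      · rw [if_pos hc, if_pos ⟨hc, hw⟩]
      · rw [if_pos hc, if_neg (fun h => hw h.2)]
        push Not at hw
        obtain ⟨a, ha⟩ := hw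
        have hf : S.T.par a ≠ none := by
          intro h
          have : S.tv p z a = 0 := by unfold Side.tv; rw [if_pos h]
          rw [this, abs_zero] at ha
          have : (0 : ℤ) ≤ N a := Int.natCast_nonneg _
          omega
        have : S.slw (S.tv p z) = 0 := by
          unfold Side.slw
          refine Finset.prod_eq_zero (mem_univ a) ?_
          rw [if_neg hf, hS a hf, if_neg (not_le.2 ha)]
        rw [this, mul_zero]
    · rw [if_neg hc, if_neg (fun h => hc h.1)]
  have hR : ∑ t ∈ Fintype.piFinset (fun a => range ((if S.T.par a = none then 0 else 2 * N a) + 1)),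
      (∏ a, if S.T.par a = none then 1 else κ' a ((t a : ℤ) - N a)) *
        base S (zpt S.T p (fun a => (t a : ℤ) - N a)) =
      ∑ t ∈ (Fintype.piFinset (fun a => range ((if S.T.par a = none then 0 else 2 * N a) + 1))).filter
        (fun t => zpt S.T p (t0 t) ∈ S.J),
      (∏ a, if S.T.par a = none then 1 else κ' a ((t a : ℤ) - N a)) * S.g (zpt S.T p (t0 t)) := by
    rw [Finset.sum_filter]
    refine Finset.sum_congr rfl fun t _ => ?_
    rw [e2]
    unfold base
    split_ifs
    · rfl
    · rw [mul_zero]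
  rw [hL, hR]
  symm
  refine Finset.sum_nbij' (fun t => zpt S.T p (t0 t))
    (fun z a => if S.T.par a = none then 0 else (S.tv p z a + N a).toNat) ?_ ?_ ?_ ?_ ?_
  · intro t ht
    rw [mem_filter] at ht ⊢
    obtain ⟨h1, h2⟩ := (hiff t _).1 rfl
    refine ⟨ht.2, h1, fun a => ?_⟩
    rw [← h2]
    have h3 := (Fintype.mem_piFinset.1 ht.1) a
    rw [mem_range] at h3
    simp only [ht0]
    by_cases h : S.T.par a = none
    · rw [if_pos h, abs_zero]; exact Int.natCast_nonneg _
    · rw [if_neg h] at h3 ⊢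
      rw [abs_le]; omega
  · intro z hz
    rw [mem_filter] at hz ⊢
    obtain ⟨hzJ, hc, hw⟩ := hz
    have h3 : t0 (fun a => if S.T.par a = none then 0 else (S.tv p z a + N a).toNat) = S.tv p z := by
      funext a
      simp only [ht0]
      have := abs_le.1 (hw a)
      by_cases h : S.T.par a = none
      · rw [if_pos h]; unfold Side.tv; rw [if_pos h]
      · rw [if_neg h, if_neg h]; omega
    refine ⟨?_, ?_⟩
    · rw [Fintype.mem_piFinset]
      intro a
      rw [mem_range]
      have := abs_le.1 (hw a)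
      by_cases h : S.T.par a = none
      · simp [h]
      · simp only [if_neg h]; omega
    · rw [(hiff _ z).2 ⟨hc, h3⟩]; exact hzJ
  · intro t ht
    rw [mem_filter] at ht
    obtain ⟨h1, h2⟩ := (hiff t _).1 rfl
    funext a
    have h3 := (Fintype.mem_piFinset.1 ht.1) a
    rw [mem_range] at h3
    rw [← h2]
    simp only [ht0]
    by_cases h : S.T.par a = none
    · rw [if_pos h] at h3; rw [if_pos h]; omega
    · rw [if_neg h] at h3; rw [if_neg h, if_neg h]; omega
  · intro z hz
    rw [mem_filter] at hz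
    obtain ⟨hzJ, hc, hw⟩ := hz
    have h3 : t0 (fun a => if S.T.par a = none then 0 else (S.tv p z a + N a).toNat) = S.tv p z := by
      funext a
      simp only [ht0]
      have := abs_le.1 (hw a)
      by_cases h : S.T.par a = none
      · rw [if_pos h]; unfold Side.tv; rw [if_pos h]
      · rw [if_neg h, if_neg h]; omega
    exact (hiff _ z).2 ⟨hc, h3⟩
  · intro t ht
    rw [mem_filter] at ht
    obtain ⟨h1, h2⟩ := (hiff t _).1 rfl
    rw [mul_comm]
    congr 1
    rw [← h2]
    unfold Side.slw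
    refine Finset.prod_congr rfl fun a _ => ?_
    have h3 := (Fintype.mem_piFinset.1 ht.1) a
    rw [mem_range] at h3
    by_cases h : S.T.par a = none
    · rw [if_pos h, if_pos h]; simp [ht0, h]
    · rw [if_neg h] at h3
      rw [if_neg h, if_neg h, hS a h]
      simp only [ht0, if_neg h]
      rw [if_pos]
      rw [abs_le]; omega

/-- **windowed kernels** : the soft weight is Lorentzian and bounded -/
theorem Lz_win {S : Side E} {d : ℤ} (hb : Lz d (base S)) {N : E → ℕ} {κ' : E → ℤ → ℝ}
    (hS : ∀ a, S.T.par a ≠ none → ∀ t : ℤ, S.κ a t = if |t| ≤ N a then κ' a t else 0)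
    (hpos : ∀ a, S.T.par a ≠ none → ∀ t : ℤ, |t| ≤ N a → 0 < κ' a t)
    (hlc : ∀ a, S.T.par a ≠ none → ∀ t : ℤ, κ' a t * κ' a (t + 2) ≤ κ' a (t + 1) ^ 2) :
    Lz d (soft S) ∧ ∃ C, ∀ p, soft S p ≤ C := by
  obtain ⟨C, hC⟩ := base_bdd S
  obtain ⟨h1, C', h2⟩ := multi hb hC (fun a : E => a) (fun a => oth S.T a)
    (fun a s => if S.T.par a = none then 1 else κ' a ((s : ℤ) - N a))
    (fun a => if S.T.par a = none then 0 else 2 * N a) (fun a j hj => by
      by_cases h : S.T.par a = none
      · simp only [if_pos h]; norm_num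
      · rw [if_neg h] at hj
        simp only [if_neg h]
        apply hpos a h
        rw [abs_le]; omega) (fun a j _ => by
      by_cases h : S.T.par a = none
      · simp only [if_pos h]; norm_num
      · simp only [if_neg h]
        have := hlc a h ((j : ℤ) - N a)
        have e1 : ((j + 2 : ℕ) : ℤ) - N a = (j : ℤ) - N a + 2 := by push_cast; ring
        have e2 : ((j + 1 : ℕ) : ℤ) - N a = (j : ℤ) - N a + 1 := by push_cast; ring
        rw [e1, e2]; exact this)
  have h3 := h1.shift (-(∑ a, (N a : ℤ) • (ev a - ev (oth S.T a))))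
  have e0 : ∑ v, (-(∑ a, (N a : ℤ) • (ev a - ev (oth S.T a))) : E → ℤ) v = 0 := by
    simp only [Pi.neg_apply, Finset.sum_apply, Finset.sum_neg_distrib]
    rw [Finset.sum_comm, Finset.sum_eq_zero, neg_zero]
    intro a _
    simp only [Pi.smul_apply, Pi.sub_apply, smul_eq_mul, mul_sub, Finset.sum_sub_distrib,
      ← Finset.mul_sum, sum_ev]
    ring
  rw [e0, sub_zero] at h3
  have e1 : soft S = fun p => ∑ t ∈ Fintype.piFinset
      (fun a => range ((if S.T.par a = none then 0 else 2 * N a) + 1)),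
      (∏ a, if S.T.par a = none then 1 else κ' a ((t a : ℤ) - N a)) *
        base S ((p + -∑ a, (N a : ℤ) • (ev a - ev (oth S.T a)))
          + ∑ a, (t a : ℤ) • (ev a - ev (oth S.T a))) := by
    funext p
    rw [soft_win hS p]
    simp only [sub_eq_add_neg]
  refine ⟨?_, C', fun p => ?_⟩
  · rw [e1]; exact h3
  · rw [e1]; exact h2 _

/-- restriction of the kernels to windows -/
noncomputable def trunc (S : Side E) (N : ℕ) : Side E :=
  { S with κ := fun a t => if |t| ≤ N then S.κ a t else 0 }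

open Classical in
theorem soft_trunc_eventually (S : Side E) (p : E → ℤ) :
    ∃ N₀ : ℕ, ∀ N, N₀ ≤ N → soft (trunc S N) p = soft S p := by
  refine ⟨∑ z ∈ S.J, ∑ a, (S.tv p z a).natAbs, fun N hN => ?_⟩
  unfold soft
  rw [Side.ff_eq, Side.ff_eq]
  refine Finset.sum_congr rfl fun z hz => ?_
  have hc : (trunc S N).Cons ((trunc S N).blk p) z ↔ S.Cons (S.blk p) z := Iff.rfl
  by_cases h : S.Cons (S.blk p) z
  · rw [if_pos h, if_pos (hc.2 h)]
    have hg : (trunc S N).g z = S.g z := rfl
    rw [hg]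
    congr 1
    unfold Side.slw
    refine Finset.prod_congr rfl fun a _ => ?_
    have hT : (trunc S N).T = S.T := rfl
    have htv : (trunc S N).tv p z = S.tv p z := rfl
    rw [hT, htv]
    by_cases hth : S.T.par a = none
    · rw [if_pos hth, if_pos hth]
    · rw [if_neg hth, if_neg hth]
      show (if |S.tv p z a| ≤ (N : ℤ) then S.κ a (S.tv p z a) else 0) = _
      rw [if_pos]
      have h1 : (S.tv p z a).natAbs ≤ ∑ a, (S.tv p z a).natAbs :=
        Finset.single_le_sum (f := fun a => (S.tv p z a).natAbs) (fun _ _ => Nat.zero_le _)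
          (mem_univ a)
      have h2 : ∑ a, (S.tv p z a).natAbs ≤ ∑ z ∈ S.J, ∑ a, (S.tv p z a).natAbs :=
        Finset.single_le_sum (f := fun z => ∑ a, (S.tv p z a).natAbs) (fun _ _ => Nat.zero_le _) hz
      rw [Int.abs_eq_natAbs]
      exact_mod_cast h1.trans (h2.trans hN)
  · rw [if_neg h, if_neg (fun h' => h (hc.1 h'))]

/-- **full kernels** -/
theorem Lz_soft {S : Side E} {d : ℤ} (hb : Lz d (base S))
    (hpos : ∀ a, S.T.par a ≠ none → ∀ t : ℤ, 0 < S.κ a t)
    (hlc : ∀ a, S.T.par a ≠ none → ∀ t : ℤ, S.κ a t * S.κ a (t + 2) ≤ S.κ a (t + 1) ^ 2) :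
    Lz d (soft S) := by
  refine Lz.lim (F := Filter.atTop) (c' := fun N : ℕ => soft (trunc S N)) (fun p => ?_)
    (fun N => ?_)
  · obtain ⟨N₀, hN⟩ := soft_trunc_eventually S p
    exact tendsto_const_nhds.congr' (Filter.eventually_atTop.2 ⟨N₀, fun N h => (hN N h).symm⟩)
  · have hb' : Lz d (base (trunc S N)) := hb
    exact (Lz_win hb' (N := fun _ => N) (κ' := S.κ) (fun a _ t => rfl)
      (fun a ha t _ => hpos a ha t) hlc).1

/-- the base weight of a side of base-polytope shape is Lorentzian -/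
theorem Lz_base_of {r : Finset E → ℤ} {R : ℤ} (hr : SubM r R) {c : (E → ℤ) → ℝ}
    {ω : E → ℤ → ℝ} (hω : ∀ v k, 0 < ω v k)
    (hlc : ∀ v k, ω v k * ω v (k + 2) ≤ ω v (k + 1) ^ 2)
    (hc1 : ∀ z, MemJ r R z → c z = ∏ v, ω v (z v)) (hc0 : ∀ z, ¬ MemJ r R z → c z = 0) :
    Lz R c := by
  classical
  set i : (E → ℤ) → ℝ := fun z => if MemJ r R z then 1 else 0 with hi
  have hi0 : ∀ z, 0 ≤ i z := by
    intro z; simp only [hi]; split_ifs <;> norm_num
  have hL : Lz R i := Lz.memJ hr (fun z hz => by simp only [hi, if_pos hz])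
    (fun z hz => by simp only [hi, if_neg hz])
  have he : ∀ z, c z = i z * ∏ v, ω v (z v) := by
    intro z
    by_cases hz : MemJ r R z
    · rw [hc1 z hz]; simp only [hi, if_pos hz, one_mul]
    · rw [hc0 z hz]; simp only [hi, if_neg hz, zero_mul]
  have hp : ∀ z : E → ℤ, 0 < ∏ v, ω v (z v) := fun z => Finset.prod_pos fun v _ => hω v _
  refine Lz.of_base ?_ ?_ ?_ ?_
  · intro z; rw [he]; exact mul_nonneg (hi0 z) (hp z).le
  · intro z hz
    rw [he] at hz
    exact hL.deg z (left_ne_zero_of_mul hz)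
  · have : {γ | 0 < c γ} = {γ | MemJ r R γ} := by
      ext z
      simp only [Set.mem_ofPred_eq]
      by_cases hz : MemJ r R z
      · simp only [hz, iff_true]; rw [hc1 z hz]; exact hp z
      · simp only [hz, iff_false]; rw [hc0 z hz]; exact lt_irrefl _
    rw [this]; exact mcx_memJ hr
  · intro β
    have h1 := Crest.Agent.R302.AnnBox.af_mul_sep (c := i) hi0
      (fun β => hL.af [] (by simp) β) hω hlc β
    have e : (fun u v => c (β + ev u + ev v)) =
        fun u v => i (β + ev u + ev v) * ∏ w, ω w ((β + ev u + ev v) w) := by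
      funext u v; rw [he]
    rw [e]; exact h1

theorem Lz_base {S : Side E} {r : Finset E → ℤ} {R : ℤ} {ω : E → ℤ → ℝ}
    (hr : SubM r R) (hmem : ∀ z, z ∈ S.J ↔ MemJ r R z) (hwt : ∀ z ∈ S.J, S.g z = ∏ v, ω v (z v))
    (hω : ∀ v k, 0 < ω v k) (hlc : ∀ v k, ω v k * ω v (k + 2) ≤ ω v (k + 1) ^ 2) :
    Lz R (base S) := by
  refine Lz_base_of hr hω hlc (fun z hz => ?_) (fun z hz => ?_)
  · unfold base; rw [if_pos ((hmem z).2 hz), hwt z ((hmem z).2 hz)]
  · unfold base; rw [if_neg (fun h => hz ((hmem z).1 h))]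

/-! ### reflection -/

/-- reflected side -/
def refl (S : Side E) : Side E where
  T := S.T
  J := S.J.image fun z => -z
  g := fun z => S.g (-z)
  κ := fun a t => S.κ a (-t)

theorem soft_refl (S : Side E) (p : E → ℤ) : soft (refl S) p = soft S (-p) := by
  unfold soft Side.ff
  show ∑ z ∈ S.J.image (fun z => -z), _ = _
  rw [Finset.sum_image (fun a _ b _ h => neg_injective h)]
  refine Finset.sum_congr rfl fun z _ => ?_
  have e1 : (refl S).g (-z) = S.g z := by
    show S.g (- -z) = _
    rw [neg_neg]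
  rw [e1]
  congr 1
  refine Finset.prod_congr rfl fun a _ => ?_
  unfold Side.fk
  by_cases h : S.T.par a = none
  · rw [dif_pos (show (refl S).T.par a = none from h), dif_pos h]
    have e2 : (bs (refl S).T (-z) a = (refl S).blk p ⟨a, h⟩) ↔
        (bs S.T z a = S.blk (-p) ⟨a, h⟩) := by
      show bs S.T (-z) a = bs S.T p a ↔ bs S.T z a = bs S.T (-p) a
      rw [bs_neg, bs_neg]
      constructor <;> intro h' <;> omega
    exact if_congr e2 rfl rfl
  · rw [dif_neg (show ¬ (refl S).T.par a = none from h), dif_neg h]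
    show S.κ a (-(bs S.T (-z) a - bs S.T p a)) = _
    rw [bs_neg, bs_neg]
    congr 1; ring

theorem Lz_base_refl {S : Side E} {r : Finset E → ℤ} {R : ℤ} {ω : E → ℤ → ℝ}
    (hr : SubM r R) (hmem : ∀ z, z ∈ S.J ↔ MemJ r R z) (hwt : ∀ z ∈ S.J, S.g z = ∏ v, ω v (z v))
    (hω : ∀ v k, 0 < ω v k) (hlc : ∀ v k, ω v k * ω v (k + 2) ≤ ω v (k + 1) ^ 2) :
    Lz (-R) (base (refl S)) := by
  classical
  set i : (E → ℤ) → ℝ := fun z => if MemJ r R (-z) then 1 else 0 with hi
  have hi0 : ∀ z, 0 ≤ i z := by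
    intro z; simp only [hi]; split_ifs <;> norm_num
  have hL : Lz (-R) i := by
    have := Lz.memJ_reflect hr 0 (c := i) (fun z hz => by
      rw [zero_sub] at hz; simp only [hi, if_pos hz]) (fun z hz => by
      rw [zero_sub] at hz; simp only [hi, if_neg hz])
    simpa using this
  set ω' : E → ℤ → ℝ := fun v k => ω v (-k) with hω'
  have he : ∀ z, base (refl S) z = i z * ∏ v, ω' v (z v) := by
    intro z
    have hz' : z ∈ (refl S).J ↔ MemJ r R (-z) := by
      show z ∈ S.J.image (fun z => -z) ↔ _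
      rw [Finset.mem_image, ← hmem]
      constructor
      · rintro ⟨y, hy, rfl⟩; rw [neg_neg]; exact hy
      · intro h; exact ⟨-z, h, neg_neg z⟩
    unfold base
    by_cases hz : MemJ r R (-z)
    · rw [if_pos (hz'.2 hz)]
      simp only [hi, if_pos hz, one_mul, hω']
      show S.g (-z) = _
      rw [hwt _ ((hmem _).2 hz)]
      rfl
    · rw [if_neg (fun h => hz (hz'.1 h))]; simp only [hi, if_neg hz, zero_mul]
  have hp : ∀ z : E → ℤ, 0 < ∏ v, ω' v (z v) := fun z => Finset.prod_pos fun v _ => hω v _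
  have hlc' : ∀ v k, ω' v k * ω' v (k + 2) ≤ ω' v (k + 1) ^ 2 := by
    intro v k
    have := hlc v (-(k + 2))
    simp only [hω']
    rw [show -(k + 2) + 2 = -k by ring, show -(k + 2) + 1 = -(k + 1) by ring] at this
    rw [mul_comm]; exact this
  refine Lz.of_base ?_ ?_ ?_ ?_
  · intro z; rw [he]; exact mul_nonneg (hi0 z) (hp z).le
  · intro z hz
    rw [he] at hz
    exact hL.deg z (left_ne_zero_of_mul hz)
  · have : {γ | 0 < base (refl S) γ} = {γ | 0 - γ ∈ {x | MemJ r R x}} := by
      ext z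
      simp only [Set.mem_ofPred_eq, zero_sub]
      rw [he]
      by_cases hz : MemJ r R (-z)
      · simp only [hz, iff_true, hi, if_true, one_mul]; exact hp z
      · simp only [hz, iff_false, hi, if_false, zero_mul]; exact lt_irrefl _
    rw [this]; exact (mcx_memJ hr).reflect 0
  · intro β
    have h1 := Crest.Agent.R302.AnnBox.af_mul_sep (c := i) hi0
      (fun β => hL.af [] (by simp) β) (ω := ω') (fun v k => hω v _) hlc' β
    have e : (fun u v => base (refl S) (β + ev u + ev v)) =
        fun u v => i (β + ev u + ev v) * ∏ w, ω' w ((β + ev u + ev v) w) := by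
      funext u v; rw [he]
    rw [e]; exact h1

/-! ### pairs -/

/-- joint soft mass over the window `B` with the shifts `g_X`, `-g_Y` -/
noncomputable def pairA (B : Finset (E → ℤ)) (F₁ F₂ : (E → ℤ) → ℝ) (g : E ⊕ E → ℤ) : ℝ :=
  ∑ x ∈ B, F₁ (x + fun e => g (Sum.inl e)) * F₂ (x - fun e => g (Sum.inr e))

theorem ev_inl_apply (e v : E) : ev (Sum.inl e : E ⊕ E) (Sum.inl v) = ev e v :=
  congrFun (ev_inl_inl (V₂ := E) e) v

theorem ev_inr_apply (e v : E) : ev (Sum.inr e : E ⊕ E) (Sum.inr v) = ev e v :=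
  congrFun (ev_inr_inr (V₁ := E) e) v

theorem sum_smul_ev_apply (t : E → ℤ) (v : E) : ∑ e, t e * ev e v = t v := by
  rw [Finset.sum_eq_single v]
  · rw [ev_self, mul_one]
  · intro b _ hb; rw [ev_ne hb, mul_zero]
  · intro h; exact absurd (mem_univ v) h

/-- **the pair weight is Lorentzian** -/
theorem Lz_pair {F₁ F₂ : (E → ℤ) → ℝ} {R : ℤ} (h₁ : Lz R F₁)
    (h₂ : Lz (-R) (fun p => F₂ (-p))) {C₁ C₂ : ℝ} (hC₁ : ∀ p, F₁ p ≤ C₁) (hC₂ : ∀ p, F₂ p ≤ C₂)
    (lo : E → ℤ) (m : E → ℕ) :
    Lz 0 (pairA (Fintype.piFinset fun e => Icc (lo e) (lo e + m e)) F₁ F₂) ∧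
      ∃ C, ∀ g, pairA (Fintype.piFinset fun e => Icc (lo e) (lo e + m e)) F₁ F₂ g ≤ C := by
  have hp : Lz 0 (pw F₁ fun p => F₂ (-p)) := by
    have := Lz.prod h₁ h₂ hC₁ (C₂ := C₂) (fun β => hC₂ _)
    rwa [add_neg_cancel] at this
  have hpb : ∀ β, pw F₁ (fun p => F₂ (-p)) β ≤ |C₁| * |C₂| := by
    intro β
    unfold pw
    exact mul_le_mul ((hC₁ _).trans (le_abs_self _)) ((hC₂ _).trans (le_abs_self _))
      (h₂.nonneg _) (abs_nonneg _)
  obtain ⟨k1, C, k2⟩ := multi hp hpb (fun e : E => (Sum.inl e : E ⊕ E)) (fun e => Sum.inr e)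
    (fun _ _ => (1 : ℝ)) m (fun _ _ _ => one_pos) (fun _ _ _ => by norm_num)
  set κ : E ⊕ E → ℤ := Sum.elim lo (fun e => -lo e) with hκ
  have k3 := k1.shift κ
  have e0 : (0 : ℤ) - ∑ v, κ v = 0 := by
    rw [Fintype.sum_sum_type]
    simp [hκ]
  rw [e0] at k3
  have e1 : ∀ g : E ⊕ E → ℤ, pairA (Fintype.piFinset fun e => Icc (lo e) (lo e + m e)) F₁ F₂ g =
      ∑ S ∈ Fintype.piFinset (fun e : E => range (m e + 1)), (∏ _i : E, (1 : ℝ)) *
        pw F₁ (fun p => F₂ (-p)) (g + κ + ∑ e, (S e : ℤ) • (ev (Sum.inl e) - ev (Sum.inr e))) := by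
    intro g
    unfold pairA
    symm
    refine Finset.sum_nbij' (fun S e => lo e + (S e : ℤ)) (fun x e => (x e - lo e).toNat)
      ?_ ?_ ?_ ?_ ?_
    · intro S hS
      rw [Fintype.mem_piFinset] at hS ⊢
      intro e
      have := hS e
      rw [mem_range] at this
      rw [mem_Icc]; omega
    · intro x hx
      rw [Fintype.mem_piFinset] at hx ⊢
      intro e
      have := hx e
      rw [mem_Icc] at this
      rw [mem_range]; omega
    · intro S hS
      funext e
      simp
    · intro x hx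
      rw [Fintype.mem_piFinset] at hx
      funext e
      have := hx e
      rw [mem_Icc] at this
      simp only
      omega
    · intro S _
      rw [Finset.prod_const_one, one_mul]
      unfold pw
      have a1 : (fun v => (g + κ + ∑ e, (S e : ℤ) • (ev (Sum.inl e) - ev (Sum.inr e)) :
          E ⊕ E → ℤ) (Sum.inl v)) = (fun e => lo e + (S e : ℤ)) + fun e => g (Sum.inl e) := by
        funext v
        simp only [Pi.add_apply, Finset.sum_apply, Pi.smul_apply, Pi.sub_apply, smul_eq_mul]
        have b1 : ∀ e : E, ev (Sum.inr e : E ⊕ E) (Sum.inl v) = 0 := fun e => ev_ne (by simp)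
        simp only [b1, ev_inl_apply, sub_zero]
        rw [sum_smul_ev_apply (fun e => (S e : ℤ)) v]
        simp only [hκ, Sum.elim_inl]
        ring
      have a2 : -(fun v => (g + κ + ∑ e, (S e : ℤ) • (ev (Sum.inl e) - ev (Sum.inr e)) :
          E ⊕ E → ℤ) (Sum.inr v)) = (fun e => lo e + (S e : ℤ)) - fun e => g (Sum.inr e) := by
        funext v
        simp only [Pi.neg_apply, Pi.add_apply, Finset.sum_apply, Pi.smul_apply, Pi.sub_apply,
          smul_eq_mul]
        have b1 : ∀ e : E, ev (Sum.inl e : E ⊕ E) (Sum.inr v) = 0 := fun e => ev_ne (by simp)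
        simp only [b1, ev_inr_apply, zero_sub, mul_neg, Finset.sum_neg_distrib]
        rw [sum_smul_ev_apply (fun e => (S e : ℤ)) v]
        simp only [hκ, Sum.elim_inr]
        ring
      rw [a1]
      beta_reduce
      rw [a2]
  refine ⟨?_, C, fun g => ?_⟩
  · have : pairA (Fintype.piFinset fun e => Icc (lo e) (lo e + m e)) F₁ F₂ = fun g =>
        ∑ S ∈ Fintype.piFinset (fun e : E => range (m e + 1)), (∏ _i : E, (1 : ℝ)) *
        pw F₁ (fun p => F₂ (-p)) (g + κ + ∑ e, (S e : ℤ) • (ev (Sum.inl e) - ev (Sum.inr e))) := by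
      funext g; exact e1 g
    rw [this]; exact k3
  · rw [e1]; exact k2 _

end Crest.Agent.R302.Gau
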