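import Mathlib
import Crest.Agent.R302.Gau970C

/-!
R302 (helper970), block GAUGE, part D: the link mass of the official chain (`Stage536`).

* `sv D σ` : the signed link vector (`β₁ - blk x` on the blocks of side 1, `-(β₂ - blk x)` on side 2);
* `nuG_sv` : `nuG σ = θ ^ |sv| * wt ^ sv * F₁ (x + X-part) * F₂ (x - Y-part)`;
* `stage_links` : mass of the states with at least `h₀` link pairs;
* `oneLink_le` : the one-link constant from a good gauge.
-/

set_option autoImplicit false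
set_option linter.unusedSectionVars false

namespace Crest.Agent.R302.Gau

open Finset Crest.Agent.R302.Lor Crest.Agent.R302.Inst Crest.Agent.R302.Stage
open Crest.Agent.R302.Facet (MemJ SubM)

variable {E : Type*} [Fintype E] [DecidableEq E]

variable (D : SD E)

/-- tokens of the links -/
abbrev Lk : Type _ := D.S₁.Blk ⊕ D.S₂.Blk

/-- the element of a token -/
def el : Lk D → E := Sum.elim (fun r => r.1) (fun r => r.1)

/-- the place of a token in `E ⊕ E` -/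
def tok : Lk D → E ⊕ E := Sum.elim (fun r => Sum.inl r.1) (fun r => Sum.inr r.1)

/-- the weight of a token -/
noncomputable def wt (i : Lk D) : ℝ := D.μ (el D i)

/-- signed link vector of a state -/
noncomputable def sv (σ : St D) : Lk D → ℤ :=
  Sum.elim (fun r => σ.2.1 r - bs D.S₁.T σ.1 r) (fun r => -(σ.2.2 r - bs D.S₂.T σ.1 r))

/-- soft weight of side 1 (with the stage weight) -/
noncomputable def F₁ : (E → ℤ) → ℝ := soft D.S₁w

/-- soft weight of side 2 -/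
noncomputable def F₂ : (E → ℤ) → ℝ := soft D.S₂

/-- shift of the loads -/
noncomputable def sh (s : Lk D → ℤ) : E ⊕ E → ℤ := ∑ i, s i • ev (tok D i)

theorem sh_inl (σ : St D) : (σ.1 + fun e => sh D (sv D σ) (Sum.inl e)) = D.S₁.load σ.1 σ.2.1 := by
  funext e
  unfold sh
  rw [Pi.add_apply, Finset.sum_apply, Fintype.sum_sum_type]
  have h2 : ∑ r : D.S₂.Blk, (sv D σ (Sum.inr r) • ev (tok D (Sum.inr r))) (Sum.inl e) = 0 := by
    refine Finset.sum_eq_zero fun r _ => ?_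
    rw [Pi.smul_apply]
    have : ev (tok D (Sum.inr r)) (Sum.inl e) = 0 := ev_ne (by simp [tok])
    rw [this, smul_zero]
  rw [h2, add_zero]
  have h1 : ∀ r : D.S₁.Blk, (sv D σ (Sum.inl r) • ev (tok D (Sum.inl r))) (Sum.inl e) =
      if (r : E) = e then σ.2.1 r - bs D.S₁.T σ.1 r else 0 := by
    intro r
    rw [Pi.smul_apply]
    have : ev (tok D (Sum.inl r)) (Sum.inl e) = ev (r : E) e := ev_inl_apply _ _
    rw [this]
    by_cases h : (r : E) = e
    · subst h; rw [if_pos rfl, ev_self]; simp [sv]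
    · rw [if_neg h, ev_ne h, smul_zero]
  simp only [h1]
  unfold Side.load
  by_cases h : D.S₁.T.par e = none
  · rw [dif_pos h, Finset.sum_eq_single (⟨e, h⟩ : D.S₁.Blk)]
    · rw [if_pos rfl]
    · intro r _ hr
      rw [if_neg]
      intro h'
      exact hr (Subtype.ext h')
    · intro h'; exact absurd (mem_univ _) h'
  · rw [dif_neg h, Finset.sum_eq_zero, add_zero]
    intro r _
    rw [if_neg]
    rintro rfl
    exact h r.2

theorem sh_inr (σ : St D) : (σ.1 - fun e => sh D (sv D σ) (Sum.inr e)) = D.S₂.load σ.1 σ.2.2 := by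
  funext e
  unfold sh
  rw [Pi.sub_apply, Finset.sum_apply, Fintype.sum_sum_type]
  have h2 : ∑ r : D.S₁.Blk, (sv D σ (Sum.inl r) • ev (tok D (Sum.inl r))) (Sum.inr e) = 0 := by
    refine Finset.sum_eq_zero fun r _ => ?_
    rw [Pi.smul_apply]
    have : ev (tok D (Sum.inl r)) (Sum.inr e) = 0 := ev_ne (by simp [tok])
    rw [this, smul_zero]
  rw [h2, zero_add]
  have h1 : ∀ r : D.S₂.Blk, (sv D σ (Sum.inr r) • ev (tok D (Sum.inr r))) (Sum.inr e) =
      if (r : E) = e then -(σ.2.2 r - bs D.S₂.T σ.1 r) else 0 := by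
    intro r
    rw [Pi.smul_apply]
    have : ev (tok D (Sum.inr r)) (Sum.inr e) = ev (r : E) e := ev_inr_apply _ _
    rw [this]
    by_cases h : (r : E) = e
    · subst h; rw [if_pos rfl, ev_self]; simp [sv]
    · rw [if_neg h, ev_ne h, smul_zero]
  simp only [h1]
  unfold Side.load
  by_cases h : D.S₂.T.par e = none
  · rw [dif_pos h, Finset.sum_eq_single (⟨e, h⟩ : D.S₂.Blk)]
    · rw [if_pos rfl]; ring
    · intro r _ hr
      rw [if_neg]
      intro h'
      exact hr (Subtype.ext h')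
    · intro h'; exact absurd (mem_univ _) h'
  · rw [dif_neg h, Finset.sum_eq_zero, sub_zero]
    intro r _
    rw [if_neg]
    rintro rfl
    exact h r.2

variable {D}

/-- **the weight through the link vector** -/
theorem nuG_sv (hμ₁ : D.S₁.Gauge D.μ) (hμ₂ : D.S₂.Gauge D.μ) (σ : St D) :
    D.nuG σ = D.θ ^ (∑ i, (sv D σ i).natAbs) * (∏ i, wt D i ^ sv D σ i) *
      (F₁ D (σ.1 + fun e => sh D (sv D σ) (Sum.inl e)) *
        F₂ D (σ.1 - fun e => sh D (sv D σ) (Sum.inr e))) := by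
  rw [SD.nuG_eq, sh_inl, sh_inr]
  have hT : D.S₁w.T = D.S₁.T := rfl
  have f1 : F₁ D (D.S₁.load σ.1 σ.2.1) = D.S₁w.ff σ.1 σ.2.1 :=
    (Side.ff_load (S := D.S₁w) σ.1 σ.2.1).symm
  have f2 : F₂ D (D.S₂.load σ.1 σ.2.2) = D.S₂.ff σ.1 σ.2.2 :=
    (Side.ff_load (S := D.S₂) σ.1 σ.2.2).symm
  rw [f1, f2]
  have e1 : D.θ ^ (∑ i, (sv D σ i).natAbs) =
      (∏ r : D.S₁.Blk, D.θ ^ (σ.2.1 r - bs D.S₁.T σ.1 r).natAbs) *
        (∏ r : D.S₂.Blk, D.θ ^ (σ.2.2 r - bs D.S₂.T σ.1 r).natAbs) := by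
    rw [Fintype.sum_sum_type, pow_add, Finset.prod_pow_eq_pow_sum, Finset.prod_pow_eq_pow_sum]
    congr 2
    refine Finset.sum_congr rfl fun r _ => ?_
    show (-(σ.2.2 r - bs D.S₂.T σ.1 r)).natAbs = _
    rw [Int.natAbs_neg]
  have hμ0 : ∀ a, 0 < D.μ a := hμ₁.1
  have m1 := Side.mon_eq hμ₁ σ.1
  have m2 := Side.mon_eq hμ₂ σ.1
  have hmon : 0 < mon D.μ σ.1 := mon_pos hμ0 σ.1
  have e2 : (∏ i, wt D i ^ sv D σ i) =
      (∏ r : D.S₁.Blk, D.μ r ^ σ.2.1 r) * (∏ r : D.S₂.Blk, ((D.μ r)⁻¹) ^ σ.2.2 r) := by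
    rw [Fintype.prod_sum_type]
    have a1 : ∏ r : D.S₁.Blk, wt D (Sum.inl r) ^ sv D σ (Sum.inl r) =
        (∏ r : D.S₁.Blk, D.μ r ^ σ.2.1 r) / mon D.μ σ.1 := by
      rw [m1, ← Finset.prod_div_distrib]
      refine Finset.prod_congr rfl fun r _ => ?_
      show D.μ r ^ (σ.2.1 r - bs D.S₁.T σ.1 r) = _
      rw [zpow_sub₀ (hμ0 _).ne']
    have a2 : ∏ r : D.S₂.Blk, wt D (Sum.inr r) ^ sv D σ (Sum.inr r) =
        (∏ r : D.S₂.Blk, ((D.μ r)⁻¹) ^ σ.2.2 r) * mon D.μ σ.1 := by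
      rw [m2, ← Finset.prod_mul_distrib]
      refine Finset.prod_congr rfl fun r _ => ?_
      show D.μ r ^ (-(σ.2.2 r - bs D.S₂.T σ.1 r)) = _
      rw [neg_sub, zpow_sub₀ (hμ0 _).ne', inv_zpow, div_eq_mul_inv, mul_comm]
    rw [a1, a2]
    field_simp
  rw [e1, e2]
  unfold nu Side.lw
  show (∏ r : D.S₁.Blk, D.θ ^ (σ.2.1 r - bs D.S₁.T σ.1 r).natAbs) *
      (∏ r : D.S₁.Blk, D.μ r ^ σ.2.1 r) * D.S₁w.ff σ.1 σ.2.1 *
      ((∏ r : D.S₂.Blk, D.θ ^ (σ.2.2 r - bs D.S₂.T σ.1 r).natAbs) *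
        (∏ r : D.S₂.Blk, ((D.μ r)⁻¹) ^ σ.2.2 r) * D.S₂.ff σ.1 σ.2.2) = _
  ring

/-- window of `x` -/
noncomputable def bx1 (D : SD E) : Finset (E → ℤ) :=
  Fintype.piFinset fun e => Icc (D.c e - D.M) (D.c e + D.M)

theorem bx1_eq (D : SD E) : bx1 D =
    Fintype.piFinset fun e => Icc (D.c e - D.M) ((D.c e - D.M) + ((2 * D.M : ℕ) : ℤ)) := by
  unfold bx1
  congr 1
  funext e
  congr 1
  push_cast; ring

/-- the hypotheses of the link mass bound: gauges constant on the blocks, both soft weights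
Lorentzian and bounded -/
structure LzD (D : SD E) : Prop where
  gauge₁ : D.S₁.Gauge D.μ
  gauge₂ : D.S₂.Gauge D.μ
  lz : ∃ R : ℤ, Lz R (F₁ D) ∧ Lz (-R) (fun p => F₂ D (-p))
  bdd₁ : ∃ C, ∀ p, F₁ D p ≤ C
  bdd₂ : ∃ C, ∀ p, F₂ D p ≤ C

/-- joint soft mass of a link vector -/
noncomputable def AA (D : SD E) : (E ⊕ E → ℤ) → ℝ := pairA (bx1 D) (F₁ D) (F₂ D)

theorem LzD.pair (h : LzD D) : Lz 0 (AA D) ∧ ∃ C, ∀ g, AA D g ≤ C := by
  obtain ⟨R, h1, h2⟩ := h.lz
  obtain ⟨C₁, hC₁⟩ := h.bdd₁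
  obtain ⟨C₂, hC₂⟩ := h.bdd₂
  unfold AA
  rw [bx1_eq]
  exact Lz_pair h1 h2 hC₁ hC₂ (fun e => D.c e - D.M) (fun _ => 2 * D.M)

theorem LzD.nonneg₁ (h : LzD D) (p : E → ℤ) : 0 ≤ F₁ D p := by
  obtain ⟨R, h1, _⟩ := h.lz
  exact h1.nonneg p

theorem LzD.nonneg₂ (h : LzD D) (p : E → ℤ) : 0 ≤ F₂ D p := by
  obtain ⟨R, _, h2⟩ := h.lz
  have := h2.nonneg (-p)
  rwa [neg_neg] at this

theorem θ_pos (D : SD E) : 0 < D.θ := by unfold SD.θ; positivity

theorem wt_pos (D : SD E) (i : Lk D) : 0 < wt D i := by unfold wt SD.μ; positivity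

/-- the mass of the states with link vector in `F` -/
theorem mass_le (h : LzD D) (P : (Lk D → ℤ) → Prop) [DecidablePred P] :
    ∑ σ ∈ D.bx.filter (fun σ => P (sv D σ)), D.nuG σ ≤
      ∑ s ∈ ((D.bx.filter fun σ => P (sv D σ)).image (sv D)),
        D.θ ^ (∑ i, (s i).natAbs) * (∏ i, wt D i ^ s i) * AA D (sh D s) := by
  classical
  set T := D.bx.filter fun σ => P (sv D σ) with hT
  rw [← Finset.sum_fiberwise_of_maps_to (s := T) (t := T.image (sv D)) (g := sv D)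
    (fun σ hσ => Finset.mem_image_of_mem _ hσ)]
  refine Finset.sum_le_sum fun s _ => ?_
  have e1 : ∀ σ ∈ T.filter (fun σ => sv D σ = s), D.nuG σ =
      D.θ ^ (∑ i, (s i).natAbs) * (∏ i, wt D i ^ s i) *
      (F₁ D (σ.1 + fun e => sh D s (Sum.inl e)) * F₂ D (σ.1 - fun e => sh D s (Sum.inr e))) := by
    intro σ hσ
    have := (Finset.mem_filter.1 hσ).2
    rw [nuG_sv h.gauge₁ h.gauge₂ σ, this]
  rw [Finset.sum_congr rfl e1, ← Finset.mul_sum]
  have hw : 0 ≤ D.θ ^ (∑ i, (s i).natAbs) * (∏ i, wt D i ^ s i) :=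
    mul_nonneg (pow_nonneg (θ_pos D).le _)
      (Finset.prod_nonneg fun i _ => (zpow_pos (wt_pos D i) _).le)
  refine mul_le_mul_of_nonneg_left ?_ hw
  -- injectivity of `σ ↦ σ.1` for given links
  have hinj : Set.InjOn (fun σ : St D => σ.1) (T.filter (fun σ => sv D σ = s) : Finset (St D)) := by
    intro σ hσ σ' hσ' hx
    have h1 := (Finset.mem_filter.1 (Finset.mem_coe.1 hσ)).2
    have h2 := (Finset.mem_filter.1 (Finset.mem_coe.1 hσ')).2
    have hx' : σ.1 = σ'.1 := hx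
    refine Prod.ext hx' (Prod.ext ?_ ?_)
    · funext r
      have a1 := congrFun h1 (Sum.inl r)
      have a2 := congrFun h2 (Sum.inl r)
      simp only [sv, Sum.elim_inl] at a1 a2
      rw [hx'] at a1
      linarith
    · funext r
      have a1 := congrFun h1 (Sum.inr r)
      have a2 := congrFun h2 (Sum.inr r)
      simp only [sv, Sum.elim_inr] at a1 a2
      rw [hx'] at a1
      linarith
  rw [← Finset.sum_image (f := fun x => F₁ D (x + fun e => sh D s (Sum.inl e)) *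
    F₂ D (x - fun e => sh D s (Sum.inr e))) hinj]
  unfold AA pairA
  refine Finset.sum_le_sum_of_subset_of_nonneg ?_ fun x _ _ =>
    mul_nonneg (h.nonneg₁ _) (h.nonneg₂ _)
  intro x hx
  obtain ⟨σ, hσ, rfl⟩ := Finset.mem_image.1 hx
  have h1 := (Finset.mem_filter.1 (Finset.mem_filter.1 hσ).1).1
  unfold SD.bx at h1
  exact (Finset.mem_product.1 h1).1

/-- number of link pairs of a state -/
noncomputable def lks (D : SD E) (σ : St D) : ℕ := ups (sv D σ)

/-- **link tail** : the mass of the states with at least `h₀` link pairs -/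
theorem stage_links (h : LzD D) (hpos : 0 < AA D 0) {K : ℝ}
    (hK : ∑ i : Lk D, ∑ j : Lk D, wt D i / wt D j * AA D (ev (tok D i) - ev (tok D j)) ≤
      K * AA D 0) (hq : D.θ ^ 2 * K < 1) (h₀ : ℕ) :
    ∑ σ ∈ D.bx.filter (fun σ => h₀ ≤ lks D σ), D.nuG σ ≤
      (D.θ ^ 2 * K) ^ h₀ / (1 - D.θ ^ 2 * K) * AA D 0 := by
  classical
  obtain ⟨hL, C, hC⟩ := h.pair
  refine (mass_le h (fun s => h₀ ≤ ups s)).trans ?_
  refine link_mass hL hC hpos (tok D) (wt_pos D) hK (θ_pos D).le hq h₀ _ ?_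
  intro s hs
  obtain ⟨σ, hσ, rfl⟩ := Finset.mem_image.1 hs
  exact (Finset.mem_filter.1 hσ).2

open Classical in
/-- **link mass** : the mass of the states with a link -/
theorem stage_links' (h : LzD D) (hpos : 0 < AA D 0) {K : ℝ}
    (hK : ∑ i : Lk D, ∑ j : Lk D, wt D i / wt D j * AA D (ev (tok D i) - ev (tok D j)) ≤
      K * AA D 0) (hq : D.θ ^ 2 * K < 1) :
    ∑ σ ∈ D.bx.filter (fun σ => sv D σ ≠ 0), D.nuG σ ≤
      D.θ ^ 2 * K / (1 - D.θ ^ 2 * K) * AA D 0 := by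
  obtain ⟨hL, C, hC⟩ := h.pair
  have h1 := mass_le h (fun s => s ≠ 0)
  refine le_trans (le_of_eq ?_) (h1.trans ?_)
  · congr!
  refine link_mass' hL hC hpos (tok D) (wt_pos D) hK (θ_pos D).le hq _ ?_
  intro hs
  obtain ⟨σ, hσ, h0⟩ := Finset.mem_image.1 hs
  exact (Finset.mem_filter.1 hσ).2 h0

/-- the states without link -/
theorem sv_eq_zero_iff (σ : St D) : sv D σ = 0 ↔ σ = D.pf σ.1 := by
  constructor
  · intro h
    refine Prod.ext rfl (Prod.ext ?_ ?_)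
    · funext r
      have := congrFun h (Sum.inl r)
      simp only [sv, Sum.elim_inl, Pi.zero_apply] at this
      show σ.2.1 r = bs D.S₁.T σ.1 r
      linarith
    · funext r
      have := congrFun h (Sum.inr r)
      simp only [sv, Sum.elim_inr, Pi.zero_apply] at this
      show σ.2.2 r = bs D.S₂.T σ.1 r
      linarith
  · intro h
    have h1 : ∀ r, σ.2.1 r = bs D.S₁.T σ.1 r := fun r => by
      conv_lhs => rw [h]
      rfl
    have h2 : ∀ r, σ.2.2 r = bs D.S₂.T σ.1 r := fun r => by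
      conv_lhs => rw [h]
      rfl
    funext i
    rcases i with r | r
    · simp only [sv, Sum.elim_inl, Pi.zero_apply]; rw [h1]; ring
    · simp only [sv, Sum.elim_inr, Pi.zero_apply]; rw [h2]; ring

theorem nuG_pf (hμ₁ : D.S₁.Gauge D.μ) (hμ₂ : D.S₂.Gauge D.μ) (x : E → ℤ) :
    D.nuG (D.pf x) = F₁ D x * F₂ D x := by
  have h0 : sv D (D.pf x) = 0 := (sv_eq_zero_iff _).2 rfl
  rw [nuG_sv hμ₁ hμ₂, h0]
  have e : sh D 0 = 0 := by unfold sh; simp
  rw [e]
  simp only [Pi.zero_apply, Int.natAbs_zero, Finset.sum_const_zero, pow_zero, zpow_zero,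
    Finset.prod_const_one, one_mul]
  have e1 : ((D.pf x).1 + fun _ => (0 : ℤ)) = x := by
    funext e; simp [SD.pf]
  have e2 : ((D.pf x).1 - fun _ => (0 : ℤ)) = x := by
    funext e; simp [SD.pf]
  rw [e1, e2]

theorem AA_zero (D : SD E) : AA D 0 = ∑ x ∈ bx1 D, F₁ D x * F₂ D x := by
  unfold AA pairA
  refine Finset.sum_congr rfl fun x _ => ?_
  have e1 : (x + fun e => (0 : E ⊕ E → ℤ) (Sum.inl e)) = x := by funext e; simp
  have e2 : (x - fun e => (0 : E ⊕ E → ℤ) (Sum.inr e)) = x := by funext e; simp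
  rw [e1, e2]

/-- **one-link constant from a good gauge** : if `Nb u v` bounds the soft number of pairs of the
type `(u, v)` over every finite window and `Nb u v * μ u ≤ Γ * A 0 * μ v`, then `K = Γ * |Lk|²`. -/
theorem oneLink_le (h : LzD D) {Γ : ℝ} {Nb : E → E → ℝ}
    (hN : ∀ u v : E, ∀ B : Finset (E → ℤ), ∑ x ∈ B, F₁ D (x + ev u) * F₂ D (x + ev v) ≤ Nb u v)
    (hG : ∀ i j : Lk D, Nb (el D i) (el D j) * D.μ (el D i) ≤ Γ * AA D 0 * D.μ (el D j)) :
    ∑ i : Lk D, ∑ j : Lk D, wt D i / wt D j * AA D (ev (tok D i) - ev (tok D j)) ≤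
      (Γ * Fintype.card (Lk D) ^ 2) * AA D 0 := by
  classical
  have hμ : ∀ e, 0 < D.μ e := h.gauge₁.1
  -- translated form of `hN`
  have hN' : ∀ (u v : E) (a b : E → ℤ), a - b = ev u - ev v → ∀ B : Finset (E → ℤ),
      ∑ x ∈ B, F₁ D (x + a) * F₂ D (x + b) ≤ Nb u v := by
    intro u v a b hab B
    have h1 := hN u v (B.image fun x => x + (a - ev u))
    rw [Finset.sum_image (fun x _ y _ hxy => add_right_cancel hxy)] at h1
    refine le_trans (le_of_eq (Finset.sum_congr rfl fun x _ => ?_)) h1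
    have e1 : x + (a - ev u) + ev u = x + a := by abel
    have e2 : x + (a - ev u) + ev v = x + b := by
      have : a - ev u + ev v = b := by
        have := hab
        rw [sub_eq_sub_iff_add_eq_add] at this
        have h3 : a + ev v = ev u + b := this
        calc a - ev u + ev v = (a + ev v) - ev u := by abel
          _ = (ev u + b) - ev u := by rw [h3]
          _ = b := by abel
      rw [add_assoc, this]
    rw [e1, e2]
  have key : ∀ i j : Lk D, AA D (ev (tok D i) - ev (tok D j)) ≤ Nb (el D i) (el D j) := by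
    intro i j
    have e1 : AA D (ev (tok D i) - ev (tok D j)) = ∑ x ∈ bx1 D,
        F₁ D (x + fun e => (ev (tok D i) - ev (tok D j)) (Sum.inl e)) *
        F₂ D (x + -(fun e => (ev (tok D i) - ev (tok D j)) (Sum.inr e))) := by
      unfold AA pairA
      refine Finset.sum_congr rfl fun x _ => ?_
      rw [sub_eq_add_neg x]
    rw [e1]
    refine hN' _ _ _ _ ?_ _
    funext e
    have hsum : ∀ i : Lk D, ev (tok D i) (Sum.inl e) + ev (tok D i) (Sum.inr e) = ev (el D i) e := by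
      intro i
      rcases i with r | r
      · have a1 : ev (tok D (Sum.inl r)) (Sum.inr e) = 0 := ev_ne (by simp [tok])
        have a2 : ev (tok D (Sum.inl r)) (Sum.inl e) = ev (r : E) e := ev_inl_apply _ _
        rw [a1, a2, add_zero]; rfl
      · have a1 : ev (tok D (Sum.inr r)) (Sum.inl e) = 0 := ev_ne (by simp [tok])
        have a2 : ev (tok D (Sum.inr r)) (Sum.inr e) = ev (r : E) e := ev_inr_apply _ _
        rw [a1, a2, zero_add]; rfl
    have h1 := hsum i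
    have h2 := hsum j
    simp only [Pi.sub_apply, Pi.neg_apply]
    rw [← h1, ← h2]; ring
  have key2 : ∀ i j : Lk D, wt D i / wt D j * AA D (ev (tok D i) - ev (tok D j)) ≤ Γ * AA D 0 := by
    intro i j
    have h1 := hG i j
    have h2 := key i j
    have hi := hμ (el D i)
    have hj := hμ (el D j)
    unfold wt
    rw [div_mul_eq_mul_div, div_le_iff₀ hj]
    calc D.μ (el D i) * AA D (ev (tok D i) - ev (tok D j)) ≤ D.μ (el D i) * Nb (el D i) (el D j) :=
          mul_le_mul_of_nonneg_left h2 hi.le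
      _ = Nb (el D i) (el D j) * D.μ (el D i) := by ring
      _ ≤ _ := h1
  calc _ ≤ ∑ i : Lk D, ∑ j : Lk D, Γ * AA D 0 :=
        Finset.sum_le_sum fun i _ => Finset.sum_le_sum fun j _ => key2 i j
    _ = _ := by
        simp only [Finset.sum_const, Finset.card_univ, nsmul_eq_mul]
        ring

/-- a finite bound of the soft weight with stage weight -/
theorem F₁_bdd (hOK : D.OK) : ∃ C, ∀ p, F₁ D p ≤ C := by
  classical
  refine ⟨∑ z ∈ D.S₁.J, 2 ^ (-D.w (D.S₁.blk z)), fun p => ?_⟩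
  have h0 : ∀ z, (0 : ℝ) ≤ 2 ^ (-D.w (D.S₁.blk z)) := fun z => by positivity
  have e : F₁ D p = 2 ^ (-D.w (D.S₁.blk p)) * D.S₁.ff p (D.S₁.blk p) := SD.ff_S₁w _ _
  rw [e]
  by_cases hz : ∃ z ∈ D.S₁.J, D.S₁.blk z = D.S₁.blk p
  · obtain ⟨z, hzJ, hz⟩ := hz
    rw [← hz]
    calc (2 : ℝ) ^ (-D.w (D.S₁.blk z)) * D.S₁.ff p (D.S₁.blk z) ≤ 2 ^ (-D.w (D.S₁.blk z)) * 1 :=
          mul_le_mul_of_nonneg_left (hOK.f₁ _ _) (h0 z)
      _ = 2 ^ (-D.w (D.S₁.blk z)) := mul_one _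
      _ ≤ _ := Finset.single_le_sum (f := fun z => (2 : ℝ) ^ (-D.w (D.S₁.blk z)))
          (fun z _ => h0 z) hzJ
  · have : D.S₁.ff p (D.S₁.blk p) = 0 := by
      unfold Side.ff
      refine Finset.sum_eq_zero fun z hzJ => ?_
      push Not at hz
      obtain ⟨r, hr⟩ := Function.ne_iff.1 (hz z hzJ)
      have : ∏ a, D.S₁.fk p (D.S₁.blk p) z a = 0 := by
        refine Finset.prod_eq_zero (mem_univ (r : E)) ?_
        unfold Side.fk
        rw [dif_pos r.2, if_neg]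
        exact hr
      rw [this, mul_zero]
    rw [this, mul_zero]
    exact Finset.sum_nonneg fun z _ => h0 z

/-- **the hypotheses from 532's shapes** -/
theorem LzD.of_shape (hOK : D.OK) {r₁ r₂ : Finset E → ℤ} {R : ℤ} {ω₁ ω₂ : E → ℤ → ℝ}
    (h₁ : Shape D.S₁w r₁ R ω₁) (h₂ : Shape D.S₂ r₂ R ω₂)
    (g₁ : D.S₁.Gauge D.μ) (g₂ : D.S₂.Gauge D.μ) : LzD D where
  gauge₁ := g₁
  gauge₂ := g₂
  lz := by
    refine ⟨R, ?_, ?_⟩
    · exact Lz_soft (Lz_base h₁.sub h₁.mem h₁.wt (fun v k => (h₁.ωlc v).1 k)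
        (fun v k => (h₁.ωlc v).2 k)) (fun a ha t => (h₁.κlc a ha).1 t)
        (fun a ha t => (h₁.κlc a ha).2 t)
    · have e : (fun p => F₂ D (-p)) = soft (refl D.S₂) := by
        funext p; exact (soft_refl D.S₂ p).symm
      rw [e]
      refine Lz_soft (Lz_base_refl h₂.sub h₂.mem h₂.wt (fun v k => (h₂.ωlc v).1 k)
        (fun v k => (h₂.ωlc v).2 k)) (fun a ha t => (h₂.κlc a ha).1 (-t)) (fun a ha t => ?_)
      have := (h₂.κlc a ha).2 (-(t + 2))
      show D.S₂.κ a (-t) * D.S₂.κ a (-(t + 2)) ≤ D.S₂.κ a (-(t + 1)) ^ 2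
      rw [show -(t + 2) + 2 = -t by ring, show -(t + 2) + 1 = -(t + 1) by ring] at this
      rw [mul_comm]; exact this
  bdd₁ := F₁_bdd hOK
  bdd₂ := ⟨1, fun p => hOK.f₂ _ _⟩

theorem soft_pos {S : Side E} (hg : ∀ z, 0 ≤ S.g z) (hκ : ∀ a t, 0 ≤ S.κ a t) {x : E → ℤ}
    (hx : x ∈ S.J) (hgx : 0 < S.g x) (hκx : ∀ a, S.T.par a ≠ none → 0 < S.κ a 0) :
    0 < soft S x := by
  unfold soft Side.ff
  refine lt_of_lt_of_le ?_ (Finset.single_le_sum (f := fun z => S.g z * ∏ a, S.fk x (S.blk x) z a)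
    (fun z _ => mul_nonneg (hg z) (Finset.prod_nonneg fun a _ => Side.fk_nonneg' hκ _ _ _ _)) hx)
  refine mul_pos hgx (Finset.prod_pos fun a _ => ?_)
  unfold Side.fk
  by_cases h : S.T.par a = none
  · rw [dif_pos h, if_pos]; · exact one_pos
    rfl
  · rw [dif_neg h, sub_self]; exact hκx a h

theorem AA_pos (h : LzD D) {x : E → ℤ} (hx : x ∈ bx1 D) (h1 : 0 < F₁ D x) (h2 : 0 < F₂ D x) :
    0 < AA D 0 := by
  rw [AA_zero]
  exact Finset.sum_pos' (fun x _ => mul_nonneg (h.nonneg₁ _) (h.nonneg₂ _)) ⟨x, hx, mul_pos h1 h2⟩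

end Crest.Agent.R302.Gau
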