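import Crest.Agent.R302.Badm907
import Crest.Agent.R302.Gau970D

/-!
# R302: the hard link mass

Author: helper907.  `sum_gN_stage` : with a good gauge the weighted number of the hard link states
is at most `1 / (1 - q)` times the number of the points of `J₁ ∩ J₂` (from helper970's `link_mass'`,
applied to the chain with trivial slack laws).
-/

set_option autoImplicit false
set_option linter.unusedSectionVars false

namespace Crest.Agent.R302.Tail907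

open Finset
open Crest.Agent.R302.Facet (SubM MemJ)
open Crest.Agent.R302.Inst Crest.Agent.R302.Lor Crest.Agent.R302.Stage Crest.Agent.R302.Gau

variable {E : Type*} [Fintype E] [DecidableEq E]

theorem bs_inj {T : MP3.Forest E} {x y : E → ℤ} (h : ∀ a, bs T x a = bs T y a) : x = y := by
  have h1 : code T.par x = code T.par y := by
    rw [code_funext, code_funext]; exact funext h
  have h2 := congrArg (dec T.par) h1
  rwa [dec_code T.par T.dep T.dep_lt, dec_code T.par T.dep T.dep_lt] at h2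

theorem soft_of_hard {S : Side E} (hg : ∀ z, S.g z = 1)
    (hκ : ∀ a t, S.κ a t = if t = 0 then 1 else 0) (p : E → ℤ) :
    soft S p = if p ∈ S.J then 1 else 0 := by
  unfold soft Side.ff
  have h1 : ∀ z, ∏ a, S.fk p (S.blk p) z a = if z = p then 1 else 0 := by
    intro z
    have h2 : ∀ a, S.fk p (S.blk p) z a = if bs S.T z a = bs S.T p a then 1 else 0 := by
      intro a
      unfold Side.fk
      by_cases h : S.T.par a = none
      · rw [dif_pos h]; rfl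
      · rw [dif_neg h, hκ]
        simp only [sub_eq_zero]
    rw [prod_congr rfl fun a _ => h2 a]
    by_cases hz : z = p
    · subst hz; simp
    · rw [if_neg hz]
      have : ∃ a, bs S.T z a ≠ bs S.T p a := by
        by_contra hcon
        push Not at hcon
        exact hz (bs_inj hcon)
      obtain ⟨a, ha⟩ := this
      exact prod_eq_zero (mem_univ a) (if_neg ha)
  simp only [h1, hg, one_mul]
  rw [sum_ite_eq' S.J p]

/-- chain data without slacks -/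
structure Hard (D : SD E) : Prop where
  w : ∀ β, D.w β = 0
  g₁ : ∀ z, D.S₁.g z = 1
  g₂ : ∀ z, D.S₂.g z = 1
  κ₁ : ∀ a t, D.S₁.κ a t = if t = 0 then 1 else 0
  κ₂ : ∀ a t, D.S₂.κ a t = if t = 0 then 1 else 0
  c : ∀ e, D.c e = 0

variable {D : SD E}

theorem Hard.F₁ (h : Hard D) (p : E → ℤ) : Gau.F₁ D p = if p ∈ D.S₁.J then 1 else 0 := by
  refine soft_of_hard (S := D.S₁w) (fun z => ?_) (fun a t => h.κ₁ a t) p
  show D.S₁.g z * 2 ^ (-D.w (D.S₁.blk z)) = 1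
  rw [h.g₁, h.w]
  norm_num

theorem Hard.F₂ (h : Hard D) (p : E → ℤ) : Gau.F₂ D p = if p ∈ D.S₂.J then 1 else 0 :=
  soft_of_hard (S := D.S₂) h.g₂ h.κ₂ p

theorem Hard.lzD (h : Hard D) {r₁ r₂ : Finset E → ℤ} {R : ℤ} (hr₁ : SubM r₁ R) (hr₂ : SubM r₂ R)
    (hJ₁ : ∀ z, z ∈ D.S₁.J ↔ MemJ r₁ R z) (hJ₂ : ∀ z, z ∈ D.S₂.J ↔ MemJ r₂ R z)
    (g₁ : D.S₁.Gauge D.μ) (g₂ : D.S₂.Gauge D.μ) : LzD D where
  gauge₁ := g₁
  gauge₂ := g₂
  lz := by
    classical
    refine ⟨R, ?_, ?_⟩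
    · refine Lz.memJ hr₁ (fun z hz => ?_) (fun z hz => ?_)
      · rw [h.F₁, if_pos ((hJ₁ z).2 hz)]
      · rw [h.F₁, if_neg (fun h => hz ((hJ₁ z).1 h))]
    · have := Lz.memJ_reflect hr₂ 0 (c := fun p => Gau.F₂ D (-p))
        (fun z hz => by
          rw [zero_sub] at hz
          rw [h.F₂, if_pos ((hJ₂ _).2 hz)])
        (fun z hz => by
          rw [zero_sub] at hz
          rw [h.F₂, if_neg (fun h => hz ((hJ₂ _).1 h))])
      simpa using this
  bdd₁ := ⟨1, fun p => by rw [h.F₁]; split_ifs <;> norm_num⟩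
  bdd₂ := ⟨1, fun p => by rw [h.F₂]; split_ifs <;> norm_num⟩

/-- signed link vector of a pair of root-supported vectors -/
def svec (D : SD E) (s₁ s₂ : E → ℤ) : Lk D → ℤ := Sum.elim (fun r => s₁ r.1) (fun r => -s₂ r.1)

theorem sh_svec (D : SD E) {s₁ s₂ : E → ℤ} (h₁ : ∀ e, D.S₁.T.par e ≠ none → s₁ e = 0)
    (h₂ : ∀ e, D.S₂.T.par e ≠ none → s₂ e = 0) :
    (fun e => sh D (svec D s₁ s₂) (Sum.inl e)) = s₁ ∧
    (fun e => sh D (svec D s₁ s₂) (Sum.inr e)) = fun e => -s₂ e := by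
  let σ : St D := ((0 : E → ℤ), (fun r => s₁ r.1), (fun r => s₂ r.1))
  have hb : ∀ (T : MP3.Forest E) e, bs T (0 : E → ℤ) e = 0 := bs_zero
  have hsv : sv D σ = svec D s₁ s₂ := by
    funext i
    rcases i with r | r
    · show s₁ r.1 - bs D.S₁.T (0 : E → ℤ) r = s₁ r.1
      rw [hb, sub_zero]
    · show -(s₂ r.1 - bs D.S₂.T (0 : E → ℤ) r) = -s₂ r.1
      rw [hb, sub_zero]
  have e1 := sh_inl D σ
  have e2 := sh_inr D σ
  rw [hsv] at e1 e2
  constructor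
  · funext e
    have := congrFun e1 e
    simp only [σ, Pi.add_apply, Pi.zero_apply, zero_add] at this
    rw [this]
    unfold Side.load
    by_cases h : D.S₁.T.par e = none
    · rw [dif_pos h, hb]; simp
    · rw [dif_neg h, h₁ e h]; rfl
  · funext e
    have := congrFun e2 e
    simp only [σ, Pi.sub_apply, Pi.zero_apply, zero_sub] at this
    have h3 : Side.load D.S₂ (0 : E → ℤ) (fun r => s₂ r.1) e = s₂ e := by
      unfold Side.load
      by_cases h : D.S₂.T.par e = none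
      · rw [dif_pos h, hb]; simp
      · rw [dif_neg h, h₂ e h]; rfl
    rw [h3] at this
    linarith

theorem Hard.pair (h : Hard D) (x a b : E → ℤ) : Gau.F₁ D (x + a) * Gau.F₂ D (x + b) =
    if (x + a ∈ D.S₁.J ∧ x + b ∈ D.S₂.J) then 1 else 0 := by
  rw [h.F₁, h.F₂]
  by_cases k1 : x + a ∈ D.S₁.J <;> by_cases k2 : x + b ∈ D.S₂.J <;> simp [k1, k2]

/-- the hard pair count -/
theorem Hard.AA (h : Hard D) {s₁ s₂ : E → ℤ} (h₁ : ∀ e, D.S₁.T.par e ≠ none → s₁ e = 0)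
    (h₂ : ∀ e, D.S₂.T.par e ≠ none → s₂ e = 0) (hM : ∀ z ∈ D.S₁.J, ∀ e, |z e - s₁ e| ≤ D.M) :
    Gau.AA D (sh D (svec D s₁ s₂)) = hardN D.S₁.J D.S₂.J s₁ s₂ := by
  obtain ⟨e1, e2⟩ := sh_svec D (s₁ := s₁) (s₂ := s₂) h₁ h₂
  unfold Gau.AA pairA
  rw [e1, e2]
  have e3 : ∀ x : E → ℤ, Gau.F₁ D (x + s₁) * Gau.F₂ D (x - fun e => -s₂ e) =
      if (x + s₁ ∈ D.S₁.J ∧ x + s₂ ∈ D.S₂.J) then 1 else 0 := by
    intro x
    have : (x - fun e => -s₂ e) = x + s₂ := by funext e; simp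
    rw [this, h.pair]
  rw [sum_congr rfl fun x _ => e3 x, ← sum_filter, sum_const, nsmul_eq_mul, mul_one]
  congr 1
  unfold hardN
  refine card_bij' (fun x _ => x + s₁) (fun z _ => z - s₁) ?_ ?_ ?_ ?_
  · intro x hx
    obtain ⟨_, k1, k2⟩ := mem_filter.1 hx
    refine mem_filter.2 ⟨k1, ?_⟩
    have : (fun v => (x + s₁) v - s₁ v + s₂ v) = x + s₂ := by funext v; simp
    rw [this]; exact k2
  · intro z hz
    obtain ⟨k1, k2⟩ := mem_filter.1 hz
    refine mem_filter.2 ⟨?_, by simpa using k1, ?_⟩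
    · unfold bx1
      rw [Fintype.mem_piFinset]
      intro e
      have := abs_le.1 (hM z k1 e)
      rw [mem_Icc, h.c]
      show (0 : ℤ) - D.M ≤ (z - s₁) e ∧ (z - s₁) e ≤ 0 + D.M
      rw [Pi.sub_apply]
      constructor <;> linarith
    · have : z - s₁ + s₂ = (fun v => z v - s₁ v + s₂ v) := by funext v; simp
      rw [this]; exact k2
  · intro x _; simp
  · intro z _; simp

theorem linkSet_root {par : E → Option E} {h₀ : ℕ} {s : E → ℤ} (hs : s ∈ linkSet par h₀) :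
    ∀ e, par e ≠ none → s e = 0 := by
  intro e he
  unfold linkSet at hs
  rw [Fintype.mem_piFinset] at hs
  have := hs e
  rwa [if_neg he, mem_singleton] at this

theorem linkSet_abs {par : E → Option E} {h₀ : ℕ} {s : E → ℤ} (hs : s ∈ linkSet par h₀) (e : E) :
    |s e| ≤ h₀ := by
  unfold linkSet at hs
  rw [Fintype.mem_piFinset] at hs
  have := hs e
  by_cases he : par e = none
  · rw [if_pos he, mem_Icc] at this
    exact abs_le.2 this
  · rw [if_neg he, mem_singleton] at this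
    rw [this]; simp

theorem sum_root {T : MP3.Forest E} {s : E → ℤ} (h : ∀ e, T.par e ≠ none → s e = 0) :
    ∑ r : {e // T.par e = none}, (s r.1).natAbs = ∑ v, (s v).natAbs := by
  rw [← sum_subtype (p := fun e => T.par e = none) (univ.filter (fun e => T.par e = none))
    (fun e => by simp) (fun e => (s e).natAbs), sum_filter]
  apply sum_congr rfl
  intro e _
  split_ifs with he
  · rfl
  · rw [h e he]; rfl

theorem prod_root {T : MP3.Forest E} {μ : E → ℝ} {s : E → ℤ} (h : ∀ e, T.par e ≠ none → s e = 0) :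
    ∏ r : {e // T.par e = none}, μ r.1 ^ s r.1 = mon μ s := by
  rw [← prod_subtype (p := fun e => T.par e = none) (univ.filter (fun e => T.par e = none))
    (fun e => by simp) (fun e => μ e ^ s e), prod_filter]
  unfold mon
  apply prod_congr rfl
  intro e _
  split_ifs with he
  · rfl
  · rw [h e he, zpow_zero]

theorem sum_le_insert_aux {ι : Type*} [DecidableEq ι] (f : ι → ℝ) (hf : ∀ i, 0 ≤ f i)
    (F : Finset ι) (i₀ : ι) : ∑ i ∈ F, f i ≤ f i₀ + ∑ i ∈ F.erase i₀, f i := by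
  by_cases h : i₀ ∈ F
  · rw [← add_sum_erase F f h]
  · rw [erase_eq_of_notMem h]
    linarith [hf i₀]

/-- weight of a link vector -/
noncomputable def lt (D : SD E) (s : Lk D → ℤ) : ℝ :=
  D.θ ^ (∑ i, (s i).natAbs) * (∏ i, wt D i ^ s i) * Gau.AA D (sh D s)

theorem lt_zero (D : SD E) : lt D 0 = Gau.AA D 0 := by
  have : sh D 0 = 0 := by unfold sh; simp
  unfold lt
  rw [this]
  simp

/-- all link vectors -/
theorem sum_lt_le (hL : LzD D) (hpos : 0 < Gau.AA D 0) {K : ℝ}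
    (hK : ∑ i : Lk D, ∑ j : Lk D, wt D i / wt D j * Gau.AA D (ev (tok D i) - ev (tok D j)) ≤
      K * Gau.AA D 0) (hq : D.θ ^ 2 * K < 1) (F : Finset (Lk D → ℤ)) :
    ∑ s ∈ F, lt D s ≤ 1 / (1 - D.θ ^ 2 * K) * Gau.AA D 0 := by
  classical
  obtain ⟨hLp, C, hC⟩ := hL.pair
  have h2 := link_mass' hLp hC hpos (tok D) (wt_pos D) hK (θ_pos D).le hq (F.erase 0)
    (notMem_erase _ _)
  have h0 : ∀ s : Lk D → ℤ, 0 ≤ lt D s := fun s =>
    mul_nonneg (mul_nonneg (pow_nonneg (θ_pos D).le _)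
      (prod_nonneg fun i _ => (zpow_pos (wt_pos D i) _).le)) (hLp.nonneg _)
  have h3 := sum_le_insert_aux (lt D) h0 F 0
  rw [lt_zero] at h3
  have h4 : ∑ s ∈ F.erase 0, lt D s ≤ D.θ ^ 2 * K / (1 - D.θ ^ 2 * K) * Gau.AA D 0 := h2
  have h5 : (1 : ℝ) - D.θ ^ 2 * K ≠ 0 := by linarith
  have h6 : 1 / (1 - D.θ ^ 2 * K) * Gau.AA D 0 =
      Gau.AA D 0 + D.θ ^ 2 * K / (1 - D.θ ^ 2 * K) * Gau.AA D 0 := by
    field_simp
    ring
  rw [h6]
  linarith

theorem card_Lk (D : SD E) : (Fintype.card (Lk D) : ℝ) ≤ 2 * Fintype.card E := by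
  have h1 : Fintype.card (Lk D) ≤ 2 * Fintype.card E := by
    have h2 : Fintype.card (Lk D) = Fintype.card D.S₁.Blk + Fintype.card D.S₂.Blk :=
      Fintype.card_sum
    have h3 : Fintype.card D.S₁.Blk ≤ Fintype.card E := Fintype.card_subtype_le _
    have h4 : Fintype.card D.S₂.Blk ≤ Fintype.card E := Fintype.card_subtype_le _
    omega
  exact_mod_cast h1

/-- the one-link constant of the hard chain -/
theorem Hard.oneLink (h : Hard D) (hL : LzD D) (hA0 : 0 ≤ Gau.AA D 0) {Γ : ℝ} (hΓ0 : 0 ≤ Γ)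
    (hΓ : ∀ i j : Lk D, (hardN D.S₁.J D.S₂.J (ev (el D i)) (ev (el D j)) : ℝ) * D.μ (el D i) ≤
      Γ * Gau.AA D 0 * D.μ (el D j)) :
    ∑ i : Lk D, ∑ j : Lk D, wt D i / wt D j * Gau.AA D (ev (tok D i) - ev (tok D j)) ≤
      (Γ * (2 * Fintype.card E) ^ 2) * Gau.AA D 0 := by
  have hN : ∀ u v : E, ∀ B : Finset (E → ℤ), ∑ x ∈ B, Gau.F₁ D (x + ev u) * Gau.F₂ D (x + ev v) ≤
      (hardN D.S₁.J D.S₂.J (ev u) (ev v) : ℝ) := by
    intro u v B
    rw [sum_congr rfl fun x _ => h.pair x (ev u) (ev v), ← sum_filter, sum_const, nsmul_eq_mul,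
      mul_one]
    have : (B.filter (fun x => x + ev u ∈ D.S₁.J ∧ x + ev v ∈ D.S₂.J)).card ≤
        hardN D.S₁.J D.S₂.J (ev u) (ev v) := by
      unfold hardN
      refine card_le_card_of_injOn (fun x => x + ev u) ?_ ?_
      · intro x hx
        obtain ⟨_, k1, k2⟩ := mem_filter.1 (mem_coe.1 hx)
        refine mem_coe.2 (mem_filter.2 ⟨k1, ?_⟩)
        have : (fun w => (x + ev u : E → ℤ) w - (ev u : E → ℤ) w + (ev v : E → ℤ) w) = x + ev v := by
          funext w; simp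
        rw [this]; exact k2
      · intro x _ y _ h
        exact add_right_cancel h
    exact_mod_cast this
  have hK1 := oneLink_le hL (Γ := Γ)
    (Nb := fun u v => (hardN D.S₁.J D.S₂.J (ev u) (ev v) : ℝ)) hN hΓ
  refine hK1.trans (mul_le_mul_of_nonneg_right ?_ hA0)
  apply mul_le_mul_of_nonneg_left _ hΓ0
  exact pow_le_pow_left₀ (by positivity) (card_Lk D) 2

/-- one link vector -/
theorem Hard.term (h : Hard D) (hL : LzD D) {h₀ : ℕ}
    (hM : ∀ z ∈ D.S₁.J, ∀ s : E → ℤ, (∀ e, |s e| ≤ (h₀ : ℤ)) → ∀ e, |z e - s e| ≤ D.M)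
    {s₁ s₂ : E → ℤ} (hs₁ : s₁ ∈ linkSet D.S₁.T.par h₀) (hs₂ : s₂ ∈ linkSet D.S₂.T.par h₀) :
    gN D.S₁.J D.S₂.J (Gl D.θ D.μ) h₀ s₁ s₂ ≤ lt D (svec D s₁ s₂) := by
  have k1 := linkSet_root hs₁
  have k2 := linkSet_root hs₂
  have e1 : Gau.AA D (sh D (svec D s₁ s₂)) = hardN D.S₁.J D.S₂.J s₁ s₂ :=
    h.AA k1 k2 (fun z hz e => hM z hz s₁ (linkSet_abs hs₁) e)
  have e2 : ∑ i, (svec D s₁ s₂ i).natAbs = ∑ v, (s₁ v).natAbs + ∑ v, (s₂ v).natAbs := by
    rw [Fintype.sum_sum_type]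
    congr 1
    · exact sum_root k1
    · have : ∀ r : D.S₂.Blk, (svec D s₁ s₂ (Sum.inr r)).natAbs = (s₂ r.1).natAbs := by
        intro r
        show (-s₂ r.1).natAbs = _
        rw [Int.natAbs_neg]
      rw [sum_congr rfl fun r _ => this r]
      exact sum_root k2
  have e3 : (∏ i, wt D i ^ svec D s₁ s₂ i) = mon D.μ s₁ * mon (fun e => (D.μ e)⁻¹) s₂ := by
    rw [Fintype.prod_sum_type]
    congr 1
    · exact prod_root (μ := D.μ) k1
    · have : ∀ r : D.S₂.Blk, wt D (Sum.inr r) ^ svec D s₁ s₂ (Sum.inr r) =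
          (D.μ r.1)⁻¹ ^ s₂ r.1 := by
        intro r
        show (D.μ r.1) ^ (-s₂ r.1) = _
        rw [zpow_neg, inv_zpow]
      rw [prod_congr rfl fun r _ => this r]
      exact prod_root (μ := fun e => (D.μ e)⁻¹) k2
  unfold lt
  rw [e1, e2, e3]
  unfold gN Gl
  split_ifs
  · exact le_rfl
  · exact mul_nonneg (Gl_nonneg (θ_pos D).le hL.gauge₁.1 s₁ s₂) (by positivity)

/-- the hard link mass of a hard chain -/
theorem Hard.sum_gN (h : Hard D) (hL : LzD D) (hpos : 0 < Gau.AA D 0) {K : ℝ}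
    (hK : ∑ i : Lk D, ∑ j : Lk D, wt D i / wt D j * Gau.AA D (ev (tok D i) - ev (tok D j)) ≤
      K * Gau.AA D 0) (hq : D.θ ^ 2 * K < 1) {h₀ : ℕ}
    (hM : ∀ z ∈ D.S₁.J, ∀ s : E → ℤ, (∀ e, |s e| ≤ (h₀ : ℤ)) → ∀ e, |z e - s e| ≤ D.M) :
    ∑ s₁ ∈ linkSet D.S₁.T.par h₀, ∑ s₂ ∈ linkSet D.S₂.T.par h₀,
      gN D.S₁.J D.S₂.J (Gl D.θ D.μ) h₀ s₁ s₂ ≤ 1 / (1 - D.θ ^ 2 * K) * Gau.AA D 0 := by
  classical
  refine le_trans ?_ (sum_lt_le hL hpos hK hq
    ((linkSet D.S₁.T.par h₀ ×ˢ linkSet D.S₂.T.par h₀).image (fun p => svec D p.1 p.2)))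
  rw [sum_image, sum_product]
  · exact sum_le_sum fun s₁ hs₁ => sum_le_sum fun s₂ hs₂ => h.term hL hM hs₁ hs₂
  · rintro ⟨s₁, s₂⟩ hs ⟨t₁, t₂⟩ ht hst
    obtain ⟨hs₁, hs₂⟩ := mem_product.1 (mem_coe.1 hs)
    obtain ⟨ht₁, ht₂⟩ := mem_product.1 (mem_coe.1 ht)
    have k1 : s₁ = t₁ := by
      funext e
      by_cases he : D.S₁.T.par e = none
      · exact congrFun hst (Sum.inl ⟨e, he⟩)
      · exact (linkSet_root hs₁ e he).trans (linkSet_root ht₁ e he).symm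
    have k2 : s₂ = t₂ := by
      funext e
      by_cases he : D.S₂.T.par e = none
      · have : -s₂ e = -t₂ e := congrFun hst (Sum.inr ⟨e, he⟩)
        exact neg_injective this
      · exact (linkSet_root hs₂ e he).trans (linkSet_root ht₂ e he).symm
    rw [k1, k2]

/-- the chain without slacks of a chain -/
noncomputable def hardOf (D : SD E) (M : ℕ) : SD E where
  S₁ := ⟨D.S₁.T, D.S₁.J, fun _ => 1, fun _ t => if t = 0 then 1 else 0⟩
  S₂ := ⟨D.S₂.T, D.S₂.J, fun _ => 1, fun _ t => if t = 0 then 1 else 0⟩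
  w := fun _ => 0
  a := D.a
  ell := D.ell
  c := fun _ => 0
  M := M
  Lb := 0
  mv := []
  lk₁ := []
  lk₂ := []
  qa := 0
  qb := 0

theorem hard_hardOf (D : SD E) (M : ℕ) : Hard (hardOf D M) :=
  ⟨fun _ => rfl, fun _ => rfl, fun _ => rfl, fun _ _ => rfl, fun _ _ => rfl, fun _ => rfl⟩

/-- **The hard link mass** of a stage. -/
theorem sum_gN_stage (D : SD E) {r₁ r₂ : Finset E → ℤ} {R : ℤ} (hr₁ : SubM r₁ R) (hr₂ : SubM r₂ R)
    (hJ₁ : ∀ z, z ∈ D.S₁.J ↔ MemJ r₁ R z) (hJ₂ : ∀ z, z ∈ D.S₂.J ↔ MemJ r₂ R z)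
    (g₁ : D.S₁.Gauge D.μ) (g₂ : D.S₂.Gauge D.μ) (hpos : 0 < hardN D.S₁.J D.S₂.J 0 0)
    {Γ : ℝ} (hΓ0 : 0 ≤ Γ)
    (hΓ : ∀ u v : E, (D.S₁.T.par u = none ∨ D.S₂.T.par u = none) →
      (D.S₁.T.par v = none ∨ D.S₂.T.par v = none) →
      (hardN D.S₁.J D.S₂.J (ev u) (ev v) : ℝ) * D.μ u ≤ Γ * hardN D.S₁.J D.S₂.J 0 0 * D.μ v)
    (hq : D.θ ^ 2 * (Γ * (2 * Fintype.card E) ^ 2) < 1) (h₀ : ℕ) :
    ∑ s₁ ∈ linkSet D.S₁.T.par h₀, ∑ s₂ ∈ linkSet D.S₂.T.par h₀,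
      gN D.S₁.J D.S₂.J (Gl D.θ D.μ) h₀ s₁ s₂ ≤
    1 / (1 - D.θ ^ 2 * (Γ * (2 * Fintype.card E) ^ 2)) * hardN D.S₁.J D.S₂.J 0 0 := by
  classical
  obtain ⟨M, hM⟩ : ∃ M : ℕ, ∀ z ∈ D.S₁.J, ∀ s : E → ℤ, (∀ e, |s e| ≤ (h₀ : ℤ)) →
      ∀ e, |z e - s e| ≤ M := by
    refine ⟨h₀ + ∑ z ∈ D.S₁.J, ∑ e, (z e).natAbs, fun z hz s hs e => ?_⟩
    have h1 : (z e).natAbs ≤ ∑ z ∈ D.S₁.J, ∑ e, (z e).natAbs :=
      (single_le_sum (f := fun e => (z e).natAbs) (fun _ _ => Nat.zero_le _) (mem_univ e)).trans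
        (single_le_sum (f := fun z : E → ℤ => ∑ e, (z e).natAbs) (fun _ _ => Nat.zero_le _) hz)
    have h2 := hs e
    have h3 := abs_sub (z e) (s e)
    have h4 : |z e| = ((z e).natAbs : ℤ) := (Int.natCast_natAbs _).symm
    have h5 : ((z e).natAbs : ℤ) ≤ ((∑ z ∈ D.S₁.J, ∑ e, (z e).natAbs : ℕ) : ℤ) := by exact_mod_cast h1
    rw [Nat.cast_add]
    linarith
  have hH := hard_hardOf D M
  have hL : LzD (hardOf D M) := hH.lzD hr₁ hr₂ hJ₁ hJ₂ ⟨g₁.1, g₁.2⟩ ⟨g₂.1, g₂.2⟩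
  have hA0 : Gau.AA (hardOf D M) 0 = hardN D.S₁.J D.S₂.J 0 0 := by
    have h1 := hH.AA (s₁ := 0) (s₂ := 0) (fun _ _ => rfl) (fun _ _ => rfl)
      (fun z hz e => hM z hz 0 (fun e => by simp) e)
    have h2 : sh (hardOf D M) (svec (hardOf D M) 0 0) = 0 := by
      have h3 : svec (hardOf D M) (0 : E → ℤ) 0 = 0 := by
        funext i
        rcases i with r | r <;> simp [svec]
      rw [h3]
      unfold sh
      simp
    rw [h2] at h1
    exact h1
  have hpos' : 0 < Gau.AA (hardOf D M) 0 := by rw [hA0]; exact_mod_cast hpos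
  have hK := hH.oneLink hL hpos'.le hΓ0 (fun i j => by
    rw [hA0]
    refine hΓ _ _ ?_ ?_
    · rcases i with r | r
      · exact Or.inl r.2
      · exact Or.inr r.2
    · rcases j with r | r
      · exact Or.inl r.2
      · exact Or.inr r.2)
  have := hH.sum_gN hL hpos' hK hq (h₀ := h₀) hM
  rw [hA0] at this
  exact this

end Crest.Agent.R302.Tail907
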