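import Crest.Agent.R302.Facet907B

/-!
R302 (helper151): comparison of the one-link counts inside the components of the fat graph.

`N(u,v) = #{x : x ∈ J₁, x + e_u - e_v ∈ J₂}`.  If `u ~ u'`, `v ~ v'` in the graph of the relation
`w1 ≤ mn r₁ c a b ∨ w1 ≤ mn r₂ c a b` (`mn` = minimum of the two capacities = `TreeNN.mcap`),
then `N(u,v) ≤ 2 N(u',v')`.
-/

set_option autoImplicit false

namespace Crest.Agent.R302.Blk

open Finset Crest.Agent.R302.Facet

variable {V : Type*} [Fintype V] [DecidableEq V]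

/-- `e_u - e_v` -/
def hs (u v : V) : V → ℤ := fun w => (if w = u then 1 else 0) - if w = v then 1 else 0

omit [Fintype V] in
theorem hs_sum (u v : V) (A : Finset V) :
    ∑ w ∈ A, hs u v w = (if u ∈ A then 1 else 0) - if v ∈ A then 1 else 0 := by
  unfold hs
  rw [sum_sub_distrib, sum_ite_eq', sum_ite_eq']

/-- rank function of the translate `J - s` -/
def tr (r : Finset V → ℤ) (s : V → ℤ) : Finset V → ℤ := fun A => r A - ∑ a ∈ A, s a

theorem tr_subM {r : Finset V → ℤ} {R : ℤ} (hr : SubM r R) {s : V → ℤ} (hs : ∑ a, s a = 0) :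
    SubM (tr r s) R where
  sub A B := by
    have h1 := hr.sub A B
    have h2 : ∑ a ∈ A ∪ B, s a + ∑ a ∈ A ∩ B, s a = ∑ a ∈ A, s a + ∑ a ∈ B, s a :=
      Finset.sum_union_inter
    unfold tr
    linarith
  empty := by simp [tr, hr.empty]
  univ := by simp [tr, hr.univ, hs]

omit [DecidableEq V] in
theorem memJ_tr {r : Finset V → ℤ} {R : ℤ} {s : V → ℤ} (hs : ∑ a, s a = 0) (x : V → ℤ) :
    MemJ (tr r s) R x ↔ MemJ r R (fun v => x v + s v) := by
  unfold MemJ tr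
  simp only [sum_add_distrib, hs, add_zero]
  constructor
  · rintro ⟨h1, h2⟩; exact ⟨fun A => by linarith [h1 A], h2⟩
  · rintro ⟨h1, h2⟩; exact ⟨fun A => by linarith [h1 A], h2⟩

theorem hs_univ (u v : V) : ∑ w, hs u v w = 0 := by rw [hs_sum]; simp

/-- one exchange keeps membership if the slack is positive -/
theorem memJ_exch {r : Finset V → ℤ} {R : ℤ} {x : V → ℤ} (hx : MemJ r R x) {g h : V}
    (hcap : g ≠ h → 1 ≤ cap r x g h) : MemJ r R (fun v => x v + hs g h v) := by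
  refine ⟨fun A => ?_, by rw [sum_add_distrib, hs_univ, add_zero, hx.2]⟩
  rw [sum_add_distrib, hs_sum]
  have h1 := hx.1 A
  by_cases hg : g ∈ A
  · by_cases hh : h ∈ A
    · simp only [hg, hh, if_true]; linarith
    · have hne : g ≠ h := fun e => hh (e ▸ hg)
      have h2 := cap_le (r := r) (x := x) hg hh
      have h3 := hcap hne
      unfold slk at h2
      simp only [hg, hh, if_true, if_false]; linarith
  · by_cases hh : h ∈ A
    · simp only [hg, hh, if_true, if_false]; linarith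
    · simp only [hg, hh, if_false]; linarith

/-- step on side 2 in the first index -/
theorem step₂ {r₁ r₂ : Finset V → ℤ} {R : ℤ} (hr₁ : SubM r₁ R) (hr₂ : SubM r₂ R)
    {c : V → ℤ} (hc₁ : MemJ r₁ R c) (hc₂ : MemJ r₂ R c) {u v g : V} (hug : u ≠ g)
    {P P' : Finset (V → ℤ)}
    (hP : ∀ x, x ∈ P ↔ MemJ r₁ R x ∧ MemJ r₂ R (fun w => x w + hs u v w))
    (hP' : ∀ x, x ∈ P' ↔ MemJ r₁ R x ∧ MemJ r₂ R (fun w => x w + hs g v w)) {m : ℕ}
    (hm : (m : ℤ) + (4 * Fintype.card V + 2) ≤ cap r₂ c g u) :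
    (m / kap (Fintype.card V) + 1) * P.card ≤ (m / kap (Fintype.card V) + 1) * P'.card
      + 2 * P.card := by
  classical
  have hr₂' := tr_subM hr₂ (hs_univ u v)
  have hsA : ∀ A : Finset V, |∑ w ∈ A, hs u v w| ≤ 1 := fun A => by
    rw [hs_sum]; split_ifs <;> simp
  have key := density₂_e hr₁ hr₂' P (fun x => by rw [hP, memJ_tr (hs_univ u v)])
    (c := fun v => (c v : ℝ)) (e := 1) (by norm_num)
    (fun A => by
      have := hc₁.1 A
      have h2 : ((∑ a ∈ A, c a : ℤ) : ℝ) ≤ (r₁ A : ℝ) := by exact_mod_cast this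
      push_cast at h2
      linarith)
    (fun A => by
      have := hc₂.1 A
      have h3 := (abs_le.1 (hsA A)).2
      have h2 : ((∑ a ∈ A, c a : ℤ) : ℝ) ≤ ((tr r₂ (hs u v) A + 1 : ℤ) : ℝ) := by
        unfold tr
        exact_mod_cast (by linarith : ∑ a ∈ A, c a ≤ r₂ A - ∑ a ∈ A, hs u v a + 1)
      push_cast at h2
      linarith)
    (by have := hc₁.2; have h2 : ((∑ a, c a : ℤ) : ℝ) = R := by exact_mod_cast this
        push_cast at h2; exact h2)
    hug.symm m 0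
    (fun A hg hu => by
      have h1 := cap_le (r := r₂) (x := c) hg hu
      have h3 := (abs_le.1 (hsA A)).2
      have h2 : (m : ℤ) + (4 * Fintype.card V + 1) ≤ tr r₂ (hs u v) A - ∑ a ∈ A, c a := by
        unfold tr
        unfold slk at h1
        linarith
      have h4 : (((m : ℤ) + (4 * Fintype.card V + 1) : ℤ) : ℝ)
          ≤ ((tr r₂ (hs u v) A - ∑ a ∈ A, c a : ℤ) : ℝ) := by exact_mod_cast h2
      push_cast at h4
      linarith)
  have hsub : P.filter (fun x => ¬ cap (tr r₂ (hs u v)) x g u ≤ (0 : ℕ)) ⊆ P' := by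
    intro x hx
    rw [mem_filter, hP] at hx
    obtain ⟨⟨h1, h2⟩, h3⟩ := hx
    rw [hP']
    refine ⟨h1, ?_⟩
    have h4 := memJ_exch (r := tr r₂ (hs u v)) ((memJ_tr (hs_univ u v) x).2 h2) (g := g) (h := u)
      (fun _ => by push_cast at h3; omega)
    rw [memJ_tr (hs_univ u v)] at h4
    have e : (fun w => x w + hs g u w + hs u v w) = fun w => x w + hs g v w := by
      funext w; unfold hs; ring
    rw [e] at h4
    exact h4
  have hcard := Finset.card_filter_add_card_filter_not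
    (s := P) (fun x => cap (tr r₂ (hs u v)) x g u ≤ (0 : ℕ))
  have h5 := card_le_card hsub
  have h6 : P.card ≤ (P.filter (fun x => cap (tr r₂ (hs u v)) x g u ≤ (0 : ℕ))).card + P'.card := by
    omega
  have h7 := Nat.mul_le_mul_left (m / kap (Fintype.card V) + 1) h6
  rw [Nat.mul_add] at h7
  simp only [zero_add, mul_one] at key
  omega

/-- step on side 1 in the first index -/
theorem step₁ {r₁ r₂ : Finset V → ℤ} {R : ℤ} (hr₁ : SubM r₁ R) (hr₂ : SubM r₂ R)
    {c : V → ℤ} (hc₁ : MemJ r₁ R c) (hc₂ : MemJ r₂ R c) {u v g : V} (hug : u ≠ g)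
    {P P' : Finset (V → ℤ)}
    (hP : ∀ x, x ∈ P ↔ MemJ r₁ R x ∧ MemJ r₂ R (fun w => x w + hs u v w))
    (hP' : ∀ x, x ∈ P' ↔ MemJ r₁ R x ∧ MemJ r₂ R (fun w => x w + hs g v w)) {m : ℕ}
    (hm : (m : ℤ) + (4 * Fintype.card V + 2) ≤ cap r₁ c u g) :
    (m / kap (Fintype.card V) + 1) * P.card ≤ (m / kap (Fintype.card V) + 1) * P'.card
      + 2 * P.card := by
  classical
  have hr₂' := tr_subM hr₂ (hs_univ u v)
  have hsA : ∀ A : Finset V, |∑ w ∈ A, hs u v w| ≤ 1 := fun A => by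
    rw [hs_sum]; split_ifs <;> simp
  have key := density_e hr₁ hr₂' P (fun x => by rw [hP, memJ_tr (hs_univ u v)])
    (c := fun v => (c v : ℝ)) (e := 1) (by norm_num)
    (fun A => by
      have := hc₁.1 A
      have h2 : ((∑ a ∈ A, c a : ℤ) : ℝ) ≤ (r₁ A : ℝ) := by exact_mod_cast this
      push_cast at h2
      linarith)
    (fun A => by
      have := hc₂.1 A
      have h3 := (abs_le.1 (hsA A)).2
      have h2 : ((∑ a ∈ A, c a : ℤ) : ℝ) ≤ ((tr r₂ (hs u v) A + 1 : ℤ) : ℝ) := by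
        unfold tr
        exact_mod_cast (by linarith : ∑ a ∈ A, c a ≤ r₂ A - ∑ a ∈ A, hs u v a + 1)
      push_cast at h2
      linarith)
    (by have := hc₁.2; have h2 : ((∑ a, c a : ℤ) : ℝ) = R := by exact_mod_cast this
        push_cast at h2; exact h2)
    hug m 0
    (fun A hu hg => by
      have h1 := cap_le (r := r₁) (x := c) hu hg
      have h2 : (m : ℤ) + (4 * Fintype.card V + 1) ≤ r₁ A - ∑ a ∈ A, c a := by
        unfold slk at h1
        linarith
      have h4 : (((m : ℤ) + (4 * Fintype.card V + 1) : ℤ) : ℝ)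
          ≤ ((r₁ A - ∑ a ∈ A, c a : ℤ) : ℝ) := by exact_mod_cast h2
      push_cast at h4
      linarith)
  set Gd := P.filter (fun x => ¬ cap r₁ x u g ≤ (0 : ℕ)) with hGd
  have hinj : Set.InjOn (fun (x : V → ℤ) => fun w => x w + hs u g w) (Gd : Set (V → ℤ)) := by
    intro x _ y _ hxy
    funext w
    have := congrFun hxy w
    simpa using this
  have hsub : Gd.image (fun (x : V → ℤ) => fun w => x w + hs u g w) ⊆ P' := by
    intro y hy
    obtain ⟨x, hx, rfl⟩ := mem_image.1 hy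
    rw [hGd, mem_filter, hP] at hx
    obtain ⟨⟨h1, h2⟩, h3⟩ := hx
    rw [hP']
    refine ⟨memJ_exch h1 (fun _ => by push_cast at h3; omega), ?_⟩
    have e : (fun w => x w + hs u g w + hs g v w) = fun w => x w + hs u v w := by
      funext w; unfold hs; ring
    rw [e]
    exact h2
  have h5 := card_le_card hsub
  rw [Finset.card_image_of_injOn hinj] at h5
  have hcard := Finset.card_filter_add_card_filter_not
    (s := P) (fun x => cap r₁ x u g ≤ (0 : ℕ))
  rw [← hGd] at hcard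
  have h6 : P.card ≤ (P.filter (fun x => cap r₁ x u g ≤ (0 : ℕ))).card + P'.card := by
    omega
  have h7 := Nat.mul_le_mul_left (m / kap (Fintype.card V) + 1) h6
  rw [Nat.mul_add] at h7
  simp only [zero_add, mul_one] at key
  omega

/-- hole states -/
def hol (r₁ r₂ : Finset V → ℤ) (R : ℤ) (u v : V) : Set (V → ℤ) :=
  {x | MemJ r₁ R x ∧ MemJ r₂ R (fun w => x w + hs u v w)}

theorem hol_finite {r₁ r₂ : Finset V → ℤ} {R : ℤ} (hr₁ : SubM r₁ R) (u v : V) :
    (hol r₁ r₂ R u v).Finite := by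
  classical
  obtain ⟨P, hP⟩ := exists_finset (r₂ := r₁) hr₁
  exact P.finite_toSet.subset fun x hx => by
    rw [Finset.mem_coe, hP]; exact ⟨hx.1, hx.1⟩

/-- the one-link counts -/
noncomputable def NN (r₁ r₂ : Finset V → ℤ) (R : ℤ) (u v : V) : ℕ := (hol r₁ r₂ R u v).ncard

theorem NN_swap {r₁ r₂ : Finset V → ℤ} {R : ℤ} (u v : V) : NN r₁ r₂ R u v = NN r₂ r₁ R v u := by
  unfold NN
  refine Set.ncard_congr (fun x _ => fun w => x w + hs u v w) ?_ ?_ ?_
  · intro x hx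
    refine ⟨hx.2, ?_⟩
    have e : (fun w => x w + hs u v w + hs v u w) = x := by
      funext w; unfold hs; ring
    rw [e]; exact hx.1
  · intro x y _ _ hxy
    funext w
    have := congrFun hxy w
    simpa using this
  · intro y hy
    refine ⟨fun w => y w + hs v u w, ⟨hy.2, ?_⟩, ?_⟩
    · have e : (fun w => y w + hs v u w + hs u v w) = y := by
        funext w; unfold hs; ring
      rw [e]; exact hy.1
    · funext w; unfold hs; ring

/-- the symmetric capacity (`= TreeNN.mcap`) -/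
noncomputable def mn (r : Finset V → ℤ) (c : V → ℤ) (a b : V) : ℤ := min (cap r c a b) (cap r c b a)

/-- one edge, first index -/
theorem edge {r₁ r₂ : Finset V → ℤ} {R : ℤ} (hr₁ : SubM r₁ R) (hr₂ : SubM r₂ R)
    {c : V → ℤ} (hc₁ : MemJ r₁ R c) (hc₂ : MemJ r₂ R c) {u g : V} (hug : u ≠ g) (v : V) {m : ℕ}
    (hm : (m : ℤ) + (4 * Fintype.card V + 2) ≤ mn r₁ c u g ∨
      (m : ℤ) + (4 * Fintype.card V + 2) ≤ mn r₂ c u g)
    (hq : 4 ≤ m / kap (Fintype.card V) + 1) :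
    (NN r₁ r₂ R u v : ℝ) ≤ Real.exp (4 / ((m / kap (Fintype.card V) + 1 : ℕ) : ℝ))
      * NN r₁ r₂ R g v := by
  classical
  set q := m / kap (Fintype.card V) + 1 with hqd
  have hP : ∀ x, x ∈ (hol_finite (r₂ := r₂) hr₁ u v).toFinset ↔
      MemJ r₁ R x ∧ MemJ r₂ R (fun w => x w + hs u v w) := fun x => by
    rw [Set.Finite.mem_toFinset]; exact Iff.rfl
  have hP' : ∀ x, x ∈ (hol_finite (r₂ := r₂) hr₁ g v).toFinset ↔
      MemJ r₁ R x ∧ MemJ r₂ R (fun w => x w + hs g v w) := fun x => by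
    rw [Set.Finite.mem_toFinset]; exact Iff.rfl
  have key : q * NN r₁ r₂ R u v ≤ q * NN r₁ r₂ R g v + 2 * NN r₁ r₂ R u v := by
    unfold NN
    rw [Set.ncard_eq_toFinset_card _ (hol_finite hr₁ u v),
      Set.ncard_eq_toFinset_card _ (hol_finite hr₁ g v)]
    rcases hm with h | h
    · exact step₁ hr₁ hr₂ hc₁ hc₂ hug hP hP' (h.trans (min_le_left _ _))
    · exact step₂ hr₁ hr₂ hc₁ hc₂ hug hP hP' (h.trans (min_le_right _ _))
  have hqr : (4 : ℝ) ≤ q := by exact_mod_cast hq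
  have keyr : (q : ℝ) * NN r₁ r₂ R u v ≤ q * NN r₁ r₂ R g v + 2 * NN r₁ r₂ R u v := by
    exact_mod_cast key
  have h1 : (1 : ℝ) + 4 / q ≤ Real.exp (4 / q) := by
    have := Real.add_one_le_exp (4 / (q : ℝ)); linarith
  have h2 : (NN r₁ r₂ R u v : ℝ) ≤ (1 + 4 / q) * NN r₁ r₂ R g v := by
    have hN : (0 : ℝ) ≤ NN r₁ r₂ R u v := Nat.cast_nonneg _
    have hN' : (0 : ℝ) ≤ NN r₁ r₂ R g v := Nat.cast_nonneg _
    have h3 : (NN r₁ r₂ R u v : ℝ) * (q - 2) ≤ q * NN r₁ r₂ R g v := by linarith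
    have h4 : (q : ℝ) ≤ (1 + 4 / q) * (q - 2) := by
      have e : (1 + 4 / (q : ℝ)) * (q - 2) = q + 2 - 8 / q := by field_simp; ring
      rw [e]
      have : 8 / (q : ℝ) ≤ 2 := by rw [div_le_iff₀ (by linarith)]; linarith
      linarith
    have h5 : (NN r₁ r₂ R u v : ℝ) * (q - 2) ≤ ((1 + 4 / q) * NN r₁ r₂ R g v) * (q - 2) := by
      calc _ ≤ (q : ℝ) * NN r₁ r₂ R g v := h3
        _ ≤ ((1 + 4 / q) * (q - 2)) * NN r₁ r₂ R g v := mul_le_mul_of_nonneg_right h4 hN'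
        _ = _ := by ring
    exact le_of_mul_le_mul_right h5 (by linarith)
  exact h2.trans (mul_le_mul_of_nonneg_right h1 (Nat.cast_nonneg _))

theorem walk_le {r₁ r₂ : Finset V → ℤ} {R : ℤ} (hr₁ : SubM r₁ R) (hr₂ : SubM r₂ R)
    {c : V → ℤ} (hc₁ : MemJ r₁ R c) (hc₂ : MemJ r₂ R c) {w1 : ℤ} {G : SimpleGraph V}
    (hG : ∀ a b, G.Adj a b → w1 ≤ mn r₁ c a b ∨ w1 ≤ mn r₂ c a b) (v : V) {m : ℕ}
    (hm : (m : ℤ) + (4 * Fintype.card V + 2) ≤ w1) (hq : 4 ≤ m / kap (Fintype.card V) + 1)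
    {u u' : V} (p : G.Walk u u') :
    (NN r₁ r₂ R u v : ℝ) ≤ Real.exp (p.length * (4 / ((m / kap (Fintype.card V) + 1 : ℕ) : ℝ)))
      * NN r₁ r₂ R u' v := by
  induction p with
  | nil => simp
  | @cons a b c' hadj p ih =>
    have h1 := edge hr₁ hr₂ hc₁ hc₂ hadj.ne v (m := m)
      ((hG a b hadj).imp (fun h => hm.trans h) (fun h => hm.trans h)) hq
    refine h1.trans ?_
    rw [SimpleGraph.Walk.length_cons]
    have e : Real.exp (((p.length + 1 : ℕ) : ℝ) * (4 / ((m / kap (Fintype.card V) + 1 : ℕ) : ℝ)))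
        = Real.exp (4 / ((m / kap (Fintype.card V) + 1 : ℕ) : ℝ)) *
          Real.exp ((p.length : ℝ) * (4 / ((m / kap (Fintype.card V) + 1 : ℕ) : ℝ))) := by
      rw [← Real.exp_add]
      congr 1
      push_cast
      ring
    rw [e, mul_assoc]
    exact mul_le_mul_of_nonneg_left ih (Real.exp_pos _).le

/-- **comparison inside components** -/
theorem blk_le {r₁ r₂ : Finset V → ℤ} {R : ℤ} (hr₁ : SubM r₁ R) (hr₂ : SubM r₂ R)
    {c : V → ℤ} (hc₁ : MemJ r₁ R c) (hc₂ : MemJ r₂ R c) {w1 : ℤ}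
    (hw : 16 * Fintype.card V * kap (Fintype.card V) + (4 * Fintype.card V + 2) ≤ w1)
    {G : SimpleGraph V} (hG : ∀ a b, G.Adj a b → w1 ≤ mn r₁ c a b ∨ w1 ≤ mn r₂ c a b)
    {u u' v v' : V} (hu : G.Reachable u u') (hv : G.Reachable v v') :
    (NN r₁ r₂ R u v : ℝ) ≤ 2 * NN r₁ r₂ R u' v' := by
  classical
  set n := Fintype.card V with hn
  have hn1 : 1 ≤ n := Fintype.card_pos_iff.2 ⟨u⟩
  have hk : 0 < kap n := kap_pos hn1
  set m := 16 * n * kap n with hmdef
  have hmq : m / kap n = 16 * n := by rw [hmdef]; exact Nat.mul_div_cancel _ hk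
  have hm : (m : ℤ) + (4 * n + 2) ≤ w1 := by rw [hmdef]; push_cast; exact hw
  have hq : 4 ≤ m / kap n + 1 := by rw [hmq]; omega
  obtain ⟨p, hp⟩ := hu.exists_isPath
  obtain ⟨p', hp'⟩ := hv.exists_isPath
  have hl : p.length ≤ n := hp.length_lt.le
  have hl' : p'.length ≤ n := hp'.length_lt.le
  have h1 := walk_le hr₁ hr₂ hc₁ hc₂ hG v hm hq p
  have h2 := walk_le hr₂ hr₁ hc₂ hc₁ (w1 := w1) (G := G) (fun a b h => (hG a b h).symm) u' hm hq p'
  rw [NN_swap v u', NN_swap v' u'] at h2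
  rw [← hn, hmq] at h1 h2
  have hnr : (1 : ℝ) ≤ n := by exact_mod_cast hn1
  have hb : ∀ l : ℕ, l ≤ n → Real.exp ((l : ℝ) * (4 / ((16 * n + 1 : ℕ) : ℝ)))
      ≤ Real.exp (1 / 4) := by
    intro l hl
    apply Real.exp_le_exp.2
    have hlr : (l : ℝ) ≤ n := by exact_mod_cast hl
    push_cast
    rw [mul_div_assoc', div_le_div_iff₀ (by positivity) (by norm_num)]
    nlinarith
  have h3 : Real.exp (1 / 4) * Real.exp (1 / 4) ≤ 2 := by
    rw [← Real.exp_add]
    have : Real.exp (1 / 4 + 1 / 4) = Real.exp (1 / 2) := by norm_num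
    rw [this]
    have h4 : Real.exp (1 / 2) ^ 2 ≤ 4 := by
      rw [← Real.exp_nat_mul]
      have : Real.exp ((2 : ℕ) * (1 / 2 : ℝ)) = Real.exp 1 := by norm_num
      rw [this]
      linarith [Real.exp_one_lt_d9]
    nlinarith [Real.exp_pos (1 / 2)]
  calc (NN r₁ r₂ R u v : ℝ) ≤ Real.exp (1 / 4) * NN r₁ r₂ R u' v :=
        h1.trans (mul_le_mul_of_nonneg_right (hb _ hl) (Nat.cast_nonneg _))
    _ ≤ Real.exp (1 / 4) * (Real.exp (1 / 4) * NN r₁ r₂ R u' v') :=
        mul_le_mul_of_nonneg_left (h2.trans (mul_le_mul_of_nonneg_right (hb _ hl')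
          (Nat.cast_nonneg _))) (Real.exp_pos _).le
    _ = (Real.exp (1 / 4) * Real.exp (1 / 4)) * NN r₁ r₂ R u' v' := by ring
    _ ≤ 2 * NN r₁ r₂ R u' v' := mul_le_mul_of_nonneg_right h3 (Nat.cast_nonneg _)

end Crest.Agent.R302.Blk
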