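import Crest.Agent.R302.Tail907B

/-!
# R302: the tails of the soft measure, fat part (2): counting, windows, the tail theorem

Author: helper907.
-/

set_option autoImplicit false

namespace Crest.Agent.R302.Tail907

open Finset Crest.Agent.R302.Facet Crest.Agent.R302.TreeNN Crest.Agent.R302.Tree

variable {V : Type*} [Fintype V] [DecidableEq V]

/-- number of states without fat slack and with the given link vectors -/
def linkCount (J₁ J₂ : Finset (V → ℤ)) (s₁ s₂ : V → ℤ) : ℕ :=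
  (J₁.filter (fun z => (fun v => z v + s₁ v - s₂ v) ∈ J₂)).card

/-- `r + s` -/
def addV (r : Finset V → ℤ) (s : V → ℤ) : Finset V → ℤ := fun A => r A + ∑ a ∈ A, s a

theorem addV_subM {r : Finset V → ℤ} {R : ℤ} (hr : SubM r R) (s : V → ℤ) :
    SubM (addV r s) (R + ∑ a, s a) where
  sub A B := by
    have h1 := hr.sub A B
    have h2 := sum_union_inter (s₁ := A) (s₂ := B) (f := s)
    unfold addV
    linarith
  empty := by simp [addV, hr.empty]
  univ := by simp [addV, hr.univ]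

omit [DecidableEq V] in
theorem memJ_addV {r : Finset V → ℤ} {R : ℤ} (s x : V → ℤ) :
    MemJ (addV r s) (R + ∑ a, s a) x ↔ MemJ r R (fun v => x v - s v) := by
  unfold MemJ addV
  simp only [sum_sub_distrib]
  constructor
  · rintro ⟨h1, h2⟩
    exact ⟨fun A => by have := h1 A; linarith, by linarith⟩
  · rintro ⟨h1, h2⟩
    exact ⟨fun A => by have := h1 A; linarith, by linarith⟩

theorem dec_apply (par : V → Option V) (τ : V → ℤ) (v : V) :
    dec par τ v = shift (fedges par) (fun p => τ p.1) v + rootPart par τ v := rfl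

theorem sum_dec (par : V → Option V) (τ : V → ℤ) : ∑ v, dec par τ v = ∑ v, rootPart par τ v := by
  simp only [dec_apply]
  rw [sum_add_distrib, sum_shift_univ, zero_add]

/-- **Counting**: the states with given fat slacks and few links. -/
theorem count_le {r₁ r₂ : Finset V → ℤ} {R : ℤ} (hr₁ : SubM r₁ R) (hr₂ : SubM r₂ R) {c : V → ℤ}
    (hc₁ : MemJ r₁ R c) (hc₂ : MemJ r₂ R c) (J₁ J₂ : Finset (V → ℤ))
    (hJ₁ : ∀ z, z ∈ J₁ ↔ MemJ r₁ R z) (hJ₂ : ∀ z, z ∈ J₂ ↔ MemJ r₂ R z)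
    (par₁ par₂ : V → Option V) (m₁ m₂ : V → ℕ) (h₀ : ℕ)
    (hm₁ : ∀ p b, par₁ p = some b → p ≠ b ∧ 8 * kap (Fintype.card V) ≤ m₁ p ∧
      2 * (4 * Fintype.card V + 2) * h₀ ≤ m₁ p ∧
      ∀ A, (p ∈ A ∧ b ∉ A ∨ b ∈ A ∧ p ∉ A) → (m₁ p : ℤ) ≤ slk r₁ c A)
    (hm₂ : ∀ p b, par₂ p = some b → p ≠ b ∧ 8 * kap (Fintype.card V) ≤ m₂ p ∧
      2 * (4 * Fintype.card V + 2) * h₀ ≤ m₂ p ∧
      ∀ A, (p ∈ A ∧ b ∉ A ∨ b ∈ A ∧ p ∉ A) → (m₂ p : ℤ) ≤ slk r₂ c A)
    (τ₁ τ₂ : V → ℤ)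
    (hh : ∑ v, |rootPart par₁ τ₁ v| + ∑ v, |rootPart par₂ τ₂ v| ≤ h₀) (B : Finset (V → ℤ)) :
    ((B.filter (fun x => (fun v => x v - dec par₁ τ₁ v) ∈ J₁ ∧
      (fun v => x v - dec par₂ τ₂ v) ∈ J₂)).card : ℝ) ≤
    Real.exp (∑ p ∈ univ.filter (fun p => par₁ p ≠ none),
        8 * (kap (Fintype.card V) : ℝ) / m₁ p * |(τ₁ p : ℝ)| +
      ∑ p ∈ univ.filter (fun p => par₂ p ≠ none),
        8 * (kap (Fintype.card V) : ℝ) / m₂ p * |(τ₂ p : ℝ)|) *
      linkCount J₁ J₂ (rootPart par₁ τ₁) (rootPart par₂ τ₂) := by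
  classical
  set n := Fintype.card V with hn
  set s₁ := rootPart par₁ τ₁ with hs₁
  set s₂ := rootPart par₂ τ₂ with hs₂
  set Q := B.filter (fun x => (fun v => x v - dec par₁ τ₁ v) ∈ J₁ ∧
      (fun v => x v - dec par₂ τ₂ v) ∈ J₂) with hQdef
  rcases isEmpty_or_nonempty V with hV | hV
  · -- trivial ground set
    have hQ1 : Q.card ≤ 1 := card_le_one_of_subsingleton Q
    rcases Q.eq_empty_or_nonempty with hQ0 | ⟨x, hx⟩
    · rw [hQ0]; simp only [card_empty, Nat.cast_zero]; positivity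
    · have hx' := (mem_filter.1 hx).2
      have hN : 1 ≤ linkCount J₁ J₂ s₁ s₂ := by
        unfold linkCount
        rw [Nat.one_le_iff_ne_zero, ← Nat.pos_iff_ne_zero, card_pos]
        refine ⟨fun v => x v - dec par₁ τ₁ v, mem_filter.2 ⟨hx'.1, ?_⟩⟩
        convert hx'.2 using 1
      have h1 : (Q.card : ℝ) ≤ 1 := by exact_mod_cast hQ1
      have h2 : (1 : ℝ) ≤ linkCount J₁ J₂ s₁ s₂ := by exact_mod_cast hN
      have h3 : (1 : ℝ) ≤ Real.exp (∑ p ∈ univ.filter (fun p => par₁ p ≠ none),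
        8 * (kap n : ℝ) / m₁ p * |(τ₁ p : ℝ)| + ∑ p ∈ univ.filter (fun p => par₂ p ≠ none),
        8 * (kap n : ℝ) / m₂ p * |(τ₂ p : ℝ)|) := by
        apply Real.one_le_exp
        positivity
      nlinarith
  by_cases hS : ∑ v, s₁ v = ∑ v, s₂ v
  swap
  · have : Q = ∅ := by
      rw [eq_empty_iff_forall_notMem]
      intro x hx
      have hx' := (mem_filter.1 hx).2
      have h1 := ((hJ₁ _).1 hx'.1).2
      have h2 := ((hJ₂ _).1 hx'.2).2
      rw [sum_sub_distrib, sum_dec] at h1 h2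
      apply hS
      linarith
    rw [this]
    simp only [card_empty, Nat.cast_zero]
    positivity
  -- the shifted systems
  set R' := R + ∑ v, s₁ v with hR'
  have hR'2 : R' = R + ∑ v, s₂ v := by rw [hR', hS]
  have hsub₁ : SubM (addV r₁ s₁) R' := addV_subM hr₁ s₁
  have hsub₂ : SubM (addV r₂ s₂) R' := hR'2 ▸ addV_subM hr₂ s₂
  set P' : Finset (V → ℤ) := (J₁.filter (fun z => (fun v => z v + s₁ v - s₂ v) ∈ J₂)).image
    (fun z => fun v => z v + s₁ v) with hP'def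
  have hP' : ∀ x, x ∈ P' ↔ MemJ (addV r₁ s₁) R' x ∧ MemJ (addV r₂ s₂) R' x := by
    intro x
    rw [hP'def, mem_image]
    have e1 : MemJ (addV r₁ s₁) R' x ↔ MemJ r₁ R (fun v => x v - s₁ v) := memJ_addV s₁ x
    have e2 : MemJ (addV r₂ s₂) R' x ↔ MemJ r₂ R (fun v => x v - s₂ v) := by
      rw [hR'2]; exact memJ_addV s₂ x
    rw [e1, e2]
    constructor
    · rintro ⟨z, hz, rfl⟩
      rw [mem_filter] at hz
      refine ⟨?_, (hJ₂ _).1 hz.2⟩
      have := (hJ₁ _).1 hz.1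
      simpa using this
    · rintro ⟨h1, h2⟩
      refine ⟨fun v => x v - s₁ v, mem_filter.2 ⟨(hJ₁ _).2 h1, ?_⟩, by funext v; ring⟩
      have h3 := (hJ₂ _).2 h2
      convert h3 using 1
      funext v
      ring
  have hcard : P'.card ≤ linkCount J₁ J₂ s₁ s₂ := card_image_le
  -- sums of the link vectors
  have habs : ∀ A : Finset V, |∑ a ∈ A, s₂ a - ∑ a ∈ A, s₁ a| ≤ h₀ := by
    intro A
    have h1 := abs_sum_le s₁ A
    have h2 := abs_sum_le s₂ A
    have h3 := abs_sub (∑ a ∈ A, s₂ a) (∑ a ∈ A, s₁ a)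
    linarith
  let c' : V → ℝ := fun v => (c v : ℝ) + s₁ v
  have hc'A : ∀ A : Finset V, ∑ a ∈ A, c' a = ((∑ a ∈ A, c a + ∑ a ∈ A, s₁ a : ℤ) : ℝ) := by
    intro A
    simp only [c']
    rw [sum_add_distrib]
    push_cast
    rfl
  have hh0 : (0 : ℤ) ≤ h₀ := by positivity
  have hkap : 0 < kap n := by
    apply kap_pos
    rw [hn]; exact Fintype.card_pos
  have hred : ∀ (par : V → Option V) (m : V → ℕ), (∀ p b, par p = some b → p ≠ b ∧
      8 * kap n ≤ m p ∧ 2 * (4 * n + 2) * h₀ ≤ m p) → ∀ p ∈ fedges par,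
      (8 * kap n ≤ m p.1 ∧ 2 * (4 * n + 2) * h₀ ≤ m p.1) ∧
      (4 * kap n ≤ m p.1 - (4 * n + 2) * h₀) ∧ p.1 ≠ p.2 := by
    intro par m h p hp
    have hp' : par p.1 = some p.2 := by simpa [fedges] using hp
    obtain ⟨h1, h2, h3⟩ := h p.1 p.2 hp'
    refine ⟨⟨h2, h3⟩, ?_, h1⟩
    have h4 : 2 * ((4 * n + 2) * h₀) ≤ m p.1 := by rw [← mul_assoc]; exact h3
    omega
  have main := shift_count_e hsub₁ hsub₂ P' hP' (c := c') (e := (h₀ : ℝ)) (by positivity)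
    (fun A => by
      rw [hc'A]
      have h1 := hc₁.1 A
      have h2 : ∑ a ∈ A, c a + ∑ a ∈ A, s₁ a ≤ addV r₁ s₁ A + h₀ := by
        unfold addV; linarith
      exact_mod_cast h2)
    (fun A => by
      rw [hc'A]
      have h1 := hc₂.1 A
      have h3 := (abs_le.1 (habs A)).1
      have h2 : ∑ a ∈ A, c a + ∑ a ∈ A, s₁ a ≤ addV r₂ s₂ A + h₀ := by
        unfold addV; linarith
      exact_mod_cast h2)
    (by
      rw [hc'A, hc₁.2])
    (fedges par₁) (fedges par₂) (fun p => m₁ p.1 - (4 * n + 2) * h₀)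
    (fun p => m₂ p.1 - (4 * n + 2) * h₀)
    (fun p hp => by
      obtain ⟨⟨h1, h2⟩, h3, h4⟩ := hred par₁ m₁ (fun p b h => ⟨(hm₁ p b h).1, (hm₁ p b h).2.1,
        (hm₁ p b h).2.2.1⟩) p hp
      refine ⟨h4, h3, fun A hA => ?_⟩
      have hp' : par₁ p.1 = some p.2 := by simpa [fedges] using hp
      have h5 := (hm₁ p.1 p.2 hp').2.2.2 A hA
      rw [hc'A]
      have h6 : ((m₁ p.1 - (4 * n + 2) * h₀ : ℕ) : ℤ) + (4 * n + 1) * h₀ ≤
          addV r₁ s₁ A - (∑ a ∈ A, c a + ∑ a ∈ A, s₁ a) := by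
        have h7 : (4 * n + 2) * h₀ ≤ m₁ p.1 := by
          have : 2 * ((4 * n + 2) * h₀) ≤ m₁ p.1 := by rw [← mul_assoc]; exact h2
          omega
        rw [Nat.cast_sub h7]
        unfold addV slk at *
        push_cast
        nlinarith
      exact_mod_cast h6)
    (fun p hp => by
      obtain ⟨⟨h1, h2⟩, h3, h4⟩ := hred par₂ m₂ (fun p b h => ⟨(hm₂ p b h).1, (hm₂ p b h).2.1,
        (hm₂ p b h).2.2.1⟩) p hp
      refine ⟨h4, h3, fun A hA => ?_⟩
      have hp' : par₂ p.1 = some p.2 := by simpa [fedges] using hp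
      have h5 := (hm₂ p.1 p.2 hp').2.2.2 A hA
      rw [hc'A]
      have h8 := (abs_le.1 (habs A)).1
      have h6 : ((m₂ p.1 - (4 * n + 2) * h₀ : ℕ) : ℤ) + (4 * n + 1) * h₀ ≤
          addV r₂ s₂ A - (∑ a ∈ A, c a + ∑ a ∈ A, s₁ a) := by
        have h7 : (4 * n + 2) * h₀ ≤ m₂ p.1 := by
          have : 2 * ((4 * n + 2) * h₀) ≤ m₂ p.1 := by rw [← mul_assoc]; exact h2
          omega
        rw [Nat.cast_sub h7]
        unfold addV slk at *
        push_cast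
        nlinarith
      exact_mod_cast h6)
    (fun p => τ₁ p.1) (fun p => τ₂ p.1) Q
    (fun x hx => by
      have hx' := (mem_filter.1 hx).2
      constructor
      · have h1 := (hJ₁ _).1 hx'.1
        rw [show R' = R + ∑ v, s₁ v from rfl, memJ_addV]
        convert h1 using 1
        funext v
        rw [dec_apply]
        ring
      · have h1 := (hJ₂ _).1 hx'.2
        rw [hR'2, memJ_addV]
        convert h1 using 1
        funext v
        rw [dec_apply]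
        ring)
  refine main.trans ?_
  have hle : ∀ (par : V → Option V) (m : V → ℕ) (τ : V → ℤ), (∀ p b, par p = some b → p ≠ b ∧
      8 * kap n ≤ m p ∧ 2 * (4 * n + 2) * h₀ ≤ m p) →
      ∑ p ∈ fedges par, 4 * (kap n : ℝ) / ((m p.1 - (4 * n + 2) * h₀ : ℕ) : ℝ) * |(τ p.1 : ℝ)| ≤
      ∑ p ∈ univ.filter (fun p => par p ≠ none), 8 * (kap n : ℝ) / m p * |(τ p : ℝ)| := by
    intro par m τ h
    rw [← sum_fedges par (fun p => 8 * (kap n : ℝ) / m p * |(τ p : ℝ)|)]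
    apply sum_le_sum
    intro p hp
    obtain ⟨⟨h1, h2⟩, h3, h4⟩ := hred par m h p hp
    apply mul_le_mul_of_nonneg_right _ (abs_nonneg _)
    have hk : (0 : ℝ) < kap n := by exact_mod_cast hkap
    have hm0 : (0 : ℝ) < m p.1 := by
      have : 0 < m p.1 := by omega
      exact_mod_cast this
    have hm1 : (0 : ℝ) < ((m p.1 - (4 * n + 2) * h₀ : ℕ) : ℝ) := by
      have : 0 < m p.1 - (4 * n + 2) * h₀ := by omega
      exact_mod_cast this
    rw [div_le_div_iff₀ hm1 hm0]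
    have h5 : (m p.1 : ℝ) ≤ 2 * ((m p.1 - (4 * n + 2) * h₀ : ℕ) : ℝ) := by
      have h6 : 2 * ((4 * n + 2) * h₀) ≤ m p.1 := by rw [← mul_assoc]; exact h2
      have : m p.1 ≤ 2 * (m p.1 - (4 * n + 2) * h₀) := by omega
      exact_mod_cast this
    nlinarith
  have e1 := hle par₁ m₁ τ₁ (fun p b h => ⟨(hm₁ p b h).1, (hm₁ p b h).2.1, (hm₁ p b h).2.2.1⟩)
  have e2 := hle par₂ m₂ τ₂ (fun p b h => ⟨(hm₂ p b h).1, (hm₂ p b h).2.1, (hm₂ p b h).2.2.1⟩)
  apply mul_le_mul (Real.exp_le_exp.2 (add_le_add e1 e2)) _ (by positivity) (Real.exp_pos _).le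
  exact_mod_cast hcard

/-! ## Windows -/

/-- **Windows**: a state with small fat slacks and few links has all its block sums near those of
the centre. -/
theorem window {r₁ r₂ : Finset V → ℤ} {R : ℤ} (hr₁ : SubM r₁ R) (hr₂ : SubM r₂ R) {c : V → ℤ}
    (hc₁ : MemJ r₁ R c) (hc₂ : MemJ r₂ R c) (par₁ par₂ : V → Option V) (m₁ m₂ : V → ℕ)
    (hm₁ : ∀ p b, par₁ p = some b → ∀ A, (p ∈ A ∧ b ∉ A ∨ b ∈ A ∧ p ∉ A) → (m₁ p : ℤ) ≤ slk r₁ c A)
    (hm₂ : ∀ p b, par₂ p = some b → ∀ A, (p ∈ A ∧ b ∉ A ∨ b ∈ A ∧ p ∉ A) → (m₂ p : ℤ) ≤ slk r₂ c A)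
    (τ₁ τ₂ : V → ℤ) (h₀ b lam : ℕ) (hlam : Fintype.card V * b + 1 ≤ lam) (hlam' : h₀ ≤ lam)
    (hh : ∑ v, |rootPart par₁ τ₁ v| + ∑ v, |rootPart par₂ τ₂ v| ≤ h₀)
    (hb₁ : ∀ p, par₁ p ≠ none → |τ₁ p| ≤ b * m₁ p) (hb₂ : ∀ p, par₂ p ≠ none → |τ₂ p| ≤ b * m₂ p)
    {x : V → ℤ} (hx₁ : MemJ r₁ R (fun v => x v - dec par₁ τ₁ v))
    (hx₂ : MemJ r₂ R (fun v => x v - dec par₂ τ₂ v)) {A : Finset V} {M : ℤ}
    (hM : ∀ z, MemJ r₁ R z → MemJ r₂ R z → |∑ a ∈ A, z a - ∑ a ∈ A, c a| ≤ M) :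
    |∑ a ∈ A, x a - ∑ a ∈ A, c a| ≤
      lam * (M + Fintype.card V * (3 * Fintype.card V + 4)) + h₀ := by
  classical
  set n := Fintype.card V with hn
  set s₁ := rootPart par₁ τ₁ with hs₁
  set s₂ := rootPart par₂ τ₂ with hs₂
  have hh0 : (0 : ℤ) ≤ h₀ := by positivity
  have habs : ∀ A : Finset V, |∑ a ∈ A, s₂ a - ∑ a ∈ A, s₁ a| ≤ h₀ := by
    intro A
    have h1 := abs_sum_le s₁ A
    have h2 := abs_sum_le s₂ A
    have h3 := abs_sub (∑ a ∈ A, s₂ a) (∑ a ∈ A, s₁ a)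
    linarith
  let x' : V → ℤ := fun v => x v - s₁ v
  have hx'R : ∑ a, x' a = R := by
    have h1 := hx₁.2
    rw [sum_sub_distrib, sum_dec] at h1
    simp only [x']
    rw [sum_sub_distrib]
    exact h1
  have hedge : ∀ (par : V → Option V) (m : V → ℕ) (r : Finset V → ℤ),
      (∀ p b, par p = some b → ∀ A, (p ∈ A ∧ b ∉ A ∨ b ∈ A ∧ p ∉ A) → (m p : ℤ) ≤ slk r c A) →
      ∀ p ∈ fedges par, ∀ A, (p.1 ∈ A ∧ p.2 ∉ A ∨ p.2 ∈ A ∧ p.1 ∉ A) →
        ((fun p : V × V => m p.1) p : ℤ) ≤ slk r c A := by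
    intro par m r h p hp A hA
    have hp' : par p.1 = some p.2 := by simpa [fedges] using hp
    exact h p.1 p.2 hp' A hA
  have hbd : ∀ (par : V → Option V) (m : V → ℕ) (τ : V → ℤ),
      (∀ p, par p ≠ none → |τ p| ≤ b * m p) → ∀ p ∈ fedges par,
      |(fun p : V × V => τ p.1) p| ≤ b * (fun p : V × V => m p.1) p := by
    intro par m τ h p hp
    have hp' : par p.1 = some p.2 := by simpa [fedges] using hp
    exact h p.1 (by rw [hp']; simp)
  have hcardb : ∀ par : V → Option V, (((fedges par).card * b : ℕ) : ℤ) ≤ ((n * b : ℕ) : ℤ) := by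
    intro par
    exact_mod_cast Nat.mul_le_mul_right b (card_fedges par)
  have hA₁ : ∀ A, ∑ a ∈ A, x' a ≤ r₁ A + (n * b : ℕ) * slk r₁ c A + h₀ := by
    intro A
    have h1 := shift_violation hc₁ (fedges par₁) (fun p => m₁ p.1) (fun p => τ₁ p.1) b
      (hbd par₁ m₁ τ₁ hb₁) (hedge par₁ m₁ r₁ hm₁) (x := x') (s := fun _ => 0) 0 (by simp)
      (by
        convert hx₁ using 1
        funext v
        simp only [x', dec_apply]
        ring) A
    have h2 := hcardb par₁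
    have h3 := slk_nonneg hc₁ A
    have h4 := mul_le_mul_of_nonneg_right h2 h3
    simp only [Nat.cast_zero, add_zero] at h1
    linarith
  have hA₂ : ∀ A, ∑ a ∈ A, x' a ≤ r₂ A + (n * b : ℕ) * slk r₂ c A + h₀ := by
    intro A
    have h1 := shift_violation hc₂ (fedges par₂) (fun p => m₂ p.1) (fun p => τ₂ p.1) b
      (hbd par₂ m₂ τ₂ hb₂) (hedge par₂ m₂ r₂ hm₂) (x := x') (s := fun v => s₂ v - s₁ v) h₀
      (fun A => by
        rw [sum_sub_distrib]
        exact (le_abs_self _).trans (habs A))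
      (by
        convert hx₂ using 1
        funext v
        simp only [x', dec_apply]
        ring) A
    have h2 := hcardb par₂
    have h3 := slk_nonneg hc₂ A
    have h4 := mul_le_mul_of_nonneg_right h2 h3
    linarith
  have h5 := relaxed_block hr₁ hr₂ hc₁ hc₂ (n * b) h₀ lam hlam hlam' hx'R hA₁ hA₂ hM
  have h6 : ∑ a ∈ A, x a - ∑ a ∈ A, c a =
      (∑ a ∈ A, x' a - ∑ a ∈ A, c a) + ∑ a ∈ A, s₁ a := by
    simp only [x']
    rw [sum_sub_distrib]
    ring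
  rw [h6]
  have h7 : |∑ a ∈ A, s₁ a| ≤ h₀ := by
    have h1 := abs_sum_le s₁ A
    have h2 : (0 : ℤ) ≤ ∑ v, |s₂ v| := sum_nonneg fun v _ => abs_nonneg _
    linarith
  exact (abs_add_le _ _).trans (add_le_add h5 h7)

end Crest.Agent.R302.Tail907
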