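import Crest.Agent.R302.KapR151
import Crest.Agent.R302.Blk151
import Crest.Agent.R302.Ff838
import Crest.Agent.R302.Tail907C

/-!
# R302 (helper151): masses of the perfect states and of the one-link classes

`F S z = ff z (blk z)` : acceptance probability at the perfect state over `z`.  `r₂' = tr r₂ s`.

* `low`  : `∑_{z ∈ P_s} (1 - F₁ z F₂ (z+s)) ≤ (4 n ρ + 2 n ε) #P_s`         (MASS1),
* `upp`  : `∑_{z ∈ Y} F₁ z F₂ (z+s) ≤ exp (160 n κ / Λ) #P_s`, any finite `Y`,
* `mass3`: the soft count of the one-link class `(u, v)`, `|SC - N| ≤ ε N`     (MASS3).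
-/

set_option autoImplicit false

namespace Crest.Agent.R302.Mass151

open Finset Crest.Agent.R302.Facet Crest.Agent.R302.Inst Crest.Agent.R302.Blk
open Crest.Agent.R302.Stage Crest.Agent.R302.KapR Crest.Agent.R302.Tail907

variable {V : Type*} [Fintype V] [DecidableEq V]

/-- acceptance probability of the perfect state over `z` -/
noncomputable def F (S : Side V) (z : V → ℤ) : ℝ := S.ff z (S.blk z)

theorem load_blk (S : Side V) (x : V → ℤ) : S.load x (S.blk x) = x := by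
  refine eq_of_bs S.T fun a => ?_
  rw [Side.bs_load]
  split_ifs
  · rfl
  · rfl

/-- sums over the edges of a forest -/
theorem sum_fedges' (par : V → Option V) (f : V → V → ℤ) :
    ∑ q ∈ fedges par, f q.1 q.2 = ∑ a, (par a).elim 0 (fun b => f a b) := by
  unfold fedges
  rw [sum_filter, Fintype.sum_prod_type]
  refine sum_congr rfl fun a _ => ?_
  simp only
  rcases h : par a with _ | b
  · simp
  · simp

/-- 838's point is 907's shift -/
theorem zpt_shift (T : MP3.Forest V) (p t : V → ℤ) :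
    zpt T p t = fun v => p v + shift (fedges T.par) (fun q => t q.1) v := by
  funext v
  unfold zpt
  rw [Pi.add_apply, Finset.sum_apply]
  congr 1
  unfold shift
  rw [sum_fedges' T.par (fun a b => t a * (Facet.ev a v - Facet.ev b v))]
  refine sum_congr rfl fun a _ => ?_
  rcases h : T.par a with _ | b
  · simp
  · simp [dq, h, Facet.ev, Lor.ev, Pi.single_apply]

/-- hypotheses on one side: `m` = slacks of the centre along the fat edges, `k` = slack exponents -/
structure SideOK (S : Side V) (r : Finset V → ℤ) (R : ℤ) (c : V → ℤ) (m k : V → ℕ) : Prop where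
  sub : SubM r R
  mem : ∀ z, z ∈ S.J ↔ MemJ r R z
  one : ∀ z, S.g z = 1
  cen : MemJ r R c
  ker : ∀ a, S.T.par a ≠ none → S.κ a = kapR (k a)
  slk : ∀ p b, S.T.par p = some b →
    ∀ A, (p ∈ A ∧ b ∉ A ∨ b ∈ A ∧ p ∉ A) → (m p : ℤ) ≤ Facet.slk r c A

omit [Fintype V] [DecidableEq V] in
theorem par_ne (T : MP3.Forest V) {p b : V} (h : T.par p = some b) : p ≠ b := by
  rintro rfl
  exact absurd (T.dep_lt p p h) (lt_irrefl _)

section Side

variable {S : Side V} {r : Finset V → ℤ} {R : ℤ} {c : V → ℤ} {m k : V → ℕ}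

/-- weight of one slack vector -/
theorem slw_eq (h : SideOK S r R c m k) (v : V → ℤ) : S.slw v =
    ∏ a, (if S.T.par a = none then (if v a = 0 then (1 : ℝ) else 0) else kapR (k a) (v a)) := by
  unfold Side.slw
  refine prod_congr rfl fun a _ => ?_
  split_ifs with h1
  · rfl
  · rfl
  · rw [h.ker a h1]

theorem slw_nonneg' (h : SideOK S r R c m k) (v : V → ℤ) : 0 ≤ S.slw v := by
  rw [slw_eq h]
  refine prod_nonneg fun a _ => ?_
  split_ifs
  · exact zero_le_one
  · exact le_rfl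
  · exact kapR_nonneg _ _

/-- product form of the sum of the slack weights over a box -/
theorem sum_slw_box (h : SideOK S r R c m k) (I : V → Finset ℤ) :
    ∑ v ∈ Fintype.piFinset (fun a => if S.T.par a = none then {0} else I a), S.slw v =
      ∏ a, (if S.T.par a = none then (1 : ℝ) else ∑ t ∈ I a, kapR (k a) t) := by
  simp only [slw_eq h]
  rw [← Finset.prod_univ_sum (t := fun a => if S.T.par a = none then {0} else I a)
    (f := fun a t => if S.T.par a = none then (if t = 0 then (1 : ℝ) else 0) else kapR (k a) t)]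
  refine prod_congr rfl fun a _ => ?_
  by_cases ha : S.T.par a = none
  · simp [ha]
  · simp [ha]

theorem sum_slw_le' (h : SideOK S r R c m k) (T : Finset (V → ℤ)) : ∑ v ∈ T, S.slw v ≤ 1 := by
  classical
  set κ' : V → ℤ → ℝ := fun a t => kapR (k a) t with hκ'
  set S' : Side V := { S with κ := κ' } with hS'
  have e : ∀ v, S.slw v = S'.slw v := by
    intro v
    rw [slw_eq h]
    rfl
  simp only [e]
  exact S'.sum_slw_le (fun a t => kapR_nonneg _ _) (fun a T => sum_kapR_le _ T) T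

theorem ff_nonneg' (h : SideOK S r R c m k) (x : V → ℤ) (β : S.Blk → ℤ) : 0 ≤ S.ff x β := by
  classical
  rw [S.ff_eq]
  refine sum_nonneg fun z _ => ?_
  split_ifs
  · rw [h.one, one_mul]; exact slw_nonneg' h _
  · exact le_rfl

theorem ff_le_one' (h : SideOK S r R c m k) (x : V → ℤ) (β : S.Blk → ℤ) : S.ff x β ≤ 1 := by
  classical
  rw [S.ff_eq]
  refine le_trans (Finset.sum_le_sum fun z _ => ?_)
    (S.sum_cons_le x β S.slw 1 (fun V => ?_) S.J)
  · split_ifs
    · rw [h.one, one_mul, abs_of_nonneg (slw_nonneg' h _)]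
    · exact le_rfl
  · rw [Finset.sum_congr rfl fun v _ => abs_of_nonneg (slw_nonneg' h v)]
    exact sum_slw_le' h V

theorem F_nonneg (h : SideOK S r R c m k) (z : V → ℤ) : 0 ≤ F S z := ff_nonneg' h _ _
theorem F_le_one (h : SideOK S r R c m k) (z : V → ℤ) : F S z ≤ 1 := ff_le_one' h _ _

/-- lower bound: if all slacks of a box keep `z` inside, `F z` is at least the mass of the box -/
theorem F_ge (h : SideOK S r R c m k) (z : V → ℤ) (I : V → Finset ℤ)
    (hin : ∀ t : V → ℤ, (∀ a, S.T.par a = none → t a = 0) → (∀ a, S.T.par a ≠ none → t a ∈ I a) →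
      MemJ r R (zpt S.T z t)) :
    ∏ a, (if S.T.par a = none then (1 : ℝ) else ∑ t ∈ I a, kapR (k a) t) ≤ F S z := by
  classical
  rw [← sum_slw_box h I]
  unfold F
  rw [S.ff_eq]
  set Pi := Fintype.piFinset (fun a => if S.T.par a = none then ({0} : Finset ℤ) else I a) with hPi
  have hmem : ∀ t ∈ Pi, (∀ a, S.T.par a = none → t a = 0) ∧
      (∀ a, S.T.par a ≠ none → t a ∈ I a) := by
    intro t ht
    rw [hPi, Fintype.mem_piFinset] at ht
    constructor
    · intro a ha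
      have := ht a
      rw [if_pos ha, mem_singleton] at this
      exact this
    · intro a ha
      have := ht a
      rwa [if_neg ha] at this
  have key : ∀ t ∈ Pi, S.Cons (S.blk z) (zpt S.T z t) ∧ t = S.tv z (zpt S.T z t) := by
    intro t ht
    have := (S.zpt_load_iff z (S.blk z) t (zpt S.T z t) (hmem t ht).1).1
    rw [load_blk] at this
    exact this rfl
  have hinj : Set.InjOn (fun t => zpt S.T z t) (Pi : Set (V → ℤ)) := by
    intro t ht t' ht' e
    have e' : zpt S.T z t = zpt S.T z t' := e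
    rw [(key t ht).2, (key t' ht').2, e']
  have e1 : ∑ t ∈ Pi, S.slw t =
      ∑ z' ∈ Pi.image (fun t => zpt S.T z t),
        (if S.Cons (S.blk z) z' then S.g z' * S.slw (S.tv z z') else 0) := by
    rw [sum_image hinj]
    refine sum_congr rfl fun t ht => ?_
    obtain ⟨h1, h2⟩ := key t ht
    rw [if_pos h1, h.one, one_mul, ← h2]
  rw [e1]
  refine sum_le_sum_of_subset_of_nonneg ?_ ?_
  · intro z' hz'
    obtain ⟨t, ht, rfl⟩ := mem_image.1 hz'
    exact (h.mem _).2 (hin t (hmem t ht).1 (hmem t ht).2)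
  · intro z' _ _
    split_ifs
    · rw [h.one, one_mul]; exact slw_nonneg' h _
    · exact le_rfl

/-- a point is deep if all its exchange capacities along the fat edges are large -/
def Deep (r : Finset V → ℤ) (par : V → Option V) (τ : V → ℕ) (x : V → ℤ) : Prop :=
  ∀ p b, par p = some b → (Fintype.card V * τ p : ℤ) ≤ cap r x p b ∧
    (Fintype.card V * τ p : ℤ) ≤ cap r x b p

theorem memJ_zpt_of_deep {T : MP3.Forest V} {x : V → ℤ} (hx : MemJ r R x) {τ : V → ℕ}
    (hd : Deep r T.par τ x) (t : V → ℤ) (ht : ∀ a, T.par a ≠ none → |t a| ≤ τ a) :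
    MemJ r R (zpt T x t) := by
  rw [zpt_shift]
  refine memJ_shift hx (fedges T.par) _ (Fintype.card V) (card_fedges _) fun q hq => ?_
  have hq' : T.par q.1 = some q.2 := by simpa [fedges] using hq
  obtain ⟨h1, h2⟩ := hd q.1 q.2 hq'
  have h3 : |t q.1| ≤ τ q.1 := ht q.1 (by rw [hq']; simp)
  have h4 : (Fintype.card V : ℤ) * |t q.1| ≤ Fintype.card V * τ q.1 :=
    mul_le_mul_of_nonneg_left h3 (by positivity)
  exact ⟨h4.trans h1, h4.trans h2⟩

theorem prod_ge {ι : Type*} (s : Finset ι) (f : ι → ℝ) {ε : ℝ}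
    (h : ∀ i ∈ s, 1 - ε ≤ f i ∧ f i ≤ 1 ∧ 0 ≤ f i) : 1 - s.card * ε ≤ ∏ i ∈ s, f i := by
  classical
  induction s using Finset.induction_on with
  | empty => simp
  | insert i s hi ih =>
    rw [prod_insert hi, card_insert_of_notMem hi]
    have h1 := h i (mem_insert_self i s)
    have h2 := ih fun j hj => h j (mem_insert_of_mem hj)
    have h3 : ∏ j ∈ s, f j ≤ 1 := prod_le_one (fun j hj => (h j (mem_insert_of_mem hj)).2.2)
      fun j hj => (h j (mem_insert_of_mem hj)).2.1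
    have h4 : 0 ≤ ∏ j ∈ s, f j := prod_nonneg fun j hj => (h j (mem_insert_of_mem hj)).2.2
    push_cast
    have h5 : 0 ≤ (1 - f i) * (1 - ∏ j ∈ s, f j) :=
      mul_nonneg (by linarith) (by linarith)
    nlinarith

/-- **acceptance of deep points** -/
theorem F_deep (h : SideOK S r R c m k) {z : V → ℤ} (hz : MemJ r R z) {τ : V → ℕ}
    (hd : Deep r S.T.par τ z) {ε : ℝ} (hε : 0 ≤ ε)
    (hw : ∀ a, S.T.par a ≠ none → 1 - ε ≤ ∑ t ∈ Icc (-(τ a : ℤ)) (τ a), kapR (k a) t) :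
    1 - Fintype.card V * ε ≤ F S z := by
  refine le_trans ?_ (F_ge h z (fun a => Icc (-(τ a : ℤ)) (τ a)) fun t _ ht =>
    memJ_zpt_of_deep hz hd t fun a ha => ?_)
  · rw [← card_univ]
    refine prod_ge _ _ fun a _ => ?_
    split_ifs with ha
    · exact ⟨by linarith, le_rfl, zero_le_one⟩
    · exact ⟨hw a ha, sum_kapR_le _ _, sum_nonneg fun t _ => kapR_nonneg _ _⟩
  · have := ht a ha
    rw [mem_Icc] at this
    rw [abs_le]
    exact this

end Side

/-! ### counting the points which are not deep -/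

/-- points with small capacities along fat edges of side 1 -/
theorem bad_le {r r' : Finset V → ℤ} {R : ℤ} (hr : SubM r R) (hr' : SubM r' R)
    (P : Finset (V → ℤ)) (hP : ∀ x, x ∈ P ↔ MemJ r R x ∧ MemJ r' R x) {c : V → ℤ}
    (hc : ∀ A, ∑ a ∈ A, c a ≤ r A + 1) (hc' : ∀ A, ∑ a ∈ A, c a ≤ r' A + 1)
    (hcR : ∑ a, c a = R) (T : MP3.Forest V) (m τ : V → ℕ) {ρ : ℝ} (hρ : 0 ≤ ρ)
    (hm : ∀ p b, T.par p = some b → ∀ A, (p ∈ A ∧ b ∉ A ∨ b ∈ A ∧ p ∉ A) →
      (m p : ℤ) ≤ r A - ∑ a ∈ A, c a + 1)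
    (hτ : ∀ p, T.par p ≠ none → 4 * Fintype.card V + 2 ≤ m p ∧
      2 * ((Fintype.card V * τ p : ℕ) + 1 : ℝ) ≤
        ρ * (((m p - (4 * Fintype.card V + 2)) / kap (Fintype.card V) + 1 : ℕ) : ℝ))
    (Q : Finset (V → ℤ)) (hQ : ∀ x ∈ Q, x ∈ P ∧ ¬ Deep r T.par τ x) :
    (Q.card : ℝ) ≤ 2 * Fintype.card V * ρ * P.card := by
  classical
  set n := Fintype.card V with hn
  -- one direction
  have one : ∀ p b, T.par p = some b → ∀ g h, (g = p ∧ h = b ∨ g = b ∧ h = p) →
      ((P.filter (fun x => cap r x g h ≤ ((n * τ p : ℕ) : ℤ))).card : ℝ) ≤ ρ * P.card := by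
    intro p b hpb g h hgh
    obtain ⟨h1, h2⟩ := hτ p (by rw [hpb]; simp)
    have hne : p ≠ b := par_ne T hpb
    have hgh' : g ≠ h := by
      rcases hgh with ⟨rfl, rfl⟩ | ⟨rfl, rfl⟩
      · exact hne
      · exact hne.symm
    have hd := density_e hr hr' P hP (c := fun a => (c a : ℝ)) (e := 1) zero_le_one
      (fun A => by have := hc A; exact_mod_cast this) (fun A => by have := hc' A; exact_mod_cast this)
      (by exact_mod_cast hcR) hgh' (m p - (4 * n + 2)) (n * τ p) (fun A hg hh => by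
        have h3 := hm p b hpb A (by
          rcases hgh with ⟨rfl, rfl⟩ | ⟨rfl, rfl⟩
          · exact Or.inl ⟨hg, hh⟩
          · exact Or.inr ⟨hg, hh⟩)
        have h4 : ((m p - (4 * n + 2) : ℕ) : ℤ) + (4 * n + 1) * 1 ≤ r A - ∑ a ∈ A, c a := by
          rw [Nat.cast_sub h1]; push_cast; linarith
        exact_mod_cast h4)
    have hd' : (((m p - (4 * n + 2)) / kap n + 1 : ℕ) : ℝ) *
        (P.filter (fun x => cap r x g h ≤ ((n * τ p : ℕ) : ℤ))).card ≤
        2 * ((n * τ p : ℕ) + 1) * P.card := by exact_mod_cast hd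
    set M : ℝ := (((m p - (4 * n + 2)) / kap n + 1 : ℕ) : ℝ) with hM
    have hMpos : 0 < M := by rw [hM]; positivity
    have h5 : M * (P.filter (fun x => cap r x g h ≤ ((n * τ p : ℕ) : ℤ))).card ≤
        M * (ρ * P.card) := by
      refine hd'.trans ?_
      calc 2 * (((n * τ p : ℕ) : ℝ) + 1) * P.card ≤ (ρ * M) * P.card :=
            mul_le_mul_of_nonneg_right h2 (Nat.cast_nonneg _)
        _ = M * (ρ * P.card) := by ring
    exact le_of_mul_le_mul_left h5 hMpos
  have hsub : Q ⊆ (fedges T.par).biUnion (fun q =>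
      P.filter (fun x => cap r x q.1 q.2 ≤ ((n * τ q.1 : ℕ) : ℤ)) ∪
        P.filter (fun x => cap r x q.2 q.1 ≤ ((n * τ q.1 : ℕ) : ℤ))) := by
    intro x hx
    obtain ⟨h1, h2⟩ := hQ x hx
    unfold Deep at h2
    push Not at h2
    obtain ⟨p, b, hpb, h3⟩ := h2
    rw [mem_biUnion]
    refine ⟨(p, b), by simpa [fedges] using hpb, ?_⟩
    rw [mem_union, mem_filter, mem_filter]
    by_cases h4 : ((n : ℤ) * τ p) ≤ cap r x p b
    · right
      refine ⟨h1, ?_⟩
      have := h3 h4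
      push_cast
      exact this.le
    · left
      refine ⟨h1, ?_⟩
      push Not at h4
      push_cast
      exact h4.le
  have h1 : (Q.card : ℝ) ≤ ∑ q ∈ fedges T.par, 2 * ρ * P.card := by
    have h2 := (card_le_card hsub).trans card_biUnion_le
    have h3 : (Q.card : ℝ) ≤ ∑ q ∈ fedges T.par,
        ((P.filter (fun x => cap r x q.1 q.2 ≤ ((n * τ q.1 : ℕ) : ℤ)) ∪
        P.filter (fun x => cap r x q.2 q.1 ≤ ((n * τ q.1 : ℕ) : ℤ))).card : ℝ) := by
      exact_mod_cast h2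
    refine h3.trans (sum_le_sum fun q hq => ?_)
    have hq' : T.par q.1 = some q.2 := by simpa [fedges] using hq
    have h4 := one q.1 q.2 hq' q.1 q.2 (Or.inl ⟨rfl, rfl⟩)
    have h5 := one q.1 q.2 hq' q.2 q.1 (Or.inr ⟨rfl, rfl⟩)
    have h6 : ((P.filter (fun x => cap r x q.1 q.2 ≤ ((n * τ q.1 : ℕ) : ℤ)) ∪
        P.filter (fun x => cap r x q.2 q.1 ≤ ((n * τ q.1 : ℕ) : ℤ))).card : ℝ) ≤
        (P.filter (fun x => cap r x q.1 q.2 ≤ ((n * τ q.1 : ℕ) : ℤ))).card +
        (P.filter (fun x => cap r x q.2 q.1 ≤ ((n * τ q.1 : ℕ) : ℤ))).card := by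
      exact_mod_cast card_union_le _ _
    linarith
  rw [sum_const, nsmul_eq_mul] at h1
  have h2 : ((fedges T.par).card : ℝ) ≤ n := by exact_mod_cast card_fedges T.par
  have h3 : 0 ≤ 2 * ρ * (P.card : ℝ) := by positivity
  calc (Q.card : ℝ) ≤ (fedges T.par).card * (2 * ρ * P.card) := h1
    _ ≤ n * (2 * ρ * P.card) := mul_le_mul_of_nonneg_right h2 h3
    _ = _ := by ring

/-! ### MASS1 -/

theorem cap_tr {r : Finset V → ℤ} (s x : V → ℤ) (a b : V) :
    cap (tr r s) x a b = cap r (fun v => x v + s v) a b := by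
  have e : slk (tr r s) x = slk r (fun v => x v + s v) := by
    funext A
    unfold slk tr
    rw [sum_add_distrib]
    ring
  unfold cap
  rw [e]

section Mass1

variable {S₁ S₂ : Side V} {r₁ r₂ : Finset V → ℤ} {R : ℤ} {c : V → ℤ} {m₁ k₁ m₂ k₂ : V → ℕ}

/-- numeric conditions on the deepness radii `τ` -/
structure TauOK (S : Side V) (m k τ : V → ℕ) (ρ ε : ℝ) : Prop where
  ρ0 : 0 ≤ ρ
  ε0 : 0 ≤ ε
  win : ∀ a, S.T.par a ≠ none → 1 - ε ≤ ∑ t ∈ Icc (-(τ a : ℤ)) (τ a), kapR (k a) t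
  big : ∀ p, S.T.par p ≠ none → 4 * Fintype.card V + 2 ≤ m p ∧
      2 * ((Fintype.card V * τ p : ℕ) + 1 : ℝ) ≤
        ρ * (((m p - (4 * Fintype.card V + 2)) / kap (Fintype.card V) + 1 : ℕ) : ℝ)

/-- one side of MASS1 -/
theorem low_side {S : Side V} {r r' : Finset V → ℤ} {m k τ : V → ℕ} {ρ ε : ℝ} {c' : V → ℤ}
    (h : SideOK S r R c m k) (hτ : TauOK S m k τ ρ ε) {s : V → ℤ} (hs0 : ∑ v, s v = 0)
    (hr' : SubM r' R) (hc' : ∀ A, ∑ a ∈ A, c' a ≤ r' A + 1) (hcR : ∑ a, c' a = R)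
    (hcs : ∀ A, |(∑ a ∈ A, s a + ∑ a ∈ A, c' a) - ∑ a ∈ A, c a| ≤ 1)
    (P : Finset (V → ℤ)) (hP : ∀ x, x ∈ P ↔ MemJ r R (fun v => x v + s v) ∧ MemJ r' R x) :
    ∑ x ∈ P, (1 - F S (fun v => x v + s v)) ≤
      (Fintype.card V * ε + 2 * Fintype.card V * ρ) * P.card := by
  classical
  set Q := P.filter (fun x => ¬ Deep (tr r s) S.T.par τ x) with hQ
  have hbad := bad_le (tr_subM h.sub hs0) hr' P
    (fun x => by rw [hP, memJ_tr hs0]) (c := c')
    (fun A => by
      have h1 := h.cen.1 A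
      have h2 := (abs_le.1 (hcs A)).2
      unfold tr; linarith)
    hc' hcR S.T m τ hτ.ρ0
    (fun p b hpb A hA => by
      have h1 := h.slk p b hpb A hA
      have h2 := (abs_le.1 (hcs A)).2
      unfold tr
      unfold Facet.slk at h1
      linarith)
    hτ.big Q (fun x hx => by rw [hQ, mem_filter] at hx; exact hx)
  have hterm : ∀ x ∈ P, 1 - F S (fun v => x v + s v) ≤
      Fintype.card V * ε + (if x ∈ Q then 1 else 0) := by
    intro x hx
    by_cases hd : Deep (tr r s) S.T.par τ x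
    · have hd' : Deep r S.T.par τ (fun v => x v + s v) := by
        intro p b hpb
        have := hd p b hpb
        rwa [cap_tr, cap_tr] at this
      have h1 := F_deep h ((hP x).1 hx).1 hd' hτ.ε0 hτ.win
      have h2 : (0 : ℝ) ≤ if x ∈ Q then 1 else 0 := by split_ifs <;> norm_num
      linarith
    · have hxQ : x ∈ Q := by rw [hQ, mem_filter]; exact ⟨hx, hd⟩
      rw [if_pos hxQ]
      have h1 := F_nonneg h (fun v => x v + s v)
      have h2 : (0 : ℝ) ≤ Fintype.card V * ε := mul_nonneg (Nat.cast_nonneg _) hτ.ε0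
      linarith
  refine (sum_le_sum hterm).trans ?_
  rw [sum_add_distrib, sum_const, nsmul_eq_mul, ← sum_filter]
  have e : (P.filter (fun x => x ∈ Q)) = Q := by
    ext x
    rw [mem_filter]
    constructor
    · exact fun h => h.2
    · intro h
      refine ⟨?_, h⟩
      rw [hQ, mem_filter] at h
      exact h.1
  rw [e, sum_const, nsmul_eq_mul, mul_one]
  linarith

/-- **MASS1** -/
theorem low (h₁ : SideOK S₁ r₁ R c m₁ k₁) (h₂ : SideOK S₂ r₂ R c m₂ k₂) {τ₁ τ₂ : V → ℕ} {ρ ε : ℝ}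
    (t₁ : TauOK S₁ m₁ k₁ τ₁ ρ ε) (t₂ : TauOK S₂ m₂ k₂ τ₂ ρ ε) {s : V → ℤ} (hs0 : ∑ v, s v = 0)
    (hs1 : ∀ A : Finset V, |∑ v ∈ A, s v| ≤ 1) (P : Finset (V → ℤ))
    (hP : ∀ x, x ∈ P ↔ MemJ r₁ R x ∧ MemJ r₂ R (fun v => x v + s v)) :
    ∑ x ∈ P, (1 - F S₁ x * F S₂ (fun v => x v + s v)) ≤
      (2 * Fintype.card V * ε + 4 * Fintype.card V * ρ) * P.card := by
  have a1 := low_side (r' := tr r₂ s) (c' := c) h₁ t₁ (s := 0) (by simp)
    (tr_subM h₂.sub hs0) (fun A => by
      have h1 := h₂.cen.1 A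
      have h2 := (abs_le.1 (hs1 A)).2
      unfold tr; linarith) h₁.cen.2 (fun A => by simp) P (fun x => by
      rw [hP, memJ_tr hs0]; simp)
  have a2 := low_side (r' := r₁) (c' := c) h₂ t₂ hs0 h₁.sub
    (fun A => by linarith [h₁.cen.1 A]) h₁.cen.2 (fun A => by
      rw [add_sub_cancel_right]; exact hs1 A) P (fun x => by rw [hP, and_comm])
  simp only [Pi.zero_apply, add_zero] at a1
  have : ∀ x ∈ P, (1 - F S₁ x * F S₂ (fun v => x v + s v)) ≤
      (1 - F S₁ x) + (1 - F S₂ (fun v => x v + s v)) := by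
    intro x _
    have b1 := F_nonneg h₁ x
    have b2 := F_le_one h₁ x
    have b3 := F_nonneg h₂ (fun v => x v + s v)
    have b4 := F_le_one h₂ (fun v => x v + s v)
    nlinarith
  refine (sum_le_sum this).trans ?_
  rw [sum_add_distrib]
  linarith

end Mass1

/-! ### upper bound -/

section Upp

variable {S₁ S₂ : Side V} {r₁ r₂ : Finset V → ℤ} {R : ℤ} {c : V → ℤ} {m₁ k₁ m₂ k₂ : V → ℕ}

/-- exponential moment of the slack vectors -/
theorem sum_slw_exp {S : Side V} {r : Finset V → ℤ} {m k : V → ℕ} (h : SideOK S r R c m k)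
    (w : V → ℝ) {η : ℝ} (h0 : 0 ≤ η) (hη : η ≤ 1 / 8)
    (hw : ∀ a, S.T.par a ≠ none → 0 ≤ w a ∧ w a * 2 ^ k a ≤ η) (T : Finset (V → ℤ)) :
    ∑ t ∈ T, S.slw t * Real.exp (∑ q ∈ fedges S.T.par, w q.1 * |(t q.1 : ℝ)|) ≤
      Real.exp (10 * Fintype.card V * η) := by
  classical
  have e1 : ∀ t : V → ℤ, S.slw t * Real.exp (∑ q ∈ fedges S.T.par, w q.1 * |(t q.1 : ℝ)|) =
      ∏ a, (if S.T.par a = none then (if t a = 0 then (1 : ℝ) else 0)
        else kapR (k a) (t a) * Real.exp (w a * |(t a : ℝ)|)) := by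
    intro t
    rw [sum_fedges S.T.par (fun a => w a * |(t a : ℝ)|), Real.exp_sum, slw_eq h, prod_filter,
      ← prod_mul_distrib]
    refine prod_congr rfl fun a _ => ?_
    by_cases ha : S.T.par a = none
    · simp [ha]
    · simp [ha]
  simp only [e1]
  have hsub : T ⊆ Fintype.piFinset fun a => T.image fun t => t a := by
    intro v hv
    rw [Fintype.mem_piFinset]
    exact fun a => mem_image.2 ⟨v, hv, rfl⟩
  refine (sum_le_sum_of_subset_of_nonneg hsub fun t _ _ => ?_).trans ?_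
  · refine prod_nonneg fun a _ => ?_
    split_ifs
    · exact zero_le_one
    · exact le_rfl
    · exact mul_nonneg (kapR_nonneg _ _) (Real.exp_pos _).le
  rw [← Finset.prod_univ_sum (t := fun a => T.image fun t => t a)
    (f := fun a t => if S.T.par a = none then (if t = 0 then (1 : ℝ) else 0)
        else kapR (k a) t * Real.exp (w a * |(t : ℝ)|))]
  have e2 : Real.exp (10 * Fintype.card V * η) = ∏ _a : V, Real.exp (10 * η) := by
    rw [prod_const, ← Real.exp_nat_mul, card_univ]; congr 1; ring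
  rw [e2]
  refine prod_le_prod (fun a _ => sum_nonneg fun t _ => ?_) fun a _ => ?_
  · split_ifs
    · exact zero_le_one
    · exact le_rfl
    · exact mul_nonneg (kapR_nonneg _ _) (Real.exp_pos _).le
  · by_cases ha : S.T.par a = none
    · simp only [if_pos ha, sum_ite_eq']
      have : 1 ≤ Real.exp (10 * η) := Real.one_le_exp (by linarith)
      split_ifs
      · exact this
      · linarith
    · simp only [if_neg ha]
      obtain ⟨h1, h2⟩ := hw a ha
      have h3 := sum_kapR_exp_le (k a) h1 (h2.trans hη) (T.image fun t => t a)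
      have h4 := Real.add_one_le_exp (10 * η)
      linarith

/-- `F` is at most the mass of the slack vectors which keep `y` inside -/
theorem F_le {S : Side V} {r : Finset V → ℤ} {m k : V → ℕ} (h : SideOK S r R c m k) (y : V → ℤ)
    (T : Finset (V → ℤ)) (hT : ∀ z ∈ S.J, S.tv y z ∈ T) [DecidablePred fun t => zpt S.T y t ∈ S.J] :
    F S y ≤ ∑ t ∈ T, if zpt S.T y t ∈ S.J then S.slw t else 0 := by
  classical
  unfold F
  rw [S.ff_eq, ← sum_filter, ← sum_filter]
  have hinj : Set.InjOn (S.tv y) (S.J.filter (S.Cons (S.blk y)) : Set (V → ℤ)) := by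
    intro z hz z' hz' e
    rw [Finset.mem_coe, Finset.mem_filter] at hz hz'
    exact S.tv_inj hz.2 hz'.2 e
  have e1 : ∑ z ∈ S.J.filter (S.Cons (S.blk y)), S.g z * S.slw (S.tv y z) =
      ∑ t ∈ (S.J.filter (S.Cons (S.blk y))).image (S.tv y), S.slw t := by
    rw [sum_image hinj]
    exact sum_congr rfl fun z _ => by rw [h.one, one_mul]
  rw [e1]
  refine sum_le_sum_of_subset_of_nonneg ?_ fun t _ _ => slw_nonneg' h t
  intro t ht
  obtain ⟨z, hz, rfl⟩ := mem_image.1 ht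
  rw [mem_filter] at hz ⊢
  refine ⟨hT z hz.1, ?_⟩
  have h1 := (S.zpt_load_iff y (S.blk y) (S.tv y z) z (fun a ha => by
    unfold Side.tv; rw [if_pos ha])).2 ⟨hz.2, rfl⟩
  rw [load_blk] at h1
  rw [h1]
  exact hz.1

/-- numeric conditions for the upper bound -/
structure EtaOK (S : Side V) (m k : V → ℕ) (η : ℝ) : Prop where
  η0 : 0 ≤ η
  η8 : η ≤ 1 / 8
  big : ∀ p, S.T.par p ≠ none → 4 * Fintype.card V + 2 ≤ m p ∧
    4 * kap (Fintype.card V) ≤ m p - (4 * Fintype.card V + 2) ∧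
    4 * (kap (Fintype.card V) : ℝ) / ((m p - (4 * Fintype.card V + 2) : ℕ) : ℝ) * 2 ^ k p ≤ η

/-- **upper bound of the soft counts** (all types `s` with `|s(A)| ≤ 1`, all finite windows) -/
theorem upp (h₁ : SideOK S₁ r₁ R c m₁ k₁) (h₂ : SideOK S₂ r₂ R c m₂ k₂) {η : ℝ}
    (t₁ : EtaOK S₁ m₁ k₁ η) (t₂ : EtaOK S₂ m₂ k₂ η) {s : V → ℤ} (hs0 : ∑ v, s v = 0)
    (hs1 : ∀ A : Finset V, |∑ v ∈ A, s v| ≤ 1) (P : Finset (V → ℤ))
    (hP : ∀ x, x ∈ P ↔ MemJ r₁ R x ∧ MemJ r₂ R (fun v => x v + s v)) (Y : Finset (V → ℤ)) :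
    ∑ y ∈ Y, F S₁ y * F S₂ (fun v => y v + s v) ≤
      Real.exp (20 * Fintype.card V * η) * P.card := by
  classical
  set n := Fintype.card V with hn
  set T₁ := (Y ×ˢ S₁.J).image (fun q => S₁.tv q.1 q.2) with hT₁
  set T₂ := (Y ×ˢ S₂.J).image (fun q => S₂.tv (fun v => q.1 v + s v) q.2) with hT₂
  have f1 : ∀ y ∈ Y, F S₁ y ≤ ∑ t ∈ T₁, if zpt S₁.T y t ∈ S₁.J then S₁.slw t else 0 :=
    fun y hy => F_le h₁ y T₁ fun z hz => mem_image.2 ⟨(y, z), mem_product.2 ⟨hy, hz⟩, rfl⟩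
  have f2 : ∀ y ∈ Y, F S₂ (fun v => y v + s v) ≤
      ∑ t ∈ T₂, if zpt S₂.T (fun v => y v + s v) t ∈ S₂.J then S₂.slw t else 0 :=
    fun y hy => F_le h₂ _ T₂ fun z hz => mem_image.2 ⟨(y, z), mem_product.2 ⟨hy, hz⟩, rfl⟩
  -- the count for fixed slack vectors
  have cnt : ∀ u₁ u₂ : V → ℤ, ((Y.filter (fun y => zpt S₁.T y u₁ ∈ S₁.J ∧
      zpt S₂.T (fun v => y v + s v) u₂ ∈ S₂.J)).card : ℝ) ≤
      Real.exp (∑ q ∈ fedges S₁.T.par,
        4 * (kap n : ℝ) / ((m₁ q.1 - (4 * n + 2) : ℕ) : ℝ) * |(u₁ q.1 : ℝ)|) *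
      Real.exp (∑ q ∈ fedges S₂.T.par,
        4 * (kap n : ℝ) / ((m₂ q.1 - (4 * n + 2) : ℕ) : ℝ) * |(u₂ q.1 : ℝ)|) * P.card := by
    intro u₁ u₂
    have hneg : ∀ (T : Finset (V × V)) (u : V → ℤ) (v : V),
        shift T (fun q => -u q.1) v = -shift T (fun q => u q.1) v := by
      intro T u v
      unfold shift
      rw [← sum_neg_distrib]
      exact sum_congr rfl fun q _ => by ring
    have main := shift_count_e h₁.sub (tr_subM h₂.sub hs0) P (fun x => by rw [hP, memJ_tr hs0])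
      (c := fun v => (c v : ℝ)) (e := 1) zero_le_one
      (fun A => by
        have h3 := h₁.cen.1 A
        have h4 : ∑ a ∈ A, c a ≤ r₁ A + 1 := by linarith
        exact_mod_cast h4)
      (fun A => by
        have h3 := h₂.cen.1 A
        have h5 := (abs_le.1 (hs1 A)).2
        have h4 : ∑ a ∈ A, c a ≤ tr r₂ s A + 1 := by unfold tr; linarith
        exact_mod_cast h4)
      (by have := h₁.cen.2; exact_mod_cast this)
      (fedges S₁.T.par) (fedges S₂.T.par) (fun q => m₁ q.1 - (4 * n + 2))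
      (fun q => m₂ q.1 - (4 * n + 2))
      (fun q hq => by
        have hq' : S₁.T.par q.1 = some q.2 := by simpa [fedges] using hq
        obtain ⟨b1, b2, b3⟩ := t₁.big q.1 (by rw [hq']; simp)
        refine ⟨par_ne S₁.T hq', b2, fun A hA => ?_⟩
        have h3 := h₁.slk q.1 q.2 hq' A hA
        have h4 : ((m₁ q.1 - (4 * n + 2) : ℕ) : ℤ) + (4 * n + 1) * 1 ≤ r₁ A - ∑ a ∈ A, c a := by
          rw [Nat.cast_sub b1]
          unfold Facet.slk at h3
          push_cast
          linarith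
        exact_mod_cast h4)
      (fun q hq => by
        have hq' : S₂.T.par q.1 = some q.2 := by simpa [fedges] using hq
        obtain ⟨b1, b2, b3⟩ := t₂.big q.1 (by rw [hq']; simp)
        refine ⟨par_ne S₂.T hq', b2, fun A hA => ?_⟩
        have h3 := h₂.slk q.1 q.2 hq' A hA
        have h5 := (abs_le.1 (hs1 A)).2
        have h4 : ((m₂ q.1 - (4 * n + 2) : ℕ) : ℤ) + (4 * n + 1) * 1 ≤
            tr r₂ s A - ∑ a ∈ A, c a := by
          rw [Nat.cast_sub b1]
          unfold tr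
          unfold Facet.slk at h3
          push_cast
          linarith
        exact_mod_cast h4)
      (fun q => -u₁ q.1) (fun q => -u₂ q.1)
      (Y.filter (fun y => zpt S₁.T y u₁ ∈ S₁.J ∧ zpt S₂.T (fun v => y v + s v) u₂ ∈ S₂.J))
      (fun x hx => by
        rw [mem_filter] at hx
        obtain ⟨_, hx1, hx2⟩ := hx
        have g1 := (h₁.mem _).1 hx1
        have g2 := (h₂.mem _).1 hx2
        rw [zpt_shift] at g1 g2
        simp only [hneg, sub_neg_eq_add]
        refine ⟨g1, ?_⟩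
        rw [memJ_tr hs0]
        convert g2 using 1
        funext v
        ring)
    refine main.trans (le_of_eq ?_)
    rw [← Real.exp_add]
    congr 2
    simp only [Int.cast_neg, abs_neg, hn]
  calc ∑ y ∈ Y, F S₁ y * F S₂ (fun v => y v + s v)
      ≤ ∑ y ∈ Y, (∑ t ∈ T₁, if zpt S₁.T y t ∈ S₁.J then S₁.slw t else 0) *
          (∑ t ∈ T₂, if zpt S₂.T (fun v => y v + s v) t ∈ S₂.J then S₂.slw t else 0) :=
        sum_le_sum fun y hy => mul_le_mul (f1 y hy) (f2 y hy) (F_nonneg h₂ _)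
          (sum_nonneg fun t _ => by
            split_ifs
            · exact slw_nonneg' h₁ t
            · exact le_rfl)
    _ = ∑ u₁ ∈ T₁, ∑ u₂ ∈ T₂, S₁.slw u₁ * S₂.slw u₂ *
          ((Y.filter (fun y => zpt S₁.T y u₁ ∈ S₁.J ∧
            zpt S₂.T (fun v => y v + s v) u₂ ∈ S₂.J)).card : ℝ) := by
        have e : ∀ u₁ u₂ : V → ℤ, S₁.slw u₁ * S₂.slw u₂ *
          ((Y.filter (fun y => zpt S₁.T y u₁ ∈ S₁.J ∧
            zpt S₂.T (fun v => y v + s v) u₂ ∈ S₂.J)).card : ℝ) =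
            ∑ y ∈ Y, (if zpt S₁.T y u₁ ∈ S₁.J then S₁.slw u₁ else 0) *
              (if zpt S₂.T (fun v => y v + s v) u₂ ∈ S₂.J then S₂.slw u₂ else 0) := by
          intro u₁ u₂
          rw [card_eq_sum_ones, Nat.cast_sum, sum_filter, mul_sum]
          refine sum_congr rfl fun y _ => ?_
          by_cases a1 : zpt S₁.T y u₁ ∈ S₁.J <;>
            by_cases a2 : zpt S₂.T (fun v => y v + s v) u₂ ∈ S₂.J <;> simp [a1, a2]
        simp only [e, sum_mul_sum]
        rw [sum_comm]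
        refine sum_congr rfl fun u₁ _ => ?_
        rw [sum_comm]
    _ ≤ ∑ u₁ ∈ T₁, ∑ u₂ ∈ T₂, S₁.slw u₁ * S₂.slw u₂ *
          (Real.exp (∑ q ∈ fedges S₁.T.par,
            4 * (kap n : ℝ) / ((m₁ q.1 - (4 * n + 2) : ℕ) : ℝ) * |(u₁ q.1 : ℝ)|) *
          Real.exp (∑ q ∈ fedges S₂.T.par,
            4 * (kap n : ℝ) / ((m₂ q.1 - (4 * n + 2) : ℕ) : ℝ) * |(u₂ q.1 : ℝ)|) * P.card) :=
        sum_le_sum fun u₁ _ => sum_le_sum fun u₂ _ => mul_le_mul_of_nonneg_left (cnt u₁ u₂)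
          (mul_nonneg (slw_nonneg' h₁ _) (slw_nonneg' h₂ _))
    _ = (∑ u₁ ∈ T₁, S₁.slw u₁ * Real.exp (∑ q ∈ fedges S₁.T.par,
            4 * (kap n : ℝ) / ((m₁ q.1 - (4 * n + 2) : ℕ) : ℝ) * |(u₁ q.1 : ℝ)|)) *
        (∑ u₂ ∈ T₂, S₂.slw u₂ * Real.exp (∑ q ∈ fedges S₂.T.par,
            4 * (kap n : ℝ) / ((m₂ q.1 - (4 * n + 2) : ℕ) : ℝ) * |(u₂ q.1 : ℝ)|)) * P.card := by
        rw [sum_mul_sum, sum_mul]
        refine sum_congr rfl fun u₁ _ => ?_
        rw [sum_mul]
        exact sum_congr rfl fun u₂ _ => by ring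
    _ ≤ (Real.exp (10 * n * η) * Real.exp (10 * n * η)) * P.card := by
        apply mul_le_mul_of_nonneg_right _ (Nat.cast_nonneg _)
        refine mul_le_mul
          (sum_slw_exp h₁ (fun a => 4 * (kap n : ℝ) / ((m₁ a - (4 * n + 2) : ℕ) : ℝ)) t₁.η0 t₁.η8
            (fun a ha => ⟨by positivity, (t₁.big a ha).2.2⟩) T₁)
          (sum_slw_exp h₂ (fun a => 4 * (kap n : ℝ) / ((m₂ a - (4 * n + 2) : ℕ) : ℝ)) t₂.η0 t₂.η8
            (fun a ha => ⟨by positivity, (t₂.big a ha).2.2⟩) T₂)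
          (sum_nonneg fun t _ => mul_nonneg (slw_nonneg' h₂ _) (Real.exp_pos _).le)
          (Real.exp_pos _).le
    _ = _ := by
        rw [← Real.exp_add]
        congr 2
        ring

end Upp

end Crest.Agent.R302.Mass151
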