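import Crest.Agent.R302.Tail907C
import Crest.Agent.R302.Inst532B

/-!
# R302: the tails of the soft measure (3): the tail theorem in the coordinates of `Inst532`

Author: helper907.
-/

set_option autoImplicit false
set_option linter.unusedSectionVars false

namespace Crest.Agent.R302.Tail907

open Finset Crest.Agent.R302.Facet Crest.Agent.R302.TreeNN Crest.Agent.R302.Tree
open Crest.Agent.R302.Inst Crest.Agent.R302.Lor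

variable {E : Type*} [Fintype E] [DecidableEq E]

/-! ### Bridge -/

theorem d_iff (T : MP3.Forest E) (p q : E) : D T.par p q ↔ T.Le q p := by
  constructor
  · intro h
    induction h with
    | refl => exact MP3.Forest.Le.refl T p
    | step q b hq _ ih => exact (MP3.Forest.Le.of_par hq).trans ih
  · intro h
    induction h using Relation.ReflTransGen.head_induction_on with
    | refl => exact D.refl
    | head hx _ ih => exact D.step _ _ hx ih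

theorem code_eq_bs (T : MP3.Forest E) (u : E → ℤ) (p : E) : code T.par u p = bs T u p := by
  classical
  unfold code bs
  apply sum_congr _ (fun _ _ => rfl)
  ext q
  rw [MP3.Forest.mem_sub, mem_filter]
  simp [d_iff]

theorem code_funext (T : MP3.Forest E) (u : E → ℤ) : code T.par u = bs T u :=
  funext fun p => code_eq_bs T u p

theorem dec_neg (par : E → Option E) (τ : E → ℤ) (v : E) : dec par (fun p => -τ p) v = -dec par τ v := by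
  rw [dec_apply, dec_apply]
  unfold shift rootPart
  rw [neg_add, ← sum_neg_distrib]
  congr 1
  · exact sum_congr rfl fun p _ => by ring
  · split_ifs <;> simp

omit [Fintype E] [DecidableEq E] in
theorem rootPart_neg (par : E → Option E) (τ : E → ℤ) :
    rootPart par (fun p => -τ p) = fun v => -rootPart par τ v := by
  funext v
  unfold rootPart
  split_ifs <;> simp

/-- The number of `x` with `x + s₁ ∈ J₁`, `x + s₂ ∈ J₂`. -/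
def hardN (J₁ J₂ : Finset (E → ℤ)) (s₁ s₂ : E → ℤ) : ℕ :=
  (J₁.filter (fun z => (fun v => z v - s₁ v + s₂ v) ∈ J₂)).card

theorem hardN_eq (J₁ J₂ : Finset (E → ℤ)) (s₁ s₂ : E → ℤ) :
    hardN J₁ J₂ s₁ s₂ = linkCount J₁ J₂ (fun v => -s₁ v) (fun v => -s₂ v) := by
  unfold hardN linkCount
  congr 1
  apply filter_congr
  intro z _
  have : (fun v => z v - s₁ v + s₂ v) = (fun v => z v + -s₁ v - -s₂ v) := by funext v; ring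
  rw [this]

/-- Reindexing, in the sign convention `bs (z - x)`. -/
theorem sum_bs_le (T : MP3.Forest E) (x : E → ℤ) (J S : Finset (E → ℤ))
    (hS : ∀ z ∈ J, bs T (z - x) ∈ S) (f : (E → ℤ) → ℝ) (hf : ∀ τ, 0 ≤ f τ) :
    ∑ z ∈ J, f (bs T (z - x)) ≤
      ∑ τ ∈ S.filter (fun τ => (fun v => x v + dec T.par τ v) ∈ J), f τ := by
  have hinj : Set.InjOn (fun z : E → ℤ => bs T (z - x)) (J : Set (E → ℤ)) := by
    intro z _ z' _ h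
    have h0 : bs T (z - x) = bs T (z' - x) := h
    rw [← code_funext, ← code_funext] at h0
    have h1 := congrArg (dec T.par) h0
    rw [dec_code T.par T.dep T.dep_lt, dec_code T.par T.dep T.dep_lt] at h1
    funext v
    have := congrFun h1 v
    simp only [Pi.sub_apply] at this
    linarith
  rw [← sum_image (f := f) (g := fun z : E → ℤ => bs T (z - x)) hinj]
  apply sum_le_sum_of_subset_of_nonneg
  · intro τ hτ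
    obtain ⟨z, hz, rfl⟩ := mem_image.1 hτ
    refine mem_filter.2 ⟨hS z hz, ?_⟩
    rw [← code_funext, dec_code T.par T.dep T.dep_lt]
    convert hz using 1
    funext v
    simp
  · intro τ _ _; exact hf τ

/-- link vectors with entries at most `h₀` -/
noncomputable def linkSet (par : E → Option E) (h₀ : ℕ) : Finset (E → ℤ) :=
  Fintype.piFinset (fun v => if par v = none then Icc (-(h₀ : ℤ)) h₀ else {0})

theorem mem_linkSet {par : E → Option E} {h₀ : ℕ} {τ : E → ℤ}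
    (h : ∑ v, |rootPart par τ v| ≤ h₀) : rootPart par τ ∈ linkSet par h₀ := by
  unfold linkSet
  rw [Fintype.mem_piFinset]
  intro v
  by_cases hv : par v = none
  · rw [if_pos hv, mem_Icc]
    have h1 : |rootPart par τ v| ≤ ∑ v, |rootPart par τ v| :=
      single_le_sum (f := fun v => |rootPart par τ v|) (fun v _ => abs_nonneg _) (mem_univ v)
    exact abs_le.1 (h1.trans h)
  · rw [if_neg hv, mem_singleton, rootPart_apply_ne hv]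

/-! ### The data of the tail theorem -/

/-- the geometric and analytic data of one side -/
structure SideData (T : MP3.Forest E) (κ : E → ℤ → ℝ) (r : Finset E → ℤ) (c : E → ℤ)
    (m : E → ℕ) (h₀ : ℕ) (bt : E → ℤ) (A ε : ℝ) : Prop where
  edge : ∀ p q, T.par p = some q → 8 * kap (Fintype.card E) ≤ m p ∧
    2 * (4 * Fintype.card E + 2) * h₀ ≤ m p ∧
    ∀ U, (p ∈ U ∧ q ∉ U ∨ q ∈ U ∧ p ∉ U) → (m p : ℤ) ≤ slk r c U
  nonneg : ∀ p, T.par p ≠ none → ∀ t, 0 ≤ κ p t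
  full : ∀ p, T.par p ≠ none → ∀ I : Finset ℤ,
    ∑ t ∈ I, κ p t * Real.exp (8 * (kap (Fintype.card E) : ℝ) / m p * |(t : ℝ)|) ≤ A
  tail : ∀ p, T.par p ≠ none → ∀ I : Finset ℤ,
    ∑ t ∈ I.filter (fun t => bt p < |t|),
      κ p t * Real.exp (8 * (kap (Fintype.card E) : ℝ) / m p * |(t : ℝ)|) ≤ A * ε

/-- the kernel times the growth factor -/
noncomputable def phi (T : MP3.Forest E) (κ : E → ℤ → ℝ) (m : E → ℕ) (p : E) (t : ℤ) : ℝ :=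
  if T.par p = none then 0 else
    κ p t * Real.exp (8 * (kap (Fintype.card E) : ℝ) / m p * |(t : ℝ)|)

variable {T₁ T₂ : MP3.Forest E} {κ₁ κ₂ : E → ℤ → ℝ} {r₁ r₂ : Finset E → ℤ} {c : E → ℤ}
  {m₁ m₂ : E → ℕ} {h₀ b : ℕ} {bt₁ bt₂ : E → ℤ} {A ε : ℝ}

theorem phi_nonneg (h : SideData T₁ κ₁ r₁ c m₁ h₀ bt₁ A ε) (p : E) (t : ℤ) : 0 ≤ phi T₁ κ₁ m₁ p t := by
  unfold phi
  split_ifs with hp
  · exact le_rfl
  · exact mul_nonneg (h.nonneg p hp t) (Real.exp_pos _).le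

theorem phi_full (h : SideData T₁ κ₁ r₁ c m₁ h₀ bt₁ A ε) (I : Finset ℤ) (p : E)
    (hp : T₁.par p ≠ none) : ∑ t ∈ I, phi T₁ κ₁ m₁ p t ≤ A := by
  have := h.full p hp I
  simpa [phi, hp] using this

theorem phi_tail (h : SideData T₁ κ₁ r₁ c m₁ h₀ bt₁ A ε) (I : Finset ℤ) (p : E)
    (hp : T₁.par p ≠ none) :
    ∑ t ∈ I.filter (fun t => bt₁ p < |t|), phi T₁ κ₁ m₁ p t ≤ A * ε := by
  have := h.tail p hp I
  simpa [phi, hp] using this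

theorem prodK_phi (T : MP3.Forest E) (κ : E → ℤ → ℝ) (m : E → ℕ) (τ : E → ℤ) :
    prodK T.par κ τ * Real.exp (∑ p ∈ univ.filter (fun p => T.par p ≠ none),
        8 * (kap (Fintype.card E) : ℝ) / m p * |(τ p : ℝ)|) = prodK T.par (phi T κ m) τ := by
  unfold prodK
  rw [Real.exp_sum, ← prod_mul_distrib]
  apply prod_congr rfl
  intro p hp
  have : T.par p ≠ none := (mem_filter.1 hp).2
  simp [phi, this]

/-- The counting lemma in the sign convention `x + dec τ`. -/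
theorem count_le' {R : ℤ} (hr₁ : SubM r₁ R) (hr₂ : SubM r₂ R)
    (hc₁ : MemJ r₁ R c) (hc₂ : MemJ r₂ R c) (J₁ J₂ : Finset (E → ℤ))
    (hJ₁ : ∀ z, z ∈ J₁ ↔ MemJ r₁ R z) (hJ₂ : ∀ z, z ∈ J₂ ↔ MemJ r₂ R z)
    (D₁ : SideData T₁ κ₁ r₁ c m₁ h₀ bt₁ A ε) (D₂ : SideData T₂ κ₂ r₂ c m₂ h₀ bt₂ A ε)
    (τ₁ τ₂ : E → ℤ)
    (hh : ∑ v, |rootPart T₁.par τ₁ v| + ∑ v, |rootPart T₂.par τ₂ v| ≤ h₀) (B : Finset (E → ℤ)) :
    ((B.filter (fun x => (fun v => x v + dec T₁.par τ₁ v) ∈ J₁ ∧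
      (fun v => x v + dec T₂.par τ₂ v) ∈ J₂)).card : ℝ) ≤
    Real.exp (∑ p ∈ univ.filter (fun p => T₁.par p ≠ none),
        8 * (kap (Fintype.card E) : ℝ) / m₁ p * |(τ₁ p : ℝ)|) *
      Real.exp (∑ p ∈ univ.filter (fun p => T₂.par p ≠ none),
        8 * (kap (Fintype.card E) : ℝ) / m₂ p * |(τ₂ p : ℝ)|) *
      hardN J₁ J₂ (rootPart T₁.par τ₁) (rootPart T₂.par τ₂) := by
  have hne : ∀ (T : MP3.Forest E) (p q : E), T.par p = some q → p ≠ q := by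
    intro T p q h he
    subst he
    exact absurd (T.dep_lt _ _ h) (lt_irrefl _)
  have h := count_le hr₁ hr₂ hc₁ hc₂ J₁ J₂ hJ₁ hJ₂ T₁.par T₂.par m₁ m₂ h₀
    (fun p q hpq => ⟨hne T₁ p q hpq, D₁.edge p q hpq⟩)
    (fun p q hpq => ⟨hne T₂ p q hpq, D₂.edge p q hpq⟩)
    (fun p => -τ₁ p) (fun p => -τ₂ p)
    (by simpa only [rootPart_neg, abs_neg] using hh) B
  rw [hardN_eq, ← Real.exp_add]
  simp only [dec_neg, sub_neg_eq_add, rootPart_neg, Int.cast_neg, abs_neg] at h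
  exact h

/-- The window lemma in the sign convention `x + dec τ`. -/
theorem window' {R : ℤ} (hr₁ : SubM r₁ R) (hr₂ : SubM r₂ R)
    (hc₁ : MemJ r₁ R c) (hc₂ : MemJ r₂ R c)
    (D₁ : SideData T₁ κ₁ r₁ c m₁ h₀ bt₁ A ε) (D₂ : SideData T₂ κ₂ r₂ c m₂ h₀ bt₂ A ε)
    (τ₁ τ₂ : E → ℤ) (lam : ℕ) (hlam : Fintype.card E * b + 1 ≤ lam) (hlam' : h₀ ≤ lam)
    (hh : ∑ v, |rootPart T₁.par τ₁ v| + ∑ v, |rootPart T₂.par τ₂ v| ≤ h₀)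
    (hb₁ : ∀ p, T₁.par p ≠ none → |τ₁ p| ≤ b * m₁ p)
    (hb₂ : ∀ p, T₂.par p ≠ none → |τ₂ p| ≤ b * m₂ p)
    {x : E → ℤ} (hx₁ : MemJ r₁ R (fun v => x v + dec T₁.par τ₁ v))
    (hx₂ : MemJ r₂ R (fun v => x v + dec T₂.par τ₂ v)) {U : Finset E} {M : ℤ}
    (hM : ∀ z, MemJ r₁ R z → MemJ r₂ R z → |∑ a ∈ U, z a - ∑ a ∈ U, c a| ≤ M) :
    |∑ a ∈ U, x a - ∑ a ∈ U, c a| ≤
      lam * (M + Fintype.card E * (3 * Fintype.card E + 4)) + h₀ := by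
  refine window hr₁ hr₂ hc₁ hc₂ T₁.par T₂.par m₁ m₂ (fun p q hpq => (D₁.edge p q hpq).2.2)
    (fun p q hpq => (D₂.edge p q hpq).2.2) (fun p => -τ₁ p) (fun p => -τ₂ p) h₀ b lam hlam hlam'
    (by simpa only [rootPart_neg, abs_neg] using hh)
    (by simpa only [abs_neg] using hb₁) (by simpa only [abs_neg] using hb₂) ?_ ?_ hM
  · simpa only [dec_neg, sub_neg_eq_add] using hx₁
  · simpa only [dec_neg, sub_neg_eq_add] using hx₂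

/-- number of links of the triple `(x, z₁, z₂)` -/
noncomputable def nlink (T₁ T₂ : MP3.Forest E) (x z₁ z₂ : E → ℤ) : ℤ :=
  ∑ v, |rootPart T₁.par (bs T₁ (z₁ - x)) v| + ∑ v, |rootPart T₂.par (bs T₂ (z₂ - x)) v|

/-- the weight of the triple `(x, z₁, z₂)`, `G` the weight of the link vectors -/
noncomputable def wt3 (T₁ T₂ : MP3.Forest E) (κ₁ κ₂ : E → ℤ → ℝ) (G : (E → ℤ) → (E → ℤ) → ℝ)
    (x z₁ z₂ : E → ℤ) : ℝ :=
  G (rootPart T₁.par (bs T₁ (z₁ - x))) (rootPart T₂.par (bs T₂ (z₂ - x))) *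
    (prodK T₁.par κ₁ (bs T₁ (z₁ - x)) * prodK T₂.par κ₂ (bs T₂ (z₂ - x)))

theorem prodK_nonneg' (D₁ : SideData T₁ κ₁ r₁ c m₁ h₀ bt₁ A ε) (τ : E → ℤ) :
    0 ≤ prodK T₁.par κ₁ τ :=
  prod_nonneg fun p hp => D₁.nonneg p (mem_filter.1 hp).2 _

/-- truncated link weight times the hard count -/
noncomputable def gN (J₁ J₂ : Finset (E → ℤ)) (G : (E → ℤ) → (E → ℤ) → ℝ) (h₀ : ℕ)
    (s₁ s₂ : E → ℤ) : ℝ :=
  if ∑ v, |s₁ v| + ∑ v, |s₂ v| ≤ (h₀ : ℤ) then G s₁ s₂ * hardN J₁ J₂ s₁ s₂ else 0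

theorem gN_nonneg {J₁ J₂ : Finset (E → ℤ)} {G : (E → ℤ) → (E → ℤ) → ℝ} (hG : ∀ s₁ s₂, 0 ≤ G s₁ s₂)
    (h₀ : ℕ) (s₁ s₂ : E → ℤ) : 0 ≤ gN J₁ J₂ G h₀ s₁ s₂ := by
  unfold gN
  split_ifs
  · exact mul_nonneg (hG _ _) (by positivity)
  · exact le_rfl

/-- The sum over triples with few links and a condition on the tree coordinates. -/
theorem triple_le {R : ℤ} (hr₁ : SubM r₁ R) (hr₂ : SubM r₂ R)
    (hc₁ : MemJ r₁ R c) (hc₂ : MemJ r₂ R c) (J₁ J₂ : Finset (E → ℤ))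
    (hJ₁ : ∀ z, z ∈ J₁ ↔ MemJ r₁ R z) (hJ₂ : ∀ z, z ∈ J₂ ↔ MemJ r₂ R z)
    (D₁ : SideData T₁ κ₁ r₁ c m₁ h₀ bt₁ A ε) (D₂ : SideData T₂ κ₂ r₂ c m₂ h₀ bt₂ A ε)
    (G : (E → ℤ) → (E → ℤ) → ℝ) (hG : ∀ s₁ s₂, 0 ≤ G s₁ s₂) (B : Finset (E → ℤ)) :
    ∃ I : Finset ℤ, ∀ (q : (E → ℤ) → (E → ℤ) → Prop) [∀ τ₁ τ₂, Decidable (q τ₁ τ₂)],
    ∑ x ∈ B, ∑ z₁ ∈ J₁, ∑ z₂ ∈ J₂,
      (if nlink T₁ T₂ x z₁ z₂ ≤ h₀ ∧ q (bs T₁ (z₁ - x)) (bs T₂ (z₂ - x))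
        then wt3 T₁ T₂ κ₁ κ₂ G x z₁ z₂ else 0) ≤
    ∑ τ₁ ∈ Fintype.piFinset (fun _ : E => I), ∑ τ₂ ∈ Fintype.piFinset (fun _ : E => I),
      (if q τ₁ τ₂ then gN J₁ J₂ G h₀ (rootPart T₁.par τ₁) (rootPart T₂.par τ₂) *
        (prodK T₁.par (phi T₁ κ₁ m₁) τ₁ * prodK T₂.par (phi T₂ κ₂ m₂) τ₂) else 0) := by
  classical
  -- a common interval
  let I : Finset ℤ := (B.biUnion fun x => (J₁ ∪ J₂).biUnion fun z =>
    (univ : Finset E).image (fun p => bs T₁ (z - x) p) ∪ univ.image (fun p => bs T₂ (z - x) p))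
  refine ⟨I, fun q _ => ?_⟩
  have hI₁ : ∀ x ∈ B, ∀ z ∈ J₁, bs T₁ (z - x) ∈ Fintype.piFinset (fun _ : E => I) := by
    intro x hx z hz
    rw [Fintype.mem_piFinset]
    intro p
    simp only [I, mem_biUnion]
    exact ⟨x, hx, z, mem_union_left _ hz, mem_union_left _ (mem_image_of_mem _ (mem_univ p))⟩
  have hI₂ : ∀ x ∈ B, ∀ z ∈ J₂, bs T₂ (z - x) ∈ Fintype.piFinset (fun _ : E => I) := by
    intro x hx z hz
    rw [Fintype.mem_piFinset]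
    intro p
    simp only [I, mem_biUnion]
    exact ⟨x, hx, z, mem_union_right _ hz, mem_union_right _ (mem_image_of_mem _ (mem_univ p))⟩
  set S := Fintype.piFinset (fun _ : E => I) with hSdef
  let f : (E → ℤ) → (E → ℤ) → ℝ := fun τ₁ τ₂ =>
    if (∑ v, |rootPart T₁.par τ₁ v| + ∑ v, |rootPart T₂.par τ₂ v| ≤ (h₀ : ℤ)) ∧ q τ₁ τ₂ then
      G (rootPart T₁.par τ₁) (rootPart T₂.par τ₂) *
        (prodK T₁.par κ₁ τ₁ * prodK T₂.par κ₂ τ₂) else 0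
  have hf : ∀ τ₁ τ₂, 0 ≤ f τ₁ τ₂ := by
    intro τ₁ τ₂
    simp only [f]
    split_ifs
    · exact mul_nonneg (hG _ _) (mul_nonneg (prodK_nonneg' D₁ _) (prodK_nonneg' D₂ _))
    · exact le_rfl
  have h1 : ∀ x ∈ B, ∑ z₁ ∈ J₁, ∑ z₂ ∈ J₂,
      (if nlink T₁ T₂ x z₁ z₂ ≤ h₀ ∧ q (bs T₁ (z₁ - x)) (bs T₂ (z₂ - x))
        then wt3 T₁ T₂ κ₁ κ₂ G x z₁ z₂ else 0) ≤
      ∑ τ₁ ∈ S, ∑ τ₂ ∈ S, (if (fun v => x v + dec T₁.par τ₁ v) ∈ J₁ ∧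
        (fun v => x v + dec T₂.par τ₂ v) ∈ J₂ then f τ₁ τ₂ else 0) := by
    intro x hx
    calc _ = ∑ z₁ ∈ J₁, ∑ z₂ ∈ J₂, f (bs T₁ (z₁ - x)) (bs T₂ (z₂ - x)) := by
          apply sum_congr rfl
          intro z₁ _
          apply sum_congr rfl
          intro z₂ _
          rfl
      _ ≤ ∑ z₁ ∈ J₁, ∑ τ₂ ∈ S.filter (fun τ => (fun v => x v + dec T₂.par τ v) ∈ J₂),
            f (bs T₁ (z₁ - x)) τ₂ := by
          apply sum_le_sum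
          intro z₁ _
          exact sum_bs_le T₂ x J₂ S (hI₂ x hx) (fun τ₂ => f (bs T₁ (z₁ - x)) τ₂) (fun τ₂ => hf _ _)
      _ = ∑ τ₂ ∈ S.filter (fun τ => (fun v => x v + dec T₂.par τ v) ∈ J₂),
            ∑ z₁ ∈ J₁, f (bs T₁ (z₁ - x)) τ₂ := sum_comm
      _ ≤ ∑ τ₂ ∈ S.filter (fun τ => (fun v => x v + dec T₂.par τ v) ∈ J₂),
            ∑ τ₁ ∈ S.filter (fun τ => (fun v => x v + dec T₁.par τ v) ∈ J₁), f τ₁ τ₂ := by
          apply sum_le_sum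
          intro τ₂ _
          exact sum_bs_le T₁ x J₁ S (hI₁ x hx) (fun τ₁ => f τ₁ τ₂) (fun τ₁ => hf _ _)
      _ = _ := by
          rw [sum_comm, sum_filter]
          apply sum_congr rfl
          intro τ₁ _
          by_cases hτ₁ : (fun v => x v + dec T₁.par τ₁ v) ∈ J₁
          · rw [if_pos hτ₁, sum_filter]
            apply sum_congr rfl
            intro τ₂ _
            simp [hτ₁]
          · rw [if_neg hτ₁]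
            symm
            apply sum_eq_zero
            intro τ₂ _
            simp [hτ₁]
  refine (sum_le_sum h1).trans ?_
  rw [sum_comm]
  apply sum_le_sum
  intro τ₁ _
  rw [sum_comm]
  apply sum_le_sum
  intro τ₂ _
  rw [← sum_filter, sum_const, nsmul_eq_mul]
  by_cases hq : q τ₁ τ₂
  · rw [if_pos hq]
    by_cases hh : ∑ v, |rootPart T₁.par τ₁ v| + ∑ v, |rootPart T₂.par τ₂ v| ≤ (h₀ : ℤ)
    · have hcnt := count_le' hr₁ hr₂ hc₁ hc₂ J₁ J₂ hJ₁ hJ₂ D₁ D₂ τ₁ τ₂ hh B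
      have e1 : f τ₁ τ₂ = G (rootPart T₁.par τ₁) (rootPart T₂.par τ₂) *
        (prodK T₁.par κ₁ τ₁ * prodK T₂.par κ₂ τ₂) := by
        simp only [f]
        rw [if_pos ⟨hh, hq⟩]
      have e2 : gN J₁ J₂ G h₀ (rootPart T₁.par τ₁) (rootPart T₂.par τ₂) =
          G (rootPart T₁.par τ₁) (rootPart T₂.par τ₂) *
            hardN J₁ J₂ (rootPart T₁.par τ₁) (rootPart T₂.par τ₂) := by
        unfold gN
        rw [if_pos hh]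
      rw [e1, e2, ← prodK_phi T₁ κ₁ m₁, ← prodK_phi T₂ κ₂ m₂]
      have e3 : 0 ≤ G (rootPart T₁.par τ₁) (rootPart T₂.par τ₂) *
        (prodK T₁.par κ₁ τ₁ * prodK T₂.par κ₂ τ₂) :=
        mul_nonneg (hG _ _) (mul_nonneg (prodK_nonneg' D₁ _) (prodK_nonneg' D₂ _))
      refine (mul_le_mul_of_nonneg_right hcnt e3).trans (le_of_eq ?_)
      ring
    · have e1 : f τ₁ τ₂ = 0 := by
        simp only [f]
        rw [if_neg (fun h => hh h.1)]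
      rw [e1, mul_zero]
      apply mul_nonneg (gN_nonneg hG _ _ _)
      apply mul_nonneg
      · exact prodK_nonneg (phi_nonneg D₁) _
      · exact prodK_nonneg (phi_nonneg D₂) _
  · rw [if_neg hq]
    have e1 : f τ₁ τ₂ = 0 := by
      simp only [f]
      rw [if_neg (fun h => hq h.2)]
    rw [e1, mul_zero]

/-- The sum over the root parts is a sum over small link vectors. -/
theorem sum_gN_le (J₁ J₂ : Finset (E → ℤ)) {G : (E → ℤ) → (E → ℤ) → ℝ} (hG : ∀ s₁ s₂, 0 ≤ G s₁ s₂)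
    (h₀ : ℕ) (T₁ T₂ : MP3.Forest E) (S : Finset (E → ℤ)) :
    ∑ s₁ ∈ S.image (rootPart T₁.par), ∑ s₂ ∈ S.image (rootPart T₂.par), gN J₁ J₂ G h₀ s₁ s₂ ≤
      ∑ s₁ ∈ linkSet T₁.par h₀, ∑ s₂ ∈ linkSet T₂.par h₀, gN J₁ J₂ G h₀ s₁ s₂ := by
  classical
  have hz : ∀ s₁ s₂ : E → ℤ, ¬ (∑ v, |s₁ v| + ∑ v, |s₂ v| ≤ (h₀ : ℤ)) →
      gN J₁ J₂ G h₀ s₁ s₂ = 0 := by
    intro s₁ s₂ h
    unfold gN
    rw [if_neg h]
  have habs : ∀ s : E → ℤ, 0 ≤ ∑ v, |s v| := fun s => sum_nonneg fun v _ => abs_nonneg _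
  calc _ ≤ ∑ s₁ ∈ S.image (rootPart T₁.par), ∑ s₂ ∈ linkSet T₂.par h₀, gN J₁ J₂ G h₀ s₁ s₂ := by
        apply sum_le_sum
        intro s₁ _
        rw [← sum_filter_add_sum_filter_not (S.image (rootPart T₂.par))
          (fun s₂ => ∑ v, |s₁ v| + ∑ v, |s₂ v| ≤ (h₀ : ℤ))]
        rw [sum_eq_zero (s := (S.image (rootPart T₂.par)).filter
          (fun s₂ => ¬ (∑ v, |s₁ v| + ∑ v, |s₂ v| ≤ (h₀ : ℤ))))
          (fun s₂ hs₂ => hz s₁ s₂ (mem_filter.1 hs₂).2), add_zero]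
        apply sum_le_sum_of_subset_of_nonneg
        · intro s₂ hs₂
          obtain ⟨h1, h2⟩ := mem_filter.1 hs₂
          obtain ⟨τ, _, rfl⟩ := mem_image.1 h1
          exact mem_linkSet (by linarith [habs s₁])
        · intro s₂ _ _; exact gN_nonneg hG h₀ _ _
    _ ≤ _ := by
        rw [← sum_filter_add_sum_filter_not (S.image (rootPart T₁.par))
          (fun s₁ => ∑ v, |s₁ v| ≤ (h₀ : ℤ))]
        rw [sum_eq_zero (s := (S.image (rootPart T₁.par)).filter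
          (fun s₁ => ¬ (∑ v, |s₁ v| ≤ (h₀ : ℤ))))
          (fun s₁ hs₁ => sum_eq_zero fun s₂ _ => hz s₁ s₂ (fun h =>
            (mem_filter.1 hs₁).2 (by linarith [habs s₂]))), add_zero]
        apply sum_le_sum_of_subset_of_nonneg
        · intro s₁ hs₁
          obtain ⟨h1, h2⟩ := mem_filter.1 hs₁
          obtain ⟨τ, _, rfl⟩ := mem_image.1 h1
          exact mem_linkSet h2
        · intro s₁ _ _; exact sum_nonneg fun s₂ _ => gN_nonneg hG h₀ _ _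

/-- Double sum with a large coordinate on side 1. -/
theorem double_tail₁ (par₁ par₂ : E → Option E) (I : Finset ℤ) (φ₁ φ₂ : E → ℤ → ℝ)
    (hφ₁ : ∀ p t, 0 ≤ φ₁ p t) (hφ₂ : ∀ p t, 0 ≤ φ₂ p t) (hA1 : 1 ≤ A) (hε : 0 ≤ ε)
    (hA₁ : ∀ p, par₁ p ≠ none → ∑ t ∈ I, φ₁ p t ≤ A)
    (hA₂ : ∀ p, par₂ p ≠ none → ∑ t ∈ I, φ₂ p t ≤ A) (p₀ : E) (hp₀ : par₁ p₀ ≠ none)
    (big : ℤ → Prop) [DecidablePred big]
    (hbig : ∑ t ∈ I.filter big, φ₁ p₀ t ≤ A * ε) (g : (E → ℤ) → (E → ℤ) → ℝ)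
    (hg : ∀ s₁ s₂, 0 ≤ g s₁ s₂) (Z₁ Z₂ : Finset (E → ℤ))
    (hZ₁ : ∀ τ ∈ Fintype.piFinset (fun _ : E => I), rootPart par₁ τ ∈ Z₁)
    (hZ₂ : ∀ τ ∈ Fintype.piFinset (fun _ : E => I), rootPart par₂ τ ∈ Z₂) :
    ∑ τ₁ ∈ Fintype.piFinset (fun _ : E => I), ∑ τ₂ ∈ Fintype.piFinset (fun _ : E => I),
      (if big (τ₁ p₀) then g (rootPart par₁ τ₁) (rootPart par₂ τ₂) *
        (prodK par₁ φ₁ τ₁ * prodK par₂ φ₂ τ₂) else 0) ≤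
    ε * A ^ (2 * Fintype.card E) * ∑ s₁ ∈ Z₁, ∑ s₂ ∈ Z₂, g s₁ s₂ := by
  generalize hS : Fintype.piFinset (fun _ : E => I) = S at *
  have hA0 : (0 : ℝ) ≤ A := by linarith
  have h1 : ∀ τ₂ ∈ S, ∑ τ₁ ∈ S, (if big (τ₁ p₀) then g (rootPart par₁ τ₁) (rootPart par₂ τ₂) *
        (prodK par₁ φ₁ τ₁ * prodK par₂ φ₂ τ₂) else 0) ≤
      ε * A ^ Fintype.card E * ((∑ s₁ ∈ Z₁, g s₁ (rootPart par₂ τ₂)) * prodK par₂ φ₂ τ₂) := by
    intro τ₂ _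
    have h2 := side_sum_tail par₁ I φ₁ hφ₁ hA1 hε hA₁ p₀ hp₀ big hbig
      (fun s₁ => g s₁ (rootPart par₂ τ₂)) (fun s => hg _ _) Z₁ (by rw [hS]; exact hZ₁)
    rw [hS, sum_filter] at h2
    have h3 := mul_le_mul_of_nonneg_right h2 (prodK_nonneg (par := par₂) hφ₂ τ₂)
    rw [sum_mul] at h3
    refine le_trans (le_of_eq ?_) (h3.trans (le_of_eq ?_))
    · apply sum_congr rfl
      intro τ₁ _
      split_ifs <;> ring
    · ring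
  rw [sum_comm]
  refine (sum_le_sum h1).trans ?_
  rw [← mul_sum]
  have h4 := side_sum_full par₂ I φ₂ hφ₂ hA1 hA₂ (fun s₂ => ∑ s₁ ∈ Z₁, g s₁ s₂)
    (fun s => sum_nonneg fun _ _ => hg _ _) Z₂ (by rw [hS]; exact hZ₂)
  rw [hS] at h4
  have h5 : (0 : ℝ) ≤ ε * A ^ Fintype.card E := by positivity
  refine (mul_le_mul_of_nonneg_left h4 h5).trans (le_of_eq ?_)
  rw [sum_comm, two_mul, pow_add]
  ring

/-- Double sum with a large coordinate on side 2. -/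
theorem double_tail₂ (par₁ par₂ : E → Option E) (I : Finset ℤ) (φ₁ φ₂ : E → ℤ → ℝ)
    (hφ₁ : ∀ p t, 0 ≤ φ₁ p t) (hφ₂ : ∀ p t, 0 ≤ φ₂ p t) (hA1 : 1 ≤ A) (hε : 0 ≤ ε)
    (hA₁ : ∀ p, par₁ p ≠ none → ∑ t ∈ I, φ₁ p t ≤ A)
    (hA₂ : ∀ p, par₂ p ≠ none → ∑ t ∈ I, φ₂ p t ≤ A) (p₀ : E) (hp₀ : par₂ p₀ ≠ none)
    (big : ℤ → Prop) [DecidablePred big]
    (hbig : ∑ t ∈ I.filter big, φ₂ p₀ t ≤ A * ε) (g : (E → ℤ) → (E → ℤ) → ℝ)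
    (hg : ∀ s₁ s₂, 0 ≤ g s₁ s₂) (Z₁ Z₂ : Finset (E → ℤ))
    (hZ₁ : ∀ τ ∈ Fintype.piFinset (fun _ : E => I), rootPart par₁ τ ∈ Z₁)
    (hZ₂ : ∀ τ ∈ Fintype.piFinset (fun _ : E => I), rootPart par₂ τ ∈ Z₂) :
    ∑ τ₁ ∈ Fintype.piFinset (fun _ : E => I), ∑ τ₂ ∈ Fintype.piFinset (fun _ : E => I),
      (if big (τ₂ p₀) then g (rootPart par₁ τ₁) (rootPart par₂ τ₂) *
        (prodK par₁ φ₁ τ₁ * prodK par₂ φ₂ τ₂) else 0) ≤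
    ε * A ^ (2 * Fintype.card E) * ∑ s₁ ∈ Z₁, ∑ s₂ ∈ Z₂, g s₁ s₂ := by
  have h := double_tail₁ (A := A) (ε := ε) par₂ par₁ I φ₂ φ₁ hφ₂ hφ₁ hA1 hε hA₂ hA₁ p₀ hp₀ big hbig
    (fun s₂ s₁ => g s₁ s₂) (fun s₂ s₁ => hg s₁ s₂) Z₂ Z₁ hZ₂ hZ₁
  rw [sum_comm (s := Z₁)]
  rw [sum_comm]
  refine le_trans (le_of_eq ?_) h
  apply sum_congr rfl
  intro τ₂ _
  apply sum_congr rfl
  intro τ₁ _
  split_ifs <;> ring

/-- Swapping the sum over edges with the triple sum. -/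
theorem swap_sum (B J₁ J₂ : Finset (E → ℤ)) (P : Finset E)
    (g : E → (E → ℤ) → (E → ℤ) → (E → ℤ) → ℝ) :
    ∑ x ∈ B, ∑ z₁ ∈ J₁, ∑ z₂ ∈ J₂, ∑ p ∈ P, g p x z₁ z₂ =
      ∑ p ∈ P, ∑ x ∈ B, ∑ z₁ ∈ J₁, ∑ z₂ ∈ J₂, g p x z₁ z₂ := by
  symm
  rw [sum_comm]
  apply sum_congr rfl
  intro x _
  rw [sum_comm]
  apply sum_congr rfl
  intro z₁ _
  exact sum_comm

/-- Pointwise: outside the windows there are many links or a large fat slack. -/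
theorem bad_cases {R : ℤ} (hr₁ : SubM r₁ R) (hr₂ : SubM r₂ R)
    (hc₁ : MemJ r₁ R c) (hc₂ : MemJ r₂ R c) {J₁ J₂ : Finset (E → ℤ)}
    (hJ₁ : ∀ z, z ∈ J₁ ↔ MemJ r₁ R z) (hJ₂ : ∀ z, z ∈ J₂ ↔ MemJ r₂ R z)
    (D₁ : SideData T₁ κ₁ r₁ c m₁ h₀ bt₁ A ε) (D₂ : SideData T₂ κ₂ r₂ c m₂ h₀ bt₂ A ε)
    (hbt₁ : ∀ p, T₁.par p ≠ none → bt₁ p ≤ b * m₁ p)
    (hbt₂ : ∀ p, T₂.par p ≠ none → bt₂ p ≤ b * m₂ p)
    {lam : ℕ} (hlam : Fintype.card E * b + 1 ≤ lam) (hlam' : h₀ ≤ lam)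
    {x : E → ℤ}
    (hbad : ∃ (U : Finset E) (M : ℤ),
      (∀ z, MemJ r₁ R z → MemJ r₂ R z → |∑ a ∈ U, z a - ∑ a ∈ U, c a| ≤ M) ∧
      lam * (M + Fintype.card E * (3 * Fintype.card E + 4)) + h₀ <
        |∑ a ∈ U, x a - ∑ a ∈ U, c a|)
    {z₁ z₂ : E → ℤ} (hz₁ : z₁ ∈ J₁) (hz₂ : z₂ ∈ J₂) :
    (h₀ : ℤ) < nlink T₁ T₂ x z₁ z₂ ∨
    (∃ p, T₁.par p ≠ none ∧ bt₁ p < |bs T₁ (z₁ - x) p|) ∨
    (∃ p, T₂.par p ≠ none ∧ bt₂ p < |bs T₂ (z₂ - x) p|) := by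
  by_contra hcon
  push Not at hcon
  obtain ⟨hl', hb₁, hb₂⟩ := hcon
  obtain ⟨U, M, hM, hlt⟩ := hbad
  have hdec₁ : (fun v => x v + dec T₁.par (bs T₁ (z₁ - x)) v) = z₁ := by
    rw [← code_funext, dec_code T₁.par T₁.dep T₁.dep_lt]
    funext v; simp
  have hdec₂ : (fun v => x v + dec T₂.par (bs T₂ (z₂ - x)) v) = z₂ := by
    rw [← code_funext, dec_code T₂.par T₂.dep T₂.dep_lt]
    funext v; simp
  have hw := window' hr₁ hr₂ hc₁ hc₂ D₁ D₂ (bs T₁ (z₁ - x)) (bs T₂ (z₂ - x)) lam hlam hlam'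
    hl' (fun p hp => (hb₁ p hp).trans (hbt₁ p hp))
    (fun p hp => (hb₂ p hp).trans (hbt₂ p hp)) (x := x)
    (by rw [hdec₁]; exact (hJ₁ _).1 hz₁)
    (by rw [hdec₂]; exact (hJ₂ _).1 hz₂) hM
  exact absurd (lt_of_lt_of_le hlt hw) (lt_irrefl _)

/-- Elementary: a nonnegative weight is dominated by the sum of its restrictions to a cover. -/
theorem le_of_cases {a : ℝ} (ha : 0 ≤ a) {P Q : Prop} [Decidable P] [Decidable Q]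
    {U₁ U₂ : Finset E} {X₁ X₂ : E → Prop} [DecidablePred X₁] [DecidablePred X₂]
    (h : P → Q ∨ (∃ p ∈ U₁, X₁ p) ∨ ∃ p ∈ U₂, X₂ p) :
    (if P then a else 0) ≤ (if Q then a else 0) +
      (∑ p ∈ U₁, (if X₁ p then a else 0) + ∑ p ∈ U₂, (if X₂ p then a else 0)) := by
  have k0 : ∀ (Y : Prop) [Decidable Y], (0 : ℝ) ≤ if Y then a else 0 := by
    intro Y _; split_ifs
    · exact ha
    · exact le_rfl
  have k1 : (0 : ℝ) ≤ ∑ p ∈ U₁, (if X₁ p then a else 0) := sum_nonneg fun p _ => k0 _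
  have k2 : (0 : ℝ) ≤ ∑ p ∈ U₂, (if X₂ p then a else 0) := sum_nonneg fun p _ => k0 _
  have k3 := k0 Q
  by_cases hP : P
  swap
  · rw [if_neg hP]; linarith
  rw [if_pos hP]
  rcases h hP with hQ | ⟨p, hp, hX⟩ | ⟨p, hp, hX⟩
  · rw [if_pos hQ]; linarith
  · have h1 : a ≤ ∑ p ∈ U₁, (if X₁ p then a else 0) := by
      refine le_trans (le_of_eq ?_) (single_le_sum (f := fun p => if X₁ p then a else 0)
        (fun p _ => k0 _) hp)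
      simp [hX]
    linarith
  · have h1 : a ≤ ∑ p ∈ U₂, (if X₂ p then a else 0) := by
      refine le_trans (le_of_eq ?_) (single_le_sum (f := fun p => if X₂ p then a else 0)
        (fun p _ => k0 _) hp)
      simp [hX]
    linarith

/-- **Slack tail.**  The mass of the states with some large fat slack is at most the mass of the
states with more than `h₀` links, plus an exponentially small multiple of the hard link mass. -/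
theorem slack_tail {R : ℤ} (hr₁ : SubM r₁ R) (hr₂ : SubM r₂ R)
    (hc₁ : MemJ r₁ R c) (hc₂ : MemJ r₂ R c) (J₁ J₂ : Finset (E → ℤ))
    (hJ₁ : ∀ z, z ∈ J₁ ↔ MemJ r₁ R z) (hJ₂ : ∀ z, z ∈ J₂ ↔ MemJ r₂ R z)
    (D₁ : SideData T₁ κ₁ r₁ c m₁ h₀ bt₁ A ε) (D₂ : SideData T₂ κ₂ r₂ c m₂ h₀ bt₂ A ε)
    (hA : 1 ≤ A) (hε : 0 ≤ ε)
    (G : (E → ℤ) → (E → ℤ) → ℝ) (hG : ∀ s₁ s₂, 0 ≤ G s₁ s₂) (B : Finset (E → ℤ))
    (big : (E → ℤ) → (E → ℤ) → (E → ℤ) → Prop) [∀ x z₁ z₂, Decidable (big x z₁ z₂)]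
    (hbig : ∀ x, ∀ z₁ ∈ J₁, ∀ z₂ ∈ J₂, big x z₁ z₂ → (h₀ : ℤ) < nlink T₁ T₂ x z₁ z₂ ∨
      (∃ p, T₁.par p ≠ none ∧ bt₁ p < |bs T₁ (z₁ - x) p|) ∨
      (∃ p, T₂.par p ≠ none ∧ bt₂ p < |bs T₂ (z₂ - x) p|)) :
    ∑ x ∈ B, ∑ z₁ ∈ J₁, ∑ z₂ ∈ J₂, (if big x z₁ z₂ then wt3 T₁ T₂ κ₁ κ₂ G x z₁ z₂ else 0) ≤
    ∑ x ∈ B, ∑ z₁ ∈ J₁, ∑ z₂ ∈ J₂,
      (if (h₀ : ℤ) < nlink T₁ T₂ x z₁ z₂ then wt3 T₁ T₂ κ₁ κ₂ G x z₁ z₂ else 0) +
    2 * Fintype.card E * (ε * A ^ (2 * Fintype.card E)) *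
      ∑ s₁ ∈ linkSet T₁.par h₀, ∑ s₂ ∈ linkSet T₂.par h₀, gN J₁ J₂ G h₀ s₁ s₂ := by
  classical
  have hwt : ∀ x z₁ z₂, 0 ≤ wt3 T₁ T₂ κ₁ κ₂ G x z₁ z₂ := fun x z₁ z₂ =>
    mul_nonneg (hG _ _) (mul_nonneg (prodK_nonneg' D₁ _) (prodK_nonneg' D₂ _))
  have hpt : ∀ x, ∀ z₁ ∈ J₁, ∀ z₂ ∈ J₂, (if big x z₁ z₂ then wt3 T₁ T₂ κ₁ κ₂ G x z₁ z₂ else 0) ≤
      (if (h₀ : ℤ) < nlink T₁ T₂ x z₁ z₂ then wt3 T₁ T₂ κ₁ κ₂ G x z₁ z₂ else 0) +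
      (∑ p ∈ univ.filter (fun p => T₁.par p ≠ none),
        (if nlink T₁ T₂ x z₁ z₂ ≤ h₀ ∧ bt₁ p < |bs T₁ (z₁ - x) p|
          then wt3 T₁ T₂ κ₁ κ₂ G x z₁ z₂ else 0) +
      ∑ p ∈ univ.filter (fun p => T₂.par p ≠ none),
        (if nlink T₁ T₂ x z₁ z₂ ≤ h₀ ∧ bt₂ p < |bs T₂ (z₂ - x) p|
          then wt3 T₁ T₂ κ₁ κ₂ G x z₁ z₂ else 0)) := by
    intro x z₁ hz₁ z₂ hz₂
    refine le_of_cases (hwt x z₁ z₂) (fun hb => ?_)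
    by_cases hl : (h₀ : ℤ) < nlink T₁ T₂ x z₁ z₂
    · exact Or.inl hl
    rcases hbig x z₁ hz₁ z₂ hz₂ hb with h | ⟨p, hp, h⟩ | ⟨p, hp, h⟩
    · exact Or.inl h
    · exact Or.inr (Or.inl ⟨p, mem_filter.2 ⟨mem_univ p, hp⟩, not_lt.1 hl, h⟩)
    · exact Or.inr (Or.inr ⟨p, mem_filter.2 ⟨mem_univ p, hp⟩, not_lt.1 hl, h⟩)
  refine (sum_le_sum fun x _ => sum_le_sum fun z₁ hz₁ => sum_le_sum fun z₂ hz₂ =>
    hpt x z₁ hz₁ z₂ hz₂).trans ?_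
  simp only [sum_add_distrib]
  refine add_le_add le_rfl ?_
  obtain ⟨I, hI⟩ := triple_le hr₁ hr₂ hc₁ hc₂ J₁ J₂ hJ₁ hJ₂ D₁ D₂ G hG B
  have hgN := gN_nonneg (J₁ := J₁) (J₂ := J₂) hG h₀
  have hA0 : (0 : ℝ) ≤ A := by linarith
  have hcard : ∀ T : MP3.Forest E, ((univ.filter (fun p => T.par p ≠ none)).card : ℝ) ≤
      Fintype.card E := by
    intro T
    exact_mod_cast card_le_univ _
  have hsum := sum_gN_le J₁ J₂ hG h₀ T₁ T₂ (Fintype.piFinset (fun _ : E => I))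
  have hX0 : 0 ≤ ε * A ^ (2 * Fintype.card E) := by positivity
  have side1 : ∀ p ∈ univ.filter (fun p => T₁.par p ≠ none),
      ∑ x ∈ B, ∑ z₁ ∈ J₁, ∑ z₂ ∈ J₂,
        (if nlink T₁ T₂ x z₁ z₂ ≤ h₀ ∧ bt₁ p < |bs T₁ (z₁ - x) p|
          then wt3 T₁ T₂ κ₁ κ₂ G x z₁ z₂ else 0) ≤ ε * A ^ (2 * Fintype.card E) *
      ∑ s₁ ∈ linkSet T₁.par h₀, ∑ s₂ ∈ linkSet T₂.par h₀, gN J₁ J₂ G h₀ s₁ s₂ := by
    intro p hp
    have hp' : T₁.par p ≠ none := (mem_filter.1 hp).2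
    refine (hI (fun τ₁ _ => bt₁ p < |τ₁ p|)).trans ?_
    refine (double_tail₁ (A := A) (ε := ε) T₁.par T₂.par I (phi T₁ κ₁ m₁) (phi T₂ κ₂ m₂)
      (phi_nonneg D₁) (phi_nonneg D₂) hA hε (phi_full D₁ I) (phi_full D₂ I) p hp'
      (fun t => bt₁ p < |t|) (phi_tail D₁ I p hp') (gN J₁ J₂ G h₀) hgN _ _
      (fun τ hτ => mem_image_of_mem _ hτ) (fun τ hτ => mem_image_of_mem _ hτ)).trans ?_
    exact mul_le_mul_of_nonneg_left hsum hX0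
  have side2 : ∀ p ∈ univ.filter (fun p => T₂.par p ≠ none),
      ∑ x ∈ B, ∑ z₁ ∈ J₁, ∑ z₂ ∈ J₂,
        (if nlink T₁ T₂ x z₁ z₂ ≤ h₀ ∧ bt₂ p < |bs T₂ (z₂ - x) p|
          then wt3 T₁ T₂ κ₁ κ₂ G x z₁ z₂ else 0) ≤ ε * A ^ (2 * Fintype.card E) *
      ∑ s₁ ∈ linkSet T₁.par h₀, ∑ s₂ ∈ linkSet T₂.par h₀, gN J₁ J₂ G h₀ s₁ s₂ := by
    intro p hp
    have hp' : T₂.par p ≠ none := (mem_filter.1 hp).2
    refine (hI (fun _ τ₂ => bt₂ p < |τ₂ p|)).trans ?_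
    refine (double_tail₂ (A := A) (ε := ε) T₁.par T₂.par I (phi T₁ κ₁ m₁) (phi T₂ κ₂ m₂)
      (phi_nonneg D₁) (phi_nonneg D₂) hA hε (phi_full D₁ I) (phi_full D₂ I) p hp'
      (fun t => bt₂ p < |t|) (phi_tail D₂ I p hp') (gN J₁ J₂ G h₀) hgN _ _
      (fun τ hτ => mem_image_of_mem _ hτ) (fun τ hτ => mem_image_of_mem _ hτ)).trans ?_
    exact mul_le_mul_of_nonneg_left hsum hX0
  rw [swap_sum, swap_sum]
  have t1 := sum_le_sum side1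
  have t2 := sum_le_sum side2
  rw [sum_const, nsmul_eq_mul] at t1 t2
  have hX : 0 ≤ ε * A ^ (2 * Fintype.card E) *
      ∑ s₁ ∈ linkSet T₁.par h₀, ∑ s₂ ∈ linkSet T₂.par h₀, gN J₁ J₂ G h₀ s₁ s₂ :=
    mul_nonneg hX0 (sum_nonneg fun _ _ => sum_nonneg fun _ _ => hgN _ _)
  have c1 := mul_le_mul_of_nonneg_right (hcard T₁) hX
  have c2 := mul_le_mul_of_nonneg_right (hcard T₂) hX
  refine (add_le_add (t1.trans c1) (t2.trans c2)).trans (le_of_eq ?_)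
  ring

/-- **The tail theorem.**  The mass of the states outside the windows is at most the mass of the
states with more than `h₀` links, plus an exponentially small multiple of the hard link mass. -/
theorem fat_tail {R : ℤ} (hr₁ : SubM r₁ R) (hr₂ : SubM r₂ R)
    (hc₁ : MemJ r₁ R c) (hc₂ : MemJ r₂ R c) (J₁ J₂ : Finset (E → ℤ))
    (hJ₁ : ∀ z, z ∈ J₁ ↔ MemJ r₁ R z) (hJ₂ : ∀ z, z ∈ J₂ ↔ MemJ r₂ R z)
    (D₁ : SideData T₁ κ₁ r₁ c m₁ h₀ bt₁ A ε) (D₂ : SideData T₂ κ₂ r₂ c m₂ h₀ bt₂ A ε)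
    (hbt₁ : ∀ p, T₁.par p ≠ none → bt₁ p ≤ b * m₁ p)
    (hbt₂ : ∀ p, T₂.par p ≠ none → bt₂ p ≤ b * m₂ p)
    (hA : 1 ≤ A) (hε : 0 ≤ ε)
    (G : (E → ℤ) → (E → ℤ) → ℝ) (hG : ∀ s₁ s₂, 0 ≤ G s₁ s₂) (B : Finset (E → ℤ))
    (lam : ℕ) (hlam : Fintype.card E * b + 1 ≤ lam) (hlam' : h₀ ≤ lam)
    (bad : (E → ℤ) → Prop) [DecidablePred bad]
    (hbad : ∀ x, bad x → ∃ (U : Finset E) (M : ℤ),
      (∀ z, MemJ r₁ R z → MemJ r₂ R z → |∑ a ∈ U, z a - ∑ a ∈ U, c a| ≤ M) ∧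
      lam * (M + Fintype.card E * (3 * Fintype.card E + 4)) + h₀ <
        |∑ a ∈ U, x a - ∑ a ∈ U, c a|) :
    ∑ x ∈ B, ∑ z₁ ∈ J₁, ∑ z₂ ∈ J₂, (if bad x then wt3 T₁ T₂ κ₁ κ₂ G x z₁ z₂ else 0) ≤
    ∑ x ∈ B, ∑ z₁ ∈ J₁, ∑ z₂ ∈ J₂,
      (if (h₀ : ℤ) < nlink T₁ T₂ x z₁ z₂ then wt3 T₁ T₂ κ₁ κ₂ G x z₁ z₂ else 0) +
    2 * Fintype.card E * (ε * A ^ (2 * Fintype.card E)) *
      ∑ s₁ ∈ linkSet T₁.par h₀, ∑ s₂ ∈ linkSet T₂.par h₀, gN J₁ J₂ G h₀ s₁ s₂ :=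
  slack_tail hr₁ hr₂ hc₁ hc₂ J₁ J₂ hJ₁ hJ₂ D₁ D₂ hA hε G hG B (fun x _ _ => bad x)
    (fun x _ hz₁ _ hz₂ hb => bad_cases hr₁ hr₂ hc₁ hc₂ hJ₁ hJ₂ D₁ D₂ hbt₁ hbt₂ hlam hlam'
      (hbad x hb) hz₁ hz₂)

end Crest.Agent.R302.Tail907
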