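import Crest.Agent.R302.Conc725
import Crest.Agent.R302.Mass151
import Crest.Agent.R302.Tail907D

/-!
# R302 (helper351): facts on the concrete sides

`StSide S r R c w₁ dk`: the side `S` is the concrete one: forest = nearest earlier neighbours of
the symmetrised capacities of `r` at `c` cut at `w₁`, kernels `kapR` with the exponents `kV dk`,
`g = 1`, `J` = integer points of the base polytope of `r`.

* `sideOK` (151), `tauOK`, `etaOK` (151, numbers), `sideData` (907, numbers);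
* `no_edge`, `no_edge_box`, `sdA_thin`: no fat edge in the thin stages;
* `abs_bs_le`, `exists_of_ff_ne`, `abs_beta_le`, `sdA_ok`: windows of the blocks, `D.OK`;
* `stSide₁`, `stSide₂`: the two sides of `Conc.sdA`.
-/

set_option autoImplicit false

namespace Crest.Agent.R302.ConcF

open Finset Crest.Agent.R302.Facet Crest.Agent.R302.Inst Crest.Agent.R302.TreeNN
open Crest.Agent.R302.GeoSpec Crest.Agent.R302.StageL Crest.Agent.R302.Stage
open Crest.Agent.R302.KapR Crest.Agent.R302.Mass151 Crest.Agent.R302.Tail907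
open Crest.Agent.R302.EDM Crest.Agent.R302.AnnBox Crest.Agent.R302.Conc

variable {n : ℕ}

/-- slack of the centre along the fat edge above `a` -/
noncomputable def mW (T : MP3.Forest (Fin n)) (m : Fin n → Fin n → ℤ) (a : Fin n) : ℕ :=
  match T.par a with
  | none => 0
  | some b => (m a b).toNat

theorem mW_some {T : MP3.Forest (Fin n)} {m : Fin n → Fin n → ℤ} {a b : Fin n}
    (h : T.par a = some b) : mW T m a = (m a b).toNat := by unfold mW; rw [h]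

theorem kV_some {dk : ℕ} {T : MP3.Forest (Fin n)} {m : Fin n → Fin n → ℤ} {a b : Fin n}
    (h : T.par a = some b) : kV dk T m a = lgE dk (m a b) := by unfold kV; rw [h]

/-- the concrete side -/
structure StSide (S : Side (Fin n)) (r : Finset (Fin n) → ℤ) (R : ℤ) (c : Fin n → ℤ) (w₁ : ℤ)
    (dk : ℕ) : Prop where
  sub : SubM r R
  mem : ∀ z, z ∈ S.J ↔ MemJ r R z
  one : ∀ z, S.g z = 1
  cen : MemJ r R c
  tree : S.T = nnForest (mcap r c) w₁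
  ker : ∀ a, S.T.par a ≠ none → S.κ a = kapR (kV dk S.T (mcap r c) a)
  dpos : 0 < dk
  dle : (dk : ℤ) ≤ w₁

section side

variable {S : Side (Fin n)} {r : Finset (Fin n) → ℤ} {R : ℤ} {c : Fin n → ℤ} {w₁ : ℤ} {dk : ℕ}

theorem StSide.nn (h : StSide S r R c w₁ dk) : NN (mcap r c) w₁ S.T.par := by
  rw [h.tree]; exact nn_nnForest _ _

theorem StSide.ge (h : StSide S r R c w₁ dk) {a b : Fin n} (hab : S.T.par a = some b) :
    w₁ ≤ mcap r c a b := h.nn.ge a b hab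

theorem StSide.w0 (h : StSide S r R c w₁ dk) : 0 ≤ w₁ := (Int.natCast_nonneg dk).trans h.dle

theorem StSide.dreal (h : StSide S r R c w₁ dk) : (0 : ℝ) < dk := by exact_mod_cast h.dpos

/-- the slack of the centre as a natural number -/
theorem StSide.mW_eq (h : StSide S r R c w₁ dk) {a b : Fin n}
    (hab : S.T.par a = some b) : ((mW S.T (mcap r c) a : ℕ) : ℤ) = mcap r c a b := by
  rw [mW_some hab, Int.toNat_of_nonneg (h.w0.trans (h.ge hab))]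

theorem StSide.w_le_mW (h : StSide S r R c w₁ dk) {a : Fin n}
    (ha : S.T.par a ≠ none) : w₁ ≤ (mW S.T (mcap r c) a : ℕ) := by
  obtain ⟨b, hb⟩ := Option.ne_none_iff_exists'.1 ha
  rw [h.mW_eq hb]; exact h.ge hb

/-- 151's hypotheses -/
theorem StSide.sideOK (h : StSide S r R c w₁ dk) :
    SideOK S r R c (mW S.T (mcap r c)) (kV dk S.T (mcap r c)) where
  sub := h.sub
  mem := h.mem
  one := h.one
  cen := h.cen
  ker := h.ker
  slk p b hpb A hA := by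
    rw [h.mW_eq hpb]
    exact mcap_le_slk hA

/-- `2 ^ k * dk ≤ m` -/
theorem StSide.k_le (h : StSide S r R c w₁ dk) {a : Fin n} (ha : S.T.par a ≠ none) :
    2 ^ kV dk S.T (mcap r c) a * dk ≤ mW S.T (mcap r c) a := by
  obtain ⟨b, hb⟩ := Option.ne_none_iff_exists'.1 ha
  have h2 := lgE_le h.dpos (h.dle.trans (h.ge hb))
  rw [← kV_some hb, ← h.mW_eq hb] at h2
  exact_mod_cast h2

/-- `m < 2 ^ (k + 1) * dk` -/
theorem StSide.lt_k (h : StSide S r R c w₁ dk) {a : Fin n} (ha : S.T.par a ≠ none) :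
    mW S.T (mcap r c) a < 2 ^ (kV dk S.T (mcap r c) a + 1) * dk := by
  obtain ⟨b, hb⟩ := Option.ne_none_iff_exists'.1 ha
  have h2 := lt_lgE h.dpos (h.dle.trans (h.ge hb))
  rw [← kV_some hb, ← h.mW_eq hb] at h2
  exact_mod_cast h2

/-- the slack exponents are at least `1` if `2 * dk ≤ w₁` -/
theorem StSide.one_le_k (h : StSide S r R c w₁ dk) (hw : (2 * dk : ℤ) ≤ w₁) {a : Fin n}
    (ha : S.T.par a ≠ none) : 1 ≤ kV dk S.T (mcap r c) a := by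
  have h1 := h.lt_k ha
  have h2 := h.w_le_mW ha
  by_contra h3
  have h4 : kV dk S.T (mcap r c) a = 0 := by omega
  rw [h4, zero_add, pow_one] at h1
  have h5 : (2 * dk : ℤ) ≤ (mW S.T (mcap r c) a : ℕ) := hw.trans h2
  have h6 : 2 * dk ≤ mW S.T (mcap r c) a := by exact_mod_cast h5
  omega

/-! ### numbers -/

/-- real form of `k_le` -/
theorem StSide.k_le' (h : StSide S r R c w₁ dk) {a : Fin n} (ha : S.T.par a ≠ none) :
    (2 : ℝ) ^ kV dk S.T (mcap r c) a * dk ≤ (mW S.T (mcap r c) a : ℝ) := by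
  exact_mod_cast h.k_le ha

theorem StSide.mW_pos (h : StSide S r R c w₁ dk) {a : Fin n} (ha : S.T.par a ≠ none) :
    (0 : ℝ) < (mW S.T (mcap r c) a : ℝ) :=
  lt_of_lt_of_le (mul_pos (by positivity) h.dreal) (h.k_le' ha)

/-- `K * 2 ^ k / m ≤ K / dk` -/
theorem StSide.div_le (h : StSide S r R c w₁ dk) {a : Fin n}
    (ha : S.T.par a ≠ none) {K : ℝ} (hK : 0 ≤ K) :
    K / (mW S.T (mcap r c) a : ℝ) * 2 ^ kV dk S.T (mcap r c) a ≤ K / dk := by
  have h1 := h.k_le' ha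
  have h2 := h.mW_pos ha
  rw [div_mul_eq_mul_div, div_le_div_iff₀ h2 h.dreal, mul_assoc]
  exact mul_le_mul_of_nonneg_left h1 hK

/-- **151's `EtaOK`**: `η = 8 κ / dk` -/
theorem StSide.etaOK (h : StSide S r R c w₁ dk)
    (hw1 : (2 * (4 * n + 2) : ℤ) ≤ w₁) (hw2 : (4 * n + 2 + 4 * kap n : ℤ) ≤ w₁)
    {η : ℝ} (hη : 8 * (kap n : ℝ) / dk ≤ η) (hη8 : η ≤ 1 / 8) :
    EtaOK S (mW S.T (mcap r c)) (kV dk S.T (mcap r c)) η where
  η0 := le_trans (by positivity) hη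
  η8 := hη8
  big p hp := by
    have h1 := h.w_le_mW hp
    rw [Fintype.card_fin]
    have a1 : 2 * (4 * n + 2) ≤ mW S.T (mcap r c) p := by
      have := hw1.trans h1
      exact_mod_cast this
    have a2 : 4 * n + 2 + 4 * kap n ≤ mW S.T (mcap r c) p := by
      have := hw2.trans h1
      exact_mod_cast this
    refine ⟨by omega, by omega, ?_⟩
    have h2 := h.mW_pos hp
    have h3 : (mW S.T (mcap r c) p : ℝ) / 2 ≤ ((mW S.T (mcap r c) p - (4 * n + 2) : ℕ) : ℝ) := by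
      have h4 : mW S.T (mcap r c) p ≤ 2 * (mW S.T (mcap r c) p - (4 * n + 2)) := by omega
      have h5 : (mW S.T (mcap r c) p : ℝ) ≤
          2 * ((mW S.T (mcap r c) p - (4 * n + 2) : ℕ) : ℝ) := by exact_mod_cast h4
      linarith
    calc 4 * (kap n : ℝ) / ((mW S.T (mcap r c) p - (4 * n + 2) : ℕ) : ℝ) *
          2 ^ kV dk S.T (mcap r c) p
        ≤ 4 * (kap n : ℝ) / ((mW S.T (mcap r c) p : ℝ) / 2) * 2 ^ kV dk S.T (mcap r c) p := by
          refine mul_le_mul_of_nonneg_right ?_ (by positivity)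
          exact div_le_div_of_nonneg_left (by positivity) (by positivity) h3
      _ = 8 * (kap n : ℝ) / (mW S.T (mcap r c) p : ℝ) * 2 ^ kV dk S.T (mcap r c) p := by
          rw [div_div_eq_mul_div]; ring_nf
      _ ≤ 8 * (kap n : ℝ) / dk := h.div_le hp (by positivity)
      _ ≤ η := hη

/-- the deepness radii -/
noncomputable def tauV (dk : ℕ) (T : MP3.Forest (Fin n)) (m : Fin n → Fin n → ℤ) (B : ℕ)
    (a : Fin n) : ℕ := 8 * 2 ^ kV dk T m a * B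

/-- **151's `TauOK`**: `τ = 8 * 2 ^ k * B`, `ε = 9/4 exp (-B)`, `ρ = 36 n B κ / dk` -/
theorem StSide.tauOK (h : StSide S r R c w₁ dk) (hn : 1 ≤ n)
    (hw1 : (2 * (4 * n + 2) : ℤ) ≤ w₁) {B : ℕ} (hB : 1 ≤ B) {ρ ε : ℝ}
    (hρ : 36 * (n : ℝ) * B * kap n / dk ≤ ρ) (hε : 9 / 4 * Real.exp (-(B : ℝ)) ≤ ε) :
    TauOK S (mW S.T (mcap r c)) (kV dk S.T (mcap r c)) (tauV dk S.T (mcap r c) B) ρ ε where
  ρ0 := le_trans (by positivity) hρ
  ε0 := le_trans (by positivity) hε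
  win a _ := by
    refine le_trans ?_ (window_ge _ _)
    have h2k : (0 : ℝ) < 2 ^ kV dk S.T (mcap r c) a := by positivity
    have h1 : Real.exp (-(((tauV dk S.T (mcap r c) B a : ℕ) + 1 : ℝ) /
        (8 * 2 ^ kV dk S.T (mcap r c) a))) ≤ Real.exp (-(B : ℝ)) := by
      apply Real.exp_le_exp.2
      rw [neg_le_neg_iff, le_div_iff₀ (by positivity)]
      unfold tauV
      push_cast
      linarith
    linarith
  big p hp := by
    have h1 := h.w_le_mW hp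
    rw [Fintype.card_fin]
    have a1 : 2 * (4 * n + 2) ≤ mW S.T (mcap r c) p := by
      have := hw1.trans h1
      exact_mod_cast this
    refine ⟨by omega, ?_⟩
    set M := mW S.T (mcap r c) p with hM
    set k := kV dk S.T (mcap r c) p with hk
    have hkap : 0 < kap n := kap_pos hn
    have hk0 : (0 : ℝ) < (kap n : ℝ) := by exact_mod_cast hkap
    have hd := h.dreal
    have h2 : (2 : ℝ) ^ k * dk ≤ (M : ℝ) := h.k_le' hp
    have h3 : (M : ℝ) / (2 * kap n) ≤ (((M - (4 * n + 2)) / kap n + 1 : ℕ) : ℝ) := by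
      have h4 : M - (4 * n + 2) < kap n * ((M - (4 * n + 2)) / kap n + 1) := by
        rw [mul_add, mul_one]
        exact Nat.lt_mul_div_succ _ hkap
      have h5 : M ≤ 2 * (kap n * ((M - (4 * n + 2)) / kap n + 1)) := by omega
      rw [div_le_iff₀ (by positivity)]
      have h6 : (M : ℝ) ≤ 2 * (kap n * (((M - (4 * n + 2)) / kap n + 1 : ℕ) : ℝ)) := by
        exact_mod_cast h5
      linarith
    have h2k1 : (1 : ℝ) ≤ 2 ^ k := one_le_pow₀ (by norm_num)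
    have hn1 : (1 : ℝ) ≤ n := by exact_mod_cast hn
    have hB1 : (1 : ℝ) ≤ B := by exact_mod_cast hB
    have h7 : 2 * (((n * tauV dk S.T (mcap r c) B p : ℕ) : ℝ) + 1) ≤ 18 * (n * B * 2 ^ k) := by
      unfold tauV
      rw [← hk]
      push_cast
      have : 1 ≤ (n : ℝ) * B * 2 ^ k := by
        have h8 : (1 : ℝ) ≤ n * B := one_le_mul_of_one_le_of_one_le hn1 hB1
        exact one_le_mul_of_one_le_of_one_le h8 h2k1
      nlinarith
    calc 2 * (((n * tauV dk S.T (mcap r c) B p : ℕ) : ℝ) + 1) ≤ 18 * (n * B * 2 ^ k) := h7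
      _ = 36 * (n : ℝ) * B * kap n / dk * ((2 ^ k * dk) / (2 * kap n)) := by
          field_simp; ring
      _ ≤ 36 * (n : ℝ) * B * kap n / dk * (M / (2 * kap n)) := by
          refine mul_le_mul_of_nonneg_left ?_ (by positivity)
          exact div_le_div_of_nonneg_right h2 (by positivity)
      _ ≤ ρ * (((M - (4 * n + 2)) / kap n + 1 : ℕ) : ℝ) :=
          mul_le_mul hρ h3 (by positivity) (le_trans (by positivity) hρ)

/-- weighted tail of the kernel: `∑_{|t| > τ} κ_k(t) exp (c |t|) ≤ 9/4 exp (-(1/(8 2^k) - c) τ)` -/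
theorem kapR_exp_tail (k : ℕ) {c τ : ℝ} (hc : c * 2 ^ k ≤ 1 / 8) (T : Finset ℤ)
    (hT : ∀ t ∈ T, τ ≤ |(t : ℝ)|) :
    ∑ t ∈ T, kapR k t * Real.exp (c * |(t : ℝ)|) ≤
      9 / 4 * Real.exp (-((1 / (8 * 2 ^ k) - c) * τ)) := by
  have h2k : (0 : ℝ) < 2 ^ k := by positivity
  set c' : ℝ := 1 / (8 * 2 ^ k) with hc'
  have hc'0 : 0 ≤ c' := by positivity
  have hck : c' * 2 ^ k = 1 / 8 := by rw [hc']; field_simp
  have hcc : c ≤ c' := by
    rw [hc', le_div_iff₀ (by positivity)]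
    linarith
  have h1 := sum_kapR_exp_le k hc'0 hck.le T
  rw [hck] at h1
  have h2 : ∑ t ∈ T, kapR k t * Real.exp (c * |(t : ℝ)|) ≤
      Real.exp (-((c' - c) * τ)) * ∑ t ∈ T, kapR k t * Real.exp (c' * |(t : ℝ)|) := by
    rw [mul_sum]
    refine sum_le_sum fun t ht => ?_
    have h3 : Real.exp (c * |(t : ℝ)|) ≤
        Real.exp (-((c' - c) * τ)) * Real.exp (c' * |(t : ℝ)|) := by
      rw [← Real.exp_add]
      apply Real.exp_le_exp.2
      have := mul_le_mul_of_nonneg_left (hT t ht) (sub_nonneg.2 hcc)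
      linarith
    calc kapR k t * Real.exp (c * |(t : ℝ)|)
        ≤ kapR k t * (Real.exp (-((c' - c) * τ)) * Real.exp (c' * |(t : ℝ)|)) :=
          mul_le_mul_of_nonneg_left h3 (kapR_nonneg k t)
      _ = _ := by ring
  calc _ ≤ Real.exp (-((c' - c) * τ)) * (1 + 10 * (1 / 8)) :=
        h2.trans (mul_le_mul_of_nonneg_left h1 (Real.exp_pos _).le)
    _ = _ := by ring

/-- **907's `SideData`** with arbitrary thresholds: `A ≥ 1 + 80 κ / dk`,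
`ε ≥ 9/4 exp (-B)` where `16 * 2 ^ k * B ≤ bt` for the fat edges. -/
theorem StSide.sideData (h : StSide S r R c w₁ dk)
    {h₀ : ℕ} {bt : Fin n → ℤ} {A ε B : ℝ}
    (hw1 : (8 * kap n : ℤ) ≤ w₁) (hw2 : (2 * (4 * n + 2) * h₀ : ℤ) ≤ w₁)
    (hdk : 128 * kap n ≤ dk) (hA : 1 + 80 * (kap n : ℝ) / dk ≤ A) (hB : 0 ≤ B)
    (hbt : ∀ p, S.T.par p ≠ none → (16 * 2 ^ kV dk S.T (mcap r c) p * B : ℝ) ≤ bt p)
    (hε : 9 / 4 * Real.exp (-B) ≤ ε) :
    SideData S.T S.κ r c (mW S.T (mcap r c)) h₀ bt A ε := by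
  have hd := h.dreal
  have hdk' : 128 * (kap n : ℝ) ≤ dk := by exact_mod_cast hdk
  have hc8 : 8 * (kap n : ℝ) / dk ≤ 1 / 16 := by
    rw [div_le_iff₀ hd]; linarith
  have hA1 : 1 ≤ A := le_trans (by have : 0 ≤ 80 * (kap n : ℝ) / dk := by positivity
                                   linarith) hA
  refine ⟨fun p q hpq => ?_, fun p hp t => ?_, fun p hp I => ?_, fun p hp I => ?_⟩
  · have hp : S.T.par p ≠ none := by rw [hpq]; simp
    have h1 := h.w_le_mW hp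
    rw [Fintype.card_fin]
    refine ⟨?_, ?_, fun U hU => ?_⟩
    · exact_mod_cast hw1.trans h1
    · exact_mod_cast hw2.trans h1
    · rw [h.mW_eq hpq]; exact mcap_le_slk hU
  · rw [h.ker p hp]; exact kapR_nonneg _ _
  · rw [h.ker p hp, Fintype.card_fin]
    have h3 := h.div_le hp (K := 8 * (kap n : ℝ)) (by positivity)
    refine (sum_kapR_exp_le _ (by positivity) (h3.trans (hc8.trans (by norm_num))) I).trans ?_
    refine le_trans ?_ hA
    have : 10 * (8 * (kap n : ℝ) / dk) = 80 * (kap n : ℝ) / dk := by ring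
    linarith
  · rw [h.ker p hp, Fintype.card_fin]
    have h3 := h.div_le hp (K := 8 * (kap n : ℝ)) (by positivity)
    have h2k : (0 : ℝ) < 2 ^ kV dk S.T (mcap r c) p := by positivity
    refine (kapR_exp_tail _ (h3.trans (hc8.trans (by norm_num))) (τ := (bt p : ℝ)) _
      fun t ht => ?_).trans ?_
    · have := (mem_filter.1 ht).2
      have h4 : bt p ≤ |t| := this.le
      exact_mod_cast h4
    · have h5 := hbt p hp
      have h6 : 8 * (kap n : ℝ) / (mW S.T (mcap r c) p : ℝ) ≤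
          1 / (16 * 2 ^ kV dk S.T (mcap r c) p) := by
        rw [le_div_iff₀ (by positivity)]
        have := h3.trans hc8
        linarith
      have h7 : (1 : ℝ) / (16 * 2 ^ kV dk S.T (mcap r c) p) ≤
          1 / (8 * 2 ^ kV dk S.T (mcap r c) p) - 8 * (kap n : ℝ) / (mW S.T (mcap r c) p : ℝ) := by
        have e : (1 : ℝ) / (8 * 2 ^ kV dk S.T (mcap r c) p) =
            2 * (1 / (16 * 2 ^ kV dk S.T (mcap r c) p)) := by field_simp; norm_num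
        linarith
      have h8 : B ≤ (1 / (8 * 2 ^ kV dk S.T (mcap r c) p) -
          8 * (kap n : ℝ) / (mW S.T (mcap r c) p : ℝ)) * (bt p : ℝ) := by
        have h9 : (0 : ℝ) ≤ bt p := le_trans (by positivity) h5
        calc B = 1 / (16 * 2 ^ kV dk S.T (mcap r c) p) *
              (16 * 2 ^ kV dk S.T (mcap r c) p * B) := by field_simp
          _ ≤ 1 / (16 * 2 ^ kV dk S.T (mcap r c) p) * bt p :=
              mul_le_mul_of_nonneg_left h5 (by positivity)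
          _ ≤ _ := mul_le_mul_of_nonneg_right h7 h9
      have h10 : Real.exp (-((1 / (8 * 2 ^ kV dk S.T (mcap r c) p) -
          8 * (kap n : ℝ) / (mW S.T (mcap r c) p : ℝ)) * (bt p : ℝ))) ≤ Real.exp (-B) :=
        Real.exp_le_exp.2 (neg_le_neg h8)
      calc 9 / 4 * Real.exp (-((1 / (8 * 2 ^ kV dk S.T (mcap r c) p) -
            8 * (kap n : ℝ) / (mW S.T (mcap r c) p : ℝ)) * (bt p : ℝ)))
          ≤ 9 / 4 * Real.exp (-B) := by linarith
        _ ≤ ε := hε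
        _ ≤ A * ε := by
            have : 0 ≤ ε := le_trans (by positivity) hε
            nlinarith

/-- `SideData` with the thresholds `b m` (`b ≥ 1`): `ε = 9/4 exp (-(b dk / 16))` -/
theorem StSide.sideData_b (h : StSide S r R c w₁ dk)
    {h₀ b : ℕ} {A ε : ℝ}
    (hw1 : (8 * kap n : ℤ) ≤ w₁) (hw2 : (2 * (4 * n + 2) * h₀ : ℤ) ≤ w₁)
    (hdk : 128 * kap n ≤ dk) (hA : 1 + 80 * (kap n : ℝ) / dk ≤ A)
    (hε : 9 / 4 * Real.exp (-((b : ℝ) * dk / 16)) ≤ ε) :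
    SideData S.T S.κ r c (mW S.T (mcap r c)) h₀
      (fun p => (b : ℤ) * (mW S.T (mcap r c) p : ℕ)) A ε := by
  refine h.sideData hw1 hw2 hdk hA (B := (b : ℝ) * dk / 16) (by positivity) (fun p hp => ?_) hε
  have h1 := h.k_le' hp
  push_cast
  calc (16 : ℝ) * 2 ^ kV dk S.T (mcap r c) p * (b * dk / 16)
      = b * (2 ^ kV dk S.T (mcap r c) p * dk) := by ring
    _ ≤ b * (mW S.T (mcap r c) p : ℝ) := mul_le_mul_of_nonneg_left h1 (by positivity)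

/-- `SideData` with the thresholds `m / D` (425): `ε = 9/4 exp (-(dk / (32 D)))` -/
theorem StSide.sideData_div (h : StSide S r R c w₁ dk)
    {h₀ D : ℕ} {A ε : ℝ} (hD : 1 ≤ D) (hDw : (D : ℤ) ≤ w₁)
    (hw1 : (8 * kap n : ℤ) ≤ w₁) (hw2 : (2 * (4 * n + 2) * h₀ : ℤ) ≤ w₁)
    (hdk : 128 * kap n ≤ dk) (hA : 1 + 80 * (kap n : ℝ) / dk ≤ A)
    (hε : 9 / 4 * Real.exp (-((dk : ℝ) / (32 * D))) ≤ ε) :
    SideData S.T S.κ r c (mW S.T (mcap r c)) h₀
      (fun p => ((mW S.T (mcap r c) p / D : ℕ) : ℤ)) A ε := by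
  have hD0 : (0 : ℝ) < D := by exact_mod_cast hD
  refine h.sideData hw1 hw2 hdk hA (B := (dk : ℝ) / (32 * D)) (by positivity) (fun p hp => ?_) hε
  have h1 := h.k_le' hp
  have h2 : (D : ℤ) ≤ (mW S.T (mcap r c) p : ℕ) := hDw.trans (h.w_le_mW hp)
  have h2' : D ≤ mW S.T (mcap r c) p := by exact_mod_cast h2
  set M := mW S.T (mcap r c) p
  have h3 : 1 ≤ M / D := (Nat.one_le_div_iff hD).2 h2'
  have h4 : M < D * (M / D + 1) := by
    rw [mul_add, mul_one]; exact Nat.lt_mul_div_succ _ hD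
  have h5 : M ≤ 2 * (D * (M / D)) := by nlinarith
  have h6 : (M : ℝ) ≤ 2 * (D * ((M / D : ℕ) : ℝ)) := by exact_mod_cast h5
  rw [Int.cast_natCast]
  calc (16 : ℝ) * 2 ^ kV dk S.T (mcap r c) p * (dk / (32 * D))
      = (2 ^ kV dk S.T (mcap r c) p * dk) / (2 * D) := by field_simp; ring
    _ ≤ (M : ℝ) / (2 * D) := div_le_div_of_nonneg_right h1 (by positivity)
    _ ≤ ((M / D : ℕ) : ℝ) := by
        rw [div_le_iff₀ (by positivity)]
        linarith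

end side

/-! ### no fat edge in a small box -/

theorem no_edge {m : Fin n → Fin n → ℤ} {w₁ : ℤ} (h : ∀ a b, b < a → m a b < w₁) (a : Fin n) :
    (nnForest m w₁).par a = none := by
  by_contra hne
  obtain ⟨b, hb⟩ := Option.ne_none_iff_exists'.1 hne
  have h1 := (nn_nnForest m w₁).ge a b hb
  have h2 := (nn_nnForest m w₁).lt a b hb
  exact absurd (h a b h2) (not_lt.2 h1)

/-- capacities in a box of radius `q` are at most `q` -/
theorem mcap_boxR_le {r : Finset (Fin n) → ℤ} {R : ℤ} (hr : SubM r R) {lo hi x : Fin n → ℤ}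
    (hx : MemJ r R x) (hbox : ∀ v, lo v ≤ x v ∧ x v ≤ hi v) {q : ℤ}
    (hq : ∀ v, hi v ≤ x v + q) {a b : Fin n} (hab : a ≠ b) :
    mcap (boxR lo hi r) x a b ≤ q := by
  unfold mcap
  refine (min_le_left _ _).trans ?_
  rw [cap_boxR hr hx hbox hab]
  refine (min_le_right _ _).trans ((min_le_left _ _).trans ?_)
  have := hq a
  linarith

/-- no fat edge in a box of radius `q < w₁` -/
theorem no_edge_box {r : Finset (Fin n) → ℤ} {R : ℤ} (hr : SubM r R) {lo hi x : Fin n → ℤ}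
    (hx : MemJ r R x) (hbox : ∀ v, lo v ≤ x v ∧ x v ≤ hi v) {q w₁ : ℤ}
    (hq : ∀ v, hi v ≤ x v + q) (hw : q < w₁) (a : Fin n) :
    (nnForest (mcap (boxR lo hi r) x) w₁).par a = none :=
  no_edge (fun _ _ hab => lt_of_le_of_lt (mcap_boxR_le hr hx hbox hq hab.ne') hw) a

/-! ### windows of the blocks -/

theorem abs_bs_le {T : MP3.Forest (Fin n)} {z : Fin n → ℤ} {R : ℤ} (hz : ∀ v, 0 ≤ z v)
    (hR : ∑ v, z v = R) (a : Fin n) : |bs T z a| ≤ R := by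
  have h0 : 0 ≤ bs T z a := sum_nonneg fun v _ => hz v
  rw [abs_of_nonneg h0, ← hR]
  exact sum_le_sum_of_subset_of_nonneg (subset_univ _) fun v _ _ => hz v

/-- `ff ≠ 0` implies that `β` are the block sums of a point of `J` -/
theorem exists_of_ff_ne {S : Side (Fin n)} {x : Fin n → ℤ} {β : S.Blk → ℤ} (h : S.ff x β ≠ 0) :
    ∃ z ∈ S.J, S.blk z = β := by
  unfold Side.ff at h
  obtain ⟨z, hz, hz2⟩ := exists_ne_zero_of_sum_ne_zero h
  refine ⟨z, hz, ?_⟩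
  have h1 := right_ne_zero_of_mul hz2
  rw [prod_ne_zero_iff] at h1
  funext r
  have h2 := h1 r.1 (mem_univ _)
  unfold Side.fk at h2
  rw [dif_pos r.2] at h2
  by_contra h3
  exact h2 (if_neg h3)

/-- `ff ≠ 0` implies the window of `β` -/
theorem abs_beta_le {S : Side (Fin n)} {Lb : ℤ} (hJ : ∀ z ∈ S.J, ∀ r : S.Blk, |S.blk z r| ≤ Lb)
    {x : Fin n → ℤ} {β : S.Blk → ℤ} (h : S.ff x β ≠ 0) (r : S.Blk) : |β r| ≤ Lb := by
  obtain ⟨z, hz, rfl⟩ := exists_of_ff_ne h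
  exact hJ z hz r

/-! ### the stage data of annealing data -/

section ann

variable (𝒜 : AnnData n) (t : ℕ) (P : Par) (ell : Fin n → ℤ)

theorem cen_stR {r : Finset (Fin n) → ℤ} (hr : SubM r 𝒜.R) (hx : MemJ r 𝒜.R 𝒜.x₀) :
    MemJ (𝒜.stR r t) 𝒜.R 𝒜.x₀ :=
  (𝒜.mem_stR hr t 𝒜.x₀).2 ⟨hx, fun v => by constructor <;> simp⟩

/-- side 1 of `sdA` -/
theorem stSide₁ (hd : 0 < P.dk) (hdw : (P.dk : ℤ) ≤ P.w₁) :
    StSide (sdA 𝒜 t P ell).S₁ (𝒜.stR 𝒜.r₁ t) 𝒜.R 𝒜.x₀ P.w₁ P.dk where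
  sub := 𝒜.stR_sub 𝒜.sub₁ 𝒜.mem₁ t
  mem := mem_jF 𝒜 𝒜.sub₁ t
  one _ := rfl
  cen := cen_stR 𝒜 t 𝒜.sub₁ 𝒜.mem₁
  tree := rfl
  ker _ _ := rfl
  dpos := hd
  dle := hdw

/-- side 2 of `sdA` -/
theorem stSide₂ (hd : 0 < P.dk) (hdw : (P.dk : ℤ) ≤ P.w₁) :
    StSide (sdA 𝒜 t P ell).S₂ (𝒜.stR 𝒜.r₂ t) 𝒜.R 𝒜.x₀ P.w₁ P.dk where
  sub := 𝒜.stR_sub 𝒜.sub₂ 𝒜.mem₂ t
  mem := mem_jF 𝒜 𝒜.sub₂ t
  one _ := rfl
  cen := cen_stR 𝒜 t 𝒜.sub₂ 𝒜.mem₂
  tree := rfl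
  ker _ _ := rfl
  dpos := hd
  dle := hdw

theorem sdA_ok (hd : 0 < P.dk) (hdw : (P.dk : ℤ) ≤ P.w₁) : (sdA 𝒜 t P ell).OK where
  κ₁ _ _ := kapR_nonneg _ _
  κ₂ _ _ := kapR_nonneg _ _
  g₁ _ := rfl
  g₂ _ := rfl
  f₁ := ff_le_one' (stSide₁ 𝒜 t P ell hd hdw).sideOK
  f₂ := ff_le_one' (stSide₂ 𝒜 t P ell hd hdw).sideOK

/-- no fat edge in the thin stages -/
theorem sdA_thin (ht : t ≤ T0 n 𝒜.L) (hw : (cA n : ℤ) < P.w₁) (a : Fin n) :
    (sdA 𝒜 t P ell).S₁.T.par a = none ∧ (sdA 𝒜 t P ell).S₂.T.par a = none := by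
  have hq : stQ n 𝒜.L t = cA n := stQ_thin ht
  constructor
  · refine no_edge_box 𝒜.sub₁ 𝒜.mem₁ (fun v => by constructor <;> simp) (q := (cA n : ℤ))
      (fun v => ?_) hw a
    rw [hq]
  · refine no_edge_box 𝒜.sub₂ 𝒜.mem₂ (fun v => by constructor <;> simp) (q := (cA n : ℤ))
      (fun v => ?_) hw a
    rw [hq]

/-- the stage weight is trivial in the fat stages -/
theorem sdA_w_fat (ht : T0 n 𝒜.L ≤ t) (β) : (sdA 𝒜 t P ell).w β = 0 := by
  show ((stH n 𝒜.L t 𝒜.x₀ _ : ℕ) : ℤ) = 0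
  unfold stH
  rw [if_neg (not_lt.2 ht)]
  rfl

/-- the two kinds of stages -/
theorem sdA_cases (hw : (cA n : ℤ) < P.w₁) :
    (∀ β, (sdA 𝒜 t P ell).w β = 0) ∨
      ((∀ a, (sdA 𝒜 t P ell).S₁.T.par a = none) ∧ ∀ a, (sdA 𝒜 t P ell).S₂.T.par a = none) := by
  rcases Nat.le_total (T0 n 𝒜.L) t with h | h
  · exact Or.inl (sdA_w_fat 𝒜 t P ell h)
  · exact Or.inr ⟨fun a => (sdA_thin 𝒜 t P ell h hw a).1, fun a => (sdA_thin 𝒜 t P ell h hw a).2⟩

variable (hlo₁ : ∀ z, MemJ 𝒜.r₁ 𝒜.R z → ∀ v, 0 ≤ z v) (hlo₂ : ∀ z, MemJ 𝒜.r₂ 𝒜.R z → ∀ v, 0 ≤ z v)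
include hlo₁ hlo₂

/-- points of the stage sides are nonnegative with sum `R` -/
theorem jF_nonneg {z : Fin n → ℤ} (hz : z ∈ (sdA 𝒜 t P ell).S₁.J ∨ z ∈ (sdA 𝒜 t P ell).S₂.J) :
    (∀ v, 0 ≤ z v) ∧ ∑ v, z v = 𝒜.R := by
  rcases hz with hz | hz
  · have h1 := (mem_jF 𝒜 𝒜.sub₁ t z).1 hz
    have h2 := ((𝒜.mem_stR 𝒜.sub₁ t z).1 h1).1
    exact ⟨hlo₁ z h2, h2.2⟩
  · have h1 := (mem_jF 𝒜 𝒜.sub₂ t z).1 hz
    have h2 := ((𝒜.mem_stR 𝒜.sub₂ t z).1 h1).1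
    exact ⟨hlo₂ z h2, h2.2⟩

/-- windows of the block contents of side 1 -/
theorem sdA_blk₁ (hLb : 𝒜.R ≤ P.Lb) (z : Fin n → ℤ) (hz : z ∈ (sdA 𝒜 t P ell).S₁.J)
    (r : (sdA 𝒜 t P ell).S₁.Blk) : |(sdA 𝒜 t P ell).S₁.blk z r| ≤ ((sdA 𝒜 t P ell).Lb : ℤ) := by
  obtain ⟨h1, h2⟩ := jF_nonneg 𝒜 t P ell hlo₁ hlo₂ (Or.inl hz)
  exact (abs_bs_le h1 h2 _).trans hLb

/-- windows of the block contents of side 2 -/
theorem sdA_blk₂ (hLb : 𝒜.R ≤ P.Lb) (z : Fin n → ℤ) (hz : z ∈ (sdA 𝒜 t P ell).S₂.J)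
    (r : (sdA 𝒜 t P ell).S₂.Blk) : |(sdA 𝒜 t P ell).S₂.blk z r| ≤ ((sdA 𝒜 t P ell).Lb : ℤ) := by
  obtain ⟨h1, h2⟩ := jF_nonneg 𝒜 t P ell hlo₁ hlo₂ (Or.inr hz)
  exact (abs_bs_le h1 h2 _).trans hLb

/-- `FG ≠ 0` implies the windows of `β` -/
theorem sdA_beta (hLb : 𝒜.R ≤ P.Lb) {σ : Stage.St (sdA 𝒜 t P ell)}
    (h : (sdA 𝒜 t P ell).FG σ ≠ 0) :
    (∀ r, |σ.2.1 r| ≤ ((sdA 𝒜 t P ell).Lb : ℤ)) ∧ ∀ r, |σ.2.2 r| ≤ ((sdA 𝒜 t P ell).Lb : ℤ) := by
  unfold SD.FG at h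
  exact ⟨abs_beta_le (sdA_blk₁ 𝒜 t P ell hlo₁ hlo₂ hLb) (left_ne_zero_of_mul h),
    abs_beta_le (sdA_blk₂ 𝒜 t P ell hlo₁ hlo₂ hLb) (right_ne_zero_of_mul h)⟩

/-- the window of `x`: points of the sides are within `R` of the centre -/
theorem sdA_x (hM : 𝒜.R ≤ P.M) {x : Fin n → ℤ}
    (hx : x ∈ (sdA 𝒜 t P ell).S₁.J ∨ x ∈ (sdA 𝒜 t P ell).S₂.J) (e : Fin n) :
    x e ∈ Icc ((sdA 𝒜 t P ell).c e - (sdA 𝒜 t P ell).M)
      ((sdA 𝒜 t P ell).c e + (sdA 𝒜 t P ell).M) := by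
  obtain ⟨h1, h2⟩ := jF_nonneg 𝒜 t P ell hlo₁ hlo₂ hx
  have h3 : ∀ z : Fin n → ℤ, (∀ v, 0 ≤ z v) → ∑ v, z v = 𝒜.R → z e ≤ 𝒜.R := by
    intro z h4 h5
    rw [← h5]
    exact single_le_sum (f := z) (fun v _ => h4 v) (mem_univ e)
  have h6 := h3 x h1 h2
  have h7 := h3 𝒜.x₀ (hlo₁ _ 𝒜.mem₁) 𝒜.mem₁.2
  have h8 := hlo₁ _ 𝒜.mem₁ e
  have h9 := h1 e
  rw [mem_Icc]
  show 𝒜.x₀ e - (P.M : ℤ) ≤ x e ∧ x e ≤ 𝒜.x₀ e + (P.M : ℤ)
  constructor <;> linarith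

/-- the perfect states over common points are in the box -/
theorem sdA_pf (hLb : 𝒜.R ≤ P.Lb) (hM : 𝒜.R ≤ P.M) {x : Fin n → ℤ}
    (h₁ : x ∈ (sdA 𝒜 t P ell).S₁.J) (h₂ : x ∈ (sdA 𝒜 t P ell).S₂.J) :
    (sdA 𝒜 t P ell).pf x ∈ (sdA 𝒜 t P ell).bx := by
  unfold SD.bx SD.pf
  rw [mem_product, mem_product, Fintype.mem_piFinset, Fintype.mem_piFinset, Fintype.mem_piFinset]
  refine ⟨fun e => sdA_x 𝒜 t P ell hlo₁ hlo₂ hM (Or.inl h₁) e, fun r => ?_, fun r => ?_⟩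
  · exact mem_Icc.2 (abs_le.1 (sdA_blk₁ 𝒜 t P ell hlo₁ hlo₂ hLb x h₁ r))
  · exact mem_Icc.2 (abs_le.1 (sdA_blk₂ 𝒜 t P ell hlo₁ hlo₂ hLb x h₂ r))

end ann

end Crest.Agent.R302.ConcF
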