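import Crest.Agent.R302.Stage536
import Crest.Agent.R302.Joint536
import Crest.Agent.R302.Inst532B

/-!
R302 (helper536), STAGE (S1): from the Poincaré inequality (with defect) of the `x`-marginal and the
link inequalities to the Poincaré inequality with defect for the joint weight `nuG` of one stage, in
the format of `LatChain.poinc_lat`.
-/

set_option autoImplicit false
set_option linter.unusedSectionVars false

namespace Crest.Agent.R302.Stage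

open Finset Crest.Agent.R302.Inst Crest.Agent.R302.Macro Crest.Agent.R302.LatChain
open Crest.Agent.R302.Lor (mon ev Lz)
open Crest.Agent.R302.Joint

variable {E : Type*} [Fintype E] [DecidableEq E]

namespace SD

variable (D : SD E)

/-- the window of `x` -/
noncomputable def Bx : Finset (E → ℤ) := Fintype.piFinset fun e => Icc (D.c e - D.M) (D.c e + D.M)

/-- the window of `β₁` -/
noncomputable def Λ₁ : Finset (D.S₁.Blk → ℤ) := Fintype.piFinset fun _ => Icc (-(D.Lb : ℤ)) D.Lb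

/-- the window of `β₂` -/
noncomputable def Λ₂ : Finset (D.S₂.Blk → ℤ) := Fintype.piFinset fun _ => Icc (-(D.Lb : ℤ)) D.Lb

theorem bx_eq : D.bx = D.Bx ×ˢ (D.Λ₁ ×ˢ D.Λ₂) := rfl

/-- link weight of side 1 (with the stage weight) -/
noncomputable def a₁ (x : E → ℤ) (β : D.S₁.Blk → ℤ) : ℝ := D.S₁w.lw D.θ D.μ x β

/-- link weight of side 2 -/
noncomputable def a₂ (x : E → ℤ) (β : D.S₂.Blk → ℤ) : ℝ :=
  D.S₂.lw D.θ (fun e => (D.μ e)⁻¹) x β

/-- the soft marginal -/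
noncomputable def Wx (x : E → ℤ) : ℝ :=
  D.S₁w.W D.θ D.μ x * D.S₂.W D.θ (fun e => (D.μ e)⁻¹) x

theorem nuG_eq_joint : D.nuG = Joint.nu D.a₁ D.a₂ := by
  funext σ
  rw [nuG_eq]
  rfl

variable {D}

theorem sum_le_list {ι : Type*} [DecidableEq ι] (s : Finset ι) (l : List ι) (g : ι → ℝ)
    (hg : ∀ i, 0 ≤ g i) (h : ∀ i ∈ s, g i ≠ 0 → i ∈ l) : ∑ i ∈ s, g i ≤ (l.map g).sum := by
  calc ∑ i ∈ s, g i = ∑ i ∈ s.filter (fun i => i ∈ l), g i := by
        rw [Finset.sum_filter]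
        refine Finset.sum_congr rfl fun i hi => ?_
        by_cases h0 : g i = 0
        · rw [h0]; simp
        · rw [if_pos (h i hi h0)]
    _ ≤ ∑ i ∈ l.toFinset, g i := by
        refine Finset.sum_le_sum_of_subset_of_nonneg (fun i hi => ?_) fun i _ _ => hg i
        exact List.mem_toFinset.2 (mem_filter.1 hi).2
    _ ≤ ∑ i ∈ l.toFinset, l.count i • g i := by
        refine Finset.sum_le_sum fun i hi => ?_
        have h1 : 1 ≤ l.count i := List.one_le_count_iff.2 (List.mem_toFinset.1 hi)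
        rw [nsmul_eq_mul]
        have : (1 : ℝ) ≤ l.count i := by exact_mod_cast h1
        nlinarith [hg i]
    _ = (l.map g).sum := (Finset.sum_list_map_count l g).symm

theorem Dm_nonneg {G : Type*} [AddCommGroup G] [DecidableEq G] {B : Finset G} {w : G → ℝ}
    (hw : ∀ x ∈ B, 0 ≤ w x) (c : G) (s : ℕ) (f : G → ℝ) : 0 ≤ Dm B w c s f := by
  unfold Dm
  refine Finset.sum_nonneg fun x hx => ?_
  have h := mem_filter.1 hx
  exact mul_nonneg (le_min (hw _ h.1) (hw _ h.2)) (sq_nonneg _)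

theorem aDm_nonneg {G : Type*} [AddCommGroup G] [DecidableEq G] {B : Finset G} {w : G → ℝ}
    (hw : ∀ x ∈ B, 0 ≤ w x) (c : G) (l : ℕ) (f : G → ℝ) : 0 ≤ aDm B w c l f := by
  unfold aDm
  exact div_nonneg (Finset.sum_nonneg fun s _ => Dm_nonneg hw c _ f) (Nat.cast_nonneg _)

theorem Dm_zero_dir {G : Type*} [AddCommGroup G] [DecidableEq G] {B : Finset G} {w : G → ℝ}
    (s : ℕ) (f : G → ℝ) : Dm B w 0 s f = 0 := by
  unfold Dm
  refine Finset.sum_eq_zero fun x _ => ?_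
  simp

/-- the energy of the chain: sum over the directions -/
noncomputable def enG (D : SD E) (f : St D → ℝ) : ℝ :=
  (D.cs.map fun p => aDm D.bx D.nuG p.1 (2 ^ p.2) f).sum

theorem enG_eq (f : St D → ℝ) : D.enG f
    = (∑ j : Fin D.mv.length, aDm D.bx D.nuG ((D.mv.get j).1, 0) (2 ^ (D.mv.get j).2) f)
      + ((D.lk₁.map fun p =>
            Dm D.bx D.nuG (0, (Pi.single p.1 1 - Pi.single p.2 1, 0)) 1 f).sum
        + (D.lk₂.map fun p =>
            Dm D.bx D.nuG (0, (0, Pi.single p.1 1 - Pi.single p.2 1)) 1 f).sum) := by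
  unfold enG cs
  rw [List.map_append, List.sum_append, List.map_append, List.sum_append, List.map_map,
    List.map_map, List.map_map]
  congr 1
  · rw [← List.sum_ofFn]
    congr 1
    conv_lhs => rw [← List.ofFn_get D.mv, List.map_ofFn]
    rfl
  · congr 2
    · refine List.map_congr_left fun p _ => ?_
      show aDm D.bx D.nuG _ (2 ^ 0) f = _
      rw [pow_zero, aDm_one]
    · refine List.map_congr_left fun p _ => ?_
      show aDm D.bx D.nuG _ (2 ^ 0) f = _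
      rw [pow_zero, aDm_one]

/-- **(S1)** Poincaré inequality with defect for the joint weight. -/
theorem stage_poinc (D : SD E)
    (h1 : LinkW D.Bx D.a₁ D.Λ₁) (h2 : LinkW D.Bx D.a₂ D.Λ₂)
    (hmar : ∀ x ∈ D.Bx, mar (D.Λ₁ ×ˢ D.Λ₂) (Joint.nu D.a₁ D.a₂) x = D.Wx x)
    (hlk₁ : ∀ p q : D.S₁.Blk, p ≠ q → (q, p) ∈ D.lk₁)
    (hlk₂ : ∀ p q : D.S₂.Blk, p ≠ q → (q, p) ∈ D.lk₂)
    {δ : ℝ} (hδ0 : 0 < δ) (hδ1 : δ ≤ 1)
    (hcmp : ∀ m ∈ D.mv, ∀ s ≤ 2 ^ m.2, ∀ x ∈ D.Bx, x + s • m.1 ∈ D.Bx → ∀ y ∈ D.Λ₁ ×ˢ D.Λ₂,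
      δ * D.nuG (x, y) ≤ D.nuG (x + s • m.1, y))
    {Kx ε M : ℝ} (hKx : 0 ≤ Kx) (hM : 0 ≤ M)
    (hx : ∀ g : (E → ℤ) → ℝ, (∀ x, |g x| ≤ M) → vr D.Bx D.Wx g
      ≤ Kx * (D.mv.map fun m => aDm D.Bx D.Wx m.1 (2 ^ m.2) g).sum + ε * M ^ 2)
    (Kw : ℕ) {A : ℝ} (hA1 : 3 * Kx / δ ≤ A)
    (hA2 : (1 + D.mv.length * (6 * Kx / δ)) * Link.KL D.S₁.Blk (2 * Kw) ≤ A)
    (hA3 : (1 + D.mv.length * (6 * Kx / δ)) * Link.KL D.S₂.Blk (2 * Kw) ≤ A)
    {f : St D → ℝ} (hf : ∀ p, |f p| ≤ M) :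
    vr D.bx D.nuG f ≤ A * D.enG f
      + (ε + (1 + D.mv.length * (6 * Kx / δ)) *
          (8 * farM D.Bx D.a₁ D.a₂ D.Λ₁ D.Λ₂ D.S₁.blk D.S₂.blk Kw)) * M ^ 2 := by
  classical
  set w := mar (D.Λ₁ ×ˢ D.Λ₂) (Joint.nu D.a₁ D.a₂) with hw
  have hvr : ∀ g : (E → ℤ) → ℝ, vr D.Bx w g = vr D.Bx D.Wx g := by
    intro g
    have e1 : ∀ h : (E → ℤ) → ℝ, S D.Bx w h = S D.Bx D.Wx h := fun h =>
      Finset.sum_congr rfl fun x hx => by rw [hmar x hx]
    have e2 : mn D.Bx w g = mn D.Bx D.Wx g := by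
      unfold mn
      rw [e1, Finset.sum_congr rfl fun x hx => hmar x hx]
    unfold vr
    rw [e2, e1]
  have haD : ∀ (e : E → ℤ) (s : ℕ) (g : (E → ℤ) → ℝ), aDm D.Bx w e s g = aDm D.Bx D.Wx e s g := by
    intro e s g
    unfold aDm Dm
    congr 1
    refine Finset.sum_congr rfl fun t _ => Finset.sum_congr rfl fun x hx => ?_
    have hx' := mem_filter.1 hx
    rw [hmar x hx'.1, hmar _ hx'.2]
  have hnu : D.nuG = Joint.nu D.a₁ D.a₂ := D.nuG_eq_joint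
  have hx' : ∀ g : (E → ℤ) → ℝ, (∀ x, |g x| ≤ M) → vr D.Bx w g
      ≤ ∑ j : Fin D.mv.length, (fun _ => Kx) j
          * aDm D.Bx w ((fun j => (D.mv.get j).1) j) ((fun j => 2 ^ (D.mv.get j).2) j) g
        + ε * M ^ 2 := by
    intro g hg
    rw [hvr]
    refine (hx g hg).trans (le_of_eq ?_)
    congr 1
    rw [← Finset.mul_sum]
    congr 1
    have : D.mv.map (fun m => aDm D.Bx D.Wx m.1 (2 ^ m.2) g)
        = List.ofFn (fun j : Fin D.mv.length => aDm D.Bx D.Wx (D.mv.get j).1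
            (2 ^ (D.mv.get j).2) g) := by
      conv_lhs => rw [← List.ofFn_get D.mv, List.map_ofFn]
      rfl
    rw [this, List.sum_ofFn]
    exact Finset.sum_congr rfl fun j _ => (haD _ _ _).symm
  have h4 := joint_win (B := D.Bx) (a₁ := D.a₁) (a₂ := D.a₂) (Λ₁ := D.Λ₁) (Λ₂ := D.Λ₂)
    (ι := Fin D.mv.length) h1 h2 Kw D.S₁.blk D.S₂.blk
    (c := fun j => (D.mv.get j).1) (l := fun j => 2 ^ (D.mv.get j).2)
    (fun j => Nat.one_le_two_pow) (δ := fun _ => δ) (fun _ => hδ0) (fun _ => hδ1)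
    (fun j s hs x hxB hxB' y hy => by
      have := hcmp (D.mv.get j) (List.get_mem _ _) s hs x hxB hxB' y hy
      rw [hnu] at this
      exact this)
    (K := fun _ => Kx) (fun _ => hKx) hM hx' hf
  rw [← hnu] at h4
  rw [← bx_eq] at h4
  simp only [Finset.sum_const, Finset.card_univ, Fintype.card_fin, nsmul_eq_mul] at h4
  have hν : ∀ σ ∈ D.bx, 0 ≤ D.nuG σ := by
    intro σ hσ
    rw [bx_eq, mem_product, mem_product] at hσ
    rw [hnu]
    exact mul_nonneg (h1.nonneg hσ.1 _) (h2.nonneg hσ.1 _)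
  -- the three kinds of energies
  set Em := ∑ j : Fin D.mv.length, aDm D.bx D.nuG ((D.mv.get j).1, 0) (2 ^ (D.mv.get j).2) f
    with hEm
  set El₁ := (D.lk₁.map fun p =>
            Dm D.bx D.nuG (0, (Pi.single p.1 1 - Pi.single p.2 1, 0)) 1 f).sum with hEl₁
  set El₂ := (D.lk₂.map fun p =>
            Dm D.bx D.nuG (0, (0, Pi.single p.1 1 - Pi.single p.2 1)) 1 f).sum with hEl₂
  have hen : D.enG f = Em + (El₁ + El₂) := enG_eq f
  have hEm0 : 0 ≤ Em := Finset.sum_nonneg fun j _ => aDm_nonneg hν _ _ f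
  have hE1 : E₁ D.Bx D.Λ₁ D.Λ₂ D.nuG f ≤ El₁ := by
    unfold E₁
    rw [← bx_eq]
    have e : ∑ p : D.S₁.Blk, ∑ q : D.S₁.Blk,
        Dm D.bx D.nuG ((0 : E → ℤ), (ev q - ev p, (0 : D.S₂.Blk → ℤ))) 1 f
        = ∑ x : D.S₁.Blk × D.S₁.Blk,
          Dm D.bx D.nuG (0, (Pi.single x.1 1 - Pi.single x.2 1, 0)) 1 f := by
      rw [Fintype.sum_prod_type_right]
      exact Finset.sum_congr rfl fun p _ => Finset.sum_congr rfl fun q _ => rfl
    rw [e]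
    refine sum_le_list _ _ _ (fun p => Dm_nonneg hν _ _ f) fun p _ hp => ?_
    refine hlk₁ p.2 p.1 fun h0 => hp ?_
    rw [h0, sub_self]
    exact Dm_zero_dir 1 f
  have hE2 : E₂ D.Bx D.Λ₁ D.Λ₂ D.nuG f ≤ El₂ := by
    unfold E₂
    rw [← bx_eq]
    have e : ∑ p : D.S₂.Blk, ∑ q : D.S₂.Blk,
        Dm D.bx D.nuG ((0 : E → ℤ), ((0 : D.S₁.Blk → ℤ), ev q - ev p)) 1 f
        = ∑ x : D.S₂.Blk × D.S₂.Blk,
          Dm D.bx D.nuG (0, (0, Pi.single x.1 1 - Pi.single x.2 1)) 1 f := by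
      rw [Fintype.sum_prod_type_right]
      exact Finset.sum_congr rfl fun p _ => Finset.sum_congr rfl fun q _ => rfl
    rw [e]
    refine sum_le_list _ _ _ (fun p => Dm_nonneg hν _ _ f) fun p _ hp => ?_
    refine hlk₂ p.2 p.1 fun h0 => hp ?_
    rw [h0, sub_self]
    exact Dm_zero_dir 1 f
  have hE10 : 0 ≤ E₁ D.Bx D.Λ₁ D.Λ₂ D.nuG f := by
    unfold E₁
    rw [← bx_eq]
    exact Finset.sum_nonneg fun p _ => Finset.sum_nonneg fun q _ => Dm_nonneg hν _ _ f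
  have hE20 : 0 ≤ E₂ D.Bx D.Λ₁ D.Λ₂ D.nuG f := by
    unfold E₂
    rw [← bx_eq]
    exact Finset.sum_nonneg fun p _ => Finset.sum_nonneg fun q _ => Dm_nonneg hν _ _ f
  have hEm' : ∑ j : Fin D.mv.length, 3 * Kx / δ *
      aDm D.bx D.nuG ((D.mv.get j).1, 0) (2 ^ (D.mv.get j).2) f = 3 * Kx / δ * Em := by
    rw [hEm, Finset.mul_sum]
  rw [hEm'] at h4
  have i1 : 3 * Kx / δ * Em ≤ A * Em := mul_le_mul_of_nonneg_right hA1 hEm0
  have hKL1 := Link.KL_nonneg D.S₁.Blk (2 * Kw)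
  have hKL2 := Link.KL_nonneg D.S₂.Blk (2 * Kw)
  have hc0 : 0 ≤ 1 + D.mv.length * (6 * Kx / δ) := by positivity
  have hA0 : 0 ≤ A := (mul_nonneg hc0 hKL1).trans hA2
  have i2 : (1 + D.mv.length * (6 * Kx / δ)) * (Link.KL D.S₁.Blk (2 * Kw) *
      E₁ D.Bx D.Λ₁ D.Λ₂ D.nuG f) ≤ A * El₁ := by
    calc _ = ((1 + D.mv.length * (6 * Kx / δ)) * Link.KL D.S₁.Blk (2 * Kw)) *
          E₁ D.Bx D.Λ₁ D.Λ₂ D.nuG f := by ring
      _ ≤ A * E₁ D.Bx D.Λ₁ D.Λ₂ D.nuG f := mul_le_mul_of_nonneg_right hA2 hE10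
      _ ≤ _ := mul_le_mul_of_nonneg_left hE1 hA0
  have i3 : (1 + D.mv.length * (6 * Kx / δ)) * (Link.KL D.S₂.Blk (2 * Kw) *
      E₂ D.Bx D.Λ₁ D.Λ₂ D.nuG f) ≤ A * El₂ := by
    calc _ = ((1 + D.mv.length * (6 * Kx / δ)) * Link.KL D.S₂.Blk (2 * Kw)) *
          E₂ D.Bx D.Λ₁ D.Λ₂ D.nuG f := by ring
      _ ≤ A * E₂ D.Bx D.Λ₁ D.Λ₂ D.nuG f := mul_le_mul_of_nonneg_right hA3 hE20
      _ ≤ _ := mul_le_mul_of_nonneg_left hE2 hA0
  rw [hen]
  refine h4.trans ?_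
  have i4 : (1 + D.mv.length * (6 * Kx / δ)) * (Link.KL D.S₁.Blk (2 * Kw) *
      E₁ D.Bx D.Λ₁ D.Λ₂ D.nuG f + Link.KL D.S₂.Blk (2 * Kw) *
      E₂ D.Bx D.Λ₁ D.Λ₂ D.nuG f) ≤ A * El₁ + A * El₂ := by
    rw [mul_add]; exact add_le_add i2 i3
  have i5 : A * (Em + (El₁ + El₂)) = A * Em + (A * El₁ + A * El₂) := by ring
  rw [i5]
  have := add_le_add i1 i4
  linarith

end SD

end Crest.Agent.R302.Stage
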