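import Crest.Agent.R302.EDM5
import Crest.Agent.R302.Ann425C

/-!
# R302 / EDM, part 6: a common base inside a box; box versions of membership and capacities
-/

set_option autoImplicit false
set_option maxHeartbeats 400000

namespace Crest.Agent.R302.EDM

open Finset Crest.Agent.R302.Facet Crest.Agent.R302.Sfm646 Crest.Agent.Lib.PT.Arith
open Crest.Agent.R302.ORAM Crest.Agent.Lib.PT

variable {n : ℕ}

theorem foldl_findStep_nonneg (K : ℕ) (P : (Fin n → ℤ) → Bool) (L : List (Fin n))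
    (l : Fin n → ℤ) (hl : ∀ i, 0 ≤ l i) (i : Fin n) : 0 ≤ L.foldl (findStep K P) l i := by
  induction L generalizing l with
  | nil => exact hl i
  | cons j L ih =>
    rw [List.foldl_cons]
    refine ih _ fun i => ?_
    unfold findStep
    by_cases h : i = j
    · subst h
      rw [Function.update_self]
      positivity
    · rw [Function.update_of_ne h]
      exact hl i

theorem findVec_nonneg (K : ℕ) (P : (Fin n → ℤ) → Bool) (i : Fin n) : 0 ≤ findVec K P i :=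
  foldl_findStep_nonneg K P _ _ (fun _ => le_rfl) i

/-- a common base in the box `lo ≤ x ≤ hi` (if there is one) -/
def baseBQ (n K : ℕ) (r₁ r₂ : Finset (Fin n) → ℤ) (R : ℕ) (lo hi : Fin n → ℤ) : Fin n → ℤ :=
  fun i => lo i + findVec R.size (fun l => feasB n K r₁ r₂ R (fun i => lo i + l i) hi) i

theorem baseBQ_spec {r₁ r₂ : Finset (Fin n) → ℤ} {K R : ℕ} (h₁ : SubM r₁ R)
    (h₂ : SubM r₂ R) (K₁ : ∀ A, |r₁ A| ≤ K) (K₂ : ∀ A, |r₂ A| ≤ K) {lo hi : Fin n → ℤ}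
    (hR : ∀ i, hi i - lo i ≤ R)
    (hne : ∃ x : Fin n → ℤ, (∀ i, lo i ≤ x i ∧ x i ≤ hi i) ∧ MemJ r₁ R x ∧ MemJ r₂ R x) :
    (∀ i, lo i ≤ baseBQ n K r₁ r₂ R lo hi i ∧ baseBQ n K r₁ r₂ R lo hi i ≤ hi i) ∧
      MemJ r₁ R (baseBQ n K r₁ r₂ R lo hi) ∧ MemJ r₂ R (baseBQ n K r₁ r₂ R lo hi) := by
  have key := findVec_spec (K := R.size)
    (P := fun l => feasB n K r₁ r₂ R (fun i => lo i + l i) hi)
    (B := fun x => (∀ i, lo i + x i ≤ hi i) ∧ MemJ r₁ R (fun i => lo i + x i) ∧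
      MemJ r₂ R (fun i => lo i + x i)) (fun l => by
      rw [feasB_iff h₁ h₂ K₁ K₂]
      constructor
      · rintro ⟨z, hz, m1, m2⟩
        have e : (fun i => lo i + (z i - lo i)) = z := by funext i; ring
        refine ⟨fun i => z i - lo i, fun i => by linarith [(hz i).1], fun i => ?_, ?_, ?_⟩
        · have := (hz i).2; linarith
        · rw [e]; exact m1
        · rw [e]; exact m2
      · rintro ⟨x, hx, hb, m1, m2⟩
        exact ⟨fun i => lo i + x i, fun i => ⟨by linarith [hx i], hb i⟩, m1, m2⟩)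
    (fun x hx i => by
      have h1 := hx.1 i
      have h2 := hR i
      have h3 : (R : ℤ) < 2 ^ R.size := by exact_mod_cast Nat.lt_size_self R
      linarith)
    (by
      rw [feasB_iff h₁ h₂ K₁ K₂]
      obtain ⟨x, hx, m1, m2⟩ := hne
      exact ⟨x, fun i => ⟨by linarith [(hx i).1], (hx i).2⟩, m1, m2⟩)
  refine ⟨fun i => ⟨?_, key.1 i⟩, key.2.1, key.2.2⟩
  unfold baseBQ
  linarith [findVec_nonneg R.size
    (fun l => feasB n K r₁ r₂ R (fun i => lo i + l i) hi) i]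

/-! ### list versions -/

/-- sum of two vectors -/
def addL (n : ℕ) (x y : List ℤ) : List ℤ := (List.range n).map fun j => x.getD j 0 + y.getD j 0

theorem vecL_addL (x y : List ℤ) : vecL n (addL n x y) = fun i => vecL n x i + vecL n y i := by
  funext i
  unfold vecL addL
  rw [getD_mapRange]

theorem length_addL (x y : List ℤ) : (addL n x y).length = n := by simp [addL]

/-- a common base in a box -/
def baseBL (n K : ℕ) (r₁ r₂ : List Bool → ℤ) (R : ℕ) (lo hi : List ℤ) : List ℤ :=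
  addL n lo (findVecL n R.size fun l => feasBL n K r₁ r₂ R (addL n lo l) hi)

theorem baseBL_eq (K : ℕ) {r₁ r₂ : List Bool → ℤ} {ρ₁ ρ₂ : Finset (Fin n) → ℤ}
    (h₁ : RepL n r₁ ρ₁) (h₂ : RepL n r₂ ρ₂) {R : ℕ} (s₁ : SubM ρ₁ R) (s₂ : SubM ρ₂ R)
    (lo hi : List ℤ) :
    vecL n (baseBL n K r₁ r₂ R lo hi) = baseBQ n K ρ₁ ρ₂ R (vecL n lo) (vecL n hi) := by
  rw [baseBL, vecL_addL, findVecL_eq (n := n) (K := R.size)
    (Q := fun l => feasB n K ρ₁ ρ₂ R (fun i => vecL n lo i + l i) (vecL n hi)) (fun l => by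
      rw [feasBL_eq K h₁ h₂ s₁ s₂, vecL_addL])]
  rfl

theorem length_baseBL (K : ℕ) (r₁ r₂ : List Bool → ℤ) (R : ℕ) (lo hi : List ℤ) :
    (baseBL n K r₁ r₂ R lo hi).length = n := length_addL _ _

theorem baseBL_spec {r₁ r₂ : List Bool → ℤ} {ρ₁ ρ₂ : Finset (Fin n) → ℤ}
    (h₁ : RepL n r₁ ρ₁) (h₂ : RepL n r₂ ρ₂) {K R : ℕ} (s₁ : SubM ρ₁ R) (s₂ : SubM ρ₂ R)
    (K₁ : ∀ A, |ρ₁ A| ≤ K) (K₂ : ∀ A, |ρ₂ A| ≤ K) {lo hi : List ℤ}
    (hR : ∀ i, vecL n hi i - vecL n lo i ≤ R)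
    (hne : ∃ x : Fin n → ℤ, (∀ i, vecL n lo i ≤ x i ∧ x i ≤ vecL n hi i) ∧ MemJ ρ₁ R x ∧
      MemJ ρ₂ R x) :
    (∀ i, vecL n lo i ≤ vecL n (baseBL n K r₁ r₂ R lo hi) i ∧
      vecL n (baseBL n K r₁ r₂ R lo hi) i ≤ vecL n hi i) ∧
      MemJ ρ₁ R (vecL n (baseBL n K r₁ r₂ R lo hi)) ∧
      MemJ ρ₂ R (vecL n (baseBL n K r₁ r₂ R lo hi)) := by
  rw [baseBL_eq K h₁ h₂ s₁ s₂]
  exact baseBQ_spec s₁ s₂ K₁ K₂ hR hne

/-- is the vector in the box -/
def inBoxL (n : ℕ) (lo hi x : List ℤ) : Bool :=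
  (List.range n).all fun j => decide (lo.getD j 0 ≤ x.getD j 0 ∧ x.getD j 0 ≤ hi.getD j 0)

theorem inBoxL_iff (lo hi x : List ℤ) :
    inBoxL n lo hi x = true ↔ ∀ i, vecL n lo i ≤ vecL n x i ∧ vecL n x i ≤ vecL n hi i := by
  unfold inBoxL
  rw [List.all_eq_true]
  constructor
  · intro h i
    exact of_decide_eq_true (h i (List.mem_range.2 i.isLt))
  · intro h j hj
    exact decide_eq_true (h ⟨j, List.mem_range.1 hj⟩)

/-- membership in the base polytope cut by a box -/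
def memBL (n K : ℕ) (r : List Bool → ℤ) (R : ℤ) (lo hi x : List ℤ) : Bool :=
  inBoxL n lo hi x && memL n K r R x

theorem memBL_iff {r : List Bool → ℤ} {ρ : Finset (Fin n) → ℤ} (h : RepL n r ρ) {K : ℕ} {R : ℤ}
    (hr : SubM ρ R) (hK : ∀ A, |ρ A| ≤ K) (lo hi x : List ℤ) :
    memBL n K r R lo hi x = true ↔
      (∀ i, vecL n lo i ≤ vecL n x i ∧ vecL n x i ≤ vecL n hi i) ∧ MemJ ρ R (vecL n x) := by
  rw [memBL, Bool.and_eq_true, inBoxL_iff, memL_iff h hr hK]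

/-- exchange capacity inside a box -/
def capBL (n K : ℕ) (r : List Bool → ℤ) (lo hi x : List ℤ) (a b : ℕ) : ℤ :=
  min (capL n K r x a b) (min (hi.getD a 0 - x.getD a 0) (x.getD b 0 - lo.getD b 0))

/-- `capBL` is the capacity of the box-restricted system -/
theorem capBL_eq {r : List Bool → ℤ} {ρ : Finset (Fin n) → ℤ} (h : RepL n r ρ) {K : ℕ} {R : ℤ}
    (hr : SubM ρ R) (hK : ∀ A, |ρ A| ≤ K) {lo hi x : List ℤ}
    (hx : MemJ ρ R (vecL n x))
    (hbox : ∀ i, vecL n lo i ≤ vecL n x i ∧ vecL n x i ≤ vecL n hi i) {a b : Fin n}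
    (hab : a ≠ b) :
    capBL n K r lo hi x a b = cap (boxR (vecL n lo) (vecL n hi) ρ) (vecL n x) a b := by
  rw [AnnBox.cap_boxR hr hx hbox hab, capBL, capL_eq h hr hK x hab]
  rfl

section optf

variable {γ : Type} [PTCode γ] {N K R : Inst → γ → ℕ} {r r₁ r₂ : Inst → γ → List Bool → ℤ}
  {x y lo hi : Inst → γ → List ℤ}

theorem addL_optf (hn : OPTU N) (hx : OPTF x) (hy : OPTF y) :
    OPTF (fun I c => addL (N I c) (x I c) (y I c)) := by
  unfold addL
  have h1 : OPTF (fun I (p : γ × ℕ) => x I p.1) := off hx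
  have h2 : OPTF (fun I (p : γ × ℕ) => y I p.1) := off hy
  opt_solve

/-- **a common base in a box** -/
theorem baseBL_optf (hn : OPTU N) (hK : OPTF K)
    (h₁ : OPTF (fun I (p : γ × List Bool) => r₁ I p.1 p.2))
    (h₂ : OPTF (fun I (p : γ × List Bool) => r₂ I p.1 p.2)) (hR : OPTF R) (hlo : OPTF lo)
    (hhi : OPTF hi) :
    OPTF (fun I c => baseBL (N I c) (K I c) (r₁ I c) (r₂ I c) (R I c) (lo I c) (hi I c)) := by
  unfold baseBL
  refine addL_optf hn hlo (findVecL_optf (P := fun I c l => feasBL (N I c) (K I c) (r₁ I c)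
    (r₂ I c) (R I c) (addL (N I c) (lo I c) l) (hi I c)) hn (OPTF.natSize hR) ?_)
  exact feasBL_optf (ouf hn) (off hK) (ofr h₁) (ofr h₂) (off (OPTF.intNatCast hR))
    (addL_optf (ouf hn) (off hlo) (OPTF.snd OPTF.id)) (off hhi)

theorem inBoxL_optf (hn : OPTU N) (hlo : OPTF lo) (hhi : OPTF hi) (hx : OPTF x) :
    OPTF (fun I c => inBoxL (N I c) (lo I c) (hi I c) (x I c)) := by
  unfold inBoxL
  have h1 : OPTF (fun I (p : γ × ℕ) => x I p.1) := off hx
  have h2 : OPTF (fun I (p : γ × ℕ) => lo I p.1) := off hlo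
  have h3 : OPTF (fun I (p : γ × ℕ) => hi I p.1) := off hhi
  opt_solve

theorem memBL_optf {R : Inst → γ → ℤ} (hn : OPTU N) (hK : OPTF K)
    (hr : OPTF (fun I (p : γ × List Bool) => r I p.1 p.2)) (hR : OPTF R) (hlo : OPTF lo)
    (hhi : OPTF hi) (hx : OPTF x) :
    OPTF (fun I c => memBL (N I c) (K I c) (r I c) (R I c) (lo I c) (hi I c) (x I c)) := by
  unfold memBL
  exact OPTF.and (inBoxL_optf hn hlo hhi hx) (memL_optf hn hK hr hR hx)

theorem capBL_optf {a b : Inst → γ → ℕ} (hn : OPTU N) (hK : OPTF K)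
    (hr : OPTF (fun I (p : γ × List Bool) => r I p.1 p.2)) (hlo : OPTF lo) (hhi : OPTF hi)
    (hx : OPTF x) (ha : OPTF a) (hb : OPTF b) :
    OPTF (fun I c => capBL (N I c) (K I c) (r I c) (lo I c) (hi I c) (x I c) (a I c) (b I c)) := by
  unfold capBL
  have h1 := capL_optf hn hK hr hx ha hb
  opt_solve

end optf

end Crest.Agent.R302.EDM
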