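/-
R302, repair map (helper725): the spanning forest of a finite multigraph built by Kruskal's
rule over a list of edge labels, with path vectors.

Edge labels `ι`, endpoints `a b : ι → V`.  `run a b L` processes the labels of `L` in order;
its state carries for each vertex a component representative `comp` and a path vector
`P w : ι → ℤ` with boundary `e_w - e_{comp w}`.
-/
import Mathlib

set_option autoImplicit false

namespace Crest.Agent.R302.Repair

open Finset

variable {V ι : Type*} [DecidableEq V] [DecidableEq ι]

/-- State of the forest: component representative and path vector to it. -/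
structure St (V ι : Type*) where
  comp : V → V
  P : V → ι → ℤ

/-- The initial state: no edge processed. -/
def init : St V ι := ⟨id, fun _ _ => 0⟩

/-- Process one edge label (Kruskal's rule). -/
def step (a b : ι → V) (st : St V ι) (q : ι) : St V ι :=
  if st.comp (a q) = st.comp (b q) then st else
  { comp := fun w => if st.comp w = st.comp (a q) then st.comp (b q) else st.comp w
    P := fun w j => if st.comp w = st.comp (a q) then
        st.P w j - st.P (a q) j + (if j = q then 1 else 0) + st.P (b q) j
      else st.P w j }

/-- Process a list of edge labels. -/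
def run (a b : ι → V) (L : List ι) : St V ι := L.foldl (step a b) init

/-- The invariant of the construction. -/
structure Inv (a b : ι → V) (L : List ι) (st : St V ι) : Prop where
  rep : ∀ w, st.comp (st.comp w) = st.comp w
  P0 : ∀ w j, st.P (st.comp w) j = 0
  supp : ∀ w j, st.P w j ≠ 0 → j ∈ L ∧ st.comp (a j) = st.comp w
  cases : ∀ w w', st.comp w = st.comp w' → ∀ j,
    st.P w j - st.P w' j = 0 ∨ st.P w j - st.P w' j = 1 ∨ st.P w j - st.P w' j = -1
  closed : ∀ j ∈ L, st.comp (a j) = st.comp (b j)

theorem inv_init (a b : ι → V) : Inv a b [] (init : St V ι) := by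
  constructor <;> simp [init]

theorem inv_step (a b : ι → V) (L : List ι) (st : St V ι) (h : Inv a b L st) (q : ι)
    (hq : q ∉ L) : Inv a b (L ++ [q]) (step a b st q) := by
  unfold step
  split_ifs with hc
  · refine ⟨h.rep, h.P0, ?_, h.cases, ?_⟩
    · intro w j hj
      obtain ⟨h1, h2⟩ := h.supp w j hj
      exact ⟨by simp [h1], h2⟩
    · intro j hj
      rcases List.mem_append.1 hj with hj | hj
      · exact h.closed j hj
      · rw [List.mem_singleton.1 hj]; exact hc
  · have hPq : ∀ w, st.P w q = 0 := by
      intro w
      by_contra hne
      exact hq (h.supp w q hne).1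
    constructor
    · intro w
      dsimp only
      split_ifs with h1 h2 h3
      · rfl
      · exact h.rep _
      · exfalso
        rw [h.rep] at h3
        exact h1 h3
      · exact h.rep _
    · intro w j
      dsimp only
      have hb : ¬ st.comp (st.comp (b q)) = st.comp (a q) := by
        rw [h.rep]; exact fun h' => hc h'.symm
      by_cases h1 : st.comp w = st.comp (a q)
      · simp only [if_pos h1, if_neg hb]; exact h.P0 _ _
      · have hw : ¬ st.comp (st.comp w) = st.comp (a q) := by rw [h.rep]; exact h1
        simp only [if_neg h1, if_neg hw]; exact h.P0 _ _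
    · intro w j hj
      dsimp only at hj ⊢
      by_cases h1 : st.comp w = st.comp (a q)
      · rw [if_pos h1] at hj ⊢
        by_cases hjq : j = q
        · subst hjq
          simp
        · rw [if_neg hjq] at hj
          have hor : st.P w j ≠ 0 ∨ st.P (a q) j ≠ 0 ∨ st.P (b q) j ≠ 0 := by
            by_contra hno
            push Not at hno
            apply hj
            rw [hno.1, hno.2.1, hno.2.2]; simp
          rcases hor with h2 | h2 | h2
          · obtain ⟨h3, h4⟩ := h.supp _ _ h2
            refine ⟨by simp [h3], ?_⟩
            rw [if_pos (h4.trans h1)]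
          · obtain ⟨h3, h4⟩ := h.supp _ _ h2
            refine ⟨by simp [h3], ?_⟩
            rw [if_pos h4]
          · obtain ⟨h3, h4⟩ := h.supp _ _ h2
            refine ⟨by simp [h3], ?_⟩
            rw [h4]
            split_ifs <;> rfl
      · rw [if_neg h1] at hj ⊢
        obtain ⟨h3, h4⟩ := h.supp _ _ hj
        refine ⟨by simp [h3], ?_⟩
        rw [h4, if_neg h1]
    · have key : ∀ w w', st.comp w = st.comp (a q) → st.comp w' = st.comp (b q) → ∀ j,
          (st.P w j - st.P (a q) j + (if j = q then 1 else 0) + st.P (b q) j) - st.P w' j = 0 ∨
          (st.P w j - st.P (a q) j + (if j = q then 1 else 0) + st.P (b q) j) - st.P w' j = 1 ∨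
          (st.P w j - st.P (a q) j + (if j = q then 1 else 0) + st.P (b q) j) - st.P w' j = -1 := by
        intro w w' hw hw' j
        by_cases hjq : j = q
        · subst hjq
          simp [hPq]
        · rw [if_neg hjq]
          have e1 := h.cases w (a q) hw j
          have e2 := h.cases (b q) w' hw'.symm j
          by_cases h5 : st.comp (a j) = st.comp (a q)
          · have z1 : st.P (b q) j = 0 := by
              by_contra hne
              exact hc (h5.symm.trans (h.supp _ _ hne).2)
            have z2 : st.P w' j = 0 := by
              by_contra hne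
              exact hc ((h5.symm.trans (h.supp _ _ hne).2).trans hw')
            rw [z1, z2]
            rcases e1 with e | e | e
            · left; linarith
            · right; left; linarith
            · right; right; linarith
          · have z1 : st.P (a q) j = 0 := by
              by_contra hne
              exact h5 (h.supp _ _ hne).2
            have z2 : st.P w j = 0 := by
              by_contra hne
              exact h5 ((h.supp _ _ hne).2.trans hw)
            rw [z1, z2]
            rcases e2 with e | e | e
            · left; linarith
            · right; left; linarith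
            · right; right; linarith
      intro w w' hww' j
      dsimp only at hww' ⊢
      by_cases h1 : st.comp w = st.comp (a q)
      · by_cases h2 : st.comp w' = st.comp (a q)
        · rw [if_pos h1, if_pos h2]
          have := h.cases w w' (h1.trans h2.symm) j
          rcases this with e | e | e
          · left; linarith
          · right; left; linarith
          · right; right; linarith
        · rw [if_pos h1, if_neg h2] at hww'
          rw [if_pos h1, if_neg h2]
          exact key w w' h1 hww'.symm j
      · by_cases h2 : st.comp w' = st.comp (a q)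
        · rw [if_neg h1, if_pos h2] at hww'
          rw [if_neg h1, if_pos h2]
          have := key w' w h2 hww' j
          rcases this with e | e | e
          · left; linarith
          · right; right; linarith
          · right; left; linarith
        · rw [if_neg h1, if_neg h2] at hww'
          rw [if_neg h1, if_neg h2]
          exact h.cases w w' hww' j
    · intro j hj
      dsimp only
      rcases List.mem_append.1 hj with hj | hj
      · rw [h.closed j hj]
      · rw [List.mem_singleton.1 hj, if_pos rfl]
        split_ifs <;> rfl

theorem run_nil (a b : ι → V) : run a b [] = (init : St V ι) := rfl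

theorem run_append (a b : ι → V) (L : List ι) (q : ι) :
    run a b (L ++ [q]) = step a b (run a b L) q := by
  unfold run; rw [List.foldl_append]; rfl

theorem inv_run (a b : ι → V) (L : List ι) (hL : L.Nodup) : Inv a b L (run a b L) := by
  induction L using List.reverseRecOn with
  | nil => exact inv_init a b
  | append_singleton L q ih =>
    rw [run_append]
    have h1 : L.Nodup := hL.of_append_left
    have h2 : q ∉ L := by
      intro hq
      have := (List.nodup_append.1 hL).2.2 q hq q (by simp)
      exact this rfl
    exact inv_step a b L _ (ih h1) q h2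

/-- Two vertices in one component stay together, and their path difference is unchanged. -/
theorem step_same (a b : ι → V) (st : St V ι) (q : ι) {w w' : V} (h : st.comp w = st.comp w') :
    (step a b st q).comp w = (step a b st q).comp w' ∧
    ∀ j, (step a b st q).P w j - (step a b st q).P w' j = st.P w j - st.P w' j := by
  unfold step
  split_ifs with hc
  · exact ⟨h, fun _ => rfl⟩
  · dsimp only
    rw [h]
    refine ⟨rfl, fun j => ?_⟩
    split_ifs <;> ring

theorem foldl_same (a b : ι → V) (L : List ι) (st : St V ι) {w w' : V}
    (h : st.comp w = st.comp w') :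
    (L.foldl (step a b) st).comp w = (L.foldl (step a b) st).comp w' ∧
    ∀ j, (L.foldl (step a b) st).P w j - (L.foldl (step a b) st).P w' j
      = st.P w j - st.P w' j := by
  induction L generalizing st with
  | nil => exact ⟨h, fun _ => rfl⟩
  | cons q L ih =>
    obtain ⟨h1, h2⟩ := step_same a b st q h
    obtain ⟨h3, h4⟩ := ih _ h1
    exact ⟨h3, fun j => (h4 j).trans (h2 j)⟩

/-- The path vector of an edge label: either the label itself or supported on earlier labels. -/
theorem run_edge (a b : ι → V) (L₁ L₂ : List ι) (q : ι) (hL : (L₁ ++ q :: L₂).Nodup) :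
    (∀ j, (run a b (L₁ ++ q :: L₂)).P (a q) j - (run a b (L₁ ++ q :: L₂)).P (b q) j
        = if j = q then 1 else 0) ∨
    (∀ j, (run a b (L₁ ++ q :: L₂)).P (a q) j - (run a b (L₁ ++ q :: L₂)).P (b q) j ≠ 0 →
        j ∈ L₁) := by
  have e : run a b (L₁ ++ q :: L₂) = L₂.foldl (step a b) (step a b (run a b L₁) q) := by
    unfold run; rw [List.foldl_append]; rfl
  have hL1 : L₁.Nodup := hL.of_append_left
  have hinv := inv_run a b L₁ hL1
  rw [e]
  by_cases hc : (run a b L₁).comp (a q) = (run a b L₁).comp (b q)
  · right
    intro j hj
    obtain ⟨h1, h2⟩ := step_same a b (run a b L₁) q hc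
    obtain ⟨h3, h4⟩ := foldl_same a b L₂ _ h1
    rw [h4 j, h2 j] at hj
    have hor : (run a b L₁).P (a q) j ≠ 0 ∨ (run a b L₁).P (b q) j ≠ 0 := by
      by_contra hno
      push Not at hno
      apply hj
      rw [hno.1, hno.2]; simp
    rcases hor with h5 | h5
    · exact (hinv.supp _ _ h5).1
    · exact (hinv.supp _ _ h5).1
  · left
    intro j
    have h1 : (step a b (run a b L₁) q).comp (a q) = (step a b (run a b L₁) q).comp (b q) := by
      unfold step
      rw [if_neg hc]
      dsimp only
      rw [if_pos rfl]
      split_ifs <;> rfl
    obtain ⟨h3, h4⟩ := foldl_same a b L₂ _ h1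
    have hcb : ¬ (run a b L₁).comp (b q) = (run a b L₁).comp (a q) := fun h => hc h.symm
    rw [h4 j]
    unfold step
    rw [if_neg hc]
    simp only [if_true, hcb, if_false]
    ring

/-- Boundary of the path vectors, in dual form. -/
theorem run_bd [Fintype ι] {M : Type*} [AddCommGroup M] (a b : ι → V) (φ : V → M) (L : List ι)
    (w : V) :
    ∑ j, (run a b L).P w j • (φ (a j) - φ (b j)) = φ w - φ ((run a b L).comp w) := by
  induction L using List.reverseRecOn generalizing w with
  | nil => simp [run_nil, init]
  | append_singleton L q ih =>
    rw [run_append]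
    unfold step
    by_cases hc : (run a b L).comp (a q) = (run a b L).comp (b q)
    · rw [if_pos hc]; exact ih w
    · rw [if_neg hc]
      dsimp only
      by_cases h1 : (run a b L).comp w = (run a b L).comp (a q)
      · simp only [if_pos h1]
        have e : ∀ j, ((run a b L).P w j - (run a b L).P (a q) j + (if j = q then 1 else 0)
            + (run a b L).P (b q) j) • (φ (a j) - φ (b j)) =
            (run a b L).P w j • (φ (a j) - φ (b j))
            - (run a b L).P (a q) j • (φ (a j) - φ (b j))
            + (if j = q then (φ (a j) - φ (b j)) else 0)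
            + (run a b L).P (b q) j • (φ (a j) - φ (b j)) := by
          intro j
          by_cases hj : j = q
          · rw [if_pos hj, if_pos hj, add_smul, add_smul, sub_smul, one_smul]
          · rw [if_neg hj, if_neg hj, add_smul, add_smul, sub_smul, zero_smul]
        rw [Finset.sum_congr rfl (fun j _ => e j), Finset.sum_add_distrib, Finset.sum_add_distrib,
          Finset.sum_sub_distrib, ih w, ih (a q), ih (b q), Finset.sum_ite_eq' Finset.univ q]
        simp only [Finset.mem_univ, if_true]
        rw [h1]
        abel
      · simp only [if_neg h1]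
        exact ih w

/-- Number of edges of the path between `w` and `w'` at the vertex `x`. -/
def deg [Fintype ι] (a b : ι → V) (st : St V ι) (w w' x : V) : ℤ :=
  ∑ j, |st.P w j - st.P w' j| * ((if a j = x then 1 else 0) + (if b j = x then 1 else 0))

theorem deg_comm [Fintype ι] (a b : ι → V) (st : St V ι) (w w' x : V) :
    deg a b st w w' x = deg a b st w' w x := by
  unfold deg
  exact Finset.sum_congr rfl (fun j _ => by rw [abs_sub_comm])

theorem deg_nonneg [Fintype ι] (a b : ι → V) (st : St V ι) (w w' x : V) :
    0 ≤ deg a b st w w' x := by
  unfold deg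
  refine Finset.sum_nonneg (fun j _ => mul_nonneg (abs_nonneg _) ?_)
  split_ifs <;> norm_num

/-- Paths of the forest are simple: at most two edges at each vertex, at most one at the ends. -/
theorem deg_run [Fintype ι] (a b : ι → V) (L : List ι) (hL : L.Nodup) (w w' x : V)
    (hc : (run a b L).comp w = (run a b L).comp w') (hne : w ≠ w') :
    deg a b (run a b L) w w' x + (if x = w then 1 else 0) + (if x = w' then 1 else 0) ≤ 2 := by
  induction L using List.reverseRecOn generalizing w w' with
  | nil => exact absurd (by simpa [run_nil, init] using hc) hne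
  | append_singleton L q ih =>
    have hL1 : L.Nodup := hL.of_append_left
    have hq : q ∉ L := by
      intro hq
      exact (List.nodup_append.1 hL).2.2 q hq q (by simp) rfl
    have ih := fun w w' => ih hL1 w w'
    have hinv := inv_run a b L hL1
    set st := run a b L with hst
    rw [run_append] at hc ⊢
    rw [← hst] at hc ⊢
    by_cases hcq : st.comp (a q) = st.comp (b q)
    · have e : step a b st q = st := by unfold step; rw [if_pos hcq]
      rw [e] at hc ⊢
      exact ih w w' hc hne
    · by_cases hww : st.comp w = st.comp w'
      · have h2 := (step_same a b st q hww).2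
        have e : deg a b (step a b st q) w w' x = deg a b st w w' x := by
          unfold deg
          exact Finset.sum_congr rfl (fun j _ => by rw [h2 j])
        rw [e]
        exact ih w w' hww hne
      · -- the two vertices were merged by `q`
        have hPq : ∀ w, st.P w q = 0 := by
          intro w
          by_contra hne
          exact hq (hinv.supp w q hne).1
        -- the main computation
        have main : ∀ w w', st.comp w = st.comp (a q) → st.comp w' = st.comp (b q) →
            deg a b (step a b st q) w w' x + (if x = w then 1 else 0)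
              + (if x = w' then 1 else 0) ≤ 2 := by
          intro w w' hw hw'
          have hw'a : ¬ st.comp w' = st.comp (a q) := fun h => hcq (h.symm.trans hw')
          -- path difference
          have hdiff : ∀ j, (step a b st q).P w j - (step a b st q).P w' j =
              (st.P w j - st.P (a q) j) + (if j = q then 1 else 0)
                + (st.P (b q) j - st.P w' j) := by
            intro j
            unfold step
            rw [if_neg hcq]
            simp only [hw, if_true, hw'a, if_false]
            ring
          have hle : deg a b (step a b st q) w w' x ≤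
              deg a b st w (a q) x
              + ((if a q = x then 1 else 0) + (if b q = x then 1 else 0))
              + deg a b st (b q) w' x := by
            unfold deg
            have e1 : ((if a q = x then (1:ℤ) else 0) + (if b q = x then 1 else 0)) =
                ∑ j, (if j = q then (1:ℤ) else 0)
                  * ((if a j = x then 1 else 0) + (if b j = x then 1 else 0)) := by
              simp
            rw [e1, ← Finset.sum_add_distrib, ← Finset.sum_add_distrib]
            refine Finset.sum_le_sum (fun j _ => ?_)
            rw [hdiff j, ← add_mul, ← add_mul]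
            have hpos : (0:ℤ) ≤ (if a j = x then 1 else 0) + (if b j = x then 1 else 0) := by
              split_ifs <;> norm_num
            refine mul_le_mul_of_nonneg_right ?_ hpos
            calc |st.P w j - st.P (a q) j + (if j = q then 1 else 0)
                    + (st.P (b q) j - st.P w' j)|
                ≤ |st.P w j - st.P (a q) j + (if j = q then 1 else 0)|
                    + |st.P (b q) j - st.P w' j| := abs_add_le _ _
              _ ≤ |st.P w j - st.P (a q) j| + |(if j = q then (1:ℤ) else 0)|
                    + |st.P (b q) j - st.P w' j| := by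
                  have := abs_add_le (st.P w j - st.P (a q) j) (if j = q then (1:ℤ) else 0)
                  linarith
              _ = _ := by
                  congr 2
                  split_ifs <;> simp
          -- both ends of a used edge lie in the component
          have hzero : ∀ u u' y, st.comp u = st.comp u' → ¬ st.comp y = st.comp u →
              deg a b st u u' y = 0 := by
            intro u u' y huu hy
            unfold deg
            refine Finset.sum_eq_zero (fun j _ => ?_)
            by_cases h0 : st.P u j - st.P u' j = 0
            · rw [h0]; simp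
            · have hj : j ∈ L ∧ st.comp (a j) = st.comp u := by
                by_cases h1 : st.P u j = 0
                · have h2 : st.P u' j ≠ 0 := fun h2 => h0 (by rw [h1, h2]; simp)
                  exact ⟨(hinv.supp _ _ h2).1, (hinv.supp _ _ h2).2.trans huu.symm⟩
                · exact hinv.supp _ _ h1
              have ha : ¬ a j = y := by
                rintro rfl; exact hy hj.2
              have hb : ¬ b j = y := by
                rintro rfl; exact hy ((hinv.closed j hj.1).symm.trans hj.2)
              rw [if_neg ha, if_neg hb]; simp
          have hself : ∀ u y, deg a b st u u y = 0 := by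
            intro u y; unfold deg; simp
          have hwne : w ≠ w' := by
            rintro rfl; exact hw'a hw
          by_cases hxA : st.comp x = st.comp (a q)
          · -- `x` on the first side
            have hxb : ¬ st.comp x = st.comp (b q) := fun h => hcq (hxA.symm.trans h)
            have h1 : deg a b st (b q) w' x = 0 := hzero _ _ _ hw'.symm hxb
            have h2 : ¬ b q = x := by rintro rfl; exact hxb rfl
            have h3 : ¬ x = w' := by rintro rfl; exact hxb hw'
            rw [h1, if_neg h2] at hle
            rw [if_neg h3]
            by_cases hwa : w = a q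
            · subst hwa
              rw [hself] at hle
              by_cases hxw : x = a q
              · subst hxw; simp at hle ⊢; linarith
              · rw [if_neg (fun h => hxw h.symm)] at hle
                rw [if_neg hxw]; linarith
            · have h4 := ih w (a q) hw hwa
              by_cases hxq : x = a q
              · subst hxq
                simp only [if_true] at h4 hle
                linarith
              · rw [if_neg (fun h => hxq h.symm)] at hle
                rw [if_neg hxq] at h4
                linarith
          · by_cases hxB : st.comp x = st.comp (b q)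
            · have h1 : deg a b st w (a q) x = 0 :=
                hzero _ _ _ hw (fun h => hxA (h.trans hw))
              have h2 : ¬ a q = x := by rintro rfl; exact hxA rfl
              have h3 : ¬ x = w := by rintro rfl; exact hxA hw
              rw [h1, if_neg h2] at hle
              rw [if_neg h3]
              by_cases hwb : w' = b q
              · subst hwb
                rw [hself] at hle
                by_cases hxw : x = b q
                · subst hxw; simp at hle ⊢; linarith
                · rw [if_neg (fun h => hxw h.symm)] at hle
                  rw [if_neg hxw]; linarith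
              · have h4 := ih (b q) w' hw'.symm (fun h => hwb h.symm)
                by_cases hxq : x = b q
                · subst hxq
                  simp only [if_true] at h4 hle
                  linarith
                · rw [if_neg (fun h => hxq h.symm)] at hle
                  rw [if_neg hxq] at h4
                  linarith
            · have h1 : deg a b st w (a q) x = 0 :=
                hzero _ _ _ hw (fun h => hxA (h.trans hw))
              have h2 : deg a b st (b q) w' x = 0 := hzero _ _ _ hw'.symm hxB
              have h3 : ¬ a q = x := by rintro rfl; exact hxA rfl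
              have h4 : ¬ b q = x := by rintro rfl; exact hxB rfl
              have h5 : ¬ x = w := by rintro rfl; exact hxA hw
              have h6 : ¬ x = w' := by rintro rfl; exact hxB hw'
              rw [h1, h2, if_neg h3, if_neg h4] at hle
              rw [if_neg h5, if_neg h6]
              linarith
        -- which side is which
        have hc' := hc
        unfold step at hc'
        rw [if_neg hcq] at hc'
        dsimp only at hc'
        by_cases h1 : st.comp w = st.comp (a q)
        · have h2 : ¬ st.comp w' = st.comp (a q) := fun h => hww (h1.trans h.symm)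
          rw [if_pos h1, if_neg h2] at hc'
          exact main w w' h1 hc'.symm
        · by_cases h2 : st.comp w' = st.comp (a q)
          · rw [if_neg h1, if_pos h2] at hc'
            have := main w' w h2 hc'
            rw [deg_comm]
            linarith
          · rw [if_neg h1, if_neg h2] at hc'
            exact absurd hc' hww

/-- In every case at most two edges of a path meet a given vertex. -/
theorem deg_run_le [Fintype ι] (a b : ι → V) (L : List ι) (hL : L.Nodup) (w w' x : V)
    (hc : (run a b L).comp w = (run a b L).comp w') :
    deg a b (run a b L) w w' x ≤ 2 := by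
  by_cases hne : w = w'
  · subst hne
    unfold deg
    simp
  · have := deg_run a b L hL w w' x hc hne
    have h1 : (0:ℤ) ≤ if x = w then 1 else 0 := by split_ifs <;> norm_num
    have h2 : (0:ℤ) ≤ if x = w' then 1 else 0 := by split_ifs <;> norm_num
    linarith

/-! ### The repair map -/

section repair

variable {E : Type*} [DecidableEq E]

/-- First end of an edge label: a cell or a hidden edge. -/
def ea (X : E → V) : E ⊕ V → V
  | Sum.inl k => X k
  | Sum.inr p => p

/-- Second end of an edge label. -/
def eb (Y : E → V) (par : V → V) : E ⊕ V → V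
  | Sum.inl k => Y k
  | Sum.inr p => par p

/-- The edge list: first the unprocessed cells, then the hidden edges. -/
def elist (S : List E) (H : List V) : List (E ⊕ V) := S.map Sum.inl ++ H.map Sum.inr

/-- The forest of the cells `S` and the hidden edges `H` (in this order). -/
def forest (X Y : E → V) (par : V → V) (S : List E) (H : List V) : St V (E ⊕ V) :=
  run (ea X) (eb Y par) (elist S H)

/-- The repair map based at the vertex `v₀`. -/
def rep (X Y : E → V) (par : V → V) (S : List E) (H : List V) (v₀ : V) (p : V) (k : E) : ℤ :=
  (forest X Y par S H).P p (Sum.inl k) - (forest X Y par S H).P v₀ (Sum.inl k)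

/-- The hidden part of the path between `p` and `par p`. -/
def hid (X Y : E → V) (par : V → V) (S : List E) (H : List V) (p q : V) : ℤ :=
  (forest X Y par S H).P p (Sum.inr q) - (forest X Y par S H).P (par p) (Sum.inr q)

theorem elist_nodup {S : List E} {H : List V} (hS : S.Nodup) (hH : H.Nodup) :
    (elist S H).Nodup := by
  unfold elist
  rw [List.nodup_append]
  refine ⟨hS.map Sum.inl_injective, hH.map Sum.inr_injective, ?_⟩
  intro x hx y hy
  obtain ⟨k, _, rfl⟩ := List.mem_map.1 hx
  obtain ⟨p, _, rfl⟩ := List.mem_map.1 hy
  simp

variable (X Y : E → V) (par : V → V) (S : List E) (H : List V)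

theorem inv_forest (hS : S.Nodup) (hH : H.Nodup) :
    Inv (ea X) (eb Y par) (elist S H) (forest X Y par S H) :=
  inv_run _ _ _ (elist_nodup hS hH)

theorem comp_par (hS : S.Nodup) (hH : H.Nodup) {p : V} (hp : p ∈ H) :
    (forest X Y par S H).comp p = (forest X Y par S H).comp (par p) :=
  (inv_forest X Y par S H hS hH).closed (Sum.inr p) (by unfold elist; simp [hp])

/-- If the hidden edges reach the root from everywhere, the forest is connected. -/
theorem comp_eq (hS : S.Nodup) (hH : H.Nodup) (root : V)
    (hroot : ∀ p, ∃ m : ℕ, par^[m] p = root) (hHr : ∀ p, p ≠ root → p ∈ H) (p q : V) :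
    (forest X Y par S H).comp p = (forest X Y par S H).comp q := by
  have key : ∀ (m : ℕ) (p : V), par^[m] p = root →
      (forest X Y par S H).comp p = (forest X Y par S H).comp root := by
    intro m
    induction m with
    | zero => intro p hp; rw [Function.iterate_zero, id] at hp; rw [hp]
    | succ m ih =>
      intro p hp
      by_cases h : p = root
      · rw [h]
      · rw [comp_par X Y par S H hS hH (hHr p h)]
        exact ih _ (by rw [Function.iterate_succ_apply] at hp; exact hp)
  obtain ⟨m, hm⟩ := hroot p
  obtain ⟨m', hm'⟩ := hroot q
  rw [key m p hm, key m' q hm']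

variable [Fintype E] [Fintype V]

/-- Boundary of the path vectors of the forest. -/
theorem forest_bd {M : Type*} [AddCommGroup M] (φ : V → M) {p q : V}
    (hpq : (forest X Y par S H).comp p = (forest X Y par S H).comp q) :
    φ p - φ q =
      ∑ k, ((forest X Y par S H).P p (Sum.inl k) - (forest X Y par S H).P q (Sum.inl k))
          • (φ (X k) - φ (Y k)) +
      ∑ r, ((forest X Y par S H).P p (Sum.inr r) - (forest X Y par S H).P q (Sum.inr r))
          • (φ r - φ (par r)) := by
  have h1 := run_bd (ea X) (eb Y par) φ (elist S H) p
  have h2 := run_bd (ea X) (eb Y par) φ (elist S H) q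
  rw [Fintype.sum_sum_type] at h1 h2
  change ∑ k, (forest X Y par S H).P p (Sum.inl k) • (φ (X k) - φ (Y k)) +
    ∑ r, (forest X Y par S H).P p (Sum.inr r) • (φ r - φ (par r)) =
    φ p - φ ((forest X Y par S H).comp p) at h1
  change ∑ k, (forest X Y par S H).P q (Sum.inl k) • (φ (X k) - φ (Y k)) +
    ∑ r, (forest X Y par S H).P q (Sum.inr r) • (φ r - φ (par r)) =
    φ q - φ ((forest X Y par S H).comp q) at h2
  rw [hpq] at h1
  have h3 : φ p - φ q = (φ p - φ ((forest X Y par S H).comp q))
      - (φ q - φ ((forest X Y par S H).comp q)) := by abel
  rw [h3, ← h1, ← h2]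
  simp only [sub_smul, Finset.sum_sub_distrib]
  abel

/-- (R2) the unprocessed cells are in the forest. -/
theorem rep_cell (hS : S.Nodup) (hH : H.Nodup) (hX : Function.Injective X)
    (hXY : ∀ e e', X e ≠ Y e') (v₀ : V) {k : E} (hk : k ∈ S) (j : E) :
    rep X Y par S H v₀ (X k) j - rep X Y par S H v₀ (Y k) j = if j = k then 1 else 0 := by
  obtain ⟨S₁, S₂, rfl⟩ := List.append_of_mem hk
  have hsplit : elist (S₁ ++ k :: S₂) H =
      S₁.map Sum.inl ++ (Sum.inl k : E ⊕ V) :: (S₂.map Sum.inl ++ H.map Sum.inr) := by
    unfold elist; simp
  have hnd := elist_nodup hS hH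
  rw [hsplit] at hnd
  have hkS : k ∉ S₁ := by
    intro hk'
    exact (List.nodup_append.1 hS).2.2 k hk' k (by simp) rfl
  have hcomp : (forest X Y par (S₁ ++ k :: S₂) H).comp (X k)
      = (forest X Y par (S₁ ++ k :: S₂) H).comp (Y k) :=
    (inv_forest X Y par _ H hS hH).closed (Sum.inl k) (by unfold elist; simp)
  rcases run_edge (ea X) (eb Y par) _ _ _ hnd with h | h
  · rw [← hsplit] at h
    have := h (Sum.inl j)
    change (forest X Y par (S₁ ++ k :: S₂) H).P (X k) (Sum.inl j)
      - (forest X Y par (S₁ ++ k :: S₂) H).P (Y k) (Sum.inl j) = _ at this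
    unfold rep
    rw [sub_sub_sub_cancel_right, this]
    simp [Sum.inl_injective.eq_iff]
  · exfalso
    rw [← hsplit] at h
    have h' : ∀ j, (forest X Y par (S₁ ++ k :: S₂) H).P (X k) j
      - (forest X Y par (S₁ ++ k :: S₂) H).P (Y k) j ≠ 0 → j ∈ S₁.map Sum.inl := h
    have hb := forest_bd X Y par (S₁ ++ k :: S₂) H
      (fun v => if v = X k then (1:ℤ) else 0) hcomp
    rw [Finset.sum_eq_zero (s := Finset.univ) (f := fun k' =>
      ((forest X Y par (S₁ ++ k :: S₂) H).P (X k) (Sum.inl k')
        - (forest X Y par (S₁ ++ k :: S₂) H).P (Y k) (Sum.inl k')) •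
          ((if X k' = X k then (1:ℤ) else 0) - if Y k' = X k then (1:ℤ) else 0)) ?_,
      Finset.sum_eq_zero (s := Finset.univ) (f := fun r =>
      ((forest X Y par (S₁ ++ k :: S₂) H).P (X k) (Sum.inr r)
        - (forest X Y par (S₁ ++ k :: S₂) H).P (Y k) (Sum.inr r)) •
          ((if r = X k then (1:ℤ) else 0) - if par r = X k then (1:ℤ) else 0)) ?_] at hb
    · rw [if_pos rfl, if_neg (fun h => hXY k k h.symm)] at hb
      simp at hb
    · intro r _
      by_cases h0 : (forest X Y par (S₁ ++ k :: S₂) H).P (X k) (Sum.inr r)
        - (forest X Y par (S₁ ++ k :: S₂) H).P (Y k) (Sum.inr r) = 0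
      · rw [h0, zero_smul]
      · have := h' _ h0
        simp at this
    · intro k' _
      by_cases h0 : (forest X Y par (S₁ ++ k :: S₂) H).P (X k) (Sum.inl k')
        - (forest X Y par (S₁ ++ k :: S₂) H).P (Y k) (Sum.inl k') = 0
      · rw [h0, zero_smul]
      · have := h' _ h0
        have hk' : k' ∈ S₁ := by simpa using this
        have hne : k' ≠ k := fun h => hkS (h ▸ hk')
        rw [if_neg (fun h => hne (hX h)), if_neg (fun h => hXY k k' h.symm)]
        simp

omit [Fintype E] [Fintype V] in
/-- (R3) the entries of the repair map are `0, ±1`. -/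
theorem rep_cases (hS : S.Nodup) (hH : H.Nodup) {v₀ p : V}
    (h : (forest X Y par S H).comp p = (forest X Y par S H).comp v₀) (j : E) :
    rep X Y par S H v₀ p j = 0 ∨ rep X Y par S H v₀ p j = 1 ∨ rep X Y par S H v₀ p j = -1 :=
  (inv_forest X Y par S H hS hH).cases _ _ h _

omit [Fintype E] [Fintype V] in
/-- (R3') so are their differences inside one component. -/
theorem rep_sub_cases (hS : S.Nodup) (hH : H.Nodup) {v₀ p q : V}
    (h : (forest X Y par S H).comp p = (forest X Y par S H).comp q) (j : E) :
    rep X Y par S H v₀ p j - rep X Y par S H v₀ q j = 0 ∨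
    rep X Y par S H v₀ p j - rep X Y par S H v₀ q j = 1 ∨
    rep X Y par S H v₀ p j - rep X Y par S H v₀ q j = -1 := by
  unfold rep
  rw [sub_sub_sub_cancel_right]
  exact (inv_forest X Y par S H hS hH).cases _ _ h _

omit [Fintype E] [Fintype V] in
/-- (R4) the repair map only uses the unprocessed cells. -/
theorem rep_support (hS : S.Nodup) (hH : H.Nodup) {v₀ p : V} {j : E} (hj : j ∉ S) :
    rep X Y par S H v₀ p j = 0 := by
  have key : ∀ w, (forest X Y par S H).P w (Sum.inl j) = 0 := by
    intro w
    by_contra hne
    have := ((inv_forest X Y par S H hS hH).supp _ _ hne).1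
    unfold elist at this
    simp [hj] at this
  unfold rep
  rw [key, key, sub_zero]

omit [Fintype E] [Fintype V] in
theorem hid_cases (hS : S.Nodup) (hH : H.Nodup) {p : V} (hp : p ∈ H) (q : V) :
    hid X Y par S H p q = 0 ∨ hid X Y par S H p q = 1 ∨ hid X Y par S H p q = -1 :=
  (inv_forest X Y par S H hS hH).cases _ _ (comp_par X Y par S H hS hH hp) _

omit [Fintype E] [Fintype V] in
/-- (R5) the alternative for a hidden edge: either it is in the forest (and then the repair map
does not jump along it), or its hidden part is supported on earlier hidden edges. -/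
theorem rep_edge (H₁ H₂ : List V) (q : V) (hS : S.Nodup) (hH : (H₁ ++ q :: H₂).Nodup) :
    (∀ v₀ j, rep X Y par S (H₁ ++ q :: H₂) v₀ q j = rep X Y par S (H₁ ++ q :: H₂) v₀ (par q) j) ∨
    (∀ r, hid X Y par S (H₁ ++ q :: H₂) q r ≠ 0 → r ∈ H₁) := by
  have hsplit : elist S (H₁ ++ q :: H₂) =
      (S.map Sum.inl ++ H₁.map Sum.inr) ++ (Sum.inr q : E ⊕ V) :: H₂.map Sum.inr := by
    unfold elist; simp
  have hnd := elist_nodup hS hH
  rw [hsplit] at hnd
  rcases run_edge (ea X) (eb Y par) _ _ _ hnd with h | h
  · left
    intro v₀ j
    rw [← hsplit] at h
    have h' : (forest X Y par S (H₁ ++ q :: H₂)).P q (Sum.inl j)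
      - (forest X Y par S (H₁ ++ q :: H₂)).P (par q) (Sum.inl j) = _ := h (Sum.inl j)
    rw [if_neg (by simp)] at h'
    unfold rep
    linarith
  · right
    intro r hr
    rw [← hsplit] at h
    have h' := h (Sum.inr r) hr
    simpa using h'

/-- (R6) Routing: the jump of the repair map along a hidden edge, as boundary identity. -/
theorem rep_bd {M : Type*} [AddCommGroup M] (hS : S.Nodup) (hH : H.Nodup) (φ : V → M)
    {p : V} (hp : p ∈ H) (v₀ : V) :
    φ p - φ (par p) =
      ∑ k, (rep X Y par S H v₀ p k - rep X Y par S H v₀ (par p) k) • (φ (X k) - φ (Y k)) +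
      ∑ r, hid X Y par S H p r • (φ r - φ (par r)) := by
  have h := forest_bd X Y par S H φ (comp_par X Y par S H hS hH hp)
  unfold rep hid
  simp only [sub_sub_sub_cancel_right]
  exact h

/-- A list of all non-root vertices, sorted by slope. -/
theorem exists_sorted (b : V → ℝ) (root : V) :
    ∃ H : List V, H.Nodup ∧ (∀ p, p ∈ H ↔ p ≠ root) ∧ H.Pairwise (fun p q => b p ≤ b q) := by
  classical
  refine ⟨((Finset.univ.filter (fun p => p ≠ root)).toList).insertionSort
    (fun p q => b p ≤ b q), ?_, ?_, ?_⟩
  · exact (List.perm_insertionSort _ _).nodup_iff.2 (Finset.nodup_toList _)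
  · intro p
    rw [List.mem_insertionSort]
    simp
  · exact List.pairwise_insertionSort _ _

/-- **The repair map.**  `X, Y` the two vertices of each cell, `par` a tree with root `root`,
`b` the slopes of the hidden edges `(p, par p)`, `S` the set of unprocessed cells,
`v₀` the base vertex. -/
theorem repair (hX : Function.Injective X) (hXY : ∀ e e', X e ≠ Y e') (root : V)
    (hroot : ∀ p, ∃ m : ℕ, par^[m] p = root) (b : V → ℝ) (T : Finset E) (v₀ : V) :
    ∃ R : V → E → ℤ,
      (∀ j, R v₀ j = 0) ∧
      (∀ k ∈ T, ∀ j, R (X k) j - R (Y k) j = if j = k then 1 else 0) ∧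
      (∀ p j, R p j = 0 ∨ R p j = 1 ∨ R p j = -1) ∧
      (∀ p q j, R p j - R q j = 0 ∨ R p j - R q j = 1 ∨ R p j - R q j = -1) ∧
      (∀ p j, j ∉ T → R p j = 0) ∧
      (∀ p, p ≠ root → (∀ j, R p j = R (par p) j) ∨
        ∃ lam : V → ℤ, (∀ q, lam q = 0 ∨ lam q = 1 ∨ lam q = -1) ∧
          (∀ q, lam q ≠ 0 → q ≠ root ∧ q ≠ p ∧ b q ≤ b p) ∧
          ∀ φ : V → ℝ, φ p - φ (par p) =
            ∑ k, ((R p k - R (par p) k : ℤ) : ℝ) * (φ (X k) - φ (Y k)) +
            ∑ q, (lam q : ℝ) * (φ q - φ (par q))) := by
  classical
  obtain ⟨H, hH, hmem, hsort⟩ := exists_sorted b root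
  have hS : (T.toList).Nodup := Finset.nodup_toList _
  have hc := comp_eq X Y par T.toList H hS hH root hroot (fun p hp => (hmem p).2 hp)
  refine ⟨rep X Y par T.toList H v₀, ?_, ?_, ?_, ?_, ?_, ?_⟩
  · intro j; unfold rep; ring
  · intro k hk j
    exact rep_cell X Y par T.toList H hS hH hX hXY v₀ (Finset.mem_toList.2 hk) j
  · intro p j
    exact rep_cases X Y par T.toList H hS hH (hc _ _) j
  · intro p q j
    exact rep_sub_cases X Y par T.toList H hS hH (hc _ _) j
  · intro p j hj
    exact rep_support X Y par T.toList H hS hH (fun h => hj (Finset.mem_toList.1 h))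
  · intro p hp
    have hpH := (hmem p).2 hp
    obtain ⟨H₁, H₂, hHH⟩ := List.append_of_mem hpH
    have hnd := hH
    rw [hHH] at hnd
    rcases rep_edge X Y par T.toList H₁ H₂ p hS hnd with h | h
    · left
      rw [← hHH] at h
      exact h v₀
    · right
      rw [← hHH] at h
      refine ⟨hid X Y par T.toList H p, hid_cases X Y par T.toList H hS hH hpH, ?_, ?_⟩
      · intro q hq
        have hq1 := h q hq
        have hqH : q ∈ H := by rw [hHH]; simp [hq1]
        refine ⟨(hmem q).1 hqH, ?_, ?_⟩
        · rintro rfl
          exact (List.nodup_append.1 hnd).2.2 q hq1 q (by simp) rfl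
        · rw [hHH, List.pairwise_append] at hsort
          exact hsort.2.2 q hq1 p (by simp)
      · intro φ
        have := rep_bd X Y par T.toList H hS hH φ hpH v₀
        simp only [zsmul_eq_mul] at this
        exact this

/-- The hidden part of the route from `p` to the base vertex `v₀`. -/
def route (X Y : E → V) (par : V → V) (S : List E) (H : List V) (v₀ p q : V) : ℤ :=
  (forest X Y par S H).P p (Sum.inr q) - (forest X Y par S H).P v₀ (Sum.inr q)

omit [Fintype E] [Fintype V] in
theorem route_cases (hS : S.Nodup) (hH : H.Nodup) {v₀ p : V}
    (h : (forest X Y par S H).comp p = (forest X Y par S H).comp v₀) (q : V) :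
    route X Y par S H v₀ p q = 0 ∨ route X Y par S H v₀ p q = 1 ∨
      route X Y par S H v₀ p q = -1 :=
  (inv_forest X Y par S H hS hH).cases _ _ h _

omit [Fintype E] [Fintype V] in
theorem route_support (hS : S.Nodup) (hH : H.Nodup) {v₀ p q : V} (hq : q ∉ H) :
    route X Y par S H v₀ p q = 0 := by
  have key : ∀ w, (forest X Y par S H).P w (Sum.inr q) = 0 := by
    intro w
    by_contra hne
    have := ((inv_forest X Y par S H hS hH).supp _ _ hne).1
    unfold elist at this
    simp [hq] at this
  unfold route
  rw [key, key, sub_zero]

theorem route_bd {M : Type*} [AddCommGroup M] (φ : V → M) {v₀ p : V}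
    (h : (forest X Y par S H).comp p = (forest X Y par S H).comp v₀) :
    φ p - φ v₀ =
      ∑ k, rep X Y par S H v₀ p k • (φ (X k) - φ (Y k)) +
      ∑ r, route X Y par S H v₀ p r • (φ r - φ (par r)) :=
  forest_bd X Y par S H φ h

/-- The route uses at most two star edges at the root. -/
theorem route_root (hS : S.Nodup) (hH : H.Nodup) {v₀ p : V}
    (h : (forest X Y par S H).comp p = (forest X Y par S H).comp v₀) (root : V) :
    ∑ q ∈ Finset.univ.filter (fun q => par q = root), |route X Y par S H v₀ p q| ≤ 2 := by
  have h1 := deg_run_le (ea X) (eb Y par) (elist S H) (elist_nodup hS hH) p v₀ root h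
  refine le_trans ?_ h1
  unfold deg
  rw [Fintype.sum_sum_type]
  have h2 : (0:ℤ) ≤ ∑ k : E, |(run (ea X) (eb Y par) (elist S H)).P p (Sum.inl k)
      - (run (ea X) (eb Y par) (elist S H)).P v₀ (Sum.inl k)| *
      ((if ea (V := V) X (Sum.inl k) = root then 1 else 0)
        + (if eb Y par (Sum.inl k) = root then 1 else 0)) := by
    refine Finset.sum_nonneg (fun j _ => mul_nonneg (abs_nonneg _) ?_)
    split_ifs <;> norm_num
  refine le_trans ?_ (le_add_of_nonneg_left h2)
  rw [Finset.sum_filter]
  refine Finset.sum_le_sum (fun q _ => ?_)
  unfold route forest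
  by_cases hq : par q = root
  · rw [if_pos hq]
    have h3 : eb Y par (Sum.inr q) = root := hq
    rw [if_pos h3]
    have h4 : (0:ℤ) ≤ if ea (V := V) X (Sum.inr q) = root then 1 else 0 := by
      split_ifs <;> norm_num
    nlinarith [abs_nonneg ((run (ea X) (eb Y par) (elist S H)).P p (Sum.inr q)
      - (run (ea X) (eb Y par) (elist S H)).P v₀ (Sum.inr q))]
  · rw [if_neg hq]
    refine mul_nonneg (abs_nonneg _) ?_
    split_ifs <;> norm_num

/-- **The repair map**, with the routes of its values to the base vertex. -/
theorem repair' (hX : Function.Injective X) (hXY : ∀ e e', X e ≠ Y e') (root : V)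
    (hroot : ∀ p, ∃ m : ℕ, par^[m] p = root) (b : V → ℝ) (T : Finset E) (v₀ : V) :
    ∃ R : V → E → ℤ,
      (∀ j, R v₀ j = 0) ∧
      (∀ k ∈ T, ∀ j, R (X k) j - R (Y k) j = if j = k then 1 else 0) ∧
      (∀ p j, R p j = 0 ∨ R p j = 1 ∨ R p j = -1) ∧
      (∀ p q j, R p j - R q j = 0 ∨ R p j - R q j = 1 ∨ R p j - R q j = -1) ∧
      (∀ p j, j ∉ T → R p j = 0) ∧
      (∀ p, p ≠ root → (∀ j, R p j = R (par p) j) ∨
        ∃ lam : V → ℤ, (∀ q, lam q = 0 ∨ lam q = 1 ∨ lam q = -1) ∧
          (∀ q, lam q ≠ 0 → q ≠ root ∧ q ≠ p ∧ b q ≤ b p) ∧
          ∀ φ : V → ℝ, φ p - φ (par p) =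
            ∑ k, ((R p k - R (par p) k : ℤ) : ℝ) * (φ (X k) - φ (Y k)) +
            ∑ q, (lam q : ℝ) * (φ q - φ (par q))) ∧
      (∀ p, ∃ mu : V → ℤ, (∀ q, mu q = 0 ∨ mu q = 1 ∨ mu q = -1) ∧ mu root = 0 ∧
          ∑ q ∈ Finset.univ.filter (fun q => par q = root), |mu q| ≤ 2 ∧
          ∀ φ : V → ℝ, φ p - φ v₀ = ∑ k, (R p k : ℝ) * (φ (X k) - φ (Y k)) +
            ∑ q, (mu q : ℝ) * (φ q - φ (par q))) := by
  classical
  obtain ⟨H, hH, hmem, hsort⟩ := exists_sorted b root
  have hS : (T.toList).Nodup := Finset.nodup_toList _
  have hc := comp_eq X Y par T.toList H hS hH root hroot (fun p hp => (hmem p).2 hp)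
  refine ⟨rep X Y par T.toList H v₀, ?_, ?_, ?_, ?_, ?_, ?_, ?_⟩
  · intro j; unfold rep; ring
  · intro k hk j
    exact rep_cell X Y par T.toList H hS hH hX hXY v₀ (Finset.mem_toList.2 hk) j
  · intro p j
    exact rep_cases X Y par T.toList H hS hH (hc _ _) j
  · intro p q j
    exact rep_sub_cases X Y par T.toList H hS hH (hc _ _) j
  · intro p j hj
    exact rep_support X Y par T.toList H hS hH (fun h => hj (Finset.mem_toList.1 h))
  · intro p hp
    have hpH := (hmem p).2 hp
    obtain ⟨H₁, H₂, hHH⟩ := List.append_of_mem hpH
    have hnd := hH
    rw [hHH] at hnd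
    rcases rep_edge X Y par T.toList H₁ H₂ p hS hnd with h | h
    · left
      rw [← hHH] at h
      exact h v₀
    · right
      rw [← hHH] at h
      refine ⟨hid X Y par T.toList H p, hid_cases X Y par T.toList H hS hH hpH, ?_, ?_⟩
      · intro q hq
        have hq1 := h q hq
        have hqH : q ∈ H := by rw [hHH]; simp [hq1]
        refine ⟨(hmem q).1 hqH, ?_, ?_⟩
        · rintro rfl
          exact (List.nodup_append.1 hnd).2.2 q hq1 q (by simp) rfl
        · rw [hHH, List.pairwise_append] at hsort
          exact hsort.2.2 q hq1 p (by simp)
      · intro φ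
        have := rep_bd X Y par T.toList H hS hH φ hpH v₀
        simp only [zsmul_eq_mul] at this
        exact this
  · intro p
    refine ⟨route X Y par T.toList H v₀ p, route_cases X Y par T.toList H hS hH (hc _ _),
      route_support X Y par T.toList H hS hH (fun h => (hmem root).1 h rfl),
      route_root X Y par T.toList H hS hH (hc _ _) root, ?_⟩
    intro φ
    have := route_bd X Y par T.toList H φ (hc p v₀)
    simp only [zsmul_eq_mul] at this
    exact this

end repair

end Crest.Agent.R302.Repair
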