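import Crest.Agent.R302.Facet907B

/-!
# R302: shifts of the two polymatroids, deep points, slacks relative to a centre

Author: helper907.
-/

set_option autoImplicit false

namespace Crest.Agent.R302.Facet

open Finset

variable {V : Type*} [Fintype V] [DecidableEq V]

/-! ## Slack of a set from exchange capacities -/

/-- If all exchange capacities out of `A` are at most `θ` then the slack of `A` is at most
`n² θ`. -/
theorem slk_le_of_cap {r : Finset V → ℤ} {R : ℤ} {x : V → ℤ} {θ : ℤ} (hr : SubM r R)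
    (hx : MemJ r R x) (hθ : 0 ≤ θ) {A : Finset V} (hA : ∀ a ∈ A, ∀ b ∉ A, cap r x a b ≤ θ) :
    slk r x A ≤ (Fintype.card V : ℤ) ^ 2 * θ := by
  apply slk_closed hr hx hθ
  intro a ha b hab
  by_contra hb
  exact absurd hab.2 (not_lt.2 (hA a ha b hb))

theorem center_slack₁ {r₁ r₂ : Finset V → ℤ} {R : ℤ} (hr₁ : SubM r₁ R) {P : Finset (V → ℤ)}
    (hP : ∀ x, x ∈ P ↔ MemJ r₁ R x ∧ MemJ r₂ R x) {C : ℕ} {c : V → ℤ}
    (hc : IsCenter r₁ r₂ P C c) {x : V → ℤ} (hx : x ∈ P) {θ : ℤ} (hθ : 0 ≤ θ) {A : Finset V}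
    (hA : ∀ a ∈ A, ∀ b ∉ A, cap r₁ c a b ≤ θ) :
    slk r₁ x A ≤ (Fintype.card V : ℤ) ^ 2 * (C * (θ + 1)) := by
  apply slk_le_of_cap hr₁ ((hP x).1 hx).1 (by positivity)
  intro a ha b hb
  have hab : a ≠ b := fun h => hb (h ▸ ha)
  refine (hc a b hab x hx).1.trans ?_
  apply mul_le_mul_of_nonneg_left _ (by positivity)
  linarith [hA a ha b hb]

theorem center_slack₂ {r₁ r₂ : Finset V → ℤ} {R : ℤ} (hr₂ : SubM r₂ R) {P : Finset (V → ℤ)}
    (hP : ∀ x, x ∈ P ↔ MemJ r₁ R x ∧ MemJ r₂ R x) {C : ℕ} {c : V → ℤ}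
    (hc : IsCenter r₁ r₂ P C c) {x : V → ℤ} (hx : x ∈ P) {θ : ℤ} (hθ : 0 ≤ θ) {A : Finset V}
    (hA : ∀ a ∈ A, ∀ b ∉ A, cap r₂ c a b ≤ θ) :
    slk r₂ x A ≤ (Fintype.card V : ℤ) ^ 2 * (C * (θ + 1)) := by
  apply slk_le_of_cap hr₂ ((hP x).1 hx).2 (by positivity)
  intro a ha b hb
  have hab : a ≠ b := fun h => hb (h ▸ ha)
  refine (hc a b hab x hx).2.trans ?_
  apply mul_le_mul_of_nonneg_left _ (by positivity)
  linarith [hA a ha b hb]

omit [Fintype V] [DecidableEq V] in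
theorem sum_sub_eq_slk {r : Finset V → ℤ} (x c : V → ℤ) (A : Finset V) :
    ∑ a ∈ A, x a - ∑ a ∈ A, c a = slk r c A - slk r x A := by
  unfold slk; ring

/-- Block sums of points of `P` relative to a centre (side 1). -/
theorem center_diff₁ {r₁ r₂ : Finset V → ℤ} {R : ℤ} (hr₁ : SubM r₁ R) {P : Finset (V → ℤ)}
    (hP : ∀ x, x ∈ P ↔ MemJ r₁ R x ∧ MemJ r₂ R x) {C : ℕ} (hC : 1 ≤ C) {c : V → ℤ} (hcP : c ∈ P)
    (hc : IsCenter r₁ r₂ P C c) {x : V → ℤ} (hx : x ∈ P) {θ : ℤ} (hθ : 0 ≤ θ) {A : Finset V}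
    (hA : ∀ a ∈ A, ∀ b ∉ A, cap r₁ c a b ≤ θ) :
    |∑ a ∈ A, x a - ∑ a ∈ A, c a| ≤ (Fintype.card V : ℤ) ^ 2 * (C * (θ + 1)) := by
  have h1 := center_slack₁ hr₁ hP hc hx hθ hA
  have h2 := slk_le_of_cap hr₁ ((hP c).1 hcP).1 hθ hA
  have h3 := slk_nonneg ((hP x).1 hx).1 A
  have h4 := slk_nonneg ((hP c).1 hcP).1 A
  have h5 : (Fintype.card V : ℤ) ^ 2 * θ ≤ (Fintype.card V : ℤ) ^ 2 * (C * (θ + 1)) := by
    apply mul_le_mul_of_nonneg_left _ (by positivity)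
    have : (1 : ℤ) ≤ C := by exact_mod_cast hC
    nlinarith
  rw [sum_sub_eq_slk (r := r₁), abs_le]
  constructor <;> linarith

/-- Block sums of points of `P` relative to a centre (side 2). -/
theorem center_diff₂ {r₁ r₂ : Finset V → ℤ} {R : ℤ} (hr₂ : SubM r₂ R) {P : Finset (V → ℤ)}
    (hP : ∀ x, x ∈ P ↔ MemJ r₁ R x ∧ MemJ r₂ R x) {C : ℕ} (hC : 1 ≤ C) {c : V → ℤ} (hcP : c ∈ P)
    (hc : IsCenter r₁ r₂ P C c) {x : V → ℤ} (hx : x ∈ P) {θ : ℤ} (hθ : 0 ≤ θ) {A : Finset V}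
    (hA : ∀ a ∈ A, ∀ b ∉ A, cap r₂ c a b ≤ θ) :
    |∑ a ∈ A, x a - ∑ a ∈ A, c a| ≤ (Fintype.card V : ℤ) ^ 2 * (C * (θ + 1)) := by
  have h1 := center_slack₂ hr₂ hP hc hx hθ hA
  have h2 := slk_le_of_cap hr₂ ((hP c).1 hcP).2 hθ hA
  have h3 := slk_nonneg ((hP x).1 hx).2 A
  have h4 := slk_nonneg ((hP c).1 hcP).2 A
  have h5 : (Fintype.card V : ℤ) ^ 2 * θ ≤ (Fintype.card V : ℤ) ^ 2 * (C * (θ + 1)) := by
    apply mul_le_mul_of_nonneg_left _ (by positivity)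
    have : (1 : ℤ) ≤ C := by exact_mod_cast hC
    nlinarith
  rw [sum_sub_eq_slk (r := r₂), abs_le]
  constructor <;> linarith

/-! ## Shifts along exchange edges -/

/-- the shift `∑_{p ∈ T} t p (e_{p.1} - e_{p.2})` -/
def shift (T : Finset (V × V)) (t : V × V → ℤ) : V → ℤ :=
  fun v => ∑ p ∈ T, t p * (ev p.1 v - ev p.2 v)

omit [Fintype V] in
theorem sum_shift (T : Finset (V × V)) (t : V × V → ℤ) (A : Finset V) :
    ∑ v ∈ A, shift T t v = ∑ p ∈ T, t p * ((if p.1 ∈ A then 1 else 0) - (if p.2 ∈ A then 1 else 0)) := by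
  unfold shift
  rw [sum_comm]
  apply sum_congr rfl
  intro p _
  rw [← mul_sum, sum_sub_distrib, sum_ev, sum_ev]

theorem sum_shift_univ (T : Finset (V × V)) (t : V × V → ℤ) : ∑ v, shift T t v = 0 := by
  rw [sum_shift]; simp

/-- A deep point stays inside under a shift that is small on every edge. -/
theorem memJ_shift {r : Finset V → ℤ} {R : ℤ} {x : V → ℤ} (hx : MemJ r R x)
    (T : Finset (V × V)) (t : V × V → ℤ) (K : ℕ) (hTK : T.card ≤ K)
    (ht : ∀ p ∈ T, K * |t p| ≤ cap r x p.1 p.2 ∧ K * |t p| ≤ cap r x p.2 p.1) :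
    MemJ r R (fun v => x v + shift T t v) := by
  refine ⟨fun A => ?_, by rw [sum_add_distrib, hx.2, sum_shift_univ, add_zero]⟩
  rw [sum_add_distrib, sum_shift]
  have hs := slk_nonneg hx A
  have hterm : ∀ p ∈ T, K * (t p * ((if p.1 ∈ A then 1 else 0) - (if p.2 ∈ A then 1 else 0)))
      ≤ slk r x A := by
    intro p hp
    obtain ⟨h1, h2⟩ := ht p hp
    have h3 := le_abs_self (t p)
    have h4 := neg_abs_le (t p)
    have hK : (0 : ℤ) ≤ K := by positivity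
    by_cases ha : p.1 ∈ A <;> by_cases hb : p.2 ∈ A
    · simp only [ha, hb, if_true, sub_self, mul_zero]; exact hs
    · simp only [ha, hb, if_true, if_false, sub_zero, mul_one]
      have := cap_le (r := r) (x := x) ha hb
      nlinarith
    · simp only [ha, hb, if_true, if_false, zero_sub]
      have := cap_le (r := r) (x := x) hb ha
      nlinarith
    · simp only [ha, hb, if_false, sub_self, mul_zero]; exact hs
  rcases Nat.eq_zero_or_pos K with hK0 | hKpos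
  · have : T = ∅ := card_eq_zero.1 (by omega)
    subst this
    simpa using hx.1 A
  · have hsum : (K : ℤ) * ∑ p ∈ T, t p * ((if p.1 ∈ A then 1 else 0) - (if p.2 ∈ A then 1 else 0))
        ≤ K * slk r x A := by
      rw [mul_sum]
      calc _ ≤ ∑ _p ∈ T, slk r x A := sum_le_sum hterm
        _ = T.card * slk r x A := by simp
        _ ≤ K * slk r x A := by
            apply mul_le_mul_of_nonneg_right _ hs
            exact_mod_cast hTK
    have hKpos' : (0 : ℤ) < K := by exact_mod_cast hKpos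
    have := le_of_mul_le_mul_left hsum hKpos'
    unfold slk at this
    linarith

/-- the list of unit relaxations needed for the shift `t` -/
noncomputable def shiftList (T : Finset (V × V)) (t : V × V → ℤ) : List (V × V) :=
  T.toList.flatMap (fun p => List.replicate (t p).toNat p ++ List.replicate (-t p).toNat p.swap)

omit [Fintype V] [DecidableEq V] in
theorem sum_flatMap {α β : Type*} (l : List α) (f : α → List β) (w : β → ℝ) :
    ((l.flatMap f).map w).sum = (l.map (fun a => ((f a).map w).sum)).sum := by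
  induction l with
  | nil => simp
  | cons a l ih => simp [List.flatMap_cons, ih]

omit [Fintype V] [DecidableEq V] in
theorem sum_flatMap_int {α β : Type*} (l : List α) (f : α → List β) (w : β → ℤ) :
    ((l.flatMap f).map w).sum = (l.map (fun a => ((f a).map w).sum)).sum := by
  induction l with
  | nil => simp
  | cons a l ih => simp [List.flatMap_cons, ih]

/-- If `x - shift` is in the polytope of `r` then `x` is in the relaxed polytope. -/
theorem memJ_shiftList {r : Finset V → ℤ} {R : ℤ} {x : V → ℤ} (T : Finset (V × V))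
    (t : V × V → ℤ) (hx : MemJ r R (fun v => x v - shift T t v)) :
    MemJ (relaxL r (shiftList T t)) R x := by
  refine ⟨fun A => ?_, ?_⟩
  · have h1 := hx.1 A
    rw [sum_sub_distrib, sum_shift] at h1
    rw [relaxL_eq, shiftList, sum_flatMap_int]
    have h2 : ∑ p ∈ T, t p * ((if p.1 ∈ A then 1 else 0) - (if p.2 ∈ A then 1 else 0)) ≤
        (T.toList.map (fun p => ((List.replicate (t p).toNat p ++
          List.replicate (-t p).toNat p.swap).map
            (fun p => if p.1 ∈ A ∧ p.2 ∉ A then (1 : ℤ) else 0)).sum)).sum := by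
      rw [← sum_map_toList]
      apply List.sum_le_sum
      intro p _
      rw [List.map_append, List.sum_append, List.map_replicate, List.map_replicate,
        List.sum_replicate, List.sum_replicate]
      simp only [Prod.fst_swap, Prod.snd_swap, nsmul_eq_mul]
      have h3 : ((t p).toNat : ℤ) = max (t p) 0 := Int.toNat_eq_max _
      have h4 : ((-t p).toNat : ℤ) = max (-t p) 0 := Int.toNat_eq_max _
      rw [h3, h4]
      have h5 := le_max_left (t p) 0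
      have h6 := le_max_right (t p) 0
      have h7 := le_max_left (-t p) 0
      have h8 := le_max_right (-t p) 0
      by_cases ha : p.1 ∈ A <;> by_cases hb : p.2 ∈ A <;> simp [ha, hb]
    linarith
  · have h1 := hx.2
    rw [sum_sub_distrib, sum_shift_univ, sub_zero] at h1
    exact h1

/-- **Number of points in the intersection of two shifted polytopes.** -/
theorem shift_count_e {r₁ r₂ : Finset V → ℤ} {R : ℤ} (hr₁ : SubM r₁ R) (hr₂ : SubM r₂ R)
    (P : Finset (V → ℤ)) (hP : ∀ x, x ∈ P ↔ MemJ r₁ R x ∧ MemJ r₂ R x) {c : V → ℝ} {e : ℝ}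
    (he : 0 ≤ e)
    (hc₁ : ∀ A, ∑ a ∈ A, c a ≤ (r₁ A : ℝ) + e) (hc₂ : ∀ A, ∑ a ∈ A, c a ≤ (r₂ A : ℝ) + e)
    (hcR : ∑ a, c a = R) (T₁ T₂ : Finset (V × V)) (m₁ m₂ : V × V → ℕ)
    (h₁ : ∀ p ∈ T₁, p.1 ≠ p.2 ∧ 4 * kap (Fintype.card V) ≤ m₁ p ∧
      ∀ A, (p.1 ∈ A ∧ p.2 ∉ A ∨ p.2 ∈ A ∧ p.1 ∉ A) →
        (m₁ p : ℝ) + (4 * (Fintype.card V : ℝ) + 1) * e ≤ r₁ A - ∑ a ∈ A, c a)
    (h₂ : ∀ p ∈ T₂, p.1 ≠ p.2 ∧ 4 * kap (Fintype.card V) ≤ m₂ p ∧
      ∀ A, (p.1 ∈ A ∧ p.2 ∉ A ∨ p.2 ∈ A ∧ p.1 ∉ A) →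
        (m₂ p : ℝ) + (4 * (Fintype.card V : ℝ) + 1) * e ≤ r₂ A - ∑ a ∈ A, c a)
    (t₁ t₂ : V × V → ℤ) (Q : Finset (V → ℤ))
    (hQ : ∀ x ∈ Q, MemJ r₁ R (fun v => x v - shift T₁ t₁ v) ∧
      MemJ r₂ R (fun v => x v - shift T₂ t₂ v)) :
    (Q.card : ℝ) ≤ Real.exp (∑ p ∈ T₁, 4 * (kap (Fintype.card V) : ℝ) / m₁ p * |(t₁ p : ℝ)| +
      ∑ p ∈ T₂, 4 * (kap (Fintype.card V) : ℝ) / m₂ p * |(t₂ p : ℝ)|) * P.card := by
  classical
  set κ := kap (Fintype.card V) with hκ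
  -- symmetric extension of the capacities to swapped pairs
  obtain ⟨P', hP'⟩ := exists_finset (r₁ := relaxL r₁ (shiftList T₁ t₁))
    (r₂ := relaxL r₂ (shiftList T₂ t₂)) (R := R) (relaxL_subM hr₁ _)
  have hsub : Q ⊆ P' := by
    intro x hx
    rw [hP']
    exact ⟨memJ_shiftList T₁ t₁ (hQ x hx).1, memJ_shiftList T₂ t₂ (hQ x hx).2⟩
  -- capacities for list entries: best available value
  let M : Finset (V × V) → (V × V → ℕ) → (V × V → ℕ) := fun T m q =>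
    if q ∈ T then (if q.swap ∈ T then max (m q) (m q.swap) else m q) else m q.swap
  have hM : ∀ (r : Finset V → ℤ) (T : Finset (V × V)) (m : V × V → ℕ) (t : V × V → ℤ),
      (∀ p ∈ T, p.1 ≠ p.2 ∧ 4 * κ ≤ m p ∧
        ∀ A, (p.1 ∈ A ∧ p.2 ∉ A ∨ p.2 ∈ A ∧ p.1 ∉ A) →
          (m p : ℝ) + (4 * (Fintype.card V : ℝ) + 1) * e ≤ r A - ∑ a ∈ A, c a) →
      (∀ q ∈ shiftList T t, q.1 ≠ q.2 ∧ 4 * κ ≤ M T m q ∧
        ∀ A, q.1 ∈ A → q.2 ∉ A →
          (M T m q : ℝ) + (4 * (Fintype.card V : ℝ) + 1) * e ≤ r A - ∑ a ∈ A, c a) ∧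
      (∀ p ∈ T, m p ≤ M T m p ∧ m p ≤ M T m p.swap) := by
    intro r T m t hT
    have hq : ∀ q, (q ∈ T ∨ q.swap ∈ T) → q.1 ≠ q.2 ∧ 4 * κ ≤ M T m q ∧
        ∀ A, q.1 ∈ A → q.2 ∉ A →
          (M T m q : ℝ) + (4 * (Fintype.card V : ℝ) + 1) * e ≤ r A - ∑ a ∈ A, c a := by
      intro q hq
      by_cases h1 : q ∈ T
      · obtain ⟨e1, e2, e3⟩ := hT q h1
        by_cases h2 : q.swap ∈ T
        · obtain ⟨e1', e2', e3'⟩ := hT q.swap h2
          refine ⟨e1, ?_, ?_⟩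
          · simp only [M, h1, h2, if_true]
            exact e2.trans (le_max_left _ _)
          · intro A hA1 hA2
            simp only [M, h1, h2, if_true]
            push_cast
            have g1 := e3 A (Or.inl ⟨hA1, hA2⟩)
            have g2 := e3' A (Or.inr ⟨hA1, hA2⟩)
            rw [← le_sub_iff_add_le] at g1 g2 ⊢
            exact max_le g1 g2
        · refine ⟨e1, ?_, ?_⟩
          · simp only [M, h1, h2, if_true, if_false]; exact e2
          · intro A hA1 hA2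
            simp only [M, h1, h2, if_true, if_false]
            exact e3 A (Or.inl ⟨hA1, hA2⟩)
      · have h2 : q.swap ∈ T := hq.resolve_left h1
        obtain ⟨e1', e2', e3'⟩ := hT q.swap h2
        refine ⟨fun h => e1' (by simp [h]), ?_, ?_⟩
        · simp only [M, h1, if_false]; exact e2'
        · intro A hA1 hA2
          simp only [M, h1, if_false]
          exact e3' A (Or.inr ⟨hA1, hA2⟩)
    constructor
    · intro q hqL
      apply hq
      rw [shiftList, List.mem_flatMap] at hqL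
      obtain ⟨p, hp, hqp⟩ := hqL
      rw [mem_toList] at hp
      rw [List.mem_append, List.mem_replicate, List.mem_replicate] at hqp
      rcases hqp with ⟨_, rfl⟩ | ⟨_, rfl⟩
      · exact Or.inl hp
      · exact Or.inr (by simpa using hp)
    · intro p hp
      constructor
      · simp only [M, hp, if_true]
        split_ifs
        · exact le_max_left _ _
        · exact le_rfl
      · simp only [M, Prod.swap_swap, hp, if_true]
        split_ifs
        · exact le_max_right _ _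
        · exact le_rfl
  obtain ⟨hA₁, hB₁⟩ := hM r₁ T₁ m₁ t₁ h₁
  obtain ⟨hA₂, hB₂⟩ := hM r₂ T₂ m₂ t₂ h₂
  have h3 := growth_iter_e hr₁ hr₂ P hP he hc₁ hc₂ hcR (M T₁ m₁) (M T₂ m₂) (shiftList T₁ t₁)
    (shiftList T₂ t₂) hA₁ hA₂ P' hP'
  have hbound : ∀ (T : Finset (V × V)) (m : V × V → ℕ) (t : V × V → ℤ),
      (∀ p ∈ T, 4 * κ ≤ m p) → (∀ p ∈ T, p.1 ≠ p.2) →
      (∀ p ∈ T, m p ≤ M T m p ∧ m p ≤ M T m p.swap) →
      ((shiftList T t).map (fun p => 4 * (κ : ℝ) / M T m p)).sum ≤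
        ∑ p ∈ T, 4 * (κ : ℝ) / m p * |(t p : ℝ)| := by
    intro T m t hm hne hmM
    rw [shiftList, sum_flatMap, ← sum_map_toList]
    apply List.sum_le_sum
    intro p hp
    rw [mem_toList] at hp
    rw [List.map_append, List.sum_append, List.map_replicate, List.map_replicate,
      List.sum_replicate, List.sum_replicate, nsmul_eq_mul, nsmul_eq_mul]
    have hκ0 : 0 < κ := kap_pos (Fintype.card_pos_iff.2 ⟨p.1⟩)
    have hmpos : (0 : ℝ) < m p := by
      have : 0 < m p := lt_of_lt_of_le (by omega) (hm p hp)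
      exact_mod_cast this
    have h4 : 4 * (κ : ℝ) / M T m p ≤ 4 * κ / m p := by
      apply div_le_div_of_nonneg_left (by positivity) hmpos
      exact_mod_cast (hmM p hp).1
    have h5 : 4 * (κ : ℝ) / M T m p.swap ≤ 4 * κ / m p := by
      apply div_le_div_of_nonneg_left (by positivity) hmpos
      exact_mod_cast (hmM p hp).2
    have h6 : (((t p).toNat : ℕ) : ℝ) + (((-t p).toNat : ℕ) : ℝ) = |(t p : ℝ)| := by
      have : (((t p).toNat : ℕ) : ℤ) + (((-t p).toNat : ℕ) : ℤ) = |t p| := by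
        rcases le_total 0 (t p) with h | h
        · rw [abs_of_nonneg h]; omega
        · rw [abs_of_nonpos h]; omega
      exact_mod_cast this
    calc _ ≤ ((t p).toNat : ℝ) * (4 * κ / m p) + ((-t p).toNat : ℝ) * (4 * κ / m p) := by
          apply add_le_add
          · exact mul_le_mul_of_nonneg_left h4 (by positivity)
          · exact mul_le_mul_of_nonneg_left h5 (by positivity)
      _ = 4 * κ / m p * |(t p : ℝ)| := by rw [← h6]; ring
  have h4 := hbound T₁ m₁ t₁ (fun p hp => (h₁ p hp).2.1) (fun p hp => (h₁ p hp).1) hB₁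
  have h5 := hbound T₂ m₂ t₂ (fun p hp => (h₂ p hp).2.1) (fun p hp => (h₂ p hp).1) hB₂
  have h6 : (Q.card : ℝ) ≤ P'.card := by exact_mod_cast card_le_card hsub
  refine h6.trans (h3.trans ?_)
  apply mul_le_mul_of_nonneg_right _ (by positivity)
  exact Real.exp_le_exp.2 (add_le_add h4 h5)

/-- **Number of points in the intersection of two shifted polytopes.** -/
theorem shift_count {r₁ r₂ : Finset V → ℤ} {R : ℤ} (hr₁ : SubM r₁ R) (hr₂ : SubM r₂ R)
    (P : Finset (V → ℤ)) (hP : ∀ x, x ∈ P ↔ MemJ r₁ R x ∧ MemJ r₂ R x) {c : V → ℝ}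
    (hc₁ : ∀ A, ∑ a ∈ A, c a ≤ (r₁ A : ℝ)) (hc₂ : ∀ A, ∑ a ∈ A, c a ≤ (r₂ A : ℝ))
    (hcR : ∑ a, c a = R) (T₁ T₂ : Finset (V × V)) (m₁ m₂ : V × V → ℕ)
    (h₁ : ∀ p ∈ T₁, p.1 ≠ p.2 ∧ 4 * kap (Fintype.card V) ≤ m₁ p ∧
      ∀ A, (p.1 ∈ A ∧ p.2 ∉ A ∨ p.2 ∈ A ∧ p.1 ∉ A) → (m₁ p : ℝ) ≤ r₁ A - ∑ a ∈ A, c a)
    (h₂ : ∀ p ∈ T₂, p.1 ≠ p.2 ∧ 4 * kap (Fintype.card V) ≤ m₂ p ∧
      ∀ A, (p.1 ∈ A ∧ p.2 ∉ A ∨ p.2 ∈ A ∧ p.1 ∉ A) → (m₂ p : ℝ) ≤ r₂ A - ∑ a ∈ A, c a)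
    (t₁ t₂ : V × V → ℤ) (Q : Finset (V → ℤ))
    (hQ : ∀ x ∈ Q, MemJ r₁ R (fun v => x v - shift T₁ t₁ v) ∧
      MemJ r₂ R (fun v => x v - shift T₂ t₂ v)) :
    (Q.card : ℝ) ≤ Real.exp (∑ p ∈ T₁, 4 * (kap (Fintype.card V) : ℝ) / m₁ p * |(t₁ p : ℝ)| +
      ∑ p ∈ T₂, 4 * (kap (Fintype.card V) : ℝ) / m₂ p * |(t₂ p : ℝ)|) * P.card :=
  shift_count_e hr₁ hr₂ P hP le_rfl (fun A => by simpa using hc₁ A)
    (fun A => by simpa using hc₂ A) hcR T₁ T₂ m₁ m₂
    (fun p hp => ⟨(h₁ p hp).1, (h₁ p hp).2.1, fun A a1 => by simpa using (h₁ p hp).2.2 A a1⟩)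
    (fun p hp => ⟨(h₂ p hp).1, (h₂ p hp).2.1, fun A a1 => by simpa using (h₂ p hp).2.2 A a1⟩)
    t₁ t₂ Q hQ

end Crest.Agent.R302.Facet
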