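/-
R302 (helper725): the nearest-earlier-neighbour tree of the exchange capacities at a centre,
and the block sums of its descendant sets.
-/
import Crest.Agent.R302.Soft907
import Crest.Agent.R302.Tree550

set_option autoImplicit false

namespace Crest.Agent.R302.TreeNN

open Finset Crest.Agent.R302.Facet

/-! ### Unions of closed classes -/

section closed

variable {V : Type*} [Fintype V] [DecidableEq V]

/-- Let `k` be a directed "capacity" with the directed ultrametric inequality.  If every set with
all outgoing capacities `≤ θ` has `|y|`-sum at most `B`, then every set `A` such that for each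
pair across the boundary one of the two capacities is `≤ θ` has `|y|`-sum at most `2 |A| B`. -/
theorem abs_sum_le_of_closed (k : V → V → ℤ)
    (htri : ∀ a b d, a ≠ d → min (k a b) (k b d) ≤ k a d) (θ : ℤ) (y : V → ℤ) (B : ℤ)
    (hcl : ∀ D : Finset V, (∀ a ∈ D, ∀ b ∉ D, k a b ≤ θ) → |∑ v ∈ D, y v| ≤ B) :
    ∀ (N : ℕ) (A : Finset V), A.card ≤ N → (∀ a ∈ A, ∀ b ∉ A, k a b ≤ θ ∨ k b a ≤ θ) →
      |∑ v ∈ A, y v| ≤ N * (2 * B) := by
  have hB : 0 ≤ B := (abs_nonneg _).trans (hcl ∅ (by simp))
  intro N
  induction N with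
  | zero =>
    intro A hA _
    have : A = ∅ := by rw [← Finset.card_eq_zero]; omega
    subst this
    simp
  | succ N ih =>
    intro A hA hbd
    by_cases hne : A = ∅
    · subst hne
      simp only [Finset.sum_empty, abs_zero]
      positivity
    obtain ⟨a, ha⟩ := Finset.nonempty_iff_ne_empty.2 hne
    -- the closure of `a`, its class and the rest
    set D : Finset V := univ.filter (fun b => b = a ∨ θ < k a b) with hD
    set K : Finset V := univ.filter (fun b => b = a ∨ (θ < k a b ∧ θ < k b a)) with hK
    have hDcl : ∀ p ∈ D, ∀ q ∉ D, k p q ≤ θ := by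
      intro p hp q hq
      by_contra hlt
      push Not at hlt
      rw [hD, Finset.mem_filter] at hp hq
      apply hq
      refine ⟨Finset.mem_univ _, ?_⟩
      by_cases hqa : q = a
      · exact Or.inl hqa
      · right
        rcases hp.2 with rfl | hp2
        · exact hlt
        · exact lt_of_lt_of_le (lt_min hp2 hlt) (htri a p q (fun h => hqa h.symm))
    have hKD : K ⊆ D := by
      intro b hb
      rw [hK, Finset.mem_filter] at hb
      rw [hD, Finset.mem_filter]
      exact ⟨Finset.mem_univ _, hb.2.imp_right And.left⟩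
    have hUcl : ∀ p ∈ D \ K, ∀ q ∉ D \ K, k p q ≤ θ := by
      intro p hp q hq
      rw [Finset.mem_sdiff] at hp hq
      by_cases hqD : q ∈ D
      · have hqK : q ∈ K := by
          by_contra h; exact hq ⟨hqD, h⟩
        by_contra hlt
        push Not at hlt
        rw [hK, Finset.mem_filter] at hqK
        have hp1 := hp.1
        rw [hD, Finset.mem_filter] at hp1
        apply hp.2
        rw [hK, Finset.mem_filter]
        refine ⟨Finset.mem_univ _, ?_⟩
        rcases hp1.2 with h | h
        · exact Or.inl h
        · by_cases hpa : p = a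
          · exact Or.inl hpa
          · refine Or.inr ⟨h, ?_⟩
            rcases hqK.2 with h2 | h2
            · rw [← h2]; exact hlt
            · exact lt_of_lt_of_le (lt_min hlt h2.2) (htri p q a hpa)
      · exact hDcl p hp.1 q hqD
    have hKA : K ⊆ A := by
      intro b hb
      rw [hK, Finset.mem_filter] at hb
      rcases hb.2 with rfl | ⟨h1, h2⟩
      · exact ha
      · by_contra hbA
        rcases hbd a ha b hbA with h | h <;> omega
    have haK : a ∈ K := by rw [hK, Finset.mem_filter]; exact ⟨Finset.mem_univ _, Or.inl rfl⟩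
    have hcard : (A \ K).card ≤ N := by
      have h1 : (A \ K).card < A.card := Finset.card_lt_card
        ⟨Finset.sdiff_subset, fun h => (Finset.mem_sdiff.1 (h ha)).2 haK⟩
      omega
    have hbd' : ∀ p ∈ A \ K, ∀ q ∉ A \ K, k p q ≤ θ ∨ k q p ≤ θ := by
      intro p hp q hq
      rw [Finset.mem_sdiff] at hp hq
      by_cases hqA : q ∈ A
      · have hqK : q ∈ K := by
          by_contra h; exact hq ⟨hqA, h⟩
        by_contra hno
        push Not at hno
        apply hp.2
        rw [hK, Finset.mem_filter] at hqK ⊢
        refine ⟨Finset.mem_univ _, ?_⟩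
        by_cases hpa : p = a
        · exact Or.inl hpa
        · right
          rcases hqK.2 with h2 | ⟨h2, h3⟩
          · rw [← h2]; exact ⟨hno.2, hno.1⟩
          · exact ⟨lt_of_lt_of_le (lt_min h2 hno.2) (htri a q p (fun h => hpa h.symm)),
              lt_of_lt_of_le (lt_min hno.1 h3) (htri p q a hpa)⟩
      · exact hbd p hp.1 q hqA
    have h1 := ih (A \ K) hcard hbd'
    have h2 : ∑ v ∈ A, y v = ∑ v ∈ A \ K, y v + (∑ v ∈ D, y v - ∑ v ∈ D \ K, y v) := by
      have e1 := Finset.sum_sdiff hKA (f := y)
      have e2 := Finset.sum_sdiff hKD (f := y)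
      linarith
    have h3 := hcl D hDcl
    have h4 := hcl (D \ K) hUcl
    rw [h2]
    push_cast
    calc |∑ v ∈ A \ K, y v + (∑ v ∈ D, y v - ∑ v ∈ D \ K, y v)|
        ≤ |∑ v ∈ A \ K, y v| + |∑ v ∈ D, y v - ∑ v ∈ D \ K, y v| := abs_add_le _ _
      _ ≤ |∑ v ∈ A \ K, y v| + (|∑ v ∈ D, y v| + |∑ v ∈ D \ K, y v|) := by
          have := abs_sub (∑ v ∈ D, y v) (∑ v ∈ D \ K, y v)
          linarith
      _ ≤ N * (2 * B) + (B + B) := by linarith
      _ = (N + 1) * (2 * B) := by ring

/-- The directed ultrametric inequality of the exchange capacities. -/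
theorem cap_tri {r : Finset V → ℤ} {x : V → ℤ} (a b d : V) (had : a ≠ d) :
    min (cap r x a b) (cap r x b d) ≤ cap r x a d := by
  obtain ⟨S, h1, h2, h3⟩ := exists_cap (r := r) (x := x) had
  rw [← h3]
  by_cases hb : b ∈ S
  · exact (min_le_right _ _).trans (cap_le hb h2)
  · exact (min_le_left _ _).trans (cap_le h1 hb)

/-- **Block sums (side 1)**: if for each pair across the boundary of `A` one of the two exchange
capacities at the centre is at most `θ`, then the `A`-sums of all points of `P` are close to that
of the centre. -/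
theorem block_diff₁ {r₁ r₂ : Finset V → ℤ} {R : ℤ} (hr₁ : SubM r₁ R) {P : Finset (V → ℤ)}
    (hP : ∀ x, x ∈ P ↔ MemJ r₁ R x ∧ MemJ r₂ R x) {C : ℕ} (hC : 1 ≤ C) {c : V → ℤ} (hcP : c ∈ P)
    (hc : IsCenter r₁ r₂ P C c) {x : V → ℤ} (hx : x ∈ P) {θ : ℤ} (hθ : 0 ≤ θ) {A : Finset V}
    (hA : ∀ a ∈ A, ∀ b ∉ A, min (cap r₁ c a b) (cap r₁ c b a) ≤ θ) :
    |∑ a ∈ A, x a - ∑ a ∈ A, c a| ≤ 2 * (Fintype.card V : ℤ) ^ 3 * (C * (θ + 1)) := by
  have h := abs_sum_le_of_closed (cap r₁ c) (fun a b d h => cap_tri a b d h) θ
    (fun v => x v - c v) ((Fintype.card V : ℤ) ^ 2 * (C * (θ + 1))) (fun D hD => by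
      rw [Finset.sum_sub_distrib]
      exact center_diff₁ hr₁ hP hC hcP hc hx hθ hD) (Fintype.card V) A (Finset.card_le_univ A)
    (fun a ha b hb => min_le_iff.1 (hA a ha b hb))
  rw [Finset.sum_sub_distrib] at h
  calc _ ≤ _ := h
    _ = _ := by ring

/-- **Block sums (side 2)**. -/
theorem block_diff₂ {r₁ r₂ : Finset V → ℤ} {R : ℤ} (hr₂ : SubM r₂ R) {P : Finset (V → ℤ)}
    (hP : ∀ x, x ∈ P ↔ MemJ r₁ R x ∧ MemJ r₂ R x) {C : ℕ} (hC : 1 ≤ C) {c : V → ℤ} (hcP : c ∈ P)
    (hc : IsCenter r₁ r₂ P C c) {x : V → ℤ} (hx : x ∈ P) {θ : ℤ} (hθ : 0 ≤ θ) {A : Finset V}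
    (hA : ∀ a ∈ A, ∀ b ∉ A, min (cap r₂ c a b) (cap r₂ c b a) ≤ θ) :
    |∑ a ∈ A, x a - ∑ a ∈ A, c a| ≤ 2 * (Fintype.card V : ℤ) ^ 3 * (C * (θ + 1)) := by
  have h := abs_sum_le_of_closed (cap r₂ c) (fun a b d h => cap_tri a b d h) θ
    (fun v => x v - c v) ((Fintype.card V : ℤ) ^ 2 * (C * (θ + 1))) (fun D hD => by
      rw [Finset.sum_sub_distrib]
      exact center_diff₂ hr₂ hP hC hcP hc hx hθ hD) (Fintype.card V) A (Finset.card_le_univ A)
    (fun a ha b hb => min_le_iff.1 (hA a ha b hb))
  rw [Finset.sum_sub_distrib] at h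
  calc _ ≤ _ := h
    _ = _ := by ring

end closed

/-! ### The nearest-earlier-neighbour tree of an ultrametric -/

section tree

variable {V : Type*} [LinearOrder V]

/-- `par` is a nearest-earlier-neighbour map for `m`, cut at the threshold `w₁`:
`par a = some b` with `b < a` maximising `m a b` if this maximum is `≥ w₁`, else `none`. -/
structure NN (m : V → V → ℤ) (w₁ : ℤ) (par : V → Option V) : Prop where
  none_lt : ∀ a, par a = none → ∀ b, b < a → m a b < w₁
  lt : ∀ a b, par a = some b → b < a
  ge : ∀ a b, par a = some b → w₁ ≤ m a b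
  max : ∀ a b, par a = some b → ∀ b', b' < a → m a b' ≤ m a b

/-- Descendants for an `Option`-valued parent map. -/
inductive D (par : V → Option V) (p : V) : V → Prop
  | refl : D par p p
  | step (q b : V) (hq : par q = some b) (h : D par p b) : D par p q

theorem D.le {m : V → V → ℤ} {w₁ : ℤ} {par : V → Option V} (h : NN m w₁ par) {p q : V}
    (hd : D par p q) : p ≤ q := by
  induction hd with
  | refl => exact le_rfl
  | step q b hq _ ih => exact ih.trans (h.lt q b hq).le

/-- The weight of the link above `p`, or `w₁` if `p` is a root. -/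
def wt (m : V → V → ℤ) (w₁ : ℤ) (par : V → Option V) (p : V) : ℤ :=
  match par p with
  | none => w₁
  | some b => m p b

theorem wt_none {m : V → V → ℤ} {w₁ : ℤ} {par : V → Option V} {p : V} (h : par p = none) :
    wt m w₁ par p = w₁ := by unfold wt; rw [h]

theorem wt_some {m : V → V → ℤ} {w₁ : ℤ} {par : V → Option V} {p b : V} (h : par p = some b) :
    wt m w₁ par p = m p b := by unfold wt; rw [h]

theorem wt_ge {m : V → V → ℤ} {w₁ : ℤ} {par : V → Option V} (h : NN m w₁ par) (p : V) :
    w₁ ≤ wt m w₁ par p := by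
  cases hp : par p with
  | none => rw [wt_none hp]
  | some b => rw [wt_some hp]; exact h.ge p b hp

/-- **Cut property** of the nearest-earlier-neighbour tree: every pair across the boundary of the
descendants of `p` has `m`-value at most the weight of the link above `p`. -/
theorem NN.cut [WellFoundedLT V] {m : V → V → ℤ} {w₁ : ℤ} {par : V → Option V} (h : NN m w₁ par)
    (hsym : ∀ a b, m a b = m b a) (hult : ∀ a b d, a ≠ d → min (m a b) (m b d) ≤ m a d)
    (p : V) : ∀ a b, D par p a → ¬ D par p b → m a b ≤ wt m w₁ par p := by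
  have key : ∀ c : V, ∀ a b, Max.max a b = c → D par p a → ¬ D par p b →
      m a b ≤ wt m w₁ par p := by
    intro c
    induction c using WellFoundedLT.induction with
    | _ c ih =>
      intro a b hab ha hb
      have hne : a ≠ b := by rintro rfl; exact hb ha
      rcases lt_or_gt_of_ne hne with hlt | hgt
      · -- `a < b`
        have hc : c = b := by rw [← hab]; exact max_eq_right hlt.le
        cases hp : par b with
        | none =>
          have := h.none_lt b hp a hlt
          rw [hsym]
          exact this.le.trans (wt_ge h p)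
        | some b' =>
          have hb' : ¬ D par p b' := fun hd => hb (D.step b b' hp hd)
          have h1 : m a b ≤ m b b' := by rw [hsym]; exact h.max b b' hp a hlt
          have hab' : a ≠ b' := by rintro rfl; exact hb' ha
          have h2 := hult a b b' hab'
          rw [min_eq_left h1] at h2
          have h3 : Max.max a b' < c := by
            rw [hc]; exact max_lt hlt (h.lt b b' hp)
          exact h2.trans (ih _ h3 a b' rfl ha hb')
      · -- `b < a`
        have hc : c = a := by rw [← hab]; exact max_eq_left hgt.le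
        by_cases hap : a = p
        · subst hap
          cases hp : par a with
          | none => rw [wt_none hp]; exact (h.none_lt a hp b hgt).le
          | some b' => rw [wt_some hp]; exact h.max a b' hp b hgt
        · cases ha with
          | refl => exact absurd rfl hap
          | step _ a' hq hd =>
            have hab' : a' ≠ b := by rintro rfl; exact hb hd
            have h1 : m a b ≤ m a a' := h.max a a' hq b hgt
            have h2 := hult a' a b hab'
            rw [hsym a' a, min_eq_right h1] at h2
            have h3 : Max.max a' b < c := by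
              rw [hc]; exact max_lt (h.lt a a' hq) hgt
            exact h2.trans (ih _ h3 a' b rfl hd hb)
  intro a b ha hb
  exact key _ a b rfl ha hb

/-- One step of the search for the nearest earlier neighbour of `a`. -/
def upd (m : V → V → ℤ) (w₁ : ℤ) (a : V) (o : Option V) (b : V) : Option V :=
  if b < a then
    match o with
    | none => if w₁ ≤ m a b then some b else none
    | some b' => if m a b' < m a b then some b else some b'
  else o

/-- The nearest earlier neighbour of `a` among the elements of the list `l` (computable). -/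
def best (m : V → V → ℤ) (w₁ : ℤ) (l : List V) (a : V) : Option V :=
  l.foldl (upd m w₁ a) none

theorem best_append (m : V → V → ℤ) (w₁ : ℤ) (l : List V) (a b : V) :
    best m w₁ (l ++ [b]) a = upd m w₁ a (best m w₁ l a) b := by
  unfold best; rw [List.foldl_append]; rfl

theorem best_spec (m : V → V → ℤ) (w₁ : ℤ) (l : List V) (a : V) :
    (best m w₁ l a = none → ∀ b ∈ l, b < a → m a b < w₁) ∧
    (∀ b, best m w₁ l a = some b → b < a ∧ w₁ ≤ m a b ∧ ∀ b' ∈ l, b' < a → m a b' ≤ m a b) := by
  induction l using List.reverseRecOn with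
  | nil => simp [best]
  | append_singleton l q ih =>
    rw [best_append]
    obtain ⟨ih1, ih2⟩ := ih
    unfold upd
    by_cases hq : q < a
    · rw [if_pos hq]
      cases ho : best m w₁ l a with
      | none =>
        have h1 := ih1 ho
        dsimp only
        by_cases hw : w₁ ≤ m a q
        · rw [if_pos hw]
          refine ⟨fun h => by simp at h, ?_⟩
          intro b hb
          have hb' : q = b := by simpa using hb
          subst hb'
          refine ⟨hq, hw, ?_⟩
          intro b' hb' hlt
          rcases List.mem_append.1 hb' with h | h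
          · exact (h1 b' h hlt).le.trans hw
          · rw [List.mem_singleton.1 h]
        · rw [if_neg hw]
          refine ⟨?_, fun b hb => by simp at hb⟩
          intro _ b hb hlt
          rcases List.mem_append.1 hb with h | h
          · exact h1 b h hlt
          · rw [List.mem_singleton.1 h]; exact not_le.1 hw
      | some b₀ =>
        obtain ⟨h1, h2, h3⟩ := ih2 b₀ ho
        dsimp only
        by_cases hw : m a b₀ < m a q
        · rw [if_pos hw]
          refine ⟨fun h => by simp at h, ?_⟩
          intro b hb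
          have hb' : q = b := by simpa using hb
          subst hb'
          refine ⟨hq, h2.trans hw.le, ?_⟩
          intro b' hb' hlt
          rcases List.mem_append.1 hb' with h | h
          · exact (h3 b' h hlt).trans hw.le
          · rw [List.mem_singleton.1 h]
        · rw [if_neg hw]
          refine ⟨fun h => by simp at h, ?_⟩
          intro b hb
          have hb' : b₀ = b := by simpa using hb
          subst hb'
          refine ⟨h1, h2, ?_⟩
          intro b' hb' hlt
          rcases List.mem_append.1 hb' with h | h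
          · exact h3 b' h hlt
          · rw [List.mem_singleton.1 h]; exact not_lt.1 hw
    · rw [if_neg hq]
      refine ⟨?_, ?_⟩
      · intro h b hb hlt
        rcases List.mem_append.1 hb with h' | h'
        · exact ih1 h b h' hlt
        · rw [List.mem_singleton.1 h'] at hlt; exact absurd hlt hq
      · intro b hb
        obtain ⟨h1, h2, h3⟩ := ih2 b hb
        refine ⟨h1, h2, ?_⟩
        intro b' hb' hlt
        rcases List.mem_append.1 hb' with h' | h'
        · exact h3 b' h' hlt
        · rw [List.mem_singleton.1 h'] at hlt; exact absurd hlt hq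

/-- The computable map is a nearest-earlier-neighbour map. -/
theorem nn_best (m : V → V → ℤ) (w₁ : ℤ) (l : List V) (hl : ∀ a, a ∈ l) :
    NN m w₁ (best m w₁ l) where
  none_lt a h b hb := (best_spec m w₁ l a).1 h b (hl b) hb
  lt a b h := ((best_spec m w₁ l a).2 b h).1
  ge a b h := ((best_spec m w₁ l a).2 b h).2.1
  max a b h b' hb' := ((best_spec m w₁ l a).2 b h).2.2 b' (hl b') hb'

end tree

/-! ### Connection with `RTree` -/

section rtree

open Crest.Agent.R302.Tree

variable {V W : Type*}

/-- `T` contains the forest `par` through `ι`: links go to `ι (par a)` or to the root, and nothing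
else hangs below the image of `ι`. -/
structure Emb (T : RTree W) (ι : V → W) (par : V → Option V) : Prop where
  inj : Function.Injective ι
  ne_root : ∀ a, ι a ≠ T.root
  par_some : ∀ a b, par a = some b → T.par (ι a) = ι b
  par_none : ∀ a, par a = none → T.par (ι a) = T.root
  child : ∀ w a, w ≠ T.root → T.par w = ι a → ∃ b, w = ι b

theorem Emb.desc_iff {T : RTree W} {ι : V → W} {par : V → Option V} (h : Emb T ι par) (p : V)
    (w : W) : T.Desc (ι p) w ↔ ∃ q, w = ι q ∧ D par p q := by
  constructor
  · intro hd
    induction hd with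
    | refl => exact ⟨p, rfl, D.refl⟩
    | step w hw _ ih =>
      obtain ⟨q, hq, hd⟩ := ih
      obtain ⟨b, rfl⟩ := h.child w q hw hq
      refine ⟨b, rfl, ?_⟩
      cases hp : par b with
      | none => exact absurd ((h.par_none b hp).symm.trans hq) (Ne.symm (h.ne_root q))
      | some b' =>
        have : b' = q := h.inj ((h.par_some b b' hp).symm.trans hq)
        subst this
        exact D.step b b' hp hd
  · rintro ⟨q, rfl, hd⟩
    induction hd with
    | refl => exact RTree.Desc.refl
    | step q b hq _ ih =>
      refine RTree.Desc.step (ι q) (h.ne_root q) ?_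
      rw [h.par_some q b hq]; exact ih

/-- The sum over the `T`-descendants of `ι p` is the sum over the forest descendants of `p`. -/
theorem Emb.cut_sum [Fintype V] [Fintype W] {T : RTree W} {ι : V → W}
    {par : V → Option V} (h : Emb T ι par) (p : V) [DecidablePred (fun q => D par p q)]
    {M : Type*} [AddCommMonoid M] (φ : W → M) :
    ∑ w ∈ T.desc (ι p), φ w = ∑ q ∈ univ.filter (fun q => D par p q), φ (ι q) := by
  classical
  have e : T.desc (ι p) = (univ.filter (fun q => D par p q)).map ⟨ι, h.inj⟩ := by
    ext w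
    rw [RTree.mem_desc, h.desc_iff, Finset.mem_map]
    simp only [Finset.mem_filter, Finset.mem_univ, true_and, Function.Embedding.coeFn_mk]
    constructor
    · rintro ⟨q, rfl, hd⟩; exact ⟨q, hd, rfl⟩
    · rintro ⟨q, hd, rfl⟩; exact ⟨q, rfl, hd⟩
  rw [e, Finset.sum_map]
  rfl

end rtree

/-! ### The tree of a centre -/

section centre

variable {V : Type*} [Fintype V] [LinearOrder V]

/-- The symmetrised exchange capacity. -/
noncomputable def mcap (r : Finset V → ℤ) (c : V → ℤ) (a b : V) : ℤ :=
  min (cap r c a b) (cap r c b a)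

theorem mcap_symm (r : Finset V → ℤ) (c : V → ℤ) (a b : V) : mcap r c a b = mcap r c b a :=
  min_comm _ _

theorem mcap_ult (r : Finset V → ℤ) (c : V → ℤ) (a b d : V) (had : a ≠ d) :
    min (mcap r c a b) (mcap r c b d) ≤ mcap r c a d := by
  unfold mcap
  refine le_min ?_ ?_
  · refine le_trans ?_ (cap_tri (r := r) (x := c) a b d had)
    exact le_min ((min_le_left _ _).trans (min_le_left _ _))
      ((min_le_right _ _).trans (min_le_left _ _))
  · refine le_trans ?_ (cap_tri (r := r) (x := c) d b a (Ne.symm had))
    exact le_min ((min_le_right _ _).trans (min_le_right _ _))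
      ((min_le_left _ _).trans (min_le_right _ _))

/-- Every set separating `a` and `b` (either way) has slack at least `mcap a b`. -/
theorem mcap_le_slk {r : Finset V → ℤ} {c : V → ℤ} {a b : V} {A : Finset V}
    (h : (a ∈ A ∧ b ∉ A) ∨ (b ∈ A ∧ a ∉ A)) : mcap r c a b ≤ slk r c A := by
  rcases h with h | h
  · exact (min_le_left _ _).trans (cap_le h.1 h.2)
  · exact (min_le_right _ _).trans (cap_le h.1 h.2)

/-- **Block sums of the tree (side 1).** -/
theorem tree_diff₁ {r₁ r₂ : Finset V → ℤ} {R : ℤ} (hr₁ : SubM r₁ R) {P : Finset (V → ℤ)}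
    (hP : ∀ x, x ∈ P ↔ MemJ r₁ R x ∧ MemJ r₂ R x) {C : ℕ} (hC : 1 ≤ C) {c : V → ℤ} (hcP : c ∈ P)
    (hc : IsCenter r₁ r₂ P C c) {w₁ : ℤ} (hw : 0 ≤ w₁) {par : V → Option V}
    (hpar : NN (mcap r₁ c) w₁ par) {x : V → ℤ} (hx : x ∈ P) (p : V)
    [DecidablePred (fun q => D par p q)] :
    |∑ q ∈ univ.filter (fun q => D par p q), x q - ∑ q ∈ univ.filter (fun q => D par p q), c q|
      ≤ 2 * (Fintype.card V : ℤ) ^ 3 * (C * (wt (mcap r₁ c) w₁ par p + 1)) := by
  refine block_diff₁ hr₁ hP hC hcP hc hx (hw.trans (wt_ge hpar p)) ?_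
  intro a ha b hb
  rw [Finset.mem_filter] at ha hb
  exact hpar.cut (mcap_symm r₁ c) (mcap_ult r₁ c) p a b ha.2 (fun h => hb ⟨Finset.mem_univ _, h⟩)

/-- **Block sums of the tree (side 2).** -/
theorem tree_diff₂ {r₁ r₂ : Finset V → ℤ} {R : ℤ} (hr₂ : SubM r₂ R) {P : Finset (V → ℤ)}
    (hP : ∀ x, x ∈ P ↔ MemJ r₁ R x ∧ MemJ r₂ R x) {C : ℕ} (hC : 1 ≤ C) {c : V → ℤ} (hcP : c ∈ P)
    (hc : IsCenter r₁ r₂ P C c) {w₁ : ℤ} (hw : 0 ≤ w₁) {par : V → Option V}
    (hpar : NN (mcap r₂ c) w₁ par) {x : V → ℤ} (hx : x ∈ P) (p : V)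
    [DecidablePred (fun q => D par p q)] :
    |∑ q ∈ univ.filter (fun q => D par p q), x q - ∑ q ∈ univ.filter (fun q => D par p q), c q|
      ≤ 2 * (Fintype.card V : ℤ) ^ 3 * (C * (wt (mcap r₂ c) w₁ par p + 1)) := by
  refine block_diff₂ hr₂ hP hC hcP hc hx (hw.trans (wt_ge hpar p)) ?_
  intro a ha b hb
  rw [Finset.mem_filter] at ha hb
  exact hpar.cut (mcap_symm r₂ c) (mcap_ult r₂ c) p a b ha.2 (fun h => hb ⟨Finset.mem_univ _, h⟩)

end centre

end Crest.Agent.R302.TreeNN
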