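/-
R302 (helper725): the geometry program on lists: Kruskal forest with path vectors.
Nodes are natural numbers: `X_a = a`, `Y_a = n + a`, hub `= 2n`.
-/
import Crest.Agent.R309.PTSolve
import Crest.Agent.Lib.PT.ListFns2
import Crest.Agent.Lib.PT.ArithMore
import Crest.Agent.Lib.PT.ArithInt
import Crest.Agent.R302.Repair725
import Crest.Agent.R302.TreeNN725

set_option autoImplicit false

namespace Crest.Agent.R302.GeoProg

open Crest.Agent.R302.Repair

/-! ### Naturality of the Kruskal run -/

theorem run_map {V ι V' ι' : Type*} [DecidableEq V] [DecidableEq ι] [DecidableEq V']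
    [DecidableEq ι'] (code : V → V') (hcode : Function.Injective code) (κ : ι → ι')
    (hκ : Function.Injective κ) (a b : ι → V) (a' b' : ι' → V')
    (ha : ∀ j, a' (κ j) = code (a j)) (hb : ∀ j, b' (κ j) = code (b j)) (L : List ι) :
    (∀ v, (run a' b' (L.map κ)).comp (code v) = code ((run a b L).comp v)) ∧
    (∀ v j, (run a' b' (L.map κ)).P (code v) (κ j) = (run a b L).P v j) := by
  induction L using List.reverseRecOn with
  | nil => simp [run_nil, init]
  | append_singleton L q ih =>
    obtain ⟨h1, h2⟩ := ih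
    rw [List.map_append, List.map_singleton, run_append, run_append]
    have hq : ((run a' b' (L.map κ)).comp (a' (κ q)) = (run a' b' (L.map κ)).comp (b' (κ q))) ↔
        (run a b L).comp (a q) = (run a b L).comp (b q) := by
      rw [ha, hb, h1, h1, hcode.eq_iff]
    unfold step
    by_cases hc : (run a b L).comp (a q) = (run a b L).comp (b q)
    · rw [if_pos hc, if_pos (hq.2 hc)]
      exact ⟨h1, h2⟩
    · rw [if_neg hc, if_neg (fun h => hc (hq.1 h))]
      dsimp only
      constructor
      · intro v
        rw [ha, hb, h1, h1, h1]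
        by_cases hv : (run a b L).comp v = (run a b L).comp (a q)
        · rw [if_pos hv, if_pos (by rw [hv])]
        · rw [if_neg hv, if_neg (fun h => hv (hcode h))]
      · intro v j
        rw [ha, hb, h1, h1, h2, h2, h2]
        by_cases hv : (run a b L).comp v = (run a b L).comp (a q)
        · rw [if_pos hv, if_pos (by rw [hv])]
          by_cases hj : j = q
          · rw [if_pos hj, if_pos (by rw [hj])]
          · rw [if_neg hj, if_neg (fun h => hj (hκ h))]
        · rw [if_neg hv, if_neg (fun h => hv (hcode h))]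

/-! ### The run on lists -/

/-- clamp to `[-1, 1]` -/
def clamp (z : ℤ) : ℤ := max (-1) (min 1 z)

theorem clamp_eq {z : ℤ} (h : z = 0 ∨ z = 1 ∨ z = -1) : clamp z = z := by
  rcases h with h | h | h <;> subst h <;> rfl

theorem clamp_natAbs (z : ℤ) : (clamp z).natAbs ≤ 1 := by
  unfold clamp; omega

/-- One step of the list-coded Kruskal run; a label is `(a, b, k)`: its two ends and its real
coordinate (`k ≥ n` for a hidden edge). -/
def kstep (N n : ℕ) (st : List ℕ × List (List ℤ)) (q : ℕ × ℕ × ℕ) : List ℕ × List (List ℤ) :=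
  if st.1.getD q.1 0 = st.1.getD q.2.1 0 then st else
  ((List.range N).map (fun w => min N
      (if st.1.getD w 0 = st.1.getD q.1 0 then st.1.getD q.2.1 0 else st.1.getD w 0)),
   (List.range N).map (fun w => (List.range n).map (fun j => clamp
      (if st.1.getD w 0 = st.1.getD q.1 0 then
        (st.2.getD w []).getD j 0 - (st.2.getD q.1 []).getD j 0 + (if j = q.2.2 then 1 else 0)
          + (st.2.getD q.2.1 []).getD j 0
      else (st.2.getD w []).getD j 0))))

/-- the initial state -/
def kinit (N n : ℕ) : List ℕ × List (List ℤ) :=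
  (List.range N, (List.range N).map (fun _ => (List.range n).map (fun _ => (0:ℤ))))

/-- the list-coded run -/
def krun (N n : ℕ) (L : List (ℕ × ℕ × ℕ)) : List ℕ × List (List ℤ) :=
  L.foldl (kstep N n) (kinit N n)

theorem getD_map_range {α : Type*} (N : ℕ) (f : ℕ → α) (d : α) {w : ℕ} (hw : w < N) :
    ((List.range N).map f).getD w d = f w := by
  rw [List.getD_eq_getElem?_getD, List.getElem?_map, List.getElem?_range hw]
  rfl

/-- The list state represents the abstract state on `V = ℕ`, labels `ℕ ⊕ ℕ`. -/
structure Rep (N n : ℕ) (st : List ℕ × List (List ℤ)) (S : St ℕ (ℕ ⊕ ℕ)) : Prop where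
  comp : ∀ w, w < N → st.1.getD w 0 = S.comp w
  lt : ∀ w, w < N → S.comp w < N
  pot : ∀ w, w < N → ∀ j, j < n → (st.2.getD w []).getD j 0 = S.P w (Sum.inl j)

/-- code of a label -/
def tri (n : ℕ) (par : ℕ → ℕ) : ℕ ⊕ ℕ → ℕ × ℕ × ℕ
  | Sum.inl k => (k, n + k, k)
  | Sum.inr p => (p, par p, n)

/-- first cell vertex / second cell vertex -/
def cX : ℕ → ℕ := fun k => k
def cY (n : ℕ) : ℕ → ℕ := fun k => n + k

theorem tri_fst (n : ℕ) (par : ℕ → ℕ) (q : ℕ ⊕ ℕ) : (tri n par q).1 = ea cX q := by
  cases q <;> rfl

theorem tri_snd (n : ℕ) (par : ℕ → ℕ) (q : ℕ ⊕ ℕ) : (tri n par q).2.1 = eb (cY n) par q := by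
  cases q <;> rfl

theorem tri_idx (n : ℕ) (par : ℕ → ℕ) (q : ℕ ⊕ ℕ) {j : ℕ} (hj : j < n) :
    (j = (tri n par q).2.2) ↔ (Sum.inl j = q) := by
  cases q with
  | inl k => simp [tri]
  | inr p => simp only [tri]; constructor
             · intro h; omega
             · intro h; simp at h

theorem rep_init (N n : ℕ) : Rep N n (kinit N n) (init : St ℕ (ℕ ⊕ ℕ)) := by
  constructor
  · intro w hw
    have := getD_map_range N (fun w => w) 0 hw
    simpa [kinit, init] using this
  · intro w hw; exact hw
  · intro w hw j hj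
    unfold kinit
    dsimp only
    rw [getD_map_range N _ _ hw, getD_map_range n _ _ hj]
    rfl

theorem rep_step {N n : ℕ} {par : ℕ → ℕ} {st : List ℕ × List (List ℤ)} {S : St ℕ (ℕ ⊕ ℕ)}
    (h : Rep N n st S) {q : ℕ ⊕ ℕ} (ha : ea cX q < N) (hb : eb (cY n) par q < N)
    (hinv : ∀ w j, (step (ea cX) (eb (cY n) par) S q).P w j = 0 ∨
      (step (ea cX) (eb (cY n) par) S q).P w j = 1 ∨
      (step (ea cX) (eb (cY n) par) S q).P w j = -1) :
    Rep N n (kstep N n st (tri n par q)) (step (ea cX) (eb (cY n) par) S q) := by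
  unfold kstep
  rw [tri_fst, tri_snd, h.comp _ ha, h.comp _ hb]
  unfold step at hinv ⊢
  by_cases hc : S.comp (ea cX q) = S.comp (eb (cY n) par q)
  · rw [if_pos hc, if_pos hc]; exact h
  · rw [if_neg hc] at hinv
    rw [if_neg hc, if_neg hc]
    dsimp only at hinv
    constructor
    · intro w hw
      dsimp only
      rw [getD_map_range N _ _ hw, h.comp _ hw]
      apply min_eq_right
      split_ifs
      · exact (h.lt _ hb).le
      · exact (h.lt _ hw).le
    · intro w hw
      dsimp only
      split_ifs
      · exact h.lt _ hb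
      · exact h.lt _ hw
    · intro w hw j hj
      dsimp only
      rw [getD_map_range N _ _ hw, getD_map_range n _ _ hj, h.comp _ hw, h.pot _ ha _ hj,
        h.pot _ hb _ hj, h.pot _ hw _ hj]
      have e : (if j = (tri n par q).2.2 then (1:ℤ) else 0) =
          (if (Sum.inl j : ℕ ⊕ ℕ) = q then 1 else 0) := by
        by_cases h1 : j = (tri n par q).2.2
        · rw [if_pos h1, if_pos ((tri_idx n par q hj).1 h1)]
        · rw [if_neg h1, if_neg (fun h2 => h1 ((tri_idx n par q hj).2 h2))]
      rw [e]
      exact clamp_eq (hinv w (Sum.inl j))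

theorem P_cases {V ι : Type*} [DecidableEq V] [DecidableEq ι] {a b : ι → V} {L : List ι}
    {st : St V ι} (h : Inv a b L st) (w : V) (j : ι) :
    st.P w j = 0 ∨ st.P w j = 1 ∨ st.P w j = -1 := by
  have := h.cases w (st.comp w) (h.rep w).symm j
  rw [h.P0 w j, sub_zero] at this
  exact this

/-- **Correctness of the list-coded run.** -/
theorem rep_run {N n : ℕ} {par : ℕ → ℕ} (L : List (ℕ ⊕ ℕ)) (hL : L.Nodup)
    (ha : ∀ q ∈ L, ea cX q < N) (hb : ∀ q ∈ L, eb (cY n) par q < N) :
    Rep N n (krun N n (L.map (tri n par))) (run (ea cX) (eb (cY n) par) L) := by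
  induction L using List.reverseRecOn with
  | nil => exact rep_init N n
  | append_singleton L q ih =>
    have h1 := ih hL.of_append_left (fun q' hq' => ha q' (by simp [hq']))
      (fun q' hq' => hb q' (by simp [hq']))
    have h2 : krun N n ((L ++ [q]).map (tri n par)) =
        kstep N n (krun N n (L.map (tri n par))) (tri n par q) := by
      unfold krun
      rw [List.map_append, List.foldl_append]
      rfl
    rw [h2, run_append]
    refine rep_step h1 (ha q (by simp)) (hb q (by simp)) ?_
    intro w j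
    have h3 := inv_run (ea cX) (eb (cY n) par) (L ++ [q]) hL
    rw [run_append] at h3
    exact P_cases h3 w j

/-! ### Polynomial time -/

open Crest.Agent.Lib.PT Crest.Agent.R309.PTX Crest.Agent.Lib.PT.Arith

section ptf

variable {γ : Type} [PTCode γ]

theorem ptf_clamp {f : γ → ℤ} (hf : PTF f) : PTF (fun c => clamp (f c)) := by
  unfold clamp
  pt_solve

theorem sz_clamp (z : ℤ) : sz (clamp z) ≤ 4 := by
  rw [sz_int]
  have := Nat.size_le_size (clamp_natAbs z)
  simp at this
  omega

/-- size bound of the states of the run -/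
def kB (N n : ℕ) : ℕ := 2 * (N * (2 * N + 1)) + 1 + N * (2 * (n * 9) + 1)

theorem sz_kpair (N n : ℕ) (f : ℕ → ℕ) (g : ℕ → ℕ → ℤ) (hf : ∀ w, w < N → f w ≤ N)
    (hg : ∀ w j, sz (g w j) ≤ 4) :
    sz ((List.range N).map f, (List.range N).map (fun w => (List.range n).map (g w)))
      ≤ kB N n := by
  rw [sz_prod]
  dsimp only
  have h1 : sz ((List.range N).map f) ≤ N * (2 * N + 1) := by
    have := sz_list_le (l := (List.range N).map f) (m := N) (by
      intro a ha
      obtain ⟨w, hw, rfl⟩ := List.mem_map.1 ha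
      exact (sz_nat_le _).trans (hf w (List.mem_range.1 hw)))
    simpa using this
  have h2 : sz ((List.range N).map (fun w => (List.range n).map (g w))) ≤ N * (2 * (n * 9) + 1) := by
    have := sz_list_le (l := (List.range N).map (fun w => (List.range n).map (g w)))
      (m := n * 9) (by
      intro a ha
      obtain ⟨w, _, rfl⟩ := List.mem_map.1 ha
      have := sz_list_le (l := (List.range n).map (g w)) (m := 4) (by
        intro b hb
        obtain ⟨j, _, rfl⟩ := List.mem_map.1 hb
        exact hg w j)
      simpa using this)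
    simpa using this
  unfold kB
  omega

theorem ptf_kstep {N n : γ → ℕ} (hN : PTU N) (hn : PTU n) :
    PTF (fun p : γ × (List ℕ × List (List ℤ)) × (ℕ × ℕ × ℕ) =>
      kstep (N p.1) (n p.1) p.2.1 p.2.2) := by
  unfold kstep clamp
  pt_solve

theorem ptf_kinit {N n : γ → ℕ} (hN : PTU N) (hn : PTU n) :
    PTF (fun c => kinit (N c) (n c)) := by
  unfold kinit
  pt_solve

theorem ptf_krun {N n : γ → ℕ} {L : γ → List (ℕ × ℕ × ℕ)} (hN : PTU N) (hn : PTU n)
    (hL : PTF L) : PTF (fun c => krun (N c) (n c) (L c)) := by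
  unfold krun
  refine PTF.foldl_bdd hL (ptf_kstep hN hn) (ptf_kinit hN hn)
    (G := fun c => kB (N c) (n c)) ?_ ?_ ?_
  · unfold kB
    have h1 := hN.pb
    have h2 := hn.pb
    fun_prop
  · intro c b q _ hb
    unfold kstep
    split_ifs
    · exact hb
    · exact sz_kpair _ _ _ _ (fun w _ => min_le_left _ _) (fun w j => sz_clamp _)
  · intro c
    unfold kinit
    have h := sz_kpair (N c) (n c) (fun w => w) (fun _ _ => 0) (fun w hw => hw.le)
      (fun _ _ => by rw [sz_int]; simp)
    rw [List.map_id'] at h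
    exact h

end ptf

end Crest.Agent.R302.GeoProg
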