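/-
R302 (helper725): the geometry program on lists, part B: parents, keys, sorted hidden edges,
stage potentials and the list of moves.
-/
import Crest.Agent.R302.GeoProg725

set_option autoImplicit false

namespace Crest.Agent.R302.GeoProg

open Crest.Agent.R302.Repair Crest.Agent.R302.TreeNN
open Crest.Agent.Lib.PT Crest.Agent.R309.PTX Crest.Agent.Lib.PT.Arith

/-! ### Nearest earlier neighbours on lists -/

/-- list version of `TreeNN.upd`; `n` codes `none` -/
def updL (row : List ℤ) (w₁ : ℤ) (a n : ℕ) (o b : ℕ) : ℕ :=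
  if b < a then
    (if o = n then (if w₁ ≤ row.getD b 0 then b else n)
     else if row.getD o 0 < row.getD b 0 then b else o)
  else o

/-- nearest earlier neighbour of `a` (or `n`) -/
def parL1 (n : ℕ) (w₁ : ℤ) (M : List (List ℤ)) (a : ℕ) : ℕ :=
  (List.range n).foldl (updL (M.getD a []) w₁ a n) n

/-- the parent list -/
def parL (n : ℕ) (w₁ : ℤ) (M : List (List ℤ)) : List ℕ :=
  (List.range n).map (parL1 n w₁ M)

/-- code of an optional element of `Fin n` -/
def ocode {n : ℕ} : Option (Fin n) → ℕ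
  | none => n
  | some b => b

theorem ocode_eq_n {n : ℕ} (o : Option (Fin n)) : ocode o = n ↔ o = none := by
  cases o with
  | none => simp [ocode]
  | some b => simp only [ocode]; constructor
              · intro h; have := b.2; omega
              · intro h; simp at h

theorem updL_eq {n : ℕ} {M : List (List ℤ)} {m : Fin n → Fin n → ℤ}
    (hM : ∀ a b : Fin n, (M.getD a []).getD b 0 = m a b) (w₁ : ℤ) (a : Fin n)
    (o : Option (Fin n)) (b : Fin n) :
    updL (M.getD a []) w₁ a n (ocode o) b = ocode (upd m w₁ a o b) := by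
  unfold updL upd
  by_cases h1 : b < a
  · rw [if_pos h1, if_pos (show (b:ℕ) < a from h1)]
    cases o with
    | none =>
      rw [if_pos (by simp [ocode])]
      dsimp only
      rw [hM a b]
      split_ifs <;> rfl
    | some b' =>
      have h2 : ¬ ocode (some b') = n := by
        rw [ocode_eq_n]; simp
      rw [if_neg h2]
      have h3 : (M.getD a []).getD (ocode (some b')) 0 = m a b' := hM a b'
      by_cases h4 : m a b' < m a b
      · rw [if_pos (by rw [h3, hM a b]; exact h4)]
        dsimp only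
        rw [if_pos h4]; rfl
      · rw [if_neg (by rw [h3, hM a b]; exact h4)]
        dsimp only
        rw [if_neg h4]
  · rw [if_neg h1, if_neg (show ¬ (b:ℕ) < a from h1)]

theorem parL1_eq {n : ℕ} {M : List (List ℤ)} {m : Fin n → Fin n → ℤ}
    (hM : ∀ a b : Fin n, (M.getD a []).getD b 0 = m a b) (w₁ : ℤ) (a : Fin n) :
    parL1 n w₁ M a = ocode (best m w₁ (List.finRange n) a) := by
  unfold parL1 best
  have key : ∀ (l : List (Fin n)) (o : Option (Fin n)),
      (l.map (fun b : Fin n => (b : ℕ))).foldl (updL (M.getD a []) w₁ a n) (ocode o) =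
        ocode (l.foldl (upd m w₁ a) o) := by
    intro l
    induction l with
    | nil => intro o; rfl
    | cons b l ih =>
      intro o
      rw [List.map_cons, List.foldl_cons, List.foldl_cons, updL_eq hM w₁ a o b]
      exact ih _
  have h := key (List.finRange n) none
  rw [← h]
  congr 1
  exact List.map_coe_finRange_eq_range.symm

theorem parL_getD {n : ℕ} {M : List (List ℤ)} {m : Fin n → Fin n → ℤ}
    (hM : ∀ a b : Fin n, (M.getD a []).getD b 0 = m a b) (w₁ : ℤ) (a : Fin n) (d : ℕ) :
    (parL n w₁ M).getD a d = ocode (best m w₁ (List.finRange n) a) := by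
  unfold parL
  rw [getD_map_range n _ d a.2, parL1_eq hM]

/-! ### Parents and keys of nodes -/

/-- parent of a node -/
def parN (n : ℕ) (p₁ p₂ : List ℕ) (v : ℕ) : ℕ :=
  if v < n then (if p₁.getD v n = n then 2 * n else p₁.getD v n)
  else if v < 2 * n then (if p₂.getD (v - n) n = n then 2 * n else n + p₂.getD (v - n) n)
  else 2 * n

/-- key (weight of the link above the node; `w₁ - 1` for thin links) -/
def keyN (n : ℕ) (w₁ : ℤ) (M₁ M₂ : List (List ℤ)) (p₁ p₂ : List ℕ) (v : ℕ) : ℤ :=
  if v < n then (if p₁.getD v n = n then w₁ - 1 else (M₁.getD v []).getD (p₁.getD v n) 0)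
  else (if p₂.getD (v - n) n = n then w₁ - 1
    else (M₂.getD (v - n) []).getD (p₂.getD (v - n) n) 0)

/-! ### Sorting by decreasing key -/

/-- insertion -/
def insK (key : ℕ → ℤ) (l : List ℕ) (x : ℕ) : List ℕ :=
  l.filter (fun y => decide (key x ≤ key y)) ++ x :: l.filter (fun y => decide (key y < key x))

/-- insertion sort by decreasing key -/
def sortK (key : ℕ → ℤ) (l : List ℕ) : List ℕ := l.foldl (insK key) []

theorem filter_split_perm {α : Type*} (p : α → Bool) (l : List α) :
    (l.filter p ++ l.filter (fun y => !p y)).Perm l := by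
  induction l with
  | nil => simp
  | cons a l ih =>
    by_cases h : p a
    · simp only [List.filter_cons, h, if_true, Bool.not_true, Bool.false_eq_true, if_false,
        List.cons_append]
      exact ih.cons a
    · simp only [List.filter_cons, h, Bool.not_false, if_true, Bool.false_eq_true, if_false]
      exact (List.perm_middle).trans (ih.cons a)

theorem insK_perm (key : ℕ → ℤ) (l : List ℕ) (x : ℕ) : (insK key l x).Perm (x :: l) := by
  unfold insK
  refine List.perm_middle.trans (List.Perm.cons x ?_)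
  have h := filter_split_perm (fun y => decide (key x ≤ key y)) l
  have e : (fun y => decide (key y < key x)) = (fun y => !decide (key x ≤ key y)) := by
    funext y
    by_cases h1 : key x ≤ key y
    · simp [h1, not_lt.2 h1]
    · simp [h1, not_le.1 h1]
  rw [e]; exact h

theorem sortK_perm (key : ℕ → ℤ) (l : List ℕ) : (sortK key l).Perm l := by
  induction l using List.reverseRecOn with
  | nil => exact List.Perm.refl _
  | append_singleton l x ih =>
    have e : sortK key (l ++ [x]) = insK key (sortK key l) x := by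
      unfold sortK; rw [List.foldl_append]; rfl
    rw [e]
    exact (insK_perm key _ x).trans ((ih.cons x).trans (List.perm_append_singleton x l).symm)

theorem sortK_sorted (key : ℕ → ℤ) (l : List ℕ) :
    (sortK key l).Pairwise (fun x y => key y ≤ key x) := by
  induction l using List.reverseRecOn with
  | nil => exact List.Pairwise.nil
  | append_singleton l x ih =>
    have e : sortK key (l ++ [x]) = insK key (sortK key l) x := by
      unfold sortK; rw [List.foldl_append]; rfl
    rw [e]
    unfold insK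
    rw [List.pairwise_append]
    refine ⟨ih.filter _, ?_, ?_⟩
    · rw [List.pairwise_cons]
      refine ⟨?_, ih.filter _⟩
      intro y hy
      have := (List.mem_filter.1 hy).2
      have h2 : key y < key x := by simpa using this
      exact h2.le
    · intro y hy z hz
      have hy' : key x ≤ key y := by simpa using (List.mem_filter.1 hy).2
      rcases List.mem_cons.1 hz with rfl | hz
      · exact hy'
      · have hz' : key z < key x := by simpa using (List.mem_filter.1 hz).2
        exact hz'.le.trans hy'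

/-! ### Stage potentials and moves -/

/-- the labels of stage `i`: cells `i, …, n-1`, then the hidden edges `H` -/
def labL (n : ℕ) (par : ℕ → ℕ) (H : List ℕ) (i : ℕ) : List (ℕ × ℕ × ℕ) :=
  ((List.range n).drop i).map (fun k => (k, n + k, k)) ++ H.map (fun p => (p, par p, n))

theorem labL_eq (n : ℕ) (par : ℕ → ℕ) (H : List ℕ) (i : ℕ) :
    labL n par H i = (elist ((List.range n).drop i) H).map (tri n par) := by
  unfold labL elist
  rw [List.map_append, List.map_map, List.map_map]
  rfl

/-- the potentials of stage `i` -/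
def potL (n : ℕ) (par : ℕ → ℕ) (H : List ℕ) (i : ℕ) : List (List ℤ) :=
  (krun (2 * n + 1) n (labL n par H i)).2

/-- **Correctness of the stage potentials** (abstract forest on `V = ℕ`). -/
theorem potL_eq {n : ℕ} {par : ℕ → ℕ} {H : List ℕ} (hH : H.Nodup) (hlt : ∀ p ∈ H, p < 2 * n + 1)
    (hpar : ∀ p ∈ H, par p < 2 * n + 1) (i : ℕ) {w j : ℕ} (hw : w < 2 * n + 1) (hj : j < n) :
    ((potL n par H i).getD w []).getD j 0 =
      (forest cX (cY n) par ((List.range n).drop i) H).P w (Sum.inl j) := by
  unfold potL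
  rw [labL_eq]
  have hS : ((List.range n).drop i).Nodup := (List.nodup_range).sublist (List.drop_sublist _ _)
  have h := rep_run (N := 2 * n + 1) (n := n) (par := par) (elist ((List.range n).drop i) H)
    (elist_nodup hS hH) ?_ ?_
  · exact h.pot w hw j hj
  · intro q hq
    unfold elist at hq
    rcases List.mem_append.1 hq with h1 | h1
    · obtain ⟨k, hk, rfl⟩ := List.mem_map.1 h1
      have := List.mem_range.1 (List.mem_of_mem_drop hk)
      simp only [ea, cX]; omega
    · obtain ⟨p, hp, rfl⟩ := List.mem_map.1 h1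
      simp only [ea]; exact hlt p hp
  · intro q hq
    unfold elist at hq
    rcases List.mem_append.1 hq with h1 | h1
    · obtain ⟨k, hk, rfl⟩ := List.mem_map.1 h1
      have := List.mem_range.1 (List.mem_of_mem_drop hk)
      simp only [eb, cY]; omega
    · obtain ⟨p, hp, rfl⟩ := List.mem_map.1 h1
      simp only [eb]; exact hpar p hp

/-- Transport to an arbitrary vertex type. -/
theorem forest_map {V E : Type*} [DecidableEq V] [DecidableEq E] (code : V → ℕ)
    (hcode : Function.Injective code) (κ : E → ℕ) (hκ : Function.Injective κ) (n : ℕ)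
    (X Y : E → V) (par : V → V) (parc : ℕ → ℕ) (hX : ∀ e, code (X e) = κ e)
    (hY : ∀ e, code (Y e) = n + κ e) (hpar : ∀ v, parc (code v) = code (par v))
    (S : List E) (H : List V) (v : V) (e : E) :
    (forest cX (cY n) parc (S.map κ) (H.map code)).P (code v) (Sum.inl (κ e)) =
      (forest X Y par S H).P v (Sum.inl e) := by
  have h := (run_map code hcode (Sum.map κ code) (hκ.sumMap hcode) (ea X) (eb Y par)
    (ea cX) (eb (cY n) parc) ?_ ?_ (elist S H)).2 v (Sum.inl e)
  · have e1 : (elist S H).map (Sum.map κ code) = elist (S.map κ) (H.map code) := by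
      unfold elist
      rw [List.map_append, List.map_map, List.map_map, List.map_map, List.map_map]
      rfl
    rw [e1] at h
    exact h
  · intro j
    cases j with
    | inl k => simp only [Sum.map_inl, ea, cX]; exact (hX k).symm
    | inr p => simp only [Sum.map_inr, ea]
  · intro j
    cases j with
    | inl k => simp only [Sum.map_inl, eb, cY]; exact (hY k).symm
    | inr p => simp only [Sum.map_inr, eb]; exact hpar p

/-- jump of the potentials of stage `i` along the hidden edge `p` -/
def moveL (n : ℕ) (par : ℕ → ℕ) (pot : List (List ℤ)) (p : ℕ) : List ℤ :=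
  (List.range n).map (fun j => (pot.getD p []).getD j 0 - (pot.getD (par p) []).getD j 0)

/-- the table of all moves: stage `i < n`, node `p < 2n` (index `i * 2n + p`), with the key of
`p`; thin nodes have key `w₁ - 1` -/
def movesL (n : ℕ) (par : ℕ → ℕ) (key : ℕ → ℤ) (H : List ℕ) : List (List ℤ × ℤ) :=
  (List.range n).flatMap (fun i =>
    (fun pot : List (List ℤ) => (List.range (2 * n)).map (fun p => (moveL n par pot p, key p)))
      (potL n par H i))

/-! ### Polynomial time -/

section ptf

variable {γ : Type} [PTCode γ]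

theorem ptf_updL {n : γ → ℕ} (hn : PTU n) :
    PTF (fun p : (γ × List ℤ × ℤ × ℕ) × ℕ × ℕ =>
      updL p.1.2.1 p.1.2.2.1 p.1.2.2.2 (n p.1.1) p.2.1 p.2.2) := by
  unfold updL
  pt_solve

theorem ptf_parL1 {n : γ → ℕ} {w₁ : γ → ℤ} {M : γ → List (List ℤ)} {a : γ → ℕ} (hn : PTU n)
    (hw : PTF w₁) (hM : PTF M) (ha : PTF a) :
    PTF (fun c => parL1 (n c) (w₁ c) (M c) (a c)) := by
  unfold parL1
  refine PTF.foldl_bdd (PTF.range hn) ?_ hn.toPTF (G := fun c => n c) hn.pb ?_ ?_
  · exact PTF.comp (g := fun p : (γ × List ℤ × ℤ × ℕ) × ℕ × ℕ =>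
      updL p.1.2.1 p.1.2.2.1 p.1.2.2.2 (n p.1.1) p.2.1 p.2.2)
      (f := fun p : γ × ℕ × ℕ => ((p.1, ((M p.1).getD (a p.1) [], w₁ p.1, a p.1)), p.2))
      (ptf_updL hn) (by pt_solve)
  · intro c b x hx hb
    have hx' : sz x ≤ n c := (sz_nat_le x).trans (List.mem_range.1 hx).le
    unfold updL
    split_ifs
    · exact hx'
    · exact sz_nat_le _
    · exact hx'
    · exact hb
    · exact hb
  · intro c; exact sz_nat_le _

theorem ptf_parL {n : γ → ℕ} {w₁ : γ → ℤ} {M : γ → List (List ℤ)} (hn : PTU n)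
    (hw : PTF w₁) (hM : PTF M) : PTF (fun c => parL (n c) (w₁ c) (M c)) := by
  unfold parL
  refine PTF.map (PTF.range hn) ?_
  exact ptf_parL1 (γ := γ × ℕ) (n := fun p => n p.1) (w₁ := fun p => w₁ p.1)
    (M := fun p => M p.1) (a := fun p => p.2) (by fun_prop) (by fun_prop) (by fun_prop)
    (by fun_prop)

theorem ptf_parN {n : γ → ℕ} {p₁ p₂ : γ → List ℕ} {v : γ → ℕ} (hn : PTU n) (h₁ : PTF p₁)
    (h₂ : PTF p₂) (hv : PTF v) : PTF (fun c => parN (n c) (p₁ c) (p₂ c) (v c)) := by
  unfold parN
  pt_solve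

theorem ptf_keyN {n : γ → ℕ} {w₁ : γ → ℤ} {M₁ M₂ : γ → List (List ℤ)} {p₁ p₂ : γ → List ℕ}
    {v : γ → ℕ} (hn : PTU n) (hw : PTF w₁) (hM₁ : PTF M₁) (hM₂ : PTF M₂) (h₁ : PTF p₁)
    (h₂ : PTF p₂) (hv : PTF v) :
    PTF (fun c => keyN (n c) (w₁ c) (M₁ c) (M₂ c) (p₁ c) (p₂ c) (v c)) := by
  unfold keyN
  pt_solve

theorem ptf_sortK {key : γ → ℕ → ℤ} {l : γ → List ℕ} (hk : PTF₂ key) (hl : PTF l) :
    PTF (fun c => sortK (key c) (l c)) := by
  unfold sortK
  refine PTF.foldl_add hl ?_ (PTF.const []) (G := fun c => 2 * sz (l c) + 1) (by fun_prop) ?_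
  · unfold insK
    have h1 : PTF (fun p : (γ × List ℕ × ℕ) × ℕ => key p.1.1 p.1.2.2) :=
      PTF.comp (g := fun p : γ × ℕ => key p.1 p.2)
        (f := fun p : (γ × List ℕ × ℕ) × ℕ => (p.1.1, p.1.2.2)) hk (by fun_prop)
    have h2 : PTF (fun p : (γ × List ℕ × ℕ) × ℕ => key p.1.1 p.2) :=
      PTF.comp (g := fun p : γ × ℕ => key p.1 p.2)
        (f := fun p : (γ × List ℕ × ℕ) × ℕ => (p.1.1, p.2)) hk (by fun_prop)
    refine PTF.append (PTF.filter (by fun_prop) ?_) (PTF.listCons (by fun_prop)
      (PTF.filter (by fun_prop) ?_))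
    · exact PTPred.toPTF (PTPred.intLe h1 h2)
    · exact PTPred.toPTF (PTPred.intLt h2 h1)
  · intro c b a ha
    have h1 : sz a ≤ sz (l c) := sz_mem_le ha
    have h2 : sz (insK (key c) b a) = 2 * sz a + 1 + sz b := by
      unfold insK
      rw [sz_append, sz_cons]
      have h3 : ∀ b : List ℕ, sz (b.filter (fun y => decide (key c a ≤ key c y))) +
          sz (b.filter (fun y => decide (key c y < key c a))) = sz b := by
        intro b
        induction b with
        | nil => simp
        | cons x b ih =>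
          rw [List.filter_cons, List.filter_cons]
          by_cases h : key c a ≤ key c x
          · rw [if_pos (by simpa using h), if_neg (by simpa using h), sz_cons, sz_cons]
            omega
          · rw [if_neg (by simpa using h), if_pos (by simpa using h), sz_cons, sz_cons]
            omega
      have := h3 b
      omega
    omega

theorem ptf_potL {n i : γ → ℕ} {par : γ → ℕ → ℕ} {H : γ → List ℕ} (hn : PTU n)
    (hp : PTF₂ par) (hH : PTF H) (hi : PTF i) :
    PTF (fun c => potL (n c) (par c) (H c) (i c)) := by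
  unfold potL
  have hn2 : PTU (fun c => 2 * n c + 1) := by fun_prop
  have hlab : PTF (fun c => labL (n c) (par c) (H c) (i c)) := by
    unfold labL
    refine PTF.append ?_ ?_
    · pt_solve
    · refine PTF.map hH ?_
      refine PTF.prodMk (by fun_prop) (PTF.prodMk ?_ (by pt_solve))
      exact hp
  exact PTF.comp (g := fun q : List ℕ × List (List ℤ) => q.2) (by fun_prop)
    (ptf_krun hn2 hn hlab)

theorem ptf_movesL {n : γ → ℕ} {par : γ → ℕ → ℕ} {key : γ → ℕ → ℤ} {H : γ → List ℕ}
    (hn : PTU n) (hp : PTF₂ par) (hk : PTF₂ key) (hH : PTF H) :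
    PTF (fun c => movesL (n c) (par c) (key c) (H c)) := by
  unfold movesL
  refine PTF.flatMap (PTF.range hn) ?_
  have h1 : PTF (fun p : (γ × ℕ) => potL (n p.1) (par p.1) (H p.1) p.2) :=
    ptf_potL (γ := γ × ℕ) (n := fun p => n p.1) (par := fun p => par p.1) (H := fun p => H p.1)
      (i := fun p => p.2) (by fun_prop)
      (PTF.comp (g := fun p : γ × ℕ => par p.1 p.2) (f := fun p : (γ × ℕ) × ℕ => (p.1.1, p.2)) hp
        (by fun_prop)) (by fun_prop) (by fun_prop)
  have h2 : PTF (fun q : (γ × ℕ) × List (List ℤ) =>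
      (List.range (2 * n q.1.1)).map (fun p => (moveL (n q.1.1) (par q.1.1) q.2 p, key q.1.1 p))) := by
    refine PTF.map (PTF.range (by fun_prop)) (PTF.prodMk ?_ ?_)
    · unfold moveL
      have h3 : PTF (fun q : ((γ × ℕ) × List (List ℤ)) × ℕ => par q.1.1.1 q.2) :=
        PTF.comp (g := fun p : γ × ℕ => par p.1 p.2)
          (f := fun q : ((γ × ℕ) × List (List ℤ)) × ℕ => (q.1.1.1, q.2)) hp (by fun_prop)
      have h4 : PTF (fun q : (((γ × ℕ) × List (List ℤ)) × ℕ) × ℕ => par q.1.1.1.1 q.1.2) :=
        PTF.comp (g := fun q : ((γ × ℕ) × List (List ℤ)) × ℕ => par q.1.1.1 q.2)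
          (f := fun q : (((γ × ℕ) × List (List ℤ)) × ℕ) × ℕ => q.1) h3 (by fun_prop)
      pt_solve
    · exact PTF.comp (g := fun p : γ × ℕ => key p.1 p.2)
        (f := fun q : ((γ × ℕ) × List (List ℤ)) × ℕ => (q.1.1.1, q.2)) hk (by fun_prop)
  exact PTF.comp (g := fun q : (γ × ℕ) × List (List ℤ) =>
      (List.range (2 * n q.1.1)).map (fun p => (moveL (n q.1.1) (par q.1.1) q.2 p, key q.1.1 p)))
    (f := fun p : γ × ℕ => (p, potL (n p.1) (par p.1) (H p.1) p.2)) h2 (by fun_prop)

end ptf

/-! ### The geometry as one function of the two matrices -/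

/-- the two parent lists, the sorted hidden edges and the table of moves -/
def geoL (n : ℕ) (w₁ : ℤ) (M₁ M₂ : List (List ℤ)) :
    List ℕ × List ℕ × List ℕ × List (List ℤ × ℤ) :=
  (fun p₁ p₂ : List ℕ =>
    (fun H : List ℕ =>
      (p₁, p₂, H, movesL n (parN n p₁ p₂) (keyN n w₁ M₁ M₂ p₁ p₂) H))
      (sortK (keyN n w₁ M₁ M₂ p₁ p₂) (List.range (2 * n))))
    (parL n w₁ M₁) (parL n w₁ M₂)

theorem ptf_geoL {γ : Type} [PTCode γ] {n : γ → ℕ} {w₁ : γ → ℤ} {M₁ M₂ : γ → List (List ℤ)}
    (hn : PTU n) (hw : PTF w₁) (h₁ : PTF M₁) (h₂ : PTF M₂) :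
    PTF (fun c => geoL (n c) (w₁ c) (M₁ c) (M₂ c)) := by
  unfold geoL
  have hp₁ := ptf_parL hn hw h₁
  have hp₂ := ptf_parL hn hw h₂
  have hp₁' : PTF (fun p : γ × ℕ => parL (n p.1) (w₁ p.1) (M₁ p.1)) :=
    PTF.comp (g := fun c => parL (n c) (w₁ c) (M₁ c)) (f := fun p : γ × ℕ => p.1) hp₁ (by fun_prop)
  have hp₂' : PTF (fun p : γ × ℕ => parL (n p.1) (w₁ p.1) (M₂ p.1)) :=
    PTF.comp (g := fun c => parL (n c) (w₁ c) (M₂ c)) (f := fun p : γ × ℕ => p.1) hp₂ (by fun_prop)
  have hpar : PTF (fun p : γ × ℕ =>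
      parN (n p.1) (parL (n p.1) (w₁ p.1) (M₁ p.1)) (parL (n p.1) (w₁ p.1) (M₂ p.1)) p.2) :=
    ptf_parN (γ := γ × ℕ) (n := fun p => n p.1) (by fun_prop) hp₁' hp₂' (by fun_prop)
  have hkey : PTF (fun p : γ × ℕ =>
      keyN (n p.1) (w₁ p.1) (M₁ p.1) (M₂ p.1) (parL (n p.1) (w₁ p.1) (M₁ p.1))
        (parL (n p.1) (w₁ p.1) (M₂ p.1)) p.2) :=
    ptf_keyN (γ := γ × ℕ) (n := fun p => n p.1) (by fun_prop) (by fun_prop) (by fun_prop)
      (by fun_prop) hp₁' hp₂' (by fun_prop)
  have hH : PTF (fun c => sortK (keyN (n c) (w₁ c) (M₁ c) (M₂ c) (parL (n c) (w₁ c) (M₁ c))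
      (parL (n c) (w₁ c) (M₂ c))) (List.range (2 * n c))) :=
    ptf_sortK (key := fun c v => keyN (n c) (w₁ c) (M₁ c) (M₂ c) (parL (n c) (w₁ c) (M₁ c))
      (parL (n c) (w₁ c) (M₂ c)) v) hkey (PTF.range (by fun_prop))
  exact hp₁.prodMk (hp₂.prodMk (hH.prodMk (ptf_movesL hn hpar hkey hH)))

end Crest.Agent.R302.GeoProg
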