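import Crest.Agent.R302.Forest928
import Crest.Agent.R302.Tree550
import Crest.Agent.R302.Lz151

/-!
R302 (helper532): the official soft sides, states and cell weights.

* `Side E` : rooted forest `T` (`T.par a = none` : thin = block representative, `some b` : fat edge
  `(a,b)`), finite set `J` with weight `g`, fat kernels `κ a`.
* `bs T x a` : sum of `x` over the subtree of `a`.
* `Side.ff S x β` : probability weight that `x + (links) + (fat slack)` lies in `J`, block contents `β`.
* `Side.lw S θ μ x β` : link weight, `Side.W S θ μ x` : the soft marginal, `W_eq_sum_lw`.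
* `Tok E`, `tree`, `gam`, `FF` : the tokens, the rooted tree, the states and the function `F`.
-/

set_option linter.unusedSectionVars false
set_option autoImplicit false

namespace Crest.Agent.R302.Inst

open Finset Crest.Agent.R302.Lor

variable {E : Type*} [Fintype E] [DecidableEq E]

/-- subtree sum -/
noncomputable def bs (T : MP3.Forest E) (x : E → ℤ) (a : E) : ℤ := ∑ b ∈ T.sub a, x b

theorem bs_add (T : MP3.Forest E) (x y : E → ℤ) (a : E) : bs T (x + y) a = bs T x a + bs T y a := by
  simp [bs, Finset.sum_add_distrib]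

theorem bs_sub (T : MP3.Forest E) (x y : E → ℤ) (a : E) : bs T (x - y) a = bs T x a - bs T y a := by
  simp [bs, Finset.sum_sub_distrib]

theorem bs_neg (T : MP3.Forest E) (x : E → ℤ) (a : E) : bs T (-x) a = -bs T x a := by
  simp [bs, Finset.sum_neg_distrib]

theorem bs_smul (T : MP3.Forest E) (t : ℤ) (x : E → ℤ) (a : E) : bs T (t • x) a = t * bs T x a := by
  simp [bs, Finset.mul_sum]

theorem bs_zero (T : MP3.Forest E) (a : E) : bs T (0 : E → ℤ) a = 0 := by simp [bs]

theorem bs_ev (T : MP3.Forest E) (b a : E) : bs T (ev b) a = if b ∈ T.sub a then 1 else 0 := by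
  simp [bs, ev, Pi.single_apply]

/-- one soft side -/
structure Side (E : Type*) [Fintype E] [DecidableEq E] where
  T : MP3.Forest E
  J : Finset (E → ℤ)
  g : (E → ℤ) → ℝ
  κ : E → ℤ → ℝ

namespace Side

variable (S : Side E)

/-- blocks = thin elements (roots of the forest) -/
abbrev Blk : Type _ := {a : E // S.T.par a = none}

/-- factor of the edge `a` in `ff` -/
noncomputable def fk (x : E → ℤ) (β : S.Blk → ℤ) (z : E → ℤ) (a : E) : ℝ :=
  if h : S.T.par a = none then (if bs S.T z a = β ⟨a, h⟩ then 1 else 0)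
  else S.κ a (bs S.T z a - bs S.T x a)

/-- `ff x β = P(p + fat slack ∈ J)` weighted by `g`, `p = x + links`, block contents `β` -/
noncomputable def ff (x : E → ℤ) (β : S.Blk → ℤ) : ℝ := ∑ z ∈ S.J, S.g z * ∏ a, S.fk x β z a

/-- the loads: `x` with the block representatives changed so that the block contents are `β` -/
noncomputable def load (x : E → ℤ) (β : S.Blk → ℤ) (a : E) : ℤ :=
  if h : S.T.par a = none then x a + (β ⟨a, h⟩ - bs S.T x a) else x a

/-- factor of the edge `a` in `W` -/
noncomputable def wk (θ : ℝ) (a : E) (t : ℤ) : ℝ :=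
  if S.T.par a = none then θ ^ t.natAbs else S.κ a t

/-- the soft marginal -/
noncomputable def W (θ : ℝ) (μ : E → ℝ) (x : E → ℤ) : ℝ :=
  ∑ z ∈ S.J, (mon μ z * S.g z) * ∏ a, S.wk θ a (bs S.T z a - bs S.T x a)

/-- link weight of the block contents `β` at `x` -/
noncomputable def lw (θ : ℝ) (μ : E → ℝ) (x : E → ℤ) (β : S.Blk → ℤ) : ℝ :=
  (∏ r : S.Blk, θ ^ (β r - bs S.T x r).natAbs) * (∏ r : S.Blk, μ r ^ β r) * S.ff x β

/-- block contents of `z` -/
noncomputable def blk (z : E → ℤ) (r : S.Blk) : ℤ := bs S.T z r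

end Side

/-- tokens `X_e`, `Y_e` and the hub `none` -/
abbrev Tok (E : Type*) := Option (E ⊕ E)

def tX (e : E) : Tok E := some (Sum.inl e)
def tY (e : E) : Tok E := some (Sum.inr e)

/-- the rooted tree on the tokens -/
def tree (T₁ T₂ : MP3.Forest E) : Tree.RTree (Tok E) where
  par := fun p => match p with
    | none => none
    | some (Sum.inl e) => (T₁.par e).map Sum.inl
    | some (Sum.inr e) => (T₂.par e).map Sum.inr
  root := none
  dep := fun p => match p with
    | none => 0
    | some (Sum.inl e) => T₁.dep e + 1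
    | some (Sum.inr e) => T₂.dep e + 1
  dep_lt := by
    rintro (_ | e | e) hq
    · exact absurd rfl hq
    · rcases h : T₁.par e with _ | b
      · simp [h]
      · simpa [h] using T₁.dep_lt e b h
    · rcases h : T₂.par e with _ | b
      · simp [h]
      · simpa [h] using T₂.dep_lt e b h

/-- the token multiset of the state `x`, window height `m` -/
def gam (m : ℤ) (x : E → ℤ) : Tok E → ℤ := fun p => match p with
  | none => 0
  | some (Sum.inl e) => x e
  | some (Sum.inr e) => m - x e

/-- the official `F` -/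
noncomputable def FF (S₁ S₂ : Side E) (θ : ℝ) (μ : E → ℝ) (m : ℤ) (d : Tok E → ℤ) : ℝ :=
  S₁.W θ μ (fun e => d (tX e)) * S₂.W θ (fun e => (μ e)⁻¹) (fun e => m - d (tY e))

/-- the joint weight of `(x, β₁, β₂)` -/
noncomputable def nu (S₁ S₂ : Side E) (θ : ℝ) (μ : E → ℝ) (x : E → ℤ)
    (β₁ : S₁.Blk → ℤ) (β₂ : S₂.Blk → ℤ) : ℝ :=
  S₁.lw θ μ x β₁ * S₂.lw θ (fun e => (μ e)⁻¹) x β₂

theorem FF_gam (S₁ S₂ : Side E) (θ : ℝ) (μ : E → ℝ) (m : ℤ) (x : E → ℤ) :
    FF S₁ S₂ θ μ m (gam m x) = S₁.W θ μ x * S₂.W θ (fun e => (μ e)⁻¹) x := by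
  simp [FF, gam, tX, tY]

theorem gam_single (m : ℤ) (x : E → ℤ) (k : E) :
    gam m (x + Pi.single k 1) = gam m x + ev (tX k) - ev (tY k) := by
  funext p
  rcases p with _ | e | e
  · simp [gam, ev, tX, tY]
  · by_cases h : e = k
    · subst h; simp [gam, ev, tX, tY]
    · simp [gam, ev, tX, tY, h]
  · by_cases h : e = k
    · subst h; simp [gam, ev, tX, tY]; ring
    · simp [gam, ev, tX, tY, h]

end Crest.Agent.R302.Inst
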