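/-
R302 (helper725): bridge between the geometry program and the official objects of helper532
(tokens, trees) and helper893 (repair maps).
-/
import Crest.Agent.R302.Inst532A
import Crest.Agent.R302.GeoProg725B

set_option autoImplicit false

namespace Crest.Agent.R302.GeoSpec

open Finset Crest.Agent.R302.Facet Crest.Agent.R302.TreeNN Crest.Agent.R302.GeoProg
open Crest.Agent.R302.Repair Crest.Agent.R302.Inst

/-! ### Repair maps as a predicate -/

/-- The properties of a repair map (see `Repair.repair'`). -/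
structure IsRepair {V E : Type*} [Fintype V] [Fintype E] [DecidableEq V] [DecidableEq E]
    (X Y : E → V) (par : V → V) (root : V) (b : V → ℝ) (T : E → Prop) (v₀ : V)
    (R : V → E → ℤ) : Prop where
  base : ∀ j, R v₀ j = 0
  cell : ∀ k, T k → ∀ j, R (X k) j - R (Y k) j = if j = k then 1 else 0
  cases : ∀ p j, R p j = 0 ∨ R p j = 1 ∨ R p j = -1
  sub_cases : ∀ p q j, R p j - R q j = 0 ∨ R p j - R q j = 1 ∨ R p j - R q j = -1
  support : ∀ p j, ¬ T j → R p j = 0
  edge : ∀ p, p ≠ root → (∀ j, R p j = R (par p) j) ∨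
    ∃ lam : V → ℤ, (∀ q, lam q = 0 ∨ lam q = 1 ∨ lam q = -1) ∧
      (∀ q, lam q ≠ 0 → q ≠ root ∧ q ≠ p ∧ b q ≤ b p) ∧
      ∀ φ : V → ℝ, φ p - φ (par p) =
        ∑ k, ((R p k - R (par p) k : ℤ) : ℝ) * (φ (X k) - φ (Y k)) +
        ∑ q, (lam q : ℝ) * (φ q - φ (par q))
  route : ∀ p, ∃ mu : V → ℤ, (∀ q, mu q = 0 ∨ mu q = 1 ∨ mu q = -1) ∧ mu root = 0 ∧
    ∑ q ∈ Finset.univ.filter (fun q => par q = root), |mu q| ≤ 2 ∧
    ∀ φ : V → ℝ, φ p - φ v₀ = ∑ k, (R p k : ℝ) * (φ (X k) - φ (Y k)) +
      ∑ q, (mu q : ℝ) * (φ q - φ (par q))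

/-- The concrete repair map of a sorted complete list of hidden edges is a repair map. -/
theorem isRepair_rep {V E : Type*} [Fintype V] [Fintype E] [DecidableEq V] [DecidableEq E]
    {X Y : E → V} {par : V → V} (hX : Function.Injective X) (hXY : ∀ e e', X e ≠ Y e') {root : V}
    (hroot : ∀ p, ∃ m : ℕ, par^[m] p = root) {b : V → ℝ} {S : List E} (hS : S.Nodup)
    {H : List V} (hH : H.Nodup) (hmem : ∀ p, p ∈ H ↔ p ≠ root)
    (hsort : H.Pairwise (fun p q => b p ≤ b q)) (v₀ : V) :
    IsRepair X Y par root b (fun k => k ∈ S) v₀ (rep X Y par S H v₀) := by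
  have hc := comp_eq X Y par S H hS hH root hroot (fun p hp => (hmem p).2 hp)
  constructor
  · intro j; unfold rep; ring
  · intro k hk j
    exact rep_cell X Y par S H hS hH hX hXY v₀ hk j
  · intro p j
    exact rep_cases X Y par S H hS hH (hc _ _) j
  · intro p q j
    exact rep_sub_cases X Y par S H hS hH (hc _ _) j
  · intro p j hj
    exact rep_support X Y par S H hS hH hj
  · intro p hp
    have hpH := (hmem p).2 hp
    obtain ⟨H₁, H₂, hHH⟩ := List.append_of_mem hpH
    have hnd := hH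
    rw [hHH] at hnd
    rcases rep_edge X Y par S H₁ H₂ p hS hnd with h | h
    · left
      rw [← hHH] at h
      exact h v₀
    · right
      rw [← hHH] at h
      refine ⟨hid X Y par S H p, hid_cases X Y par S H hS hH hpH, ?_, ?_⟩
      · intro q hq
        have hq1 := h q hq
        have hqH : q ∈ H := by rw [hHH]; simp [hq1]
        refine ⟨(hmem q).1 hqH, ?_, ?_⟩
        · rintro rfl
          exact (List.nodup_append.1 hnd).2.2 q hq1 q (by simp) rfl
        · rw [hHH, List.pairwise_append] at hsort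
          exact hsort.2.2 q hq1 p (by simp)
      · intro φ
        have := rep_bd X Y par S H hS hH φ hpH v₀
        simp only [zsmul_eq_mul] at this
        exact this
  · intro p
    refine ⟨Repair.route X Y par S H v₀ p, route_cases X Y par S H hS hH (hc _ _),
      route_support X Y par S H hS hH (fun h => (hmem root).1 h rfl),
      route_root X Y par S H hS hH (hc _ _) root, ?_⟩
    intro φ
    have := route_bd X Y par S H φ (hc p v₀)
    simp only [zsmul_eq_mul] at this
    exact this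

/-! ### The forest of a nearest-earlier-neighbour map -/

section forest

variable {n : ℕ}

/-- the forest of the nearest earlier neighbours -/
def nnForest (m : Fin n → Fin n → ℤ) (w₁ : ℤ) : MP3.Forest (Fin n) where
  par := best m w₁ (List.finRange n)
  dep := fun a => a
  dep_lt := fun a b h => (nn_best m w₁ _ (fun a => List.mem_finRange a)).lt a b h

theorem nn_nnForest (m : Fin n → Fin n → ℤ) (w₁ : ℤ) : NN m w₁ (nnForest m w₁).par :=
  nn_best m w₁ _ (fun a => List.mem_finRange a)

theorem D_iff_le (T : MP3.Forest (Fin n)) (a c : Fin n) : D T.par a c ↔ T.Le c a := by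
  constructor
  · intro h
    induction h with
    | refl => exact MP3.Forest.Le.refl T a
    | step q b hq _ ih => exact (MP3.Forest.Le.of_par hq).trans ih
  · intro h
    induction h using Relation.ReflTransGen.head_induction_on with
    | refl => exact D.refl
    | head hx _ ih => exact D.step _ _ hx ih

theorem filter_D (T : MP3.Forest (Fin n)) (a : Fin n) [DecidablePred (fun q => D T.par a q)] :
    univ.filter (fun q => D T.par a q) = T.sub a := by
  ext c
  rw [mem_filter, MP3.Forest.mem_sub, D_iff_le]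
  simp

/-- **Block sums (side 1)** in the names of `Inst`. -/
theorem bs_diff₁ {r₁ r₂ : Finset (Fin n) → ℤ} {R : ℤ} (hr₁ : SubM r₁ R)
    {P : Finset (Fin n → ℤ)} (hP : ∀ x, x ∈ P ↔ MemJ r₁ R x ∧ MemJ r₂ R x) {C : ℕ} (hC : 1 ≤ C)
    {c : Fin n → ℤ} (hcP : c ∈ P) (hc : IsCenter r₁ r₂ P C c) {w₁ : ℤ} (hw : 0 ≤ w₁)
    {x : Fin n → ℤ} (hx : x ∈ P) (a : Fin n) :
    |bs (nnForest (mcap r₁ c) w₁) x a - bs (nnForest (mcap r₁ c) w₁) c a|
      ≤ 2 * (n : ℤ) ^ 3 * (C * (wt (mcap r₁ c) w₁ (nnForest (mcap r₁ c) w₁).par a + 1)) := by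
  classical
  have h := tree_diff₁ hr₁ hP hC hcP hc hw (nn_nnForest (mcap r₁ c) w₁) hx a
  rw [filter_D, Fintype.card_fin] at h
  exact h

/-- **Block sums (side 2)** in the names of `Inst`. -/
theorem bs_diff₂ {r₁ r₂ : Finset (Fin n) → ℤ} {R : ℤ} (hr₂ : SubM r₂ R)
    {P : Finset (Fin n → ℤ)} (hP : ∀ x, x ∈ P ↔ MemJ r₁ R x ∧ MemJ r₂ R x) {C : ℕ} (hC : 1 ≤ C)
    {c : Fin n → ℤ} (hcP : c ∈ P) (hc : IsCenter r₁ r₂ P C c) {w₁ : ℤ} (hw : 0 ≤ w₁)
    {x : Fin n → ℤ} (hx : x ∈ P) (a : Fin n) :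
    |bs (nnForest (mcap r₂ c) w₁) x a - bs (nnForest (mcap r₂ c) w₁) c a|
      ≤ 2 * (n : ℤ) ^ 3 * (C * (wt (mcap r₂ c) w₁ (nnForest (mcap r₂ c) w₁).par a + 1)) := by
  classical
  have h := tree_diff₂ hr₂ hP hC hcP hc hw (nn_nnForest (mcap r₂ c) w₁) hx a
  rw [filter_D, Fintype.card_fin] at h
  exact h

end forest

/-! ### Codes of tokens -/

section code

variable {n : ℕ}

/-- code of a token -/
def tcode (v : Tok (Fin n)) : ℕ :=
  match v with
  | none => 2 * n
  | some (Sum.inl e) => e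
  | some (Sum.inr e) => n + e

/-- decoding -/
def tdec (n p : ℕ) : Tok (Fin n) :=
  if h : p < n then some (Sum.inl ⟨p, h⟩)
  else if h' : p - n < n then some (Sum.inr ⟨p - n, h'⟩) else none

theorem tdec_tcode (v : Tok (Fin n)) : tdec n (tcode v) = v := by
  rcases v with _ | e | e
  · unfold tcode tdec
    dsimp only
    rw [dif_neg (by omega), dif_neg (by omega)]
  · unfold tcode tdec
    dsimp only
    rw [dif_pos e.2]
  · unfold tcode tdec
    dsimp only
    have h : n + (e : ℕ) - n = e := by omega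
    rw [dif_neg (by omega), dif_pos (by rw [h]; exact e.2)]
    simp only [h]

theorem tcode_inj : Function.Injective (tcode (n := n)) :=
  Function.LeftInverse.injective tdec_tcode

theorem tcode_tdec {p : ℕ} (hp : p < 2 * n) : tcode (tdec n p) = p := by
  unfold tdec
  by_cases h : p < n
  · rw [dif_pos h]; rfl
  · rw [dif_neg h, dif_pos (by omega)]
    unfold tcode
    dsimp only
    omega

theorem tdec_ne_none {p : ℕ} (hp : p < 2 * n) : tdec n p ≠ none := by
  intro h
  have := tcode_tdec hp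
  rw [h] at this
  unfold tcode at this
  dsimp only at this
  omega

theorem tcode_lt {v : Tok (Fin n)} (hv : v ≠ none) : tcode v < 2 * n := by
  rcases v with _ | e | e
  · exact absurd rfl hv
  · unfold tcode; dsimp only; omega
  · unfold tcode; dsimp only; omega

theorem tcode_lt' (v : Tok (Fin n)) : tcode v < 2 * n + 1 := by
  by_cases h : v = none
  · subst h; unfold tcode; dsimp only; omega
  · have := tcode_lt h; omega

end code

/-! ### The trees and repair maps of two capacity matrices -/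

section geo

variable {n : ℕ} (m₁ m₂ : Fin n → Fin n → ℤ) (w₁ : ℤ)

/-- key of a token: weight of the fat link above it, `w₁ - 1` for thin links -/
def keyV (v : Tok (Fin n)) : ℤ :=
  match v with
  | none => w₁ - 1
  | some (Sum.inl a) => match (nnForest m₁ w₁).par a with
    | none => w₁ - 1
    | some b => m₁ a b
  | some (Sum.inr a) => match (nnForest m₂ w₁).par a with
    | none => w₁ - 1
    | some b => m₂ a b

/-- parent map of the token tree -/
def parV : Tok (Fin n) → Tok (Fin n) := (tree (nnForest m₁ w₁) (nnForest m₂ w₁)).par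

variable {m₁ m₂} {M₁ M₂ : List (List ℤ)}

theorem parN_tcode (h₁ : ∀ a b : Fin n, (M₁.getD a []).getD b 0 = m₁ a b)
    (h₂ : ∀ a b : Fin n, (M₂.getD a []).getD b 0 = m₂ a b) (v : Tok (Fin n)) :
    parN n (parL n w₁ M₁) (parL n w₁ M₂) (tcode v) = tcode (parV m₁ m₂ w₁ v) := by
  rcases v with _ | a | a
  · unfold parN tcode parV tree
    dsimp only
    rw [if_neg (by omega), if_neg (by omega)]
  · have e : parV m₁ m₂ w₁ (some (Sum.inl a)) =
        ((nnForest m₁ w₁).par a).map Sum.inl := rfl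
    have e2 : tcode (some (Sum.inl a) : Tok (Fin n)) = (a : ℕ) := rfl
    rw [e, e2]
    unfold parN
    rw [if_pos a.2, parL_getD h₁]
    change (if ocode ((nnForest m₁ w₁).par a) = n then 2 * n else ocode ((nnForest m₁ w₁).par a))
      = _
    cases h : (nnForest m₁ w₁).par a with
    | none => rw [if_pos ((ocode_eq_n _).2 rfl)]; rfl
    | some b =>
      rw [if_neg (by rw [ocode_eq_n]; simp)]
      rfl
  · have e : parV m₁ m₂ w₁ (some (Sum.inr a)) =
        ((nnForest m₂ w₁).par a).map Sum.inr := rfl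
    have e2 : tcode (some (Sum.inr a) : Tok (Fin n)) = n + (a : ℕ) := rfl
    rw [e, e2]
    unfold parN
    have e3 : n + (a : ℕ) - n = a := by omega
    rw [if_neg (by omega), if_pos (by omega), e3, parL_getD h₂]
    change (if ocode ((nnForest m₂ w₁).par a) = n then 2 * n
      else n + ocode ((nnForest m₂ w₁).par a)) = _
    cases h : (nnForest m₂ w₁).par a with
    | none => rw [if_pos ((ocode_eq_n _).2 rfl)]; rfl
    | some b =>
      rw [if_neg (by rw [ocode_eq_n]; simp)]
      rfl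

theorem keyN_tcode (h₁ : ∀ a b : Fin n, (M₁.getD a []).getD b 0 = m₁ a b)
    (h₂ : ∀ a b : Fin n, (M₂.getD a []).getD b 0 = m₂ a b) {v : Tok (Fin n)} (hv : v ≠ none) :
    keyN n w₁ M₁ M₂ (parL n w₁ M₁) (parL n w₁ M₂) (tcode v) = keyV m₁ m₂ w₁ v := by
  rcases v with _ | a | a
  · exact absurd rfl hv
  · have e2 : tcode (some (Sum.inl a) : Tok (Fin n)) = (a : ℕ) := rfl
    rw [e2]
    unfold keyN keyV
    rw [if_pos a.2, parL_getD h₁]
    change (if ocode ((nnForest m₁ w₁).par a) = n then w₁ - 1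
      else (M₁.getD a []).getD (ocode ((nnForest m₁ w₁).par a)) 0) = _
    dsimp only
    cases h : (nnForest m₁ w₁).par a with
    | none => rw [if_pos ((ocode_eq_n _).2 rfl)]
    | some b =>
      rw [if_neg (by rw [ocode_eq_n]; simp)]
      exact h₁ a b
  · have e2 : tcode (some (Sum.inr a) : Tok (Fin n)) = n + (a : ℕ) := rfl
    have e3 : n + (a : ℕ) - n = a := by omega
    rw [e2]
    unfold keyN keyV
    rw [if_neg (by omega), e3, parL_getD h₂]
    change (if ocode ((nnForest m₂ w₁).par a) = n then w₁ - 1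
      else (M₂.getD a []).getD (ocode ((nnForest m₂ w₁).par a)) 0) = _
    dsimp only
    cases h : (nnForest m₂ w₁).par a with
    | none => rw [if_pos ((ocode_eq_n _).2 rfl)]
    | some b =>
      rw [if_neg (by rw [ocode_eq_n]; simp)]
      exact h₂ a b

variable (m₁ m₂)

/-- the sorted hidden nodes (codes) -/
def hidN (n : ℕ) (w₁ : ℤ) (M₁ M₂ : List (List ℤ)) : List ℕ :=
  sortK (keyN n w₁ M₁ M₂ (parL n w₁ M₁) (parL n w₁ M₂)) (List.range (2 * n))

theorem mem_hidN {p : ℕ} : p ∈ hidN n w₁ M₁ M₂ ↔ p < 2 * n := by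
  unfold hidN
  rw [(sortK_perm _ _).mem_iff, List.mem_range]

theorem hidN_nodup : (hidN n w₁ M₁ M₂).Nodup :=
  (sortK_perm _ _).nodup_iff.2 List.nodup_range

variable (M₁ M₂)

/-- the sorted hidden tokens -/
def hidV : List (Tok (Fin n)) := (hidN n w₁ M₁ M₂).map (tdec n)

variable {M₁ M₂}

theorem hidV_map : (hidV (n := n) w₁ M₁ M₂).map tcode = hidN n w₁ M₁ M₂ := by
  unfold hidV
  rw [List.map_map]
  conv_rhs => rw [← List.map_id (hidN n w₁ M₁ M₂)]
  apply List.map_congr_left
  intro p hp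
  exact tcode_tdec ((mem_hidN w₁).1 hp)

theorem mem_hidV {v : Tok (Fin n)} : v ∈ hidV (n := n) w₁ M₁ M₂ ↔ v ≠ none := by
  unfold hidV
  rw [List.mem_map]
  constructor
  · rintro ⟨p, hp, rfl⟩
    exact tdec_ne_none ((mem_hidN w₁).1 hp)
  · intro hv
    exact ⟨tcode v, (mem_hidN w₁).2 (tcode_lt hv), tdec_tcode v⟩

theorem hidV_nodup : (hidV (n := n) w₁ M₁ M₂).Nodup := by
  have h : ((hidV (n := n) w₁ M₁ M₂).map tcode).Nodup := by
    rw [hidV_map]; exact hidN_nodup w₁
  exact List.Nodup.of_map _ h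

variable {m₁ m₂}

theorem hidV_sorted (h₁ : ∀ a b : Fin n, (M₁.getD a []).getD b 0 = m₁ a b)
    (h₂ : ∀ a b : Fin n, (M₂.getD a []).getD b 0 = m₂ a b) :
    (hidV (n := n) w₁ M₁ M₂).Pairwise (fun p q => keyV m₁ m₂ w₁ q ≤ keyV m₁ m₂ w₁ p) := by
  have h : ((hidV (n := n) w₁ M₁ M₂).map tcode).Pairwise (fun x y =>
      keyN n w₁ M₁ M₂ (parL n w₁ M₁) (parL n w₁ M₂) y ≤
      keyN n w₁ M₁ M₂ (parL n w₁ M₁) (parL n w₁ M₂) x) := by
    rw [hidV_map]; exact sortK_sorted _ _
  rw [List.pairwise_map] at h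
  refine h.imp_of_mem ?_
  intro p q hp hq hpq
  rwa [keyN_tcode w₁ h₁ h₂ ((mem_hidV w₁).1 hp), keyN_tcode w₁ h₁ h₂ ((mem_hidV w₁).1 hq)] at hpq

variable (m₁ m₂) (M₁ M₂)

/-- the stage cells -/
def stageS (n i : ℕ) : List (Fin n) := (List.finRange n).drop i

/-- **the repair map of stage `i`** computed by the program -/
def Rst (i : Fin n) (v : Tok (Fin n)) (k : Fin n) : ℤ :=
  rep tX tY (parV m₁ m₂ w₁) (stageS n i) (hidV w₁ M₁ M₂) (tY i) v k

theorem mem_stageS {i k : Fin n} : k ∈ stageS n i ↔ i ≤ k := by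
  unfold stageS
  rw [List.mem_drop_iff_getElem]
  constructor
  · rintro ⟨j, hj, h⟩
    have hj' : i.val + j < (List.finRange n).length := by omega
    have : (List.finRange n)[i.val + j] = k := by
      rw [← h]
    rw [← this]
    have h2 : ((List.finRange n)[i.val + j]).val = i.val + j := by
      simp
    exact Fin.mk_le_of_le_val (by rw [h2]; omega)
  · intro h
    have h1 : i.val ≤ k.val := h
    refine ⟨k.val - i.val, ?_, ?_⟩
    · rw [List.length_finRange]; omega
    · apply Fin.ext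
      simp
      omega

theorem stageS_nodup (i : ℕ) : (stageS n i).Nodup :=
  (List.nodup_finRange n).sublist (List.drop_sublist _ _)

theorem tX_inj : Function.Injective (tX : Fin n → Tok (Fin n)) := by
  intro a b h
  simpa [tX] using h

theorem tX_ne_tY (a b : Fin n) : (tX a : Tok (Fin n)) ≠ tY b := by
  simp [tX, tY]

theorem parV_root (v : Tok (Fin n)) : ∃ k : ℕ, (parV m₁ m₂ w₁)^[k] v = none := by
  have T := tree (nnForest m₁ w₁) (nnForest m₂ w₁)
  have key : ∀ (N : ℕ) (v : Tok (Fin n)), (tree (nnForest m₁ w₁) (nnForest m₂ w₁)).dep v ≤ N →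
      ∃ k : ℕ, (parV m₁ m₂ w₁)^[k] v = none := by
    intro N
    induction N with
    | zero =>
      intro v hv
      by_cases h : v = none
      · exact ⟨0, h⟩
      · have := (tree (nnForest m₁ w₁) (nnForest m₂ w₁)).dep_lt v h
        omega
    | succ N ih =>
      intro v hv
      by_cases h : v = none
      · exact ⟨0, h⟩
      · have h1 := (tree (nnForest m₁ w₁) (nnForest m₂ w₁)).dep_lt v h
        obtain ⟨k, hk⟩ := ih (parV m₁ m₂ w₁ v) (by unfold parV; omega)
        exact ⟨k + 1, by rw [Function.iterate_succ_apply]; exact hk⟩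
  exact key _ v le_rfl

variable {m₁ m₂} {M₁ M₂}

/-- **The program's repair map is a repair map** for every slope function `b` which is antitone in
the keys. -/
theorem isRepair_Rst (h₁ : ∀ a b : Fin n, (M₁.getD a []).getD b 0 = m₁ a b)
    (h₂ : ∀ a b : Fin n, (M₂.getD a []).getD b 0 = m₂ a b) {b : Tok (Fin n) → ℝ}
    (hb : ∀ p q : Tok (Fin n), p ≠ none → q ≠ none → keyV m₁ m₂ w₁ q ≤ keyV m₁ m₂ w₁ p →
      b p ≤ b q) (i : Fin n) :
    IsRepair tX tY (tree (nnForest m₁ w₁) (nnForest m₂ w₁)).par none b (fun k => i ≤ k) (tY i)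
      (Rst m₁ m₂ w₁ M₁ M₂ i) := by
  have h := isRepair_rep (X := (tX : Fin n → Tok (Fin n))) (Y := tY) (par := parV m₁ m₂ w₁)
    tX_inj tX_ne_tY (parV_root m₁ m₂ w₁) (b := b) (stageS_nodup (n := n) i)
    (hidV_nodup (n := n) w₁ (M₁ := M₁) (M₂ := M₂)) (fun p => mem_hidV w₁) ?_ (tY i)
  · have e : (fun k => k ∈ stageS n i) = (fun k => i ≤ k) := by
      funext k; exact propext mem_stageS
    rw [e] at h
    exact h
  · refine (hidV_sorted w₁ h₁ h₂).imp_of_mem ?_
    intro p q hp hq hpq
    exact hb p q ((mem_hidV w₁).1 hp) ((mem_hidV w₁).1 hq) hpq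

/-- The program's potentials. -/
theorem potL_Rst (h₁ : ∀ a b : Fin n, (M₁.getD a []).getD b 0 = m₁ a b)
    (h₂ : ∀ a b : Fin n, (M₂.getD a []).getD b 0 = m₂ a b) (i : ℕ) (v : Tok (Fin n))
    (k : Fin n) :
    ((potL n (parN n (parL n w₁ M₁) (parL n w₁ M₂)) (hidN n w₁ M₁ M₂) i).getD (tcode v) []).getD k 0
      = (forest tX tY (parV m₁ m₂ w₁) (stageS n i) (hidV w₁ M₁ M₂)).P v (Sum.inl k) := by
  have hpar := parN_tcode (n := n) w₁ h₁ h₂
  rw [potL_eq (hidN_nodup w₁) (fun p hp => by have := (mem_hidN w₁).1 hp; omega)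
    (fun p hp => ?_) i (tcode_lt' v) k.2]
  · have h := forest_map (V := Tok (Fin n)) (E := Fin n) tcode tcode_inj (fun e => (e : ℕ))
      Fin.val_injective n tX tY (parV m₁ m₂ w₁) (parN n (parL n w₁ M₁) (parL n w₁ M₂))
      (fun e => rfl) (fun e => rfl) hpar (stageS n i) (hidV w₁ M₁ M₂) v k
    rw [hidV_map] at h
    have e : (stageS n i).map (fun e : Fin n => (e : ℕ)) = (List.range n).drop i := by
      unfold stageS
      rw [List.map_drop, List.map_coe_finRange_eq_range]
    rw [e] at h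
    exact h
  · have h3 := hpar (tdec n p)
    rw [tcode_tdec ((mem_hidN w₁).1 hp)] at h3
    rw [h3]
    exact tcode_lt' _

/-- **The table of moves**: entry `i * 2n + p` is the jump of the repair map of stage `i` along the
hidden edge of the node `p`, with its key. -/
theorem movesL_getD (h₁ : ∀ a b : Fin n, (M₁.getD a []).getD b 0 = m₁ a b)
    (h₂ : ∀ a b : Fin n, (M₂.getD a []).getD b 0 = m₂ a b) (i : Fin n) {p : ℕ} (hp : p < 2 * n)
    (d : List ℤ × ℤ) :
    (movesL n (parN n (parL n w₁ M₁) (parL n w₁ M₂))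
      (keyN n w₁ M₁ M₂ (parL n w₁ M₁) (parL n w₁ M₂)) (hidN n w₁ M₁ M₂)).getD (i * (2 * n) + p) d
      = (List.ofFn (fun k => Rst m₁ m₂ w₁ M₁ M₂ i (tdec n p) k -
          Rst m₁ m₂ w₁ M₁ M₂ i ((tree (nnForest m₁ w₁) (nnForest m₂ w₁)).par (tdec n p)) k),
        keyV m₁ m₂ w₁ (tdec n p)) := by
  have hflat : ∀ (f : ℕ → List (List ℤ × ℤ)) (K : ℕ), (∀ i, (f i).length = K) →
      ∀ (N i p : ℕ), i < N → p < K →
      ((List.range N).flatMap f).getD (i * K + p) d = (f i).getD p d := by
    intro f K hf N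
    induction N with
    | zero => intro i p hi; omega
    | succ N ih =>
      intro i p hi hp
      rw [List.range_succ, List.flatMap_append, List.flatMap_singleton]
      have hlen : ((List.range N).flatMap f).length = N * K := by
        rw [List.length_flatMap]
        simp [hf]
      by_cases hiN : i < N
      · rw [List.getD_append _ _ _ _ (by rw [hlen]; nlinarith), ih i p hiN hp]
      · have : i = N := by omega
        subst this
        rw [List.getD_append_right _ _ _ _ (by rw [hlen]; omega), hlen]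
        congr 1
        omega
  unfold movesL
  rw [hflat _ (2 * n) (by intro i; simp) n i p i.2 hp]
  dsimp only
  rw [getD_map_range (2 * n) _ d hp]
  have hcode : p = tcode (tdec n p) := (tcode_tdec hp).symm
  apply Prod.ext
  · dsimp only
    unfold moveL
    apply List.ext_getElem
    · simp
    · intro j hj1 hj2
      have hj : j < n := by simpa using hj1
      simp only [List.getElem_map, List.getElem_range, List.getElem_ofFn]
      have e1 := potL_Rst (n := n) w₁ h₁ h₂ i (tdec n p) ⟨j, hj⟩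
      have e2 := potL_Rst (n := n) w₁ h₁ h₂ i (parV m₁ m₂ w₁ (tdec n p)) ⟨j, hj⟩
      rw [← parN_tcode w₁ h₁ h₂, tcode_tdec hp] at e2
      rw [tcode_tdec hp] at e1
      dsimp only at e1 e2
      rw [e1, e2]
      unfold Rst rep
      rw [sub_sub_sub_cancel_right]
      rfl
  · dsimp only
    have := keyN_tcode (n := n) w₁ h₁ h₂ (tdec_ne_none hp)
    rw [tcode_tdec hp] at this
    exact this

end geo

end Crest.Agent.R302.GeoSpec
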