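import Crest.Agent.R302.MSP893G

/-!
R302 (helper893): final form of the multi-scale Poincare inequality in terms of moves.
-/

set_option autoImplicit false
set_option linter.unusedSectionVars false
set_option linter.unusedVariables false

namespace Crest.Agent.R302.T893

open Finset Lor
open Crest.Agent.R302.Tree (RTree)
open Crest.Agent.R302.Cut (cw ind dvec)

variable {V E : Type*} [Fintype V] [DecidableEq V] [Fintype E] [DecidableEq E]

/-- a system of repair maps for the processing order `order` -/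
structure Rep (T : RTree V) (X Y : E → V) (b : V → ℝ) (order : List E)
    (R : E → V → E → ℤ) : Prop where
  base : ∀ i, R i (Y i) = 0
  cell : ∀ i cs, (i :: cs) <:+ order → ∀ k ∈ i :: cs, R i (X k) = R i (Y k) + Pi.single k 1
  bd : ∀ i p e, |R i p e| ≤ 1
  route : ∀ i p, ∃ mu : V → ℤ, (∀ q, |mu q| ≤ 1) ∧ mu T.root = 0 ∧
    ∑ q ∈ univ.filter (fun q => T.par q = T.root), |mu q| ≤ 2 ∧
    ∀ v, ev p v - ev (Y i) v = disp X Y (R i p) v + xch T mu v
  edge : ∀ i p, p ≠ T.root → R i p = R i (T.par p) ∨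
    ∃ lam : V → ℤ, (∀ q, |lam q| ≤ 1) ∧ (∀ q, lam q ≠ 0 → q ≠ T.root ∧ b q ≤ b p) ∧
      ∀ v, disp X Y (R i p - R i (T.par p)) v = xch T lam v

/-- existence of repair maps (helper725) -/
theorem exists_rep (T : RTree V) {X Y : E → V} (hX : Function.Injective X)
    (hXY : ∀ e e', X e ≠ Y e') (hTr : T.par T.root = T.root) (b : V → ℝ) (order : List E) :
    ∃ R : E → V → E → ℤ, Rep T X Y b order R := by
  classical
  have hroot : ∀ p, ∃ n : ℕ, T.par^[n] p = T.root := by
    intro p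
    induction hn : T.dep p using Nat.strong_induction_on generalizing p with
    | _ n ih =>
      by_cases hp : p = T.root
      · exact ⟨0, hp⟩
      · obtain ⟨k, hk⟩ := ih _ (hn ▸ T.dep_lt p hp) (T.par p) rfl
        exact ⟨k + 1, by rw [Function.iterate_succ_apply]; exact hk⟩
  have h := fun i : E => Repair.repair' X Y T.par hX hXY T.root hroot b
    (univ.filter (fun k => ∃ cs, (i :: cs) <:+ order ∧ k ∈ i :: cs)) (Y i)
  choose R h1 h2 h3 h4 h5 h6 h7 using h
  refine ⟨R, ⟨?_, ?_, ?_, ?_, ?_⟩⟩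
  · intro i; ext j; exact h1 i j
  · intro i cs hcs k hk
    ext j
    have := h2 i k (by simp only [Finset.mem_filter, Finset.mem_univ, true_and]; exact ⟨cs, hcs, hk⟩) j
    rw [Pi.add_apply, Pi.single_apply]
    linarith
  · intro i p e
    rcases h3 i p e with h | h | h <;> rw [h] <;> norm_num
  · intro i p
    obtain ⟨mu, m1, m2, m3, m4⟩ := h7 i p
    refine ⟨mu, ?_, m2, m3, route_int T p (Y i) (R i p) mu m4⟩
    intro q
    rcases m1 q with h | h | h <;> rw [h] <;> norm_num
  · intro i p hp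
    rcases h6 i p hp with h | ⟨lam, l1, l2, l3⟩
    · left; ext j; exact h j
    · right
      refine ⟨Pi.single p 1 - lam, ?_, ?_, ?_⟩
      · intro q
        rw [Pi.sub_apply]
        by_cases hq : q = p
        · subst hq
          have : lam q = 0 := by
            by_contra hne
            exact (l2 q hne).2.1 rfl
          rw [this, Pi.single_eq_same]
          norm_num
        · rw [Pi.single_eq_of_ne hq]
          rcases l1 q with h | h | h <;> rw [h] <;> norm_num
      · intro q hq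
        by_cases hqp : q = p
        · subst hqp; exact ⟨hp, le_rfl⟩
        · rw [Pi.sub_apply, Pi.single_eq_of_ne hqp, zero_sub, neg_ne_zero] at hq
          exact ⟨(l2 q hq).1, (l2 q hq).2.2⟩
      · intro v
        have h8 := route_int (X := X) (Y := Y) T p (T.par p) (R i p - R i (T.par p)) lam
          (fun φ => by simpa using l3 φ) v
        have h9 : xch T (Pi.single p 1 - lam) v = (ev p v - ev (T.par p) v) - xch T lam v := by
          have e : xch T (Pi.single p 1) = xch T (Pi.single p 1 - lam) + xch T lam := by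
            rw [← xch_add]
            congr 1
            abel
          have e2 := congrFun e v
          rw [xch_single] at e2
          simp only [Pi.add_apply, Pi.smul_apply, Pi.sub_apply, smul_eq_mul, one_mul] at e2
          linarith
        rw [h9]
        linarith

/-- bound of the route products: at most two thin edges, every fat edge at most once -/
theorem prod_route_le (T : RTree V) {β : V → ℝ} (hβ1 : ∀ q, 1 ≤ β q) {κt K3 : ℝ}
    (hthin : ∀ q, T.par q = T.root → β q ≤ κt) (hκt : 1 ≤ κt)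
    (hfat : ∏ q ∈ univ.filter (fun q => T.par q ≠ T.root), β q ≤ K3)
    (mu : V → ℤ) (h1 : ∀ q, |mu q| ≤ 1)
    (h2 : ∑ q ∈ univ.filter (fun q => T.par q = T.root), |mu q| ≤ 2) :
    ∏ q, β q ^ (mu q).natAbs ≤ K3 * κt ^ 2 := by
  have hn1 : ∀ q, (mu q).natAbs ≤ 1 := by
    intro q
    have := h1 q
    rw [← Int.natCast_natAbs] at this
    exact_mod_cast this
  rw [← Finset.prod_filter_mul_prod_filter_not univ (fun q => T.par q = T.root), mul_comm]
  have hK3 : 0 ≤ K3 := le_trans (Finset.prod_nonneg fun q _ => by linarith [hβ1 q]) hfat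
  refine mul_le_mul ?_ ?_ (Finset.prod_nonneg fun q _ => pow_nonneg (by linarith [hβ1 q]) _) hK3
  · refine le_trans (Finset.prod_le_prod (fun q _ => pow_nonneg (by linarith [hβ1 q]) _)
      fun q _ => ?_) hfat
    calc β q ^ (mu q).natAbs ≤ β q ^ 1 := pow_le_pow_right₀ (hβ1 q) (hn1 q)
      _ = β q := pow_one _
  · calc ∏ q ∈ univ.filter (fun q => T.par q = T.root), β q ^ (mu q).natAbs
        ≤ ∏ q ∈ univ.filter (fun q => T.par q = T.root), κt ^ (mu q).natAbs := by
          refine Finset.prod_le_prod (fun q _ => pow_nonneg (by linarith [hβ1 q]) _) fun q hq => ?_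
          exact pow_le_pow_left₀ (by linarith [hβ1 q]) (hthin q (Finset.mem_filter.1 hq).2) _
      _ = κt ^ (∑ q ∈ univ.filter (fun q => T.par q = T.root), (mu q).natAbs) := by
          rw [Finset.prod_pow_eq_pow_sum]
      _ ≤ κt ^ 2 := by
          refine pow_le_pow_right₀ hκt ?_
          have : ((∑ q ∈ univ.filter (fun q => T.par q = T.root), (mu q).natAbs : ℕ) : ℤ) ≤ 2 := by
            push_cast
            simpa using h2
          exact_mod_cast this

/-- **Final form**: energies along the moves `c_{i,p}` on the enlarged box. -/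
theorem msp_moves {m : ℕ} {X Y : E → V} {F : (V → ℤ) → ℝ} {γ : (E → ℤ) → V → ℤ}
    (hF : ∀ δ, 0 < F δ) (hAF : ∀ δ, AF (fun p q => F (δ + ev p + ev q)))
    (hγ : ∀ y k, γ (y + Pi.single k 1) = γ y + ev (X k) - ev (Y k))
    {κ PP : ℝ} (hκ1 : 1 ≤ κ) (hκ : ∀ δ p q, F (δ + ev p) ≤ κ * F (δ + ev q))
    (T : RTree V) {L c b s β : V → ℝ} (hL : ∀ p, 1 ≤ L p)
    (hs0 : ∀ q, 0 ≤ s q)
    (hs : ∀ p, ∀ q ∈ T.desc p, q ≠ p → ∀ δ : V → ℤ,
      -Q (fun a b => F (δ - ev p + ev a + ev b))
        (dvec (fun q => F (δ + ev q)) q (T.par q))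
        (dvec (fun q => F (δ + ev q)) q (T.par q)) ≤ s q / F (δ + ev q))
    (hb0 : ∀ q, 0 ≤ b q)
    (hb : ∀ q, q ≠ T.root → ∀ δ : V → ℤ,
      |F (δ + ev q) - F (δ + ev (T.par q))| ≤ b q * F (δ + ev (T.par q)))
    (hPP : ∑ q ∈ univ.erase T.root, (2 * κ * b q + 1 / L q) ^ 2 * L q ^ 2 ≤ PP)
    (hsL : ∀ p, p ≠ T.root →
      6 * (Fintype.card V * ∑ q ∈ (T.desc p).erase p, s q * L q ^ 2) ≤ L p ^ 2)
    (hβ1 : ∀ q, 1 ≤ β q)
    (hup : ∀ q, q ≠ T.root → ∀ δ, F (δ + ev q) ≤ β q * F (δ + ev (T.par q)))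
    (hdn : ∀ q, q ≠ T.root → ∀ δ, F (δ + ev (T.par q)) ≤ β q * F (δ + ev q))
    {κt K3 : ℝ} (hthin : ∀ q, T.par q = T.root → β q ≤ κt) (hκt : 1 ≤ κt)
    (hfat : ∏ q ∈ univ.filter (fun q => T.par q ≠ T.root), β q ≤ K3)
    (order : List E) (hnd : order.Nodup) (hall : ∀ e, e ∈ order)
    (R : E → V → E → ℤ) (hRep : ∃ b' : V → ℝ, Rep T X Y b' order R)
    (f : (E → ℤ) → ℝ) {A : ℝ} (hf : ∀ y, |f y| ≤ A) (x : E → ℤ) (B Bp : Finset (E → ℤ))
    (hB : B = Fintype.piFinset fun e => Icc (x e) (x e + m))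
    (hBp : Bp = Fintype.piFinset fun e => Icc (x e - 1) (x e + m + 1)) :
    ∑ y ∈ B, F (γ y) * (f y - (∑ y ∈ B, F (γ y) * f y) / ∑ y ∈ B, F (γ y)) ^ 2 ≤
      ∑ i, ∑ p ∈ univ.erase T.root, C1 (Fintype.card V) κ PP * (κ * (K3 * κt ^ 2)) * L p ^ 2 *
        ∑ y ∈ Bp, F (γ y) * (f (y + (R i p - R i (T.par p))) - f y) ^ 2
      + Fintype.card E * (C2 m (Fintype.card E) κ * A ^ 2 *
        ∑ p ∈ univ.erase T.root, ∑ y ∈ B, tl F γ T L c p y) := by
  obtain ⟨b', hRep⟩ := hRep
  refine (msp hF hAF hγ hκ1 hκ T hL hs0 hs hb0 hb hPP hsL order hnd hall R hRep.base hRep.cell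
    f hf x B hB (c := c)).trans ?_
  refine add_le_add_left ?_ _
  rw [Finset.mul_sum]
  refine Finset.sum_le_sum fun i _ => ?_
  rw [Finset.mul_sum]
  refine Finset.sum_le_sum fun p _ => ?_
  have hPP0 : 0 ≤ PP := le_trans (Finset.sum_nonneg fun q _ => by positivity) hPP
  have hC : 0 ≤ C1 (Fintype.card V) κ PP := C1_nonneg hκ1 hPP0
  have hκ0 : 0 ≤ κ := by linarith
  have key : ∑ y ∈ B, F (γ y - ev (Y i) + ev p) * (f (y + R i p) - f (y + R i (T.par p))) ^ 2 ≤
      κ * (K3 * κt ^ 2) * ∑ y ∈ Bp, F (γ y) * (f (y + (R i p - R i (T.par p))) - f y) ^ 2 := by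
    obtain ⟨mu, m1, m2, m3, m4⟩ := hRep.route i (T.par p)
    have hprod := prod_route_le T hβ1 hthin hκt hfat mu m1 m3
    have h1 : ∀ y ∈ B, F (γ y - ev (Y i) + ev p) *
        (f (y + R i p) - f (y + R i (T.par p))) ^ 2 ≤ κ * (K3 * κt ^ 2) *
        (F (γ (y + R i (T.par p))) * (f (y + R i (T.par p) + (R i p - R i (T.par p)))
          - f (y + R i (T.par p))) ^ 2) := by
      intro y _
      have h2 := F1_le_repaired (Y := Y) hF hγ T hβ1 hup hdn i (T.par p) (R i (T.par p)) mu m2 m4 y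
      have h3 : F (γ y - ev (Y i) + ev p) ≤
          κ * (K3 * κt ^ 2) * F (γ (y + R i (T.par p))) := by
        calc F (γ y - ev (Y i) + ev p) ≤ κ * F (γ y - ev (Y i) + ev (T.par p)) := hκ _ _ _
          _ ≤ κ * ((∏ q, β q ^ (mu q).natAbs) * F (γ (y + R i (T.par p)))) :=
            mul_le_mul_of_nonneg_left h2 hκ0
          _ ≤ κ * ((K3 * κt ^ 2) * F (γ (y + R i (T.par p)))) :=
            mul_le_mul_of_nonneg_left (mul_le_mul_of_nonneg_right hprod (hF _).le) hκ0
          _ = _ := by ring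
      have e : y + R i (T.par p) + (R i p - R i (T.par p)) = y + R i p := by abel
      rw [e]
      calc _ ≤ κ * (K3 * κt ^ 2) * F (γ (y + R i (T.par p))) *
            (f (y + R i p) - f (y + R i (T.par p))) ^ 2 :=
            mul_le_mul_of_nonneg_right h3 (sq_nonneg _)
        _ = _ := by ring
    refine (Finset.sum_le_sum h1).trans ?_
    rw [← Finset.mul_sum]
    have hK3 : 0 ≤ K3 := le_trans (Finset.prod_nonneg fun q _ => by linarith [hβ1 q]) hfat
    refine mul_le_mul_of_nonneg_left ?_ (by positivity)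
    rw [← Finset.sum_image (f := fun z => F (γ z) * (f (z + (R i p - R i (T.par p))) - f z) ^ 2)
      (g := fun y => y + R i (T.par p)) (s := B)]
    · refine Finset.sum_le_sum_of_subset_of_nonneg ?_ fun z _ _ =>
        mul_nonneg (hF _).le (sq_nonneg _)
      intro z hz
      obtain ⟨y, hy, rfl⟩ := Finset.mem_image.1 hz
      rw [hB, Fintype.mem_piFinset] at hy
      rw [hBp, Fintype.mem_piFinset]
      intro e
      have h5 := Finset.mem_Icc.1 (hy e)
      have h6 := abs_le.1 (hRep.bd i (T.par p) e)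
      rw [Finset.mem_Icc, Pi.add_apply]
      constructor <;> linarith [h5.1, h5.2, h6.1, h6.2]
    · intro a _ b _ hab
      exact add_right_cancel hab
  have h7 : 0 ≤ C1 (Fintype.card V) κ PP * L p ^ 2 := by positivity
  calc C1 (Fintype.card V) κ PP * (L p ^ 2 *
        ∑ y ∈ B, F (γ y - ev (Y i) + ev p) * (f (y + R i p) - f (y + R i (T.par p))) ^ 2)
      = C1 (Fintype.card V) κ PP * L p ^ 2 *
        ∑ y ∈ B, F (γ y - ev (Y i) + ev p) * (f (y + R i p) - f (y + R i (T.par p))) ^ 2 := by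
        ring
    _ ≤ C1 (Fintype.card V) κ PP * L p ^ 2 * (κ * (K3 * κt ^ 2) *
        ∑ y ∈ Bp, F (γ y) * (f (y + (R i p - R i (T.par p))) - f y) ^ 2) :=
        mul_le_mul_of_nonneg_left key h7
    _ = _ := by ring

end Crest.Agent.R302.T893
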