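/-
R302 (helper725): the program's repair maps satisfy helper893's `T893.Rep`; the capacity matrices.
-/
import Crest.Agent.R302.GeoSpec725
import Crest.Agent.R302.MSP893H
import Crest.Agent.R302.EDM6

set_option autoImplicit false

namespace Crest.Agent.R302.GeoSpec

open Finset Crest.Agent.R302.Facet Crest.Agent.R302.TreeNN Crest.Agent.R302.GeoProg
open Crest.Agent.R302.Repair Crest.Agent.R302.Inst

/-- A family of repair maps is a `T893.Rep`. -/
theorem rep893_of_isRepair {V E : Type*} [Fintype V] [DecidableEq V] [Fintype E] [DecidableEq E]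
    (T : Tree.RTree V) {X Y : E → V} (b : V → ℝ) (order : List E) (R : E → V → E → ℤ)
    (Q : E → E → Prop)
    (hQ : ∀ i cs, (i :: cs) <:+ order → ∀ k ∈ i :: cs, Q i k)
    (h : ∀ i, IsRepair X Y T.par T.root b (Q i) (Y i) (R i)) : T893.Rep T X Y b order R := by
  refine ⟨?_, ?_, ?_, ?_, ?_⟩
  · intro i; ext j; exact (h i).base j
  · intro i cs hcs k hk
    ext j
    have := (h i).cell k (hQ i cs hcs k hk) j
    rw [Pi.add_apply, Pi.single_apply]
    linarith
  · intro i p e
    rcases (h i).cases p e with h | h | h <;> rw [h] <;> norm_num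
  · intro i p
    obtain ⟨mu, m1, m2, m3, m4⟩ := (h i).route p
    refine ⟨mu, ?_, m2, m3, T893.route_int T p (Y i) (R i p) mu m4⟩
    intro q
    rcases m1 q with h | h | h <;> rw [h] <;> norm_num
  · intro i p hp
    rcases (h i).edge p hp with h' | ⟨lam, l1, l2, l3⟩
    · left; ext j; exact h' j
    · right
      refine ⟨Pi.single p 1 - lam, ?_, ?_, ?_⟩
      · intro q
        rw [Pi.sub_apply]
        by_cases hq : q = p
        · subst hq
          have : lam q = 0 := by
            by_contra hne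
            exact (l2 q hne).2.1 rfl
          rw [this, Pi.single_eq_same]
          norm_num
        · rw [Pi.single_eq_of_ne hq]
          rcases l1 q with h | h | h <;> rw [h] <;> norm_num
      · intro q hq
        by_cases hqp : q = p
        · subst hqp; exact ⟨hp, le_rfl⟩
        · rw [Pi.sub_apply, Pi.single_eq_of_ne hqp, zero_sub, neg_ne_zero] at hq
          exact ⟨(l2 q hq).1, (l2 q hq).2.2⟩
      · intro v
        have h8 := T893.route_int (X := X) (Y := Y) T p (T.par p) (R i p - R i (T.par p)) lam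
          (fun φ => by simpa using l3 φ) v
        have h9 : T893.xch T (Pi.single p 1 - lam) v
            = (Lor.ev p v - Lor.ev (T.par p) v) - T893.xch T lam v := by
          unfold T893.xch
          simp only [Pi.sub_apply, sub_mul, Finset.sum_sub_distrib]
          congr 1
          rw [Finset.sum_eq_single p]
          · rw [Pi.single_eq_same, one_mul]
          · intro q _ hq
            rw [Pi.single_eq_of_ne hq, zero_mul]
          · intro hp'; exact absurd (Finset.mem_univ p) hp'
        rw [h9, h8]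
        ring

theorem le_of_suffix_finRange {n : ℕ} (i : Fin n) (cs : List (Fin n))
    (h : (i :: cs) <:+ List.finRange n) : ∀ k ∈ i :: cs, i ≤ k := by
  have h1 : (List.finRange n).Pairwise (· < ·) := List.pairwise_lt_finRange n
  have h2 : (i :: cs).Pairwise (· < ·) := h1.sublist h.sublist
  intro k hk
  rcases List.mem_cons.1 hk with rfl | hk
  · exact le_rfl
  · exact ((List.pairwise_cons.1 h2).1 k hk).le

section geo

variable {n : ℕ} {m₁ m₂ : Fin n → Fin n → ℤ} (w₁ : ℤ) {M₁ M₂ : List (List ℤ)}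

/-- **The program's repair maps are a `T893.Rep`** (order `finRange n`), for every slope function
antitone in the keys. -/
theorem rep893_Rst (h₁ : ∀ a b : Fin n, (M₁.getD a []).getD b 0 = m₁ a b)
    (h₂ : ∀ a b : Fin n, (M₂.getD a []).getD b 0 = m₂ a b) {b : Tok (Fin n) → ℝ}
    (hb : ∀ p q : Tok (Fin n), p ≠ none → q ≠ none → keyV m₁ m₂ w₁ q ≤ keyV m₁ m₂ w₁ p →
      b p ≤ b q) :
    T893.Rep (tree (nnForest m₁ w₁) (nnForest m₂ w₁)) tX tY b (List.finRange n)
      (Rst m₁ m₂ w₁ M₁ M₂) :=
  rep893_of_isRepair _ b _ _ (fun i k => i ≤ k) (fun i cs h => le_of_suffix_finRange i cs h)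
    (fun i => isRepair_Rst w₁ h₁ h₂ hb i)

end geo

/-! ### The capacity matrix at a point of a box instance -/

open Crest.Agent.R302.EDM Crest.Agent.R302.ORAM Crest.Agent.Lib.PT

/-- the matrix of symmetrised capacities -/
def matBL (n K : ℕ) (r : List Bool → ℤ) (lo hi x : List ℤ) : List (List ℤ) :=
  (List.range n).map (fun a => (List.range n).map (fun b =>
    if a = b then 0 else min (capBL n K r lo hi x a b) (capBL n K r lo hi x b a)))

theorem matBL_getD {n : ℕ} {r : List Bool → ℤ} {ρ : Finset (Fin n) → ℤ} (h : RepL n r ρ) {K : ℕ}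
    {R : ℤ} (hr : SubM ρ R) (hK : ∀ A, |ρ A| ≤ K) {lo hi x : List ℤ}
    (hx : MemJ ρ R (vecL n x))
    (hbox : ∀ i, vecL n lo i ≤ vecL n x i ∧ vecL n x i ≤ vecL n hi i) (a b : Fin n) :
    ((matBL n K r lo hi x).getD a []).getD b 0 =
      mcap (boxR (vecL n lo) (vecL n hi) ρ) (vecL n x) a b := by
  unfold matBL
  rw [getD_map_range n _ _ a.2, getD_map_range n _ _ b.2]
  by_cases hab : a = b
  · subst hab
    rw [if_pos rfl]
    unfold mcap cap
    have : ¬ (sep a a).Nonempty := by
      rintro ⟨A, hA⟩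
      rw [mem_sep] at hA
      exact hA.2 hA.1
    rw [dif_neg this, min_self]
  · rw [if_neg (fun h => hab (Fin.ext h)), capBL_eq h hr hK hx hbox hab,
      capBL_eq h hr hK hx hbox (Ne.symm hab)]
    rfl

section optf

variable {γ : Type} [PTCode γ] {N K : Inst → γ → ℕ} {r : Inst → γ → List Bool → ℤ}
  {x lo hi : Inst → γ → List ℤ}

theorem matBL_optf (hn : OPTU N) (hK : OPTF K)
    (hr : OPTF (fun I (p : γ × List Bool) => r I p.1 p.2)) (hlo : OPTF lo) (hhi : OPTF hi)
    (hx : OPTF x) :
    OPTF (fun I c => matBL (N I c) (K I c) (r I c) (lo I c) (hi I c) (x I c)) := by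
  unfold matBL
  have key : ∀ (u v : Inst → ((γ × ℕ) × ℕ) → ℕ), OPTF u → OPTF v →
      OPTF (fun I (p : (γ × ℕ) × ℕ) => capBL (N I p.1.1) (K I p.1.1) (r I p.1.1) (lo I p.1.1)
        (hi I p.1.1) (x I p.1.1) (u I p) (v I p)) := by
    intro u v hu hv
    have f : OPTF (fun (_ : Inst) (p : (γ × ℕ) × ℕ) => p.1.1) := OPTF.of_ptf (by fun_prop)
    have g : OPTF (fun (_ : Inst) (p : ((γ × ℕ) × ℕ) × List Bool) => (p.1.1.1, p.2)) :=
      OPTF.of_ptf (by fun_prop)
    refine capBL_optf (γ := (γ × ℕ) × ℕ) (N := fun I p => N I p.1.1) (K := fun I p => K I p.1.1)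
      (r := fun I p => r I p.1.1) (lo := fun I p => lo I p.1.1) (hi := fun I p => hi I p.1.1)
      (x := fun I p => x I p.1.1) ?_ ?_ ?_ ?_ ?_ ?_ hu hv
    · exact hn.comp f
    · exact hK.comp f
    · exact hr.comp g
    · exact hlo.comp f
    · exact hhi.comp f
    · exact hx.comp f
  have h1 := key (fun _ p => p.1.2) (fun _ p => p.2) (OPTF.of_ptf (by fun_prop))
    (OPTF.of_ptf (by fun_prop))
  have h2 := key (fun _ p => p.2) (fun _ p => p.1.2) (OPTF.of_ptf (by fun_prop))
    (OPTF.of_ptf (by fun_prop))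
  have hn' : OPTU (fun I (p : γ × ℕ) => N I p.1) := hn.comp (OPTF.of_ptf (by fun_prop))
  opt_solve

end optf

end Crest.Agent.R302.GeoSpec
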