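import Crest.Agent.R302.EDM6
import Crest.Agent.R302.LatChain541

/-!
# R302, block STEP (helper223), part A: one step of the macro chain as a list program

State `St = (x, β₁, β₂)` (three lists of length `n`; `βᵢ a = 0` at the elements that are not block
representatives of side `i`).

* `bsL n sub x a` : subtree sum, `sub.getD a [] |>.getD b false` says that `b` is below `a`.
* `loadL`, `zL` : the loads and the point with fat slacks `t`.
* `uL` : the exponent of the explicit weight (links and gauge).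
* `mvL` : the proposal (`ivec` of `LatChain541` on lists).
* `coinL` : ratio coin, two fresh slack tests, stage coin.
* `stepL` = `cstep` of these; everything is closed under `OPTF`.
-/

set_option autoImplicit false
set_option maxHeartbeats 400000

namespace Crest.Agent.R302.Step

open Crest.Agent.R302.EDM Crest.Agent.R302.Sfm646 Crest.Agent.R302.ORAM
open Crest.Agent.Lib.PT Crest.Agent.Lib.PT.Arith Crest.Agent.R302.LatChain

/-- state code -/
abbrev St : Type := List ℤ × List ℤ × List ℤ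

/-! ### vectors -/

/-- `x + k d` -/
def axL (n : ℕ) (x : List ℤ) (k : ℤ) (d : List ℤ) : List ℤ :=
  (List.range n).map fun j => x.getD j 0 + k * d.getD j 0

/-- `s + k d` for states -/
def axSt (n : ℕ) (s : St) (k : ℤ) (d : St) : St :=
  (axL n s.1 k d.1, axL n s.2.1 k d.2.1, axL n s.2.2 k d.2.2)

/-- subtree sum -/
def bsL (n : ℕ) (sub : List (List Bool)) (x : List ℤ) (a : ℕ) : ℤ :=
  ((List.range n).map fun b => if (sub.getD a []).getD b false = true then x.getD b 0 else 0).sum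

/-- the loads: the representative of a block absorbs the link -/
def loadL (n : ℕ) (par : List ℕ) (sub : List (List Bool)) (x β : List ℤ) : List ℤ :=
  (List.range n).map fun a =>
    if par.getD a n = n then x.getD a 0 + (β.getD a 0 - bsL n sub x a) else x.getD a 0

/-- the inflow of the slacks `t` of the children of `b` -/
def inflL (n : ℕ) (par : List ℕ) (t : List ℤ) (b : ℕ) : ℤ :=
  ((List.range n).map fun a => if par.getD a n = b then t.getD a 0 else 0).sum

/-- the point `load + Σ_a t_a (e_a - e_{par a})` over the fat `a` -/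
def zL (n : ℕ) (par : List ℕ) (sub : List (List Bool)) (x β t : List ℤ) : List ℤ :=
  (List.range n).map fun b =>
    (loadL n par sub x β).getD b 0 + (if par.getD b n = n then 0 else t.getD b 0)
      - inflL n par t b

/-- number of link units of one side -/
def lnkL (n : ℕ) (par : List ℕ) (sub : List (List Bool)) (x β : List ℤ) : ℤ :=
  ((List.range n).map fun a =>
    if par.getD a n = n then (((β.getD a 0 - bsL n sub x a).natAbs : ℕ) : ℤ) else 0).sum

/-- gauge exponent of one side -/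
def gagL (n : ℕ) (par : List ℕ) (g β : List ℤ) : ℤ :=
  ((List.range n).map fun a => if par.getD a n = n then g.getD a 0 * β.getD a 0 else 0).sum

/-- `- log₂` of the explicit weight -/
def uL (n : ℕ) (par₁ par₂ : List ℕ) (sub₁ sub₂ : List (List Bool)) (m : ℕ) (g : List ℤ)
    (s : St) : ℤ :=
  m * (lnkL n par₁ sub₁ s.1 s.2.1 + lnkL n par₂ sub₂ s.1 s.2.2)
    - gagL n par₁ g s.2.1 + gagL n par₂ g s.2.2

/-! ### proposals -/

/-- the signed length coded by the index `i` -/
def lenI (b e i : ℕ) : ℤ :=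
  if i % 2 = 0 then ((i / 2 % 2 ^ b % 2 ^ (min e b) + 1 : ℕ) : ℤ)
  else -((i / 2 % 2 ^ b % 2 ^ (min e b) + 1 : ℕ) : ℤ)

/-- accept the new state if it is in the domain -/
def guardSt (inB : St → Bool) (s : St) : Option St := if inB s = true then some s else none

/-- the proposal of index `i` -/
def mvL (n a b : ℕ) (cs : List (St × ℕ)) (inB : St → Bool) (s : St) (i : ℕ) : Option St :=
  if i < 2 ^ (a + b + 1) then
    match (cs.drop (i / 2 / 2 ^ b)).head? with
    | none => none
    | some p => guardSt inB (axSt n s (lenI b p.2 i) p.1)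
  else none

/-- box test for states -/
def inBoxSt (n : ℕ) (lo hi : St) (s : St) : Bool :=
  inBoxL n lo.1 hi.1 s.1 && (inBoxL n lo.2.1 hi.2.1 s.2.1 && inBoxL n lo.2.2 hi.2.2 s.2.2)

/-! ### the acceptance test -/

/-- the first `k` bits are all `false` -/
def zerosL (k : ℕ) (l : List Bool) : Bool := (l.take k).all fun b => !b

/-- coin with success probability `2 ^ (-k)` for `k ≤ m`, `0` for `k > m` (`m` bits) -/
def coin2 (m k : ℕ) (l : List Bool) : Bool := decide (k ≤ m) && zerosL k l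

/-- the acceptance test: ratio coin (`kmax` bits), slacks of side 1 (`B₁` bits), slacks of side 2
(`B₂` bits), stage coin (`omax` bits) -/
def coinL (kmax B₁ B₂ omax : ℕ) (u : St → ℤ) (z₁ z₂ : St → List ℤ → List ℤ)
    (D₁ D₂ : List Bool → List ℤ) (mem₁ mem₂ : List ℤ → Bool) (om : List ℤ → ℕ) (s s' : St)
    (l : List Bool) : Bool :=
  (decide ((u s' - u s).natAbs ≤ kmax) && zerosL (u s' - u s).toNat (l.take kmax)) &&
    ((mem₁ (z₁ s' (D₁ ((l.drop kmax).take B₁))) &&
      coin2 omax (om (z₁ s' (D₁ ((l.drop kmax).take B₁)))) (((l.drop kmax).drop B₁).drop B₂)) &&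
      mem₂ (z₂ s' (D₂ (((l.drop kmax).drop B₁).take B₂))))

/-! ### closure -/

section optf

variable {γ : Type} [PTCode γ] {N a b : Inst → γ → ℕ} {x d β t g lo hi : Inst → γ → List ℤ}
  {par par₁ par₂ : Inst → γ → List ℕ} {sub sub₁ sub₂ : Inst → γ → List (List Bool)}
  {k : Inst → γ → ℤ}

theorem axL_optf (hn : OPTU N) (hx : OPTF x) (hk : OPTF k) (hd : OPTF d) :
    OPTF (fun I c => axL (N I c) (x I c) (k I c) (d I c)) := by
  unfold axL
  have h1 : OPTF (fun I (p : γ × ℕ) => x I p.1) := off hx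
  have h2 : OPTF (fun I (p : γ × ℕ) => k I p.1) := off hk
  have h3 : OPTF (fun I (p : γ × ℕ) => d I p.1) := off hd
  opt_solve

theorem axSt_optf {s e : Inst → γ → St} (hn : OPTU N) (hs : OPTF s) (hk : OPTF k) (he : OPTF e) :
    OPTF (fun I c => axSt (N I c) (s I c) (k I c) (e I c)) := by
  unfold axSt
  exact OPTF.prodMk (axL_optf hn hs.fst hk he.fst)
    (OPTF.prodMk (axL_optf hn hs.snd.fst hk he.snd.fst) (axL_optf hn hs.snd.snd hk he.snd.snd))

theorem bsL_optf {j : Inst → γ → ℕ} (hn : OPTU N) (hs : OPTF sub) (hx : OPTF x) (hj : OPTF j) :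
    OPTF (fun I c => bsL (N I c) (sub I c) (x I c) (j I c)) := by
  unfold bsL
  have h1 : OPTF (fun I (p : γ × ℕ) => x I p.1) := off hx
  have h2 : OPTF (fun I (p : γ × ℕ) => sub I p.1) := off hs
  have h3 : OPTF (fun I (p : γ × ℕ) => j I p.1) := off hj
  opt_solve

theorem loadL_optf (hn : OPTU N) (hp : OPTF par) (hs : OPTF sub) (hx : OPTF x) (hb : OPTF β) :
    OPTF (fun I c => loadL (N I c) (par I c) (sub I c) (x I c) (β I c)) := by
  unfold loadL
  have h1 : OPTF (fun I (p : γ × ℕ) => x I p.1) := off hx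
  have h2 : OPTF (fun I (p : γ × ℕ) => par I p.1) := off hp
  have h3 : OPTF (fun I (p : γ × ℕ) => β I p.1) := off hb
  have h4 : OPTF (fun I (p : γ × ℕ) => bsL (N I p.1) (sub I p.1) (x I p.1) p.2) :=
    bsL_optf (ouf hn) (off hs) (off hx) (OPTF.snd OPTF.id)
  have h5 : OPTU (fun I (p : γ × ℕ) => N I p.1) := ouf hn
  opt_solve

theorem inflL_optf {j : Inst → γ → ℕ} (hn : OPTU N) (hp : OPTF par) (ht : OPTF t) (hj : OPTF j) :
    OPTF (fun I c => inflL (N I c) (par I c) (t I c) (j I c)) := by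
  unfold inflL
  have h1 : OPTF (fun I (p : γ × ℕ) => t I p.1) := off ht
  have h2 : OPTF (fun I (p : γ × ℕ) => par I p.1) := off hp
  have h3 : OPTF (fun I (p : γ × ℕ) => j I p.1) := off hj
  have h5 : OPTU (fun I (p : γ × ℕ) => N I p.1) := ouf hn
  opt_solve

theorem zL_optf (hn : OPTU N) (hp : OPTF par) (hs : OPTF sub) (hx : OPTF x) (hb : OPTF β)
    (ht : OPTF t) :
    OPTF (fun I c => zL (N I c) (par I c) (sub I c) (x I c) (β I c) (t I c)) := by
  unfold zL
  have h1 : OPTF (fun I (p : γ × ℕ) => loadL (N I p.1) (par I p.1) (sub I p.1) (x I p.1)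
    (β I p.1)) := off (loadL_optf hn hp hs hx hb)
  have h2 : OPTF (fun I (p : γ × ℕ) => par I p.1) := off hp
  have h3 : OPTF (fun I (p : γ × ℕ) => t I p.1) := off ht
  have h4 : OPTF (fun I (p : γ × ℕ) => inflL (N I p.1) (par I p.1) (t I p.1) p.2) :=
    inflL_optf (ouf hn) (off hp) (off ht) (OPTF.snd OPTF.id)
  have h5 : OPTU (fun I (p : γ × ℕ) => N I p.1) := ouf hn
  opt_solve

theorem lnkL_optf (hn : OPTU N) (hp : OPTF par) (hs : OPTF sub) (hx : OPTF x) (hb : OPTF β) :
    OPTF (fun I c => lnkL (N I c) (par I c) (sub I c) (x I c) (β I c)) := by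
  unfold lnkL
  have h1 : OPTF (fun I (p : γ × ℕ) => β I p.1) := off hb
  have h2 : OPTF (fun I (p : γ × ℕ) => par I p.1) := off hp
  have h4 : OPTF (fun I (p : γ × ℕ) => bsL (N I p.1) (sub I p.1) (x I p.1) p.2) :=
    bsL_optf (ouf hn) (off hs) (off hx) (OPTF.snd OPTF.id)
  have h5 : OPTU (fun I (p : γ × ℕ) => N I p.1) := ouf hn
  opt_solve

theorem gagL_optf (hn : OPTU N) (hp : OPTF par) (hg : OPTF g) (hb : OPTF β) :
    OPTF (fun I c => gagL (N I c) (par I c) (g I c) (β I c)) := by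
  unfold gagL
  have h1 : OPTF (fun I (p : γ × ℕ) => β I p.1) := off hb
  have h2 : OPTF (fun I (p : γ × ℕ) => par I p.1) := off hp
  have h3 : OPTF (fun I (p : γ × ℕ) => g I p.1) := off hg
  have h5 : OPTU (fun I (p : γ × ℕ) => N I p.1) := ouf hn
  opt_solve

theorem uL_optf {m : Inst → γ → ℕ} {s : Inst → γ → St} (hn : OPTU N) (hp₁ : OPTF par₁)
    (hp₂ : OPTF par₂) (hs₁ : OPTF sub₁) (hs₂ : OPTF sub₂) (hm : OPTF m) (hg : OPTF g)
    (hs : OPTF s) :
    OPTF (fun I c => uL (N I c) (par₁ I c) (par₂ I c) (sub₁ I c) (sub₂ I c) (m I c) (g I c)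
      (s I c)) := by
  unfold uL
  have h1 := lnkL_optf hn hp₁ hs₁ hs.fst hs.snd.fst
  have h2 := lnkL_optf hn hp₂ hs₂ hs.fst hs.snd.snd
  have h3 := gagL_optf hn hp₁ hg hs.snd.fst
  have h4 := gagL_optf hn hp₂ hg hs.snd.snd
  opt_solve

theorem inBoxSt_optf {lo hi s : Inst → γ → St} (hn : OPTU N) (hlo : OPTF lo) (hhi : OPTF hi)
    (hs : OPTF s) : OPTF (fun I c => inBoxSt (N I c) (lo I c) (hi I c) (s I c)) := by
  unfold inBoxSt
  exact OPTF.and (inBoxL_optf hn hlo.fst hhi.fst hs.fst)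
    (OPTF.and (inBoxL_optf hn hlo.snd.fst hhi.snd.fst hs.snd.fst)
      (inBoxL_optf hn hlo.snd.snd hhi.snd.snd hs.snd.snd))

theorem lenI_optf {e i : Inst → γ → ℕ} (hb : OPTU b) (he : OPTF e) (hi : OPTF i) :
    OPTF (fun I c => lenI (b I c) (e I c) (i I c)) := by
  unfold lenI
  have h1 : OPTU (fun I c => min (e I c) (b I c)) :=
    OPTU.post (n := fun p : ℕ × Un => min p.1 p.2.val)
      (PTF.natMinUn (by fun_prop) (PTU.val (by fun_prop))) (f := fun I c => (e I c, Un.mk (b I c)))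
      (OPTF.prodMk he hb)
  opt_solve

theorem guardSt_optf {inB : Inst → γ → St → Bool} {s : Inst → γ → St}
    (hB : OPTF (fun I (p : γ × St) => inB I p.1 p.2)) (hs : OPTF s) :
    OPTF (fun I c => guardSt (inB I c) (s I c)) := by
  unfold guardSt
  have h1 : OPTF (fun I c => inB I c (s I c)) := OPTF.comp₂ hB OPTF.id hs
  opt_solve

theorem mvL_optf {cs : Inst → γ → List (St × ℕ)} {inB : Inst → γ → St → Bool} {s : Inst → γ → St}
    {i : Inst → γ → ℕ} (hn : OPTU N) (ha : OPTU a) (hb : OPTU b) (hc : OPTF cs)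
    (hB : OPTF (fun I (p : γ × St) => inB I p.1 p.2)) (hs : OPTF s) (hi : OPTF i) :
    OPTF (fun I c => mvL (N I c) (a I c) (b I c) (cs I c) (inB I c) (s I c) (i I c)) := by
  unfold mvL
  have h0 : OPTF (fun I c => ((cs I c).drop (i I c / 2 / 2 ^ b I c)).head?) := by opt_solve
  have hB' : OPTF (fun I (p : (γ × St × ℕ) × St) => inB I p.1.1 p.2) :=
    OPTF.comp₂ (g := inB) (f := fun _ (p : (γ × St × ℕ) × St) => p.1.1)
      (h := fun _ (p : (γ × St × ℕ) × St) => p.2) hB (by opt_solve) (by opt_solve)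
  have h1 : OPTF (fun I (p : γ × St × ℕ) => guardSt (inB I p.1)
      (axSt (N I p.1) (s I p.1) (lenI (b I p.1) p.2.2 (i I p.1)) p.2.1)) :=
    guardSt_optf (γ := γ × St × ℕ) (inB := fun I p => inB I p.1) hB'
      (axSt_optf (ouf hn) (off hs) (lenI_optf (ouf hb) (OPTF.snd (OPTF.snd OPTF.id)) (off hi))
        (OPTF.fst (OPTF.snd OPTF.id)))
  have h2 := OPTF.optionCasesOn (f := fun _ (_ : γ) => (none : Option St))
    (g := fun I (c : γ) (p : St × ℕ) => guardSt (inB I c)
      (axSt (N I c) (s I c) (lenI (b I c) p.2 (i I c)) p.1)) h0 (OPTF.const _) h1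
  have h3 : OPTP (fun I c => i I c < 2 ^ (a I c + b I c + 1)) := by
    refine OPTP.natLt hi (OPTF.natTwoPow (OPTU.add (OPTU.add ha hb) (OPTU.const 1)))
  refine (OPTF.ite h3 h2 (OPTF.const (none : Option St))).of_eq fun I c => ?_
  cases ((cs I c).drop (i I c / 2 / 2 ^ b I c)).head? <;> rfl

theorem zerosL_optf {k : Inst → γ → ℕ} {l : Inst → γ → List Bool} (hk : OPTF k) (hl : OPTF l) :
    OPTF (fun I c => zerosL (k I c) (l I c)) := by
  unfold zerosL
  opt_solve

theorem coin2_optf {m k : Inst → γ → ℕ} {l : Inst → γ → List Bool} (hm : OPTF m) (hk : OPTF k)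
    (hl : OPTF l) : OPTF (fun I c => coin2 (m I c) (k I c) (l I c)) := by
  unfold coin2
  exact OPTF.and (OPTP.toOPTF (OPTP.natLe hk hm)) (zerosL_optf hk hl)

theorem coinL_optf {kmax B₁ B₂ omax : Inst → γ → ℕ} {u : Inst → γ → St → ℤ}
    {z₁ z₂ : Inst → γ → St → List ℤ → List ℤ} {D₁ D₂ : Inst → γ → List Bool → List ℤ}
    {mem₁ mem₂ : Inst → γ → List ℤ → Bool} {om : Inst → γ → List ℤ → ℕ} {s s' : Inst → γ → St}
    {l : Inst → γ → List Bool} (hk : OPTF kmax) (hB₁ : OPTF B₁) (hB₂ : OPTF B₂) (ho : OPTF omax)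
    (hu : OPTF (fun I (p : γ × St) => u I p.1 p.2))
    (hz₁ : OPTF (fun I (p : γ × St × List ℤ) => z₁ I p.1 p.2.1 p.2.2))
    (hz₂ : OPTF (fun I (p : γ × St × List ℤ) => z₂ I p.1 p.2.1 p.2.2))
    (hD₁ : OPTF (fun I (p : γ × List Bool) => D₁ I p.1 p.2))
    (hD₂ : OPTF (fun I (p : γ × List Bool) => D₂ I p.1 p.2))
    (hm₁ : OPTF (fun I (p : γ × List ℤ) => mem₁ I p.1 p.2))
    (hm₂ : OPTF (fun I (p : γ × List ℤ) => mem₂ I p.1 p.2))
    (hom : OPTF (fun I (p : γ × List ℤ) => om I p.1 p.2)) (hs : OPTF s) (hs' : OPTF s')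
    (hl : OPTF l) :
    OPTF (fun I c => coinL (kmax I c) (B₁ I c) (B₂ I c) (omax I c) (u I c) (z₁ I c) (z₂ I c)
      (D₁ I c) (D₂ I c) (mem₁ I c) (mem₂ I c) (om I c) (s I c) (s' I c) (l I c)) := by
  unfold coinL
  have e1 : OPTF (fun I c => u I c (s' I c)) := OPTF.comp₂ hu OPTF.id hs'
  have e2 : OPTF (fun I c => u I c (s I c)) := OPTF.comp₂ hu OPTF.id hs
  have e3 : OPTF (fun I c => D₁ I c (((l I c).drop (kmax I c)).take (B₁ I c))) :=
    OPTF.comp₂ hD₁ OPTF.id (by opt_solve)
  have e4 : OPTF (fun I c => D₂ I c ((((l I c).drop (kmax I c)).drop (B₁ I c)).take (B₂ I c))) :=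
    OPTF.comp₂ hD₂ OPTF.id (by opt_solve)
  have e5 : OPTF (fun I c => z₁ I c (s' I c)
      (D₁ I c (((l I c).drop (kmax I c)).take (B₁ I c)))) := OPTF.comp₃ hz₁ OPTF.id hs' e3
  have e6 : OPTF (fun I c => z₂ I c (s' I c)
      (D₂ I c ((((l I c).drop (kmax I c)).drop (B₁ I c)).take (B₂ I c)))) :=
    OPTF.comp₃ hz₂ OPTF.id hs' e4
  have e7 := OPTF.comp₂ hm₁ OPTF.id e5
  have e8 := OPTF.comp₂ hm₂ OPTF.id e6
  have e9 := OPTF.comp₂ hom OPTF.id e5
  have e10 := coin2_optf ho e9 (l := fun I c => (((l I c).drop (kmax I c)).drop (B₁ I c)).drop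
    (B₂ I c)) (by opt_solve)
  have e11 : OPTF (fun I c => zerosL (u I c (s' I c) - u I c (s I c)).toNat
      ((l I c).take (kmax I c))) := zerosL_optf (by opt_solve) (by opt_solve)
  exact OPTF.and (OPTF.and (OPTP.toOPTF (OPTP.natLe (OPTF.intNatAbs (OPTF.intSub e1 e2)) hk)) e11)
    (OPTF.and (OPTF.and e7 e10) e8)

/-- `cstep` relative to the oracle -/
theorem cstep_optf {q : Inst → γ → ℕ} {mv : Inst → γ → St → ℕ → Option St}
    {coin : Inst → γ → St → St → List Bool → Bool} {s : Inst → γ → St} {l : Inst → γ → List Bool}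
    (hq : OPTF q) (hmv : OPTF (fun I (p : γ × St × ℕ) => mv I p.1 p.2.1 p.2.2))
    (hcoin : OPTF (fun I (p : γ × St × St × List Bool) => coin I p.1 p.2.1 p.2.2.1 p.2.2.2))
    (hs : OPTF s) (hl : OPTF l) :
    OPTF (fun I c => cstep (q I c) (mv I c) (coin I c) (s I c) (l I c)) := by
  unfold cstep
  have h1 : OPTF (fun I c => msb ((l I c).take (q I c))) :=
    OPTF.post (g := msb) ptf_msb (OPTF.take hq hl)
  have h2 : OPTF (fun I c => mv I c (s I c) (msb ((l I c).take (q I c)))) :=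
    OPTF.comp₃ hmv OPTF.id hs h1
  have h3 : OPTF (fun I (p : γ × St) => coin I p.1 (s I p.1) p.2 ((l I p.1).drop (q I p.1))) := by
    refine OPTF.comp (g := fun I (p : γ × St × St × List Bool) => coin I p.1 p.2.1 p.2.2.1 p.2.2.2)
      (f := fun I (p : γ × St) => (p.1, s I p.1, p.2, (l I p.1).drop (q I p.1))) hcoin ?_
    exact OPTF.prodMk (OPTF.fst OPTF.id) (OPTF.prodMk (off hs) (OPTF.prodMk (OPTF.snd OPTF.id)
      (OPTF.drop (off hq) (off hl))))
  have h4 : OPTF (fun I (p : γ × St) =>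
      if coin I p.1 (s I p.1) p.2 ((l I p.1).drop (q I p.1)) = true then p.2 else s I p.1) :=
    OPTF.ite (OPTF.toOPTP h3) (OPTF.snd OPTF.id) (off hs)
  exact OPTF.optionCasesOn (f := s)
    (g := fun I c s' => if coin I c (s I c) s' ((l I c).drop (q I c)) = true then s' else s I c)
    h2 hs h4

end optf

/-! ### sizes -/

theorem size_natAbs_le_sz (x : List ℤ) (j : ℕ) : (x.getD j 0).natAbs.size ≤ sz x := by
  by_cases h : j < x.length
  · rw [List.getD_eq_getElem _ _ h]
    have h1 := sz_mem_le (List.getElem_mem h)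
    rw [sz_int] at h1
    omega
  · rw [List.getD_eq_default _ _ (by omega)]
    simp

theorem sz_axL_le {n : ℕ} {lo hi x : List ℤ} (hx : x.length = n) (h : inBoxL n lo hi x = true) :
    sz x ≤ n * (2 * (3 + (sz lo + sz hi)) + 1) := by
  have h1 := (inBoxL_iff (n := n) lo hi x).1 h
  subst hx
  refine sz_list_le fun z hz => ?_
  obtain ⟨j, hj, rfl⟩ := List.mem_iff_getElem.1 hz
  have h2 := h1 ⟨j, hj⟩
  unfold vecL at h2
  simp only at h2
  rw [List.getD_eq_getElem _ _ hj] at h2
  rw [sz_int]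
  have h3 := size_natAbs_le_sz lo j
  have h4 := size_natAbs_le_sz hi j
  have h5 : (x[j]).natAbs.size ≤ max (lo.getD j 0).natAbs.size (hi.getD j 0).natAbs.size := by
    rcases le_total 0 x[j] with h0 | h0
    · refine le_trans (Nat.size_le_size ?_) (le_max_right _ _)
      omega
    · refine le_trans (Nat.size_le_size ?_) (le_max_left _ _)
      omega
  have h6 : max (lo.getD j 0).natAbs.size (hi.getD j 0).natAbs.size ≤ sz lo + sz hi :=
    max_le (by omega) (by omega)
  omega

theorem length_axL (n : ℕ) (x : List ℤ) (k : ℤ) (d : List ℤ) : (axL n x k d).length = n := by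
  simp [axL]

/-- size bound for the states of the domain -/
def szBd (n : ℕ) (lo hi : St) : ℕ :=
  2 * (n * (2 * (3 + (sz lo.1 + sz hi.1)) + 1)) + 1 +
    (2 * (n * (2 * (3 + (sz lo.2.1 + sz hi.2.1)) + 1)) + 1 +
      n * (2 * (3 + (sz lo.2.2 + sz hi.2.2)) + 1))

theorem sz_axSt_le {n : ℕ} {lo hi s d : St} {k : ℤ}
    (h : inBoxSt n lo hi (axSt n s k d) = true) : sz (axSt n s k d) ≤ szBd n lo hi := by
  unfold inBoxSt at h
  rw [Bool.and_eq_true, Bool.and_eq_true] at h
  unfold szBd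
  rw [sz_prod, sz_prod]
  have h1 := sz_axL_le (n := n) (length_axL n _ _ _) h.1
  have h2 := sz_axL_le (n := n) (length_axL n _ _ _) h.2.1
  have h3 := sz_axL_le (n := n) (length_axL n _ _ _) h.2.2
  simp only [axSt] at *
  omega

theorem sz_mvL_le {n a b : ℕ} {cs : List (St × ℕ)} {lo hi s s' : St} {i : ℕ}
    (h : mvL n a b cs (inBoxSt n lo hi) s i = some s') : sz s' ≤ szBd n lo hi := by
  unfold mvL at h
  split_ifs at h
  revert h
  cases (cs.drop (i / 2 / 2 ^ b)).head? with
  | none => intro h; exact absurd h (by simp)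
  | some p =>
    intro h
    simp only [guardSt] at h
    split_ifs at h with h1
    rw [← Option.some.inj h]
    exact sz_axSt_le h1

theorem sz_cstep_le {n a b q : ℕ} {cs : List (St × ℕ)} {lo hi s : St}
    {coin : St → St → List Bool → Bool} (l : List Bool) :
    sz (cstep q (mvL n a b cs (inBoxSt n lo hi)) coin s l) ≤ max (sz s) (szBd n lo hi) := by
  unfold cstep
  cases h : mvL n a b cs (inBoxSt n lo hi) s (msb (l.take q)) with
  | none => exact le_max_left _ _
  | some s' =>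
    simp only
    split_ifs
    · exact (sz_mvL_le h).trans (le_max_right _ _)
    · exact le_max_left _ _

end Crest.Agent.R302.Step
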