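/-
R302 (helper725): the list-coded stage, part A: coding of forests, states, sums.
-/
import Crest.Agent.R302.Stage536
import Crest.Agent.R302.Step223A
import Crest.Agent.R302.Ff838
import Crest.Agent.R302.GeoSpec725B
import Crest.Agent.R302.Ann425F

set_option autoImplicit false

namespace Crest.Agent.R302.StageL

open Finset Crest.Agent.R302.Inst Crest.Agent.R302.Stage Crest.Agent.R302.GeoProg
open Crest.Agent.R302.Step (axL axSt bsL loadL inflL zL lnkL gagL uL inBoxSt)
open Crest.Agent.R302.EDM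

variable {n : ℕ}

/-! ### lists of functions on `Fin n` -/

theorem getD_ofFn {α : Type*} (G : Fin n → α) (d : α) (i : Fin n) :
    (List.ofFn G).getD i d = G i := by
  rw [List.getD_eq_getElem _ _ (by simp), List.getElem_ofFn]

theorem map_range_ofFn {α : Type*} (f : ℕ → α) :
    (List.range n).map f = List.ofFn (fun i : Fin n => f i) := by
  apply List.ext_getElem
  · simp
  · intro i h1 h2; simp

theorem sum_map_range {α : Type*} [AddCommMonoid α] (f : ℕ → α) :
    ((List.range n).map f).sum = ∑ i : Fin n, f i := by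
  rw [map_range_ofFn, List.sum_ofFn]

theorem ofFn_ext {α : Type*} {f g : Fin n → α} (h : ∀ i, f i = g i) : List.ofFn f = List.ofFn g :=
  congrArg List.ofFn (funext h)

/-- `p` codes the parent map of `T` (`n` codes a root) -/
def CPar (p : List ℕ) (T : MP3.Forest (Fin n)) : Prop := ∀ a : Fin n, p.getD a n = ocode (T.par a)

/-- `s` codes the descendant relation of `T` -/
def CSub (s : List (List Bool)) (T : MP3.Forest (Fin n)) : Prop :=
  ∀ a b : Fin n, (s.getD a []).getD b false = true ↔ b ∈ T.sub a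

/-- block contents, extended by `0` -/
def ext (T : MP3.Forest (Fin n)) (β : {a : Fin n // T.par a = none} → ℤ) (a : Fin n) : ℤ :=
  if h : T.par a = none then β ⟨a, h⟩ else 0

variable {p : List ℕ} {s : List (List Bool)} {T : MP3.Forest (Fin n)}

theorem CPar.root (h : CPar p T) (a : Fin n) : p.getD a n = n ↔ T.par a = none := by
  rw [h a, ocode_eq_n]

theorem CPar.some_iff (h : CPar p T) (a b : Fin n) : p.getD a n = b ↔ T.par a = some b := by
  rw [h a]
  cases hp : T.par a with
  | none =>
    simp only [ocode]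
    constructor
    · intro h'; have := b.2; omega
    · intro h'; simp at h'
  | some c =>
    simp only [ocode, Option.some.injEq]
    constructor
    · intro h'; exact Fin.ext h'
    · intro h'; rw [h']

theorem ext_root (β : {a : Fin n // T.par a = none} → ℤ) (r : {a : Fin n // T.par a = none}) :
    ext T β r = β r := by
  unfold ext; rw [dif_pos r.2]

theorem ext_injective : Function.Injective (ext T) := by
  intro β β' h
  funext r
  rw [← ext_root β r, ← ext_root β' r, h]

theorem ext_zero : ext T (0 : {a : Fin n // T.par a = none} → ℤ) = 0 := by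
  funext a; unfold ext; split_ifs <;> rfl

theorem ext_add_smul (β δ : {a : Fin n // T.par a = none} → ℤ) (k : ℤ) :
    ext T (β + k • δ) = ext T β + k • ext T δ := by
  funext a
  simp only [ext, Pi.add_apply, Pi.smul_apply]
  split_ifs <;> simp

/-! ### the functions of `Step223A` -/

theorem axL_ofFn (x d : Fin n → ℤ) (k : ℤ) :
    axL n (List.ofFn x) k (List.ofFn d) = List.ofFn (x + k • d) := by
  unfold axL
  rw [map_range_ofFn]
  refine ofFn_ext fun i => ?_
  rw [getD_ofFn, getD_ofFn, Pi.add_apply, Pi.smul_apply, smul_eq_mul]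

theorem bsL_ofFn (hs : CSub s T) (x : Fin n → ℤ) (a : Fin n) :
    bsL n s (List.ofFn x) a = bs T x a := by
  classical
  unfold bsL bs
  rw [sum_map_range, ← Finset.sum_filter_add_sum_filter_not univ (fun b => b ∈ T.sub a)]
  rw [Finset.sum_congr rfl (g := fun b => x b) (fun b hb => by
    rw [if_pos ((hs a b).2 (mem_filter.1 hb).2), getD_ofFn])]
  rw [Finset.sum_eq_zero (s := univ.filter (fun b => b ∉ T.sub a)) (fun b hb => by
    rw [if_neg (fun h => (mem_filter.1 hb).2 ((hs a b).1 h))]), add_zero]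
  congr 1
  ext b; simp

theorem loadL_ofFn (S : Side (Fin n)) (hp : CPar p S.T) (hs : CSub s S.T) (x : Fin n → ℤ)
    (β : S.Blk → ℤ) :
    loadL n p s (List.ofFn x) (List.ofFn (ext S.T β)) = List.ofFn (S.load x β) := by
  unfold loadL
  rw [map_range_ofFn]
  refine ofFn_ext fun a => ?_
  unfold Side.load
  by_cases h : S.T.par a = none
  · rw [if_pos ((hp.root a).2 h), dif_pos h, getD_ofFn, getD_ofFn, bsL_ofFn hs]
    unfold ext
    rw [dif_pos h]
  · rw [if_neg (fun h' => h ((hp.root a).1 h')), dif_neg h, getD_ofFn]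

theorem inflL_ofFn (hp : CPar p T) (t : Fin n → ℤ) (b : Fin n) :
    inflL n p (List.ofFn t) b = ∑ a, if T.par a = some b then t a else 0 := by
  unfold inflL
  rw [sum_map_range]
  refine Finset.sum_congr rfl fun a _ => ?_
  by_cases h : T.par a = some b
  · rw [if_pos ((hp.some_iff a b).2 h), if_pos h, getD_ofFn]
  · rw [if_neg (fun h' => h ((hp.some_iff a b).1 h')), if_neg h]

theorem zL_ofFn (S : Side (Fin n)) (hp : CPar p S.T) (hs : CSub s S.T) (x : Fin n → ℤ)
    (β : S.Blk → ℤ) (t : Fin n → ℤ) :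
    zL n p s (List.ofFn x) (List.ofFn (ext S.T β)) (List.ofFn t) =
      List.ofFn (zpt S.T (S.load x β) t) := by
  unfold zL
  rw [map_range_ofFn]
  refine ofFn_ext fun b => ?_
  rw [zpt_apply, inflL_ofFn hp, loadL_ofFn S hp hs, getD_ofFn, getD_ofFn]
  congr 2
  by_cases h : S.T.par b = none
  · rw [if_pos ((hp.root b).2 h), if_pos h]
  · rw [if_neg (fun h' => h ((hp.root b).1 h')), if_neg h]

theorem sum_blk (f : Fin n → ℤ) :
    ∑ a : Fin n, (if T.par a = none then f a else 0) = ∑ r : {a : Fin n // T.par a = none}, f r := by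
  classical
  rw [← Finset.sum_filter]
  exact (Finset.sum_subtype (univ.filter (fun a => T.par a = none)) (by simp) f)

theorem lnkL_ofFn (hp : CPar p T) (hs : CSub s T) (x : Fin n → ℤ)
    (β : {a : Fin n // T.par a = none} → ℤ) :
    lnkL n p s (List.ofFn x) (List.ofFn (ext T β)) =
      ∑ r : {a : Fin n // T.par a = none}, |β r - bs T x r| := by
  have e : ∑ r : {a : Fin n // T.par a = none}, |β r - bs T x r| =
      ∑ a, if T.par a = none then |ext T β a - bs T x a| else 0 := by
    rw [sum_blk (T := T) (fun a => |ext T β a - bs T x a|)]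
    exact Finset.sum_congr rfl fun r _ => by rw [ext_root]
  unfold lnkL
  rw [sum_map_range, e]
  refine Finset.sum_congr rfl fun a _ => ?_
  by_cases h : T.par a = none
  · rw [if_pos ((hp.root a).2 h), if_pos h, getD_ofFn, bsL_ofFn hs, Int.natCast_natAbs]
  · rw [if_neg (fun h' => h ((hp.root a).1 h')), if_neg h]

theorem gagL_ofFn (hp : CPar p T) (g : Fin n → ℤ) (β : {a : Fin n // T.par a = none} → ℤ) :
    gagL n p (List.ofFn g) (List.ofFn (ext T β)) =
      ∑ r : {a : Fin n // T.par a = none}, g r * β r := by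
  have e : ∑ r : {a : Fin n // T.par a = none}, g r * β r =
      ∑ a, if T.par a = none then g a * ext T β a else 0 := by
    rw [sum_blk (T := T) (fun a => g a * ext T β a)]
    exact Finset.sum_congr rfl fun r _ => by rw [ext_root]
  unfold gagL
  rw [sum_map_range, e]
  refine Finset.sum_congr rfl fun a _ => ?_
  by_cases h : T.par a = none
  · rw [if_pos ((hp.root a).2 h), if_pos h, getD_ofFn, getD_ofFn]
  · rw [if_neg (fun h' => h ((hp.root a).1 h')), if_neg h]

/-! ### coding of the states -/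

/-- code of a state -/
def enc (D : SD (Fin n)) (σ : Stage.St D) : Step.St :=
  (List.ofFn σ.1, List.ofFn (ext D.S₁.T σ.2.1), List.ofFn (ext D.S₂.T σ.2.2))

theorem enc_injective (D : SD (Fin n)) : Function.Injective (enc D) := by
  intro σ τ h
  unfold enc at h
  rw [Prod.mk.injEq, Prod.mk.injEq, List.ofFn_inj, List.ofFn_inj, List.ofFn_inj] at h
  exact Prod.ext h.1 (Prod.ext (ext_injective h.2.1) (ext_injective h.2.2))

theorem axSt_enc (D : SD (Fin n)) (σ d : Stage.St D) (k : ℤ) :
    axSt n (enc D σ) k (enc D d) = enc D (σ + k • d) := by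
  unfold axSt enc
  dsimp only
  rw [axL_ofFn, axL_ofFn, axL_ofFn, ← ext_add_smul, ← ext_add_smul]
  rfl

/-! ### the box -/

/-- lower corner of the domain -/
def loS (n : ℕ) (c : List ℤ) (M Lb : ℕ) : Step.St :=
  ((List.range n).map (fun i => c.getD i 0 - M), List.replicate n (-(Lb : ℤ)),
    List.replicate n (-(Lb : ℤ)))

/-- upper corner of the domain -/
def hiS (n : ℕ) (c : List ℤ) (M Lb : ℕ) : Step.St :=
  ((List.range n).map (fun i => c.getD i 0 + M), List.replicate n (Lb : ℤ),
    List.replicate n (Lb : ℤ))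

theorem vecL_ofFn (f : Fin n → ℤ) : vecL n (List.ofFn f) = f := by
  funext i; unfold vecL; rw [getD_ofFn]

theorem vecL_replicate (z : ℤ) : vecL n (List.replicate n z) = fun _ => z := by
  funext i; unfold vecL
  rw [List.getD_eq_getElem _ _ (by simp), List.getElem_replicate]

theorem inBox_ext (L : ℕ) (β : {a : Fin n // T.par a = none} → ℤ) :
    inBoxL n (List.replicate n (-(L : ℤ))) (List.replicate n (L : ℤ)) (List.ofFn (ext T β)) = true ↔
      ∀ r, -(L : ℤ) ≤ β r ∧ β r ≤ L := by
  rw [inBoxL_iff, vecL_ofFn, vecL_replicate, vecL_replicate]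
  constructor
  · intro h r
    have := h r
    rwa [ext_root] at this
  · intro h i
    dsimp only
    unfold ext
    split_ifs with hi
    · exact h ⟨i, hi⟩
    · omega

theorem inBoxSt_enc (D : SD (Fin n)) (σ : Stage.St D) :
    inBoxSt n (loS n (List.ofFn D.c) D.M D.Lb) (hiS n (List.ofFn D.c) D.M D.Lb) (enc D σ) = true ↔
      σ ∈ D.bx := by
  unfold inBoxSt loS hiS enc SD.bx
  dsimp only
  rw [Bool.and_eq_true, Bool.and_eq_true, inBox_ext, inBox_ext, mem_product, mem_product,
    Fintype.mem_piFinset, Fintype.mem_piFinset, Fintype.mem_piFinset, inBoxL_iff, vecL_ofFn,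
    map_range_ofFn, map_range_ofFn, vecL_ofFn, vecL_ofFn]
  simp only [mem_Icc, getD_ofFn]

/-! ### the exponent -/

/-- the full exponent `- ex`: links, gauge and stage weight -/
def uS (n : ℕ) (p₁ p₂ : List ℕ) (s₁ s₂ : List (List Bool)) (a : ℕ) (g : List ℤ) (L t : ℕ)
    (x₀ : List ℤ) (σ : Step.St) : ℤ :=
  uL n p₁ p₂ s₁ s₂ a g σ + AnnBox.stHL n L t x₀ σ.2.1

theorem uS_enc {p₁ p₂ : List ℕ} {s₁ s₂ : List (List Bool)} (D : SD (Fin n))
    (hp₁ : CPar p₁ D.S₁.T) (hp₂ : CPar p₂ D.S₂.T) (hs₁ : CSub s₁ D.S₁.T) (hs₂ : CSub s₂ D.S₂.T)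
    {L t : ℕ} {x₀ : List ℤ}
    (hw : ∀ β, D.w β = (AnnBox.stHL n L t x₀ (List.ofFn (ext D.S₁.T β)) : ℤ))
    (σ : Stage.St D) :
    uS n p₁ p₂ s₁ s₂ D.a (List.ofFn D.ell) L t x₀ (enc D σ) = -D.ex σ := by
  unfold uS uL SD.ex enc
  dsimp only
  rw [lnkL_ofFn hp₁ hs₁, lnkL_ofFn hp₂ hs₂, gagL_ofFn hp₁, gagL_ofFn hp₂, hw]
  ring

end Crest.Agent.R302.StageL
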