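import Crest.Agent.R302.S1Full893
import Crest.Agent.R302.StageL725B

/-!
R302 (helper893): block (S1) for the objects of the program (`E = Fin n`, forests `nnForest`,
repair maps `Rst`, slack exponents `lgE dk key`, length exponents `elE w₁ dl key`).
-/

set_option autoImplicit false
set_option linter.unusedSectionVars false
set_option linter.unusedVariables false

namespace Crest.Agent.R302.T893

open Finset Lor
open Crest.Agent.R302.Tree (RTree)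
open Crest.Agent.R302.Inst Crest.Agent.R302.Stage Crest.Agent.R302.Macro
open Crest.Agent.R302.Inst.Side (Gauge)
open Crest.Agent.R302.GeoSpec Crest.Agent.R302.StageL Crest.Agent.R302.TreeNN

variable {n : ℕ}

theorem keyV_thin {m₁ m₂ : Fin n → Fin n → ℤ} {w₁ : ℤ} {q : Tok (Fin n)}
    (hq : (tree (nnForest m₁ w₁) (nnForest m₂ w₁)).par q = none) :
    keyV m₁ m₂ w₁ q = w₁ - 1 := by
  rcases q with _ | a | a
  · rfl
  · have h : (nnForest m₁ w₁).par a = none := by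
      rcases hp : (nnForest m₁ w₁).par a with _ | b
      · rfl
      · simp [tree, hp] at hq
    unfold keyV
    simp only [h]
  · have h : (nnForest m₂ w₁).par a = none := by
      rcases hp : (nnForest m₂ w₁).par a with _ | b
      · rfl
      · simp [tree, hp] at hq
    unfold keyV
    simp only [h]

theorem keyV_fat {m₁ m₂ : Fin n → Fin n → ℤ} {w₁ : ℤ} {q : Tok (Fin n)}
    (hq : (tree (nnForest m₁ w₁) (nnForest m₂ w₁)).par q ≠ none) :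
    w₁ ≤ keyV m₁ m₂ w₁ q := by
  rcases q with _ | a | a
  · exact absurd rfl hq
  · rcases hp : (nnForest m₁ w₁).par a with _ | b
    · simp [tree, hp] at hq
    · unfold keyV
      simp only [hp]
      exact (nn_nnForest m₁ w₁).ge a b hp
  · rcases hp : (nnForest m₂ w₁).par a with _ | b
    · simp [tree, hp] at hq
    · unfold keyV
      simp only [hp]
      exact (nn_nnForest m₂ w₁).ge a b hp

theorem keyV_le {m₁ m₂ : Fin n → Fin n → ℤ} {w₁ : ℤ} {mx : ℤ} (h1 : ∀ a b, m₁ a b ≤ mx)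
    (h2 : ∀ a b, m₂ a b ≤ mx) (hw : w₁ ≤ mx) (q : Tok (Fin n)) : keyV m₁ m₂ w₁ q ≤ mx := by
  rcases q with _ | a | a
  · show w₁ - 1 ≤ mx
    linarith
  · unfold keyV
    rcases hp : (nnForest m₁ w₁).par a with _ | b
    · simp only [hp]; linarith
    · simp only [hp]; exact h1 a b
  · unfold keyV
    rcases hp : (nnForest m₂ w₁).par a with _ | b
    · simp only [hp]; linarith
    · simp only [hp]; exact h2 a b

/-- weights of the tokens -/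
noncomputable def wtV (m₁ m₂ : Fin n → Fin n → ℤ) (w₁ : ℤ) (q : Tok (Fin n)) : ℝ :=
  ((max (keyV m₁ m₂ w₁ q) w₁ : ℤ) : ℝ)

/-- length exponents -/
def eV (m₁ m₂ : Fin n → Fin n → ℤ) (w₁ : ℤ) (dl : ℕ) (q : Tok (Fin n)) : ℕ :=
  elE w₁ dl (keyV m₁ m₂ w₁ q)

/-- the facts of the stage data used by the analysis -/
structure PFacts (D : SD (Fin n)) (m₁ m₂ : Fin n → Fin n → ℤ) (w₁ : ℤ) (M₁ M₂ : List (List ℤ))
    (dk dl : ℕ) (b₁ D₁ b₂ D₂ : Fin n → ℝ) : Prop where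
  T₁ : D.S₁.T = nnForest m₁ w₁
  T₂ : D.S₂.T = nnForest m₂ w₁
  hM₁ : ∀ a b : Fin n, (M₁.getD a []).getD b 0 = m₁ a b
  hM₂ : ∀ a b : Fin n, (M₂.getD a []).getD b 0 = m₂ a b
  b₁e : ∀ a b, (nnForest m₁ w₁).par a = some b → b₁ a = 2 * (1 / 2) ^ lgE dk (m₁ a b)
  b₂e : ∀ a b, (nnForest m₂ w₁).par a = some b → b₂ a = 2 * (1 / 2) ^ lgE dk (m₂ a b)
  D₁e : ∀ a b, (nnForest m₁ w₁).par a = some b → D₁ a = 16 * (1 / 4) ^ lgE dk (m₁ a b)
  D₂e : ∀ a b, (nnForest m₂ w₁).par a = some b → D₂ a = 16 * (1 / 4) ^ lgE dk (m₂ a b)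
  mv : D.mv = mvV m₁ m₂ w₁ M₁ M₂ (elE w₁ dl)
  lk₁ : D.lk₁ = pairsV D.S₁.T
  lk₂ : D.lk₂ = pairsV D.S₂.T

variable {D : SD (Fin n)} {m₁ m₂ : Fin n → Fin n → ℤ} {w₁ : ℤ} {M₁ M₂ : List (List ℤ)}
  {dk dl : ℕ} {b₁ D₁ b₂ D₂ : Fin n → ℝ}

theorem PFacts.tree_eq (hf : PFacts D m₁ m₂ w₁ M₁ M₂ dk dl b₁ D₁ b₂ D₂) :
    tree D.S₁.T D.S₂.T = tree (nnForest m₁ w₁) (nnForest m₂ w₁) := by
  rw [hf.T₁, hf.T₂]

theorem PFacts.tb_eq (hf : PFacts D m₁ m₂ w₁ M₁ M₂ dk dl b₁ D₁ b₂ D₂) (q : Tok (Fin n))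
    (hq : (tree D.S₁.T D.S₂.T).par q ≠ none) :
    tb D.S₁w D.S₂ D.θ b₁ b₂ q = 2 * (1 / 2) ^ lgE dk (keyV m₁ m₂ w₁ q) := by
  rw [hf.tree_eq] at hq
  rcases q with _ | a | a
  · exact absurd rfl hq
  · rcases hp : (nnForest m₁ w₁).par a with _ | b
    · simp [tree, hp] at hq
    · have h1 : D.S₁w.T.par a ≠ none := by
        show D.S₁.T.par a ≠ none
        rw [hf.T₁, hp]; simp
      show D.S₁w.bb D.θ b₁ a = _
      unfold Side.bb keyV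
      rw [if_neg h1]
      simp only [hp]
      exact hf.b₁e a b hp
  · rcases hp : (nnForest m₂ w₁).par a with _ | b
    · simp [tree, hp] at hq
    · have h1 : D.S₂.T.par a ≠ none := by
        rw [hf.T₂, hp]; simp
      show D.S₂.bb D.θ b₂ a = _
      unfold Side.bb keyV
      rw [if_neg h1]
      simp only [hp]
      exact hf.b₂e a b hp

theorem PFacts.tD_eq (hf : PFacts D m₁ m₂ w₁ M₁ M₂ dk dl b₁ D₁ b₂ D₂) (q : Tok (Fin n))
    (hq : (tree D.S₁.T D.S₂.T).par q ≠ none) :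
    tD D.S₁w D.S₂ D.θ D₁ D₂ q = 16 * (1 / 4) ^ lgE dk (keyV m₁ m₂ w₁ q) := by
  rw [hf.tree_eq] at hq
  rcases q with _ | a | a
  · exact absurd rfl hq
  · rcases hp : (nnForest m₁ w₁).par a with _ | b
    · simp [tree, hp] at hq
    · have h1 : D.S₁w.T.par a ≠ none := by
        show D.S₁.T.par a ≠ none
        rw [hf.T₁, hp]; simp
      show D.S₁w.DD D.θ D₁ a = _
      unfold Side.DD keyV
      rw [if_neg h1]
      simp only [hp]
      exact hf.D₁e a b hp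
  · rcases hp : (nnForest m₂ w₁).par a with _ | b
    · simp [tree, hp] at hq
    · have h1 : D.S₂.T.par a ≠ none := by
        rw [hf.T₂, hp]; simp
      show D.S₂.DD D.θ D₂ a = _
      unfold Side.DD keyV
      rw [if_neg h1]
      simp only [hp]
      exact hf.D₂e a b hp

/-- the numeric conditions -/
structure PNum (n : ℕ) (a dk dl P : ℕ) (w₁ mx : ℤ) (G : ℝ) : Prop where
  dk1 : 1 ≤ dk
  P8 : 8 * dk ≤ P
  dl_eq : dl = n * (2 * n + 1) ^ 2 * P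
  dlw : (dl : ℤ) ≤ w₁
  small : 45 * (2 * n + 1) * P * 2 ^ a ≤ w₁
  G1 : 1 ≤ G
  wmx : w₁ ≤ mx

theorem half_pow_mul {k dk : ℕ} {key : ℤ} (h : key < 2 ^ (k + 1) * (dk : ℤ)) :
    2 * (1 / 2 : ℝ) ^ k * key ≤ 4 * dk := by
  have h1 : (key : ℝ) ≤ 2 ^ (k + 1) * dk := by
    have : ((key : ℤ) : ℝ) ≤ ((2 ^ (k + 1) * (dk : ℤ) : ℤ) : ℝ) := by exact_mod_cast h.le
    push_cast at this
    exact this
  have h2 : (1 / 2 : ℝ) ^ k * 2 ^ (k + 1) = 2 := by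
    rw [pow_succ, ← mul_assoc, ← mul_pow]; norm_num
  calc 2 * (1 / 2 : ℝ) ^ k * key ≤ 2 * (1 / 2 : ℝ) ^ k * (2 ^ (k + 1) * dk) :=
        mul_le_mul_of_nonneg_left h1 (by positivity)
    _ = 2 * ((1 / 2 : ℝ) ^ k * 2 ^ (k + 1)) * dk := by ring
    _ = 4 * dk := by rw [h2]; ring

theorem PFacts.nm (hf : PFacts D m₁ m₂ w₁ M₁ M₂ dk dl b₁ D₁ b₂ D₂) {P : ℕ} {mx : ℤ} {G : ℝ}
    (hN : PNum n D.a dk dl P w₁ mx G) (hm₁ : ∀ a b, m₁ a b ≤ mx) (hm₂ : ∀ a b, m₂ a b ≤ mx)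
    (hn0 : 0 < n) :
    Nm D.S₁w D.S₂ b₁ D₁ b₂ D₂ D.θ (wtV m₁ m₂ w₁) (fun p => 2 ^ eV m₁ m₂ w₁ dl p) P G w₁ mx := by
  have hT : tree D.S₁w.T D.S₂.T = tree (nnForest m₁ w₁) (nnForest m₂ w₁) := hf.tree_eq
  have hcard : (Fintype.card (Tok (Fin n)) : ℝ) = 2 * n + 1 := by
    rw [card_tok, Fintype.card_fin]; push_cast; ring
  have hP1 : 1 ≤ P := by have := hN.P8; have := hN.dk1; omega
  have hdl1 : 1 ≤ dl := by
    rw [hN.dl_eq]
    have : 0 < n * (2 * n + 1) ^ 2 * P := by positivity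
    exact this
  have hw1 : (1 : ℤ) ≤ w₁ := by have := hN.dlw; have : (1 : ℤ) ≤ dl := by exact_mod_cast hdl1
                                linarith
  have hkeyw : ∀ q, (tree D.S₁w.T D.S₂.T).par q ≠ none → wtV m₁ m₂ w₁ q = keyV m₁ m₂ w₁ q := by
    intro q hq
    rw [hT] at hq
    unfold wtV
    rw [max_eq_left (keyV_fat hq)]
  have hdkw : ∀ q, (tree D.S₁w.T D.S₂.T).par q ≠ none → (dk : ℤ) ≤ keyV m₁ m₂ w₁ q := by
    intro q hq
    rw [hT] at hq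
    have h1 := keyV_fat hq
    have h2 : (dk : ℤ) ≤ w₁ := by
      refine le_trans ?_ hN.dlw
      have h3 : dk ≤ dl := by
        rw [hN.dl_eq]
        have h4 : 1 ≤ n * (2 * n + 1) ^ 2 := by
          have : 0 < n * (2 * n + 1) ^ 2 := by positivity
          exact this
        have h5 := hN.P8
        nlinarith
      exact_mod_cast h3
    linarith
  refine ⟨by exact_mod_cast hP1, hN.G1, by exact_mod_cast hw1, fun q => ?_, fun q hq => ?_,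
    fun q => ?_, fun q hq => ?_, fun q hq => ?_, ?_, fun q => Nat.one_le_two_pow, fun q hq => ?_,
    fun q hq => ?_, fun q hq => ?_⟩
  · unfold wtV
    exact_mod_cast le_max_right _ _
  · rw [hT] at hq
    unfold wtV
    rw [keyV_thin hq, max_eq_right (by linarith)]
  · unfold wtV
    exact_mod_cast max_le (keyV_le hm₁ hm₂ hN.wmx q) hN.wmx
  · rw [hkeyw q hq, hf.tb_eq q hq]
    refine (half_pow_mul (lt_lgE hN.dk1 (hdkw q hq))).trans ?_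
    have h1 := hN.P8
    have h2 : 4 * dk ≤ P := by omega
    exact_mod_cast h2
  · rw [hkeyw q hq, hf.tD_eq q hq]
    have h1 := half_pow_mul (lt_lgE hN.dk1 (hdkw q hq))
    have h2 : (0 : ℝ) ≤ (1 / 2 : ℝ) ^ lgE dk (keyV m₁ m₂ w₁ q) * keyV m₁ m₂ w₁ q := by
      have h3 : (0 : ℝ) ≤ keyV m₁ m₂ w₁ q := by
        have := hdkw q hq
        have h4 : (0 : ℤ) ≤ keyV m₁ m₂ w₁ q := le_trans (by positivity) this
        exact_mod_cast h4
      positivity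
    have h5 : 16 * (1 / 4 : ℝ) ^ lgE dk (keyV m₁ m₂ w₁ q) * (keyV m₁ m₂ w₁ q : ℝ) ^ 2 =
        (4 * ((1 / 2 : ℝ) ^ lgE dk (keyV m₁ m₂ w₁ q) * keyV m₁ m₂ w₁ q)) ^ 2 := by
      rw [mul_pow, mul_pow, ← pow_mul, mul_comm (lgE dk (keyV m₁ m₂ w₁ q)) 2, pow_mul]
      norm_num
      ring
    rw [h5]
    refine pow_le_pow_left₀ (by positivity) ?_ 2
    have h6 := hN.P8
    have h7 : (8 * dk : ℝ) ≤ P := by exact_mod_cast h6
    linarith
  · rw [hcard]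
    have h1 := hN.small
    have h2 : (45 * (2 * n + 1) * P * 2 ^ D.a : ℝ) ≤ w₁ := by exact_mod_cast h1
    have h3 : D.θ * (45 * (2 * n + 1) * P * 2 ^ D.a) = 45 * (2 * n + 1) * P := by
      unfold SD.θ
      rw [show (1 / 2 : ℝ) ^ D.a * (45 * (2 * n + 1) * P * 2 ^ D.a) =
        45 * (2 * n + 1) * P * ((1 / 2 : ℝ) ^ D.a * 2 ^ D.a) by ring, ← mul_pow]
      norm_num
    rw [← h3]
    refine mul_le_mul_of_nonneg_left h2 ?_
    unfold SD.θ; positivity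
  · rw [hT] at hq
    show 2 ^ eV m₁ m₂ w₁ dl q = 1
    unfold eV elE
    rw [keyV_thin hq, if_pos (by linarith), pow_zero]
  · rw [hkeyw q hq, hcard, Fintype.card_fin]
    have h1 : w₁ ≤ keyV m₁ m₂ w₁ q := by rw [hT] at hq; exact keyV_fat hq
    have h2 := lgE_le (d := dl) (by omega) (hN.dlw.trans h1)
    have h3 : (2 ^ lgE dl (keyV m₁ m₂ w₁ q) * (dl : ℝ)) ≤ keyV m₁ m₂ w₁ q := by
      exact_mod_cast h2
    have h4 : (dl : ℝ) = n * (2 * n + 1) ^ 2 * P := by rw [hN.dl_eq]; push_cast; ring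
    unfold eV elE
    rw [if_neg (not_lt.2 h1)]
    push_cast
    rw [← h4]
    exact h3
  · rw [hkeyw q hq, hcard, Fintype.card_fin]
    have h1 : w₁ ≤ keyV m₁ m₂ w₁ q := by rw [hT] at hq; exact keyV_fat hq
    have h2 := lt_lgE (d := dl) (by omega) (hN.dlw.trans h1)
    have h3 : (keyV m₁ m₂ w₁ q : ℝ) ≤ 2 ^ (lgE dl (keyV m₁ m₂ w₁ q) + 1) * (dl : ℝ) := by
      exact_mod_cast h2.le
    have h4 : (dl : ℝ) = n * (2 * n + 1) ^ 2 * P := by rw [hN.dl_eq]; push_cast; ring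
    unfold eV elE
    rw [if_neg (not_lt.2 h1)]
    push_cast
    rw [← h4]
    rw [pow_succ] at h3
    linarith

/-- sum over the moves -/
theorem sum_tdec (G : Tok (Fin n) → ℝ) :
    ∑ p ∈ univ.erase (none : Tok (Fin n)), G p = ∑ j ∈ range (2 * n), G (tdec n j) := by
  refine Finset.sum_nbij' (fun p => tcode p) (fun j => tdec n j) ?_ ?_ ?_ ?_ ?_
  · intro p hp
    exact Finset.mem_range.2 (tcode_lt (Finset.ne_of_mem_erase hp))
  · intro j hj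
    exact Finset.mem_erase.2 ⟨tdec_ne_none (Finset.mem_range.1 hj), Finset.mem_univ _⟩
  · intro p _; exact tdec_tcode p
  · intro j hj; exact tcode_tdec (Finset.mem_range.1 hj)
  · intro p _; rw [tdec_tcode]

theorem PFacts.cdir_eq (hf : PFacts D m₁ m₂ w₁ M₁ M₂ dk dl b₁ D₁ b₂ D₂) (i : Fin n) (j : ℕ) :
    cdir (tree D.S₁.T D.S₂.T) (Rst m₁ m₂ w₁ M₁ M₂) i (tdec n j) = mvc m₁ m₂ w₁ M₁ M₂ i j := by
  rw [hf.tree_eq]
  rfl

theorem PFacts.hmv (hf : PFacts D m₁ m₂ w₁ M₁ M₂ dk dl b₁ D₁ b₂ D₂)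
    (F : (Fin n → ℤ) × ℕ → ℝ) :
    ∑ i, ∑ p ∈ univ.erase (none : Tok (Fin n)),
      F (cdir (tree D.S₁.T D.S₂.T) (Rst m₁ m₂ w₁ M₁ M₂) i p, eV m₁ m₂ w₁ dl p) =
      (D.mv.map F).sum := by
  rw [hf.mv]
  unfold mvV
  rw [List.map_flatMap, List.flatMap_def, List.sum_flatten, List.map_map]
  have e1 : ∀ g : Fin n → ℝ, ∑ i, g i = ((List.finRange n).map g).sum := by
    intro g
    rw [← List.ofFn_eq_map, List.sum_ofFn]
  have e2 : ∀ (k : ℕ) (g : ℕ → ℝ), ∑ j ∈ range k, g j = ((List.range k).map g).sum := by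
    intro k g
    rfl
  rw [e1]
  congr 1
  refine List.map_congr_left fun i _ => ?_
  rw [sum_tdec, e2]
  simp only [Function.comp]
  rw [List.map_map]
  congr 1
  refine List.map_congr_left fun j _ => ?_
  rw [hf.cdir_eq]
  rfl

theorem PFacts.hmv' (hf : PFacts D m₁ m₂ w₁ M₁ M₂ dk dl b₁ D₁ b₂ D₂) (m : (Fin n → ℤ) × ℕ)
    (hm : m ∈ D.mv) : ∃ i p, p ≠ none ∧
      m = (cdir (tree D.S₁.T D.S₂.T) (Rst m₁ m₂ w₁ M₁ M₂) i p, eV m₁ m₂ w₁ dl p) := by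
  rw [hf.mv] at hm
  unfold mvV at hm
  rw [List.mem_flatMap] at hm
  obtain ⟨i, _, hi⟩ := hm
  rw [List.mem_map] at hi
  obtain ⟨j, hj, rfl⟩ := hi
  refine ⟨i, tdec n j, tdec_ne_none (List.mem_range.1 hj), ?_⟩
  rw [hf.cdir_eq]
  rfl

theorem PFacts.length_mv (hf : PFacts D m₁ m₂ w₁ M₁ M₂ dk dl b₁ D₁ b₂ D₂) :
    D.mv.length = 2 * n ^ 2 := by
  rw [hf.mv]
  unfold mvV
  rw [List.length_flatMap]
  simp
  ring

/-- **(S1) for the program's objects** -/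
theorem S1_prog {r₁ r₂ : Finset (Fin n) → ℤ} {RR : ℤ} {ω₁ ω₂ : Fin n → ℤ → ℝ}
    (hf : PFacts D m₁ m₂ w₁ M₁ M₂ dk dl b₁ D₁ b₂ D₂)
    (h : Pair D.S₁w D.S₂ b₁ D₁ b₂ D₂ D.θ D.μ 1)
    (hs₁ : Shape D.S₁w r₁ RR ω₁) (hs₂ : Shape D.S₂ r₂ RR ω₂)
    (hG₁ : Gauge D.S₁w D.μ) (hG₂ : Gauge D.S₂ D.μ)
    (hΛ₁ : ∀ z ∈ D.S₁.J, ∀ r, |D.S₁.blk z r| ≤ D.Lb)
    (hΛ₂ : ∀ z ∈ D.S₂.J, ∀ r, |D.S₂.blk z r| ≤ D.Lb)
    (hn0 : 0 < n) {P : ℕ} {mx : ℤ} {G : ℝ}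
    (hN : PNum n D.a dk dl P w₁ mx G) (hm₁ : ∀ a b, m₁ a b ≤ mx) (hm₂ : ∀ a b, m₂ a b ≤ mx)
    (hM : n * (G * mx) + 2 * mx ≤ D.M)
    (Kw : ℕ) {A : ℝ}
    (hA1 : 3 * A0n n (2 * n + 1) (kap D.θ 1) G P w₁ D.θ * kap D.θ 1 ^ 3 ≤ A)
    (hA2 : (1 + (2 * n ^ 2 : ℕ) * (6 * A0n n (2 * n + 1) (kap D.θ 1) G P w₁
      D.θ * kap D.θ 1 ^ 3)) * Link.KL D.S₁.Blk (2 * Kw) ≤ A)
    (hA3 : (1 + (2 * n ^ 2 : ℕ) * (6 * A0n n (2 * n + 1) (kap D.θ 1) G P w₁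
      D.θ * kap D.θ 1 ^ 3)) * Link.KL D.S₂.Blk (2 * Kw) ≤ A)
    (f : St D → ℝ) {M : ℝ} (hM0 : 0 ≤ M) (hfM : ∀ p, |f p| ≤ M) :
    vr D.bx D.nuG f ≤ A * D.enG f +
      (CD n (2 * n + 1) (2 * D.M) (kap D.θ 1)
          (KSn n (2 * n + 1) (kap D.θ 1) G P w₁ D.θ mx) *
        badm D.S₁.T D.S₂.T (LL G (wtV m₁ m₂ w₁)) (cen D.S₁.T D.S₂.T D.c) D.Wx
          (Fintype.piFinset fun a => Icc (D.c a - D.M - 1) (D.c a + D.M + 1))
      + (1 + (2 * n ^ 2 : ℕ) * (6 * A0n n (2 * n + 1) (kap D.θ 1) G P w₁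
          D.θ * kap D.θ 1 ^ 3)) *
        (8 * Joint.farM D.Bx D.a₁ D.a₂ D.Λ₁ D.Λ₂ D.S₁.blk D.S₂.blk Kw)) * M ^ 2 := by
  have hcard : Fintype.card (Tok (Fin n)) = 2 * n + 1 := by rw [card_tok, Fintype.card_fin]
  have hdl1 : 1 ≤ dl := by
    rw [hN.dl_eq]
    have hP1 : 1 ≤ P := by have := hN.P8; have := hN.dk1; omega
    have : 0 < n * (2 * n + 1) ^ 2 * P := by positivity
    exact this
  have hw1 : (1 : ℤ) ≤ w₁ := by
    have := hN.dlw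
    have : (1 : ℤ) ≤ dl := by exact_mod_cast hdl1
    linarith
  have hmx0 : 0 ≤ mx := by linarith [hN.wmx]
  have hlm : ∀ p, 2 ^ eV m₁ m₂ w₁ dl p ≤ mx.toNat := by
    intro p
    have h1 : ((2 ^ eV m₁ m₂ w₁ dl p : ℕ) : ℤ) ≤ mx := by
      unfold eV elE
      by_cases hk : keyV m₁ m₂ w₁ p < w₁
      · rw [if_pos hk, pow_zero]
        push_cast
        linarith [hN.wmx]
      · rw [if_neg hk]
        have hk' := not_lt.1 hk
        have h2 := lgE_le (d := dl) (by omega) (hN.dlw.trans hk')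
        have h3 := keyV_le hm₁ hm₂ hN.wmx p
        push_cast
        have h4 : (2 : ℤ) ^ lgE dl (keyV m₁ m₂ w₁ p) * 1 ≤
            2 ^ lgE dl (keyV m₁ m₂ w₁ p) * (dl : ℤ) := by
          refine mul_le_mul_of_nonneg_left ?_ (by positivity)
          exact_mod_cast hdl1
        linarith
    omega
  have key := S1_full D (order := List.finRange n) (R := Rst m₁ m₂ w₁ M₁ M₂)
    (b' := fun p => -(keyV m₁ m₂ w₁ p : ℝ)) (r₁ := r₁) (r₂ := r₂) (RR := RR) (ω₁ := ω₁) (ω₂ := ω₂)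
    h hs₁ hs₂ hG₁ hG₂
    (fun z hz => Fintype.mem_piFinset.2 fun r => mem_Icc.2 (abs_le.1 (hΛ₁ z hz r)))
    (fun z hz => Fintype.mem_piFinset.2 fun r => mem_Icc.2 (abs_le.1 (hΛ₂ z hz r)))
    (fun p q hpq => by rw [hf.lk₁, mem_pairsV]; exact Ne.symm hpq)
    (fun p q hpq => by rw [hf.lk₂, mem_pairsV]; exact Ne.symm hpq)
    (eV m₁ m₂ w₁ dl) (hf.nm hN hm₁ hm₂ hn0) (List.nodup_finRange n)
    (fun a => List.mem_finRange a) ?_ ?_ (fun F _ => (hf.hmv F).le) hf.hmv' hlm ?_ Kw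
    (A := A) ?_ ?_ ?_ f hM0 hfM
  · rw [Fintype.card_fin, hcard, hf.length_mv] at key
    push_cast at key ⊢
    exact key
  · rw [hf.tree_eq]
    refine rep893_Rst w₁ hf.hM₁ hf.hM₂ ?_
    intro p q _ _ hk
    have : (keyV m₁ m₂ w₁ q : ℝ) ≤ keyV m₁ m₂ w₁ p := by exact_mod_cast hk
    linarith
  · intro p q hp hq hb
    have h1 : keyV m₁ m₂ w₁ p ≤ keyV m₁ m₂ w₁ q := by
      have : (keyV m₁ m₂ w₁ p : ℝ) ≤ keyV m₁ m₂ w₁ q := by linarith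
      exact_mod_cast this
    have h2 : w₁ ≤ keyV m₁ m₂ w₁ p := by
      have hp' := hp
      rw [hf.tree_eq] at hp'
      exact keyV_fat hp'
    have hq' : (tree D.S₁.T D.S₂.T).par q ≠ none := by
      intro h3
      rw [hf.tree_eq] at h3
      have := keyV_thin h3
      linarith
    rw [hf.tb_eq p hp, hf.tb_eq q hq']
    refine mul_le_mul_of_nonneg_left ?_ (by norm_num)
    exact pow_le_pow_of_le_one (by norm_num) (by norm_num) (lgE_mono dk h1)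
  · rw [Fintype.card_fin]
    have : ((mx.toNat : ℕ) : ℝ) = mx := by
      have h1 : ((mx.toNat : ℕ) : ℤ) = mx := Int.toNat_of_nonneg hmx0
      exact_mod_cast congrArg (fun z : ℤ => (z : ℝ)) h1
    rw [this]
    exact hM
  · rw [Fintype.card_fin, hcard]
    exact hA1
  · rw [Fintype.card_fin, hcard, hf.length_mv]
    push_cast at hA2 ⊢
    exact hA2
  · rw [Fintype.card_fin, hcard, hf.length_mv]
    push_cast at hA3 ⊢
    exact hA3

end Crest.Agent.R302.T893
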