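/-
R302 (helper725): THE CONCRETE STAGE DATA `sdOf` / `sdA` and its list code `prmL`.
-/
import Crest.Agent.R302.StageL725B
import Crest.Agent.R302.Step223C
import Crest.Agent.R302.Ann425F

/-!
* `Par` : numerical parameters of a stage (`w₁`, divisors `dk`, `dl` of the slack/length exponents, link
  exponent `a`, window `M`, `Lb`, bits `qa`, `qb`).
* `sideOf m w₁ dk J`, `sdOf m₁ m₂ J₁ J₂ w P ell c : SD (Fin n)` from two capacity matrices.
* `sdA 𝒜 t P ell` : the same for the stage `t` of annealing data.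
* `prmL` : the list code (`envL` of `StageL725B`).
-/

set_option autoImplicit false

namespace Crest.Agent.R302.Conc

open Finset Crest.Agent.R302.Inst Crest.Agent.R302.Stage Crest.Agent.R302.GeoProg
open Crest.Agent.R302.GeoSpec Crest.Agent.R302.TreeNN Crest.Agent.R302.StageL
open Crest.Agent.R302.Facet Crest.Agent.R302.AnnBox

variable {n : ℕ}

/-- the list code of a matrix -/
def ofMat (m : Fin n → Fin n → ℤ) : List (List ℤ) := List.ofFn fun a => List.ofFn (m a)

theorem ofMat_getD (m : Fin n → Fin n → ℤ) (a b : Fin n) :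
    ((ofMat m).getD a []).getD b 0 = m a b := by
  unfold ofMat
  rw [StageL.getD_ofFn, StageL.getD_ofFn]

/-- numerical parameters of a stage -/
structure Par where
  /-- threshold of the fat keys -/
  w₁ : ℤ
  /-- slack exponent of a fat key: `log₂ (key / dk)` -/
  dk : ℕ
  /-- length exponent of a fat move: `log₂ (key / dl)` -/
  dl : ℕ
  /-- a link costs `2 ^ (-a)` -/
  a : ℕ
  /-- half width of the window of `x` -/
  M : ℕ
  /-- half width of the window of `β` -/
  Lb : ℕ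
  /-- bits for the direction -/
  qa : ℕ
  /-- bits for the length -/
  qb : ℕ

/-- the soft side of a matrix -/
noncomputable def sideOf (m : Fin n → Fin n → ℤ) (w₁ : ℤ) (dk : ℕ) (J : Finset (Fin n → ℤ)) :
    Side (Fin n) where
  T := nnForest m w₁
  J := J
  g := fun _ => 1
  κ := fun a => kapR (kV dk (nnForest m w₁) m a)

/-- **the concrete stage data** -/
noncomputable def sdOf (m₁ m₂ : Fin n → Fin n → ℤ) (J₁ J₂ : Finset (Fin n → ℤ))
    (w : (Fin n → ℤ) → ℤ) (P : Par) (ell c : Fin n → ℤ) : SD (Fin n) where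
  S₁ := sideOf m₁ P.w₁ P.dk J₁
  S₂ := sideOf m₂ P.w₁ P.dk J₂
  w := fun β => w (ext (nnForest m₁ P.w₁) β)
  a := P.a
  ell := ell
  c := c
  M := P.M
  Lb := P.Lb
  mv := mvV m₁ m₂ P.w₁ (ofMat m₁) (ofMat m₂) (elE P.w₁ P.dl)
  lk₁ := pairsV (nnForest m₁ P.w₁)
  lk₂ := pairsV (nnForest m₂ P.w₁)
  qa := P.qa
  qb := P.qb

section ann

variable (𝒜 : AnnData n)

open Classical in
/-- the points of side `r` at stage `t` -/
noncomputable def jF (r : Finset (Fin n) → ℤ) (t : ℕ) : Finset (Fin n → ℤ) :=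
  (Fintype.piFinset fun v => Icc (𝒜.x₀ v - stQ n 𝒜.L t) (𝒜.x₀ v + stQ n 𝒜.L t)).filter
    fun z => MemJ r 𝒜.R z

theorem mem_jF {r : Finset (Fin n) → ℤ} (hr : SubM r 𝒜.R) (t : ℕ) (z : Fin n → ℤ) :
    z ∈ jF 𝒜 r t ↔ MemJ (𝒜.stR r t) 𝒜.R z := by
  classical
  unfold jF
  rw [mem_filter, Fintype.mem_piFinset, 𝒜.mem_stR hr]
  simp only [mem_Icc]
  exact and_comm

/-- the matrix of symmetrised capacities of side `r` at stage `t` -/
noncomputable def mA (r : Finset (Fin n) → ℤ) (t : ℕ) : Fin n → Fin n → ℤ :=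
  mcap (𝒜.stR r t) 𝒜.x₀

/-- **the stage data of annealing data** (stage `t`, gauge `ell`) -/
noncomputable def sdA (t : ℕ) (P : Par) (ell : Fin n → ℤ) : SD (Fin n) :=
  sdOf (mA 𝒜 𝒜.r₁ t) (mA 𝒜 𝒜.r₂ t) (jF 𝒜 𝒜.r₁ t) (jF 𝒜 𝒜.r₂ t)
    (fun z => (stH n 𝒜.L t 𝒜.x₀ z : ℤ)) P ell 𝒜.x₀

end ann

/-- **the list code of the stage data**: matrices, gauge (one entry per element), centre -/
def prmL (n : ℕ) (P : Par) (M₁ M₂ : List (List ℤ)) (g c : List ℤ) : Step.Prm :=
  (fun e : Env =>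
    { par₁ := e.1.1
      par₂ := e.1.2
      sub₁ := e.2.1.1
      sub₂ := e.2.1.2
      ks₁ := e.2.2.1.1
      ks₂ := e.2.2.1.2
      a := P.a
      g := g
      c := c
      M := P.M
      Lb := P.Lb
      cs := e.2.2.2
      qa := P.qa
      qb := P.qb }) (envL n P.w₁ P.dk P.dl M₁ M₂)

end Crest.Agent.R302.Conc
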