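import Crest.Agent.R302.Mass425E
import Crest.Agent.R302.Conc725
import Crest.Agent.R302.Gau970G

/-!
# R302 (helper425), MASS4 for the concrete stage data `sdA`

`hsm_sdA` : the hypothesis `hsm` of `Stage536D.poincD_final` at every stage.
-/

set_option autoImplicit false
set_option linter.unusedSectionVars false

namespace Crest.Agent.R302.Mass4

open Finset Crest.Agent.R302.Facet Crest.Agent.R302.Tail907 Crest.Agent.R302.Stage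
open Crest.Agent.R302.Conc Crest.Agent.R302.AnnBox
open Crest.Agent.R302.Inst hiding kap tok
open Crest.Agent.R302.Gau (Lk el wt sv bx1 MassIn)
open Crest.Agent.R302.StageL (kV lgE lgE_le)
open Crest.Agent.R302.GeoSpec (nnForest nn_nnForest)
open Crest.Agent.R302.TreeNN (mcap mcap_le_slk)

variable {n : ℕ}

/-- the key of the fat link above `a` -/
def keyA (T : MP3.Forest (Fin n)) (m : Fin n → Fin n → ℤ) (a : Fin n) : ℕ :=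
  match T.par a with
  | none => 0
  | some b => (m a b).toNat

theorem cen_stR (𝒜 : AnnData n) {r : Finset (Fin n) → ℤ} (hr : SubM r 𝒜.R) (hx : MemJ r 𝒜.R 𝒜.x₀)
    (t : ℕ) : MemJ (𝒜.stR r t) 𝒜.R 𝒜.x₀ :=
  (𝒜.mem_stR hr t _).2 ⟨hx, fun v => by constructor <;> simp⟩

/-- **the side data of a stage** -/
theorem kGeo_sdA (𝒜 : AnnData n) {r : Finset (Fin n) → ℤ} (hr : SubM r 𝒜.R)
    (hx : MemJ r 𝒜.R 𝒜.x₀) (t : ℕ) {w₁ : ℤ} {dk h₀ : ℕ} (hdk : 0 < dk) (hdk' : (dk : ℤ) ≤ w₁)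
    (hw : (8 * kap n : ℤ) ≤ w₁) (hw' : (2 * (4 * n + 2) * h₀ : ℤ) ≤ w₁) :
    KGeo (sideOf (mA 𝒜 r t) w₁ dk (jF 𝒜 r t)) (𝒜.stR r t) 𝒜.R 𝒜.x₀
      (keyA (nnForest (mA 𝒜 r t) w₁) (mA 𝒜 r t))
      (kV dk (nnForest (mA 𝒜 r t) w₁) (mA 𝒜 r t)) h₀ dk where
  sub := 𝒜.stR_sub hr hx t
  cen := cen_stR 𝒜 hr hx t
  J := mem_jF 𝒜 hr t
  cap := by
    intro a b hab
    have hab' : (nnForest (mA 𝒜 r t) w₁).par a = some b := hab
    have h1 := (nn_nnForest (mA 𝒜 r t) w₁).ge a b hab'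
    have e : (keyA (nnForest (mA 𝒜 r t) w₁) (mA 𝒜 r t) a : ℤ) = mA 𝒜 r t a b := by
      unfold keyA
      rw [hab']
      simp only
      rw [Int.toNat_of_nonneg]
      have : (0 : ℤ) ≤ 8 * kap n := by positivity
      linarith
    rw [Fintype.card_fin]
    refine ⟨?_, ?_, ?_⟩
    · have : ((8 * kap n : ℕ) : ℤ) ≤ keyA (nnForest (mA 𝒜 r t) w₁) (mA 𝒜 r t) a := by
        rw [e]; push_cast; linarith
      exact_mod_cast this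
    · have : ((2 * (4 * n + 2) * h₀ : ℕ) : ℤ) ≤ keyA (nnForest (mA 𝒜 r t) w₁) (mA 𝒜 r t) a := by
        rw [e]; push_cast; linarith
      exact_mod_cast this
    · intro A hA
      rw [e]
      exact mcap_le_slk hA
  ker := fun a _ => rfl
  scale := by
    intro a ha
    have ha' : (nnForest (mA 𝒜 r t) w₁).par a ≠ none := ha
    obtain ⟨b, hb⟩ := Option.ne_none_iff_exists'.1 ha'
    have h1 := (nn_nnForest (mA 𝒜 r t) w₁).ge a b hb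
    have h2 := lgE_le hdk (hdk'.trans h1)
    have h0 : (0 : ℤ) ≤ mA 𝒜 r t a b := by
      have : (0 : ℤ) ≤ 8 * kap n := by positivity
      linarith
    unfold keyA kV
    rw [hb]
    simp only
    have h3 : ((2 ^ lgE dk (mA 𝒜 r t a b) * dk : ℕ) : ℤ) ≤ ((mA 𝒜 r t a b).toNat : ℤ) := by
      rw [Int.toNat_of_nonneg h0]; push_cast; exact h2
    have h4 : 2 ^ lgE dk (mA 𝒜 r t a b) * dk ≤ (mA 𝒜 r t a b).toNat := by exact_mod_cast h3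
    exact_mod_cast h4

/-- the one-link masses of the fat stages as counts -/
theorem Ns_count (𝒜 : AnnData n) {t : ℕ} (ht : T0 n 𝒜.L ≤ t) (s : Fin n → ℤ) :
    𝒜.Ns s t = (((jF 𝒜 𝒜.r₁ t).filter fun z => (fun v => z v + s v) ∈ jF 𝒜 𝒜.r₂ t).card : ℝ) := by
  rw [𝒜.Ns_eq s t ((jF 𝒜 𝒜.r₁ t).filter fun z => (fun v => z v + s v) ∈ jF 𝒜 𝒜.r₂ t)
    (fun x => by rw [mem_filter, mem_jF 𝒜 𝒜.sub₁, mem_jF 𝒜 𝒜.sub₂])]
  rw [Finset.cast_card]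
  exact Finset.sum_congr rfl fun x _ => stOm_fat ht _ _

theorem hardN_Nst (𝒜 : AnnData n) {t : ℕ} (ht : T0 n 𝒜.L ≤ t) (u v : Fin n) :
    (hardN (jF 𝒜 𝒜.r₁ t) (jF 𝒜 𝒜.r₂ t) (Lor.ev u) (Lor.ev v) : ℝ) = 𝒜.Nst t v u := by
  unfold AnnData.Nst
  rw [Ns_count 𝒜 ht]
  unfold hardN
  congr 2
  apply filter_congr
  intro z _
  have : (fun w => z w - Lor.ev u w + Lor.ev v w) = fun w => z w + hs v u w := by
    funext w
    unfold hs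
    simp only [Lor.ev, Pi.single_apply]
    ring
  rw [this]

theorem Zc_sdA (𝒜 : AnnData n) {t : ℕ} (ht : T0 n 𝒜.L ≤ t) (P : Par) (ell : Fin n → ℤ) :
    Zc (sdA 𝒜 t P ell) = 𝒜.Z t := by
  classical
  unfold AnnData.Z
  rw [Ns_count 𝒜 ht]
  unfold Zc
  congr 2
  ext z
  rw [mem_inter, mem_filter]
  have : (fun v => z v + (0 : Fin n → ℤ) v) = z := by funext v; simp
  rw [this]
  rfl

/-- **MASS4 for the concrete stage data** : the hypothesis `hsm` of `poincD_final` -/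
theorem hsm_sdA (𝒜 : AnnData n) (hn : 1 ≤ n) {t : ℕ} {P : Par} {ell : Fin n → ℤ} {Γ e : ℝ}
    (hOK : (sdA 𝒜 t P ell).OK)
    (M : MassIn (sdA 𝒜 t P ell) (𝒜.Z t) (fun u v => 𝒜.Nst t v u) Γ e)
    (hLb₁ : ∀ z ∈ jF 𝒜 𝒜.r₁ t, ∀ r, |(sdA 𝒜 t P ell).S₁.blk z r| ≤ P.Lb)
    (hLb₂ : ∀ z ∈ jF 𝒜 𝒜.r₂ t, ∀ r, |(sdA 𝒜 t P ell).S₂.blk z r| ≤ P.Lb)
    (hM : stQ n 𝒜.L t ≤ P.M) {h₀ j : ℕ} (hh : 2 ≤ h₀) (hj : 2 * j ≤ h₀ + 1)
    (hthin : t < T0 n 𝒜.L → (∀ a, (sdA 𝒜 t P ell).S₁.T.par a = none) ∧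
      ∀ a, (sdA 𝒜 t P ell).S₂.T.par a = none)
    (hlam : 128 * kap n ≤ P.dk) (hdk0 : 0 < P.dk) (hdk : (P.dk : ℤ) ≤ P.w₁)
    (hw : (8 * kap n : ℤ) ≤ P.w₁) (hw' : (2 * (4 * n + 2) * h₀ : ℤ) ≤ P.w₁)
    (hq : (sdA 𝒜 t P ell).θ ^ 2 * (2 * Γ * (2 * n) ^ 2) ≤ 1 / 2)
    {δ : ℝ} (hδ : 0 ≤ δ) (hδ1 : δ ≤ 1) :
    ∑ σ ∈ (sdA 𝒜 t P ell).bx.filter (fun σ => (sdA 𝒜 t P ell).FG σ < δ), (sdA 𝒜 t P ell).nuG σ ≤
      (4 * δ + 4 * (1 / 2) ^ j + 4 * n *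
        (Real.exp (-(P.dk / (16 * (64 * n * kap n)))) * (9 / 4) ^ (2 * n))) * 𝒜.Z t := by
  classical
  have : Nonempty (Fin n) := ⟨⟨0, hn⟩⟩
  have hZ := 𝒜.Z_pos t
  rcases lt_or_ge t (T0 n 𝒜.L) with ht | ht
  · rw [mass4_thin hOK (hthin ht).1 (hthin ht).2 hδ1]
    positivity
  · have hΓ : 0 ≤ Γ := zero_le_one.trans M.Γ0
    have hZc := Zc_sdA 𝒜 ht P ell
    have hcard : Fintype.card (Fin n) = n := Fintype.card_fin n
    have hLk : (Fintype.card (Lk (sdA 𝒜 t P ell)) : ℝ) ≤ 2 * n := by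
      have := Gau.card_Lk (sdA 𝒜 t P ell)
      rw [hcard] at this
      exact_mod_cast this
    have hq' : (sdA 𝒜 t P ell).θ ^ 2 *
        (2 * Γ * Fintype.card (Lk (sdA 𝒜 t P ell)) ^ 2) ≤ 1 / 2 := by
      refine le_trans ?_ hq
      gcongr
    have hAA := M.AA_upp
    have he1 := M.e1
    have key := mass4_num (D := sdA 𝒜 t P ell) (r₁ := 𝒜.stR 𝒜.r₁ t) (r₂ := 𝒜.stR 𝒜.r₂ t)
      (R := 𝒜.R) (c := 𝒜.x₀) (h₀ := h₀) (lam := (P.dk : ℝ)) hOK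
      (fun β => by
        show ((stH n 𝒜.L t 𝒜.x₀ _ : ℕ) : ℤ) = 0
        unfold stH
        rw [if_neg (not_lt.2 ht)]; rfl)
      M.lz.gauge₁ M.lz.gauge₂
      (kGeo_sdA 𝒜 𝒜.sub₁ 𝒜.mem₁ t hdk0 hdk hw hw') (kGeo_sdA 𝒜 𝒜.sub₂ 𝒜.mem₂ t hdk0 hdk hw hw')
      (by rw [hcard]; exact hn) hh
      (fun z hz _ => by
        have h1 := ((𝒜.mem_stR 𝒜.sub₁ t z).1 ((mem_jF 𝒜 𝒜.sub₁ t z).1 hz)).2
        show z ∈ Fintype.piFinset fun e => Icc (𝒜.x₀ e - P.M) (𝒜.x₀ e + P.M)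
        rw [Fintype.mem_piFinset]
        intro e
        have h2 := h1 e
        have h3 : (stQ n 𝒜.L t : ℤ) ≤ P.M := by exact_mod_cast hM
        rw [mem_Icc]
        constructor <;> linarith [h2.1, h2.2])
      hLb₁ hLb₂ (by rw [hcard]; exact_mod_cast hlam) (by exact_mod_cast hdk0) hΓ
      (fun i j => by
        have h1 := M.good (el _ i) (el _ j)
        rw [hZc]
        have h2 := hardN_Nst 𝒜 ht (el (sdA 𝒜 t P ell) i) (el (sdA 𝒜 t P ell) j)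
        show (hardN (jF 𝒜 𝒜.r₁ t) (jF 𝒜 𝒜.r₂ t) _ _ : ℝ) * _ ≤ _
        rw [h2]
        exact h1)
      hq' M.lz M.AA_pos' (by rw [hZc]; nlinarith) M.hK (by rw [hcard]; exact hq)
      (by positivity) hj hδ
    rw [hZc, hcard] at key
    exact key

end Crest.Agent.R302.Mass4
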