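import Crest.Agent.R302.Badm907B
import Crest.Agent.R302.S2mZ425
import Crest.Agent.R302.ConcFacts351
import Crest.Agent.R302.S1Prog893
import Crest.Agent.R302.Gau970G

/-!
# R302: the defect masses of (S1) for the concrete stage data

Author: helper907.  `farM_sdA` : 536's far mass over the enlarged box; `badm_sdA` : 893's `badm`.
-/

set_option autoImplicit false
set_option linter.unusedSectionVars false

namespace Crest.Agent.R302.Tail907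

open Finset Crest.Agent.R302.Facet
open Crest.Agent.R302.Lor Crest.Agent.R302.Stage Crest.Agent.R302.Gau
open Crest.Agent.R302.Conc Crest.Agent.R302.AnnBox
open Crest.Agent.R302.Inst hiding kap
open Crest.Agent.R302.GeoSpec (nnForest nn_nnForest keyV bs_diff₁ bs_diff₂)
open Crest.Agent.R302.TreeNN (mcap wt_none wt_some)
open Crest.Agent.R302.T893 (lvl badm ww LL cen wtV)

variable {E : Type*} [Fintype E] [DecidableEq E]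

/-- the same stage with a larger window -/
noncomputable def up (D : SD E) : SD E := { D with M := D.M + 1 }

theorem lzD_up {D : SD E} (h : LzD D) : LzD (up D) where
  gauge₁ := h.gauge₁
  gauge₂ := h.gauge₂
  lz := h.lz
  bdd₁ := h.bdd₁
  bdd₂ := h.bdd₂

theorem Bx_up (D : SD E) :
    (up D).Bx = Fintype.piFinset fun a => Icc (D.c a - D.M - 1) (D.c a + D.M + 1) := by
  unfold SD.Bx
  have h1 : ((up D).M : ℤ) = D.M + 1 := by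
    show ((D.M + 1 : ℕ) : ℤ) = _
    push_cast; rfl
  have h2 : (up D).c = D.c := rfl
  rw [h1, h2]
  congr 1
  funext a
  congr 1 <;> ring

theorem massIn_up {D : SD E} {Z : ℝ} {N : E → E → ℝ} {Γ e : ℝ} (h : MassIn D Z N Γ e) :
    MassIn (up D) Z N Γ e where
  lz := lzD_up h.lz
  Z0 := h.Z0
  e0 := h.e0
  e1 := h.e1
  upp := h.upp
  diag := h.diag
  low := by
    obtain ⟨P, hP, hl⟩ := h.low
    refine ⟨P, fun x hx => ?_, hl⟩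
    have h1 := Finset.mem_product.1 (hP x hx)
    refine Finset.mem_product.2 ⟨?_, h1.2⟩
    have h2 : x ∈ D.Bx := h1.1
    show x ∈ (up D).Bx
    rw [Bx_up]
    unfold SD.Bx at h2
    rw [Fintype.mem_piFinset] at h2 ⊢
    intro a
    have := mem_Icc.1 (h2 a)
    rw [mem_Icc]
    constructor <;> linarith [this.1, this.2]
  good := h.good

/-- far mass over the enlarged box -/
theorem farM_up [Nonempty E] {D : SD E} {Z : ℝ} {N : E → E → ℝ} {Γ e : ℝ} (h : MassIn D Z N Γ e)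
    {q : ℝ} (hq : D.θ ^ 2 * (2 * Γ * (2 * Fintype.card E) ^ 2) ≤ q) (hq1 : q ≤ 1 / 2) (Kw : ℕ) :
    Joint.farM (Fintype.piFinset fun a => Icc (D.c a - D.M - 1) (D.c a + D.M + 1))
      D.a₁ D.a₂ D.Λ₁ D.Λ₂ D.S₁.blk D.S₂.blk Kw ≤ 4 * q ^ (Kw + 1) * Z := by
  have h1 := (massIn_up h).farM_le' hq hq1 Kw
  rw [Bx_up] at h1
  exact h1

variable {n : ℕ}

theorem hardN_zero (J₁ J₂ : Finset (Fin n → ℤ)) : hardN J₁ J₂ 0 0 = (J₁ ∩ J₂).card := by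
  unfold hardN
  congr 1
  ext z
  rw [mem_filter, mem_inter]
  simp only [Pi.zero_apply, sub_zero, add_zero]

/-- the windows of 893 -/
theorem wtV_X {m₁ m₂ : Fin n → Fin n → ℤ} {w₁ : ℤ} (a : Fin n) :
    wtV m₁ m₂ w₁ (tX a) = (TreeNN.wt m₁ w₁ (nnForest m₁ w₁).par a : ℤ) := by
  unfold wtV keyV tX
  simp only
  rcases hp : (nnForest m₁ w₁).par a with _ | b
  · rw [wt_none hp]
    simp
  · rw [wt_some hp]
    simp only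
    rw [max_eq_left ((nn_nnForest m₁ w₁).ge a b hp)]

theorem wtV_Y {m₁ m₂ : Fin n → Fin n → ℤ} {w₁ : ℤ} (a : Fin n) :
    wtV m₁ m₂ w₁ (tY a) = (TreeNN.wt m₂ w₁ (nnForest m₂ w₁).par a : ℤ) := by
  unfold wtV keyV tY
  simp only
  rcases hp : (nnForest m₂ w₁).par a with _ | b
  · rw [wt_none hp]
    simp
  · rw [wt_some hp]
    simp only
    rw [max_eq_left ((nn_nnForest m₂ w₁).ge a b hp)]

theorem wt_ge {m : Fin n → Fin n → ℤ} {w₁ : ℤ} (a : Fin n) :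
    w₁ ≤ TreeNN.wt m w₁ (nnForest m w₁).par a := by
  rcases hp : (nnForest m w₁).par a with _ | b
  · rw [wt_none hp]
  · rw [wt_some hp]
    exact (nn_nnForest m w₁).ge a b hp

/-- the number condition on the windows -/
theorem win_num {lam h₀ C : ℕ} {G : ℝ}
    (hG : ((lam * (8 * n ^ 3 * C + n * (3 * n + 4)) + h₀ + 2 : ℕ) : ℝ) ≤ G) {w : ℤ} (hw : 1 ≤ w) :
    ((lam * (2 * (n : ℤ) ^ 3 * ((2 * C : ℕ) * (w + 1)) + n * (3 * n + 4)) + h₀ : ℤ) : ℝ) ≤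
      G * (w : ℝ) - 2 := by
  have hwr : (1 : ℝ) ≤ w := by exact_mod_cast hw
  have h1 : (((lam * (8 * n ^ 3 * C + n * (3 * n + 4)) + h₀ + 2 : ℕ) : ℝ)) * w ≤ G * w :=
    mul_le_mul_of_nonneg_right hG (by linarith)
  push_cast at h1 ⊢
  have h2 : (0 : ℝ) ≤ lam * (4 * n ^ 3 * C) * (w - 1) := by
    have : (0 : ℝ) ≤ w - 1 := by linarith
    positivity
  have h3 : (0 : ℝ) ≤ lam * (n * (3 * n + 4)) * (w - 1) := by
    have : (0 : ℝ) ≤ w - 1 := by linarith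
    positivity
  have h4 : (0 : ℝ) ≤ (h₀ + 2 : ℝ) * (w - 1) := by
    have : (0 : ℝ) ≤ w - 1 := by linarith
    positivity
  nlinarith

/-- **893's `badm` for the concrete stage data.** -/
theorem badm_sdA (𝒜 : AnnData n) (hn : 1 ≤ n) {t : ℕ} {P : Par} {ell : Fin n → ℤ} {Γ e : ℝ}
    (M : MassIn (sdA 𝒜 t P ell) (𝒜.Z t) (fun u v => 𝒜.Nst t v u) Γ e)
    {C : ℕ} (hC : 1 ≤ C) (hctr : IsCenter 𝒜.r₁ 𝒜.r₂ (𝒜.PH 0) C 𝒜.x₀)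
    (hLb₁ : ∀ z ∈ jF 𝒜 𝒜.r₁ t, ∀ r, |(sdA 𝒜 t P ell).S₁.blk z r| ≤ P.Lb)
    (hLb₂ : ∀ z ∈ jF 𝒜 𝒜.r₂ t, ∀ r, |(sdA 𝒜 t P ell).S₂.blk z r| ≤ P.Lb)
    (hthin : t < T0 n 𝒜.L → (∀ a, (sdA 𝒜 t P ell).S₁.T.par a = none) ∧
      ∀ a, (sdA 𝒜 t P ell).S₂.T.par a = none)
    {h₀ lam Kw : ℕ} (hlam : n + 1 ≤ lam) (hlam' : h₀ ≤ lam) (hKw : 2 * n * Kw ≤ h₀)
    (hd : 0 < P.dk) (hdw : (P.dk : ℤ) ≤ P.w₁) (hdk : 128 * kap n ≤ P.dk)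
    (hw : (8 * kap n : ℤ) ≤ P.w₁) (hw' : (2 * (4 * n + 2) * h₀ : ℤ) ≤ P.w₁)
    {G : ℝ} (hG : ((lam * (8 * n ^ 3 * C + n * (3 * n + 4)) + h₀ + 2 : ℕ) : ℝ) ≤ G)
    {q : ℝ} (hq : (sdA 𝒜 t P ell).θ ^ 2 * (2 * Γ * (2 * n) ^ 2) ≤ q) (hq1 : q ≤ 1 / 2) :
    badm (sdA 𝒜 t P ell).S₁.T (sdA 𝒜 t P ell).S₂.T
      (LL G (wtV (mA 𝒜 𝒜.r₁ t) (mA 𝒜 𝒜.r₂ t) P.w₁))
      (cen (sdA 𝒜 t P ell).S₁.T (sdA 𝒜 t P ell).S₂.T (sdA 𝒜 t P ell).c) (sdA 𝒜 t P ell).Wx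
      (Fintype.piFinset fun a => Icc ((sdA 𝒜 t P ell).c a - (sdA 𝒜 t P ell).M - 1)
        ((sdA 𝒜 t P ell).c a + (sdA 𝒜 t P ell).M + 1)) ≤
    (4 * q ^ (Kw + 1) + 4 * n * ((9 / 4 * Real.exp (-((P.dk : ℝ) / 16))) * (9 / 4) ^ (2 * n))) *
      𝒜.Z t := by
  classical
  have : Nonempty (Fin n) := ⟨⟨0, hn⟩⟩
  have hcard : Fintype.card (Fin n) = n := Fintype.card_fin n
  have hZ := 𝒜.Z_pos t
  set D := sdA 𝒜 t P ell with hD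
  have hst₁ := ConcF.stSide₁ 𝒜 t P ell hd hdw
  have hst₂ := ConcF.stSide₂ 𝒜 t P ell hd hdw
  have hw1 : 1 ≤ P.w₁ := by
    have : (1 : ℤ) ≤ P.dk := by exact_mod_cast hd
    linarith
  have hθ : 0 ≤ D.θ := (θ_pos D).le
  -- windows
  have hP : ∀ x, x ∈ jF 𝒜 𝒜.r₁ t ∩ jF 𝒜 𝒜.r₂ t ↔
      MemJ (𝒜.stR 𝒜.r₁ t) 𝒜.R x ∧ MemJ (𝒜.stR 𝒜.r₂ t) 𝒜.R x := fun x => by
    rw [mem_inter, mem_jF 𝒜 𝒜.sub₁, mem_jF 𝒜 𝒜.sub₂]
  have hc := 𝒜.stR_center hC hctr t _ hP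
  have hcP : 𝒜.x₀ ∈ jF 𝒜 𝒜.r₁ t ∩ jF 𝒜 𝒜.r₂ t := (hP _).2 ⟨hst₁.cen, hst₂.cen⟩
  have hM₁ : ∀ (e : Fin n) (z : Fin n → ℤ), MemJ (𝒜.stR 𝒜.r₁ t) 𝒜.R z →
      MemJ (𝒜.stR 𝒜.r₂ t) 𝒜.R z → |bs D.S₁w.T z e - bs D.S₁w.T 𝒜.x₀ e| ≤
      2 * (n : ℤ) ^ 3 * ((2 * C : ℕ) * (TreeNN.wt (mA 𝒜 𝒜.r₁ t) P.w₁
        (nnForest (mA 𝒜 𝒜.r₁ t) P.w₁).par e + 1)) := fun e z h1 h2 =>
    bs_diff₁ hst₁.sub hP (by omega) hcP hc (by linarith) ((hP z).2 ⟨h1, h2⟩) e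
  have hM₂ : ∀ (e : Fin n) (z : Fin n → ℤ), MemJ (𝒜.stR 𝒜.r₁ t) 𝒜.R z →
      MemJ (𝒜.stR 𝒜.r₂ t) 𝒜.R z → |bs D.S₂.T z e - bs D.S₂.T 𝒜.x₀ e| ≤
      2 * (n : ℤ) ^ 3 * ((2 * C : ℕ) * (TreeNN.wt (mA 𝒜 𝒜.r₂ t) P.w₁
        (nnForest (mA 𝒜 𝒜.r₂ t) P.w₁).par e + 1)) := fun e z h1 h2 =>
    bs_diff₂ hst₂.sub hP (by omega) hcP hc (by linarith) ((hP z).2 ⟨h1, h2⟩) e
  have hL₁ : ∀ e : Fin n, ((lam * (2 * (n : ℤ) ^ 3 * ((2 * C : ℕ) * (TreeNN.wt (mA 𝒜 𝒜.r₁ t) P.w₁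
        (nnForest (mA 𝒜 𝒜.r₁ t) P.w₁).par e + 1)) +
        Fintype.card (Fin n) * (3 * Fintype.card (Fin n) + 4)) + h₀ : ℤ) : ℝ) ≤
      LL G (wtV (mA 𝒜 𝒜.r₁ t) (mA 𝒜 𝒜.r₂ t) P.w₁) (tX e) - 2 := by
    intro e
    unfold LL
    rw [wtV_X, hcard]
    exact win_num hG (hw1.trans (wt_ge e))
  have hL₂ : ∀ e : Fin n, ((lam * (2 * (n : ℤ) ^ 3 * ((2 * C : ℕ) * (TreeNN.wt (mA 𝒜 𝒜.r₂ t) P.w₁
        (nnForest (mA 𝒜 𝒜.r₂ t) P.w₁).par e + 1)) +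
        Fintype.card (Fin n) * (3 * Fintype.card (Fin n) + 4)) + h₀ : ℤ) : ℝ) ≤
      LL G (wtV (mA 𝒜 𝒜.r₁ t) (mA 𝒜 𝒜.r₂ t) P.w₁) (tY e) - 2 := by
    intro e
    unfold LL
    rw [wtV_Y, hcard]
    exact win_num hG (hw1.trans (wt_ge e))
  have hcen₁ : ∀ e : Fin n, cen D.S₁.T D.S₂.T D.c (tX e) = bs D.S₁w.T 𝒜.x₀ e := fun e => rfl
  have hcen₂ : ∀ e : Fin n, cen D.S₁.T D.S₂.T D.c (tY e) = bs D.S₂.T 𝒜.x₀ e := fun e => rfl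
  set B : Finset (Fin n → ℤ) := Fintype.piFinset fun a => Icc (D.c a - D.M - 1) (D.c a + D.M + 1)
    with hB
  -- the far mass
  have hg₁ : ∀ z ∈ D.S₁w.J, 0 ≤ D.S₁w.g z := fun z _ => by
    show (0 : ℝ) ≤ 1 * 2 ^ (-_)
    positivity
  have hg₂ : ∀ z ∈ D.S₂.J, 0 ≤ D.S₂.g z := fun z _ => zero_le_one
  have hκ₁ : ∀ p, D.S₁w.T.par p ≠ none → ∀ s, 0 ≤ D.S₁w.κ p s := fun p hp s => by
    show 0 ≤ D.S₁.κ p s
    rw [hst₁.ker p hp]; exact KapR.kapR_nonneg _ _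
  have hκ₂ : ∀ p, D.S₂.T.par p ≠ none → ∀ s, 0 ≤ D.S₂.κ p s := fun p hp s => by
    rw [hst₂.ker p hp]; exact KapR.kapR_nonneg _ _
  have hfar : far3 D.S₁w D.S₂ D.θ D.μ h₀ B ≤ 4 * q ^ (Kw + 1) * 𝒜.Z t := by
    refine (far3_le_farM (S₁ := D.S₁w) (S₂ := D.S₂) hg₁ hg₂ hκ₁ hκ₂ hθ M.lz.gauge₁ M.lz.gauge₂ B
      D.Λ₁ (fun z hz => Fintype.mem_piFinset.2 fun r => mem_Icc.2 (abs_le.1 (hLb₁ z hz r)))
      D.Λ₂ (fun z hz => Fintype.mem_piFinset.2 fun r => mem_Icc.2 (abs_le.1 (hLb₂ z hz r)))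
      (K := Kw) (by rw [hcard]; exact hKw)).trans ?_
    exact farM_up M (by rw [hcard]; exact hq) hq1 Kw
  have hq0 : 0 ≤ q := by
    refine le_trans ?_ hq
    have : 0 ≤ Γ := zero_le_one.trans M.Γ0
    positivity
  rcases lt_or_ge t (T0 n 𝒜.L) with ht | ht
  · have key := badm_thin (S₁ := D.S₁w) (S₂ := D.S₂) (θ := D.θ) (μ := D.μ) (h₀ := h₀)
      hst₁.sub hst₂.sub hst₁.cen hst₂.cen hst₁.mem hst₂.mem hg₁ hg₂ (hthin ht).1 (hthin ht).2 hθ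
      M.lz.gauge₁ M.lz.gauge₂ B lam (by omega) hlam' hM₁ hM₂ hcen₁ hcen₂ hL₁ hL₂
    refine le_trans key (hfar.trans ?_)
    apply mul_le_mul_of_nonneg_right _ hZ.le
    have : (0 : ℝ) ≤ 4 * n * ((9 / 4 * Real.exp (-((P.dk : ℝ) / 16))) * (9 / 4) ^ (2 * n)) := by
      positivity
    linarith
  · have hkr : (128 * (kap n : ℝ)) ≤ P.dk := by exact_mod_cast hdk
    have hdr : (0 : ℝ) < P.dk := by exact_mod_cast hd
    have hA : 1 + 80 * (kap n : ℝ) / P.dk ≤ 9 / 4 := by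
      have : 80 * (kap n : ℝ) / P.dk ≤ 5 / 4 := by
        rw [div_le_iff₀ hdr]
        have : (0 : ℝ) ≤ kap n := Nat.cast_nonneg _
        linarith
      linarith
    have hε : 9 / 4 * Real.exp (-(((1 : ℕ) : ℝ) * P.dk / 16)) ≤
        9 / 4 * Real.exp (-((P.dk : ℝ) / 16)) := by
      rw [Nat.cast_one, one_mul]
    have D₁ := hst₁.sideData_b (h₀ := h₀) (b := 1) hw hw' hdk hA hε
    have D₂ := hst₂.sideData_b (h₀ := h₀) (b := 1) hw hw' hdk hA hε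
    have hw0 : ∀ β, D.w β = 0 := ConcF.sdA_w_fat 𝒜 t P ell ht
    have hZc : (hardN D.S₁.J D.S₂.J 0 0 : ℝ) = 𝒜.Z t := by
      rw [← Mass4.Zc_sdA 𝒜 ht P ell, hardN_zero]
      rfl
    have hsum := sum_gN_stage D hst₁.sub hst₂.sub hst₁.mem hst₂.mem M.lz.gauge₁ M.lz.gauge₂
      (by
        have : (0 : ℝ) < hardN D.S₁.J D.S₂.J 0 0 := by rw [hZc]; exact hZ
        exact_mod_cast this)
      (Γ := Γ) (zero_le_one.trans M.Γ0)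
      (fun u v _ _ => by
        rw [hZc]
        have h1 := M.good u v
        have h2 : (hardN D.S₁.J D.S₂.J (Lor.ev u) (Lor.ev v) : ℝ) = 𝒜.Nst t v u :=
          Mass4.hardN_Nst 𝒜 ht u v
        rw [h2]
        exact h1)
      (by
        rw [hcard]
        have h3 : D.θ ^ 2 * (Γ * (2 * n) ^ 2) ≤ D.θ ^ 2 * (2 * Γ * (2 * n) ^ 2) := by
          have hΓ : 0 ≤ Γ := zero_le_one.trans M.Γ0
          have : 0 ≤ D.θ ^ 2 * (Γ * (2 * (n : ℝ)) ^ 2) := by positivity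
          nlinarith
        linarith) h₀
    rw [hZc, hcard] at hsum
    have hq' : D.θ ^ 2 * (Γ * (2 * n) ^ 2) ≤ 1 / 2 := by
      have hΓ : 0 ≤ Γ := zero_le_one.trans M.Γ0
      have : 0 ≤ D.θ ^ 2 * (Γ * (2 * (n : ℝ)) ^ 2) := by positivity
      nlinarith
    have hsum2 : ∑ s₁ ∈ linkSet D.S₁.T.par h₀, ∑ s₂ ∈ linkSet D.S₂.T.par h₀,
        gN D.S₁.J D.S₂.J (Gl D.θ D.μ) h₀ s₁ s₂ ≤ 2 * 𝒜.Z t := by
      refine hsum.trans (mul_le_mul_of_nonneg_right ?_ hZ.le)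
      rw [div_le_iff₀ (by linarith)]
      linarith
    have key := badm_fat (S₁ := D.S₁w) (S₂ := D.S₂) (θ := D.θ) (μ := D.μ) (h₀ := h₀) (b := 1)
      hst₁.sub hst₂.sub hst₁.cen hst₂.cen hst₁.mem hst₂.mem
      (fun z _ => by
        show (1 : ℝ) * 2 ^ (-D.w (D.S₁.blk z)) = 1
        rw [hw0]; norm_num)
      (fun z _ => rfl) D₁ D₂ (fun p _ => le_of_eq (by push_cast; rfl))
      (fun p _ => le_of_eq (by push_cast; rfl)) (by norm_num)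
      (by positivity) hθ M.lz.gauge₁ M.lz.gauge₂ B lam (by rw [hcard]; omega) hlam' hM₁ hM₂
      hcen₁ hcen₂ hL₁ hL₂
    rw [hcard] at key
    refine le_trans key ?_
    have h5 : 2 * (n : ℝ) * (9 / 4 * Real.exp (-((P.dk : ℝ) / 16)) * (9 / 4) ^ (2 * n)) *
        ∑ s₁ ∈ linkSet D.S₁w.T.par h₀, ∑ s₂ ∈ linkSet D.S₂.T.par h₀,
          gN D.S₁w.J D.S₂.J (Gl D.θ D.μ) h₀ s₁ s₂ ≤
        2 * (n : ℝ) * (9 / 4 * Real.exp (-((P.dk : ℝ) / 16)) * (9 / 4) ^ (2 * n)) *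
          (2 * 𝒜.Z t) :=
      mul_le_mul_of_nonneg_left hsum2 (by positivity)
    calc _ ≤ 4 * q ^ (Kw + 1) * 𝒜.Z t +
          2 * (n : ℝ) * (9 / 4 * Real.exp (-((P.dk : ℝ) / 16)) * (9 / 4) ^ (2 * n)) *
            (2 * 𝒜.Z t) := add_le_add hfar h5
      _ = _ := by ring

end Crest.Agent.R302.Tail907
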