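import Crest.Agent.R302.Facet907

/-!
# R302: clean consequences of the facet density theorem

Author: helper907.  `kap n = κ(n)` is an explicit polynomial; for all `m D : ℕ`
`(m / κ + 1) * #{x ∈ P : cap r₁ x g h ≤ D} ≤ 2 (D + 1) #P` if the centre has slack `≥ m` on all
sets separating `g` from `h`; iterated growth; existence of many centres.
-/

set_option autoImplicit false

namespace Crest.Agent.R302.Facet

open Finset

variable {V : Type*} [Fintype V] [DecidableEq V]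

/-- `zB` as a natural number. -/
def zBn (n : ℕ) : ℕ := n ^ 2 * (2 * n + 2)

/-- the polynomial of the facet density theorem -/
def kap (n : ℕ) : ℕ := 8 * (4 * n + 1) * n ^ 4 * (2 * zBn n + 1)

omit [DecidableEq V] in
theorem zB_eq : zB V = (zBn (Fintype.card V) : ℤ) := by
  unfold zB zBn
  push_cast
  ring

theorem kap_pos {n : ℕ} (hn : 1 ≤ n) : 0 < kap n := by
  unfold kap
  have : 0 < n := hn
  positivity

/-- **Facet density**, clean form (first polymatroid), centre violating by at most `e`. -/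
theorem density_e {r₁ r₂ : Finset V → ℤ} {R : ℤ} (hr₁ : SubM r₁ R) (hr₂ : SubM r₂ R)
    (P : Finset (V → ℤ)) (hP : ∀ x, x ∈ P ↔ MemJ r₁ R x ∧ MemJ r₂ R x) {c : V → ℝ} {e : ℝ}
    (he : 0 ≤ e)
    (hc₁ : ∀ A, ∑ a ∈ A, c a ≤ (r₁ A : ℝ) + e) (hc₂ : ∀ A, ∑ a ∈ A, c a ≤ (r₂ A : ℝ) + e)
    (hcR : ∑ a, c a = R) {g h : V} (hgh : g ≠ h) (m D : ℕ)
    (hm : ∀ A, g ∈ A → h ∉ A →
      (m : ℝ) + (4 * (Fintype.card V : ℝ) + 1) * e ≤ r₁ A - ∑ a ∈ A, c a) :
    (m / kap (Fintype.card V) + 1) * (P.filter (fun x => cap r₁ x g h ≤ D)).card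
      ≤ 2 * (D + 1) * P.card := by
  classical
  have hn1 : 1 ≤ Fintype.card V := Fintype.card_pos_iff.2 ⟨g⟩
  set n := Fintype.card V with hn
  set N := m / kap n with hN
  set W := 4 * n ^ 2 * (2 * (N * zBn n) + 1) with hW
  have hfc : (P.filter (fun x => cap r₁ x g h ≤ D)).card ≤ P.card := card_filter_le _ _
  have hzn : 1 ≤ zBn n := by
    unfold zBn
    have : 1 ≤ n ^ 2 := Nat.one_le_pow _ _ hn1
    nlinarith
  have hn2 : 1 ≤ n ^ 2 := Nat.one_le_pow _ _ hn1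
  rcases Nat.eq_zero_or_pos N with hN0 | hNpos
  · rw [hN0]
    nlinarith
  · by_cases hDW : D ≤ W
    · -- main case
      have hWm : (4 * (n : ℝ) + 1) * ((n : ℝ) ^ 2 * (2 * W)) ≤ m := by
        have h1 : (4 * n + 1) * (n ^ 2 * (2 * W)) ≤ m := by
          calc (4 * n + 1) * (n ^ 2 * (2 * W))
              = 8 * (4 * n + 1) * n ^ 4 * (2 * (N * zBn n) + 1) := by rw [hW]; ring
            _ ≤ 8 * (4 * n + 1) * n ^ 4 * (N * (2 * zBn n + 1)) := by
                apply Nat.mul_le_mul_left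
                nlinarith
            _ = N * kap n := by unfold kap; ring
            _ ≤ m := Nat.div_mul_le_self _ _
        exact_mod_cast h1
      have hNW : 4 * (n : ℤ) ^ 2 * (2 * (N * zB V) + 1) ≤ W := by
        rw [zB_eq, hW, ← hn]
        push_cast
        exact le_rfl
      have hsub : P.filter (fun x => cap r₁ x g h ≤ D) ⊆
          (range (D + 1)).biUnion (fun k => P.filter (fun x => cap r₁ x g h = (k : ℤ))) := by
        intro x hx
        rw [mem_filter] at hx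
        obtain ⟨hxP, hxD⟩ := hx
        obtain ⟨A, hA1, hA2, hA⟩ := exists_cap (r := r₁) (x := x) hgh
        have h0 := slk_nonneg ((hP x).1 hxP).1 A
        rw [hA] at h0
        rw [mem_biUnion]
        refine ⟨(cap r₁ x g h).toNat, ?_, ?_⟩
        · rw [mem_range]; omega
        · rw [mem_filter]
          exact ⟨hxP, by omega⟩
      have h2 := (card_le_card hsub).trans card_biUnion_le
      calc (N + 1) * (P.filter (fun x => cap r₁ x g h ≤ D)).card
          ≤ (N + 1) * ∑ k ∈ range (D + 1), (P.filter (fun x => cap r₁ x g h = (k : ℤ))).card :=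
            Nat.mul_le_mul_left _ h2
        _ = ∑ k ∈ range (D + 1), (N + 1) * (P.filter (fun x => cap r₁ x g h = (k : ℤ))).card := by
            rw [mul_sum]
        _ ≤ ∑ _k ∈ range (D + 1), 2 * P.card := by
            apply sum_le_sum
            intro k hk
            rw [mem_range] at hk
            apply facet_density_e hr₁ hr₂ P hP he hc₁ hc₂ hcR hgh hm (W := W) hWm hNW
            have : k ≤ W := by omega
            exact_mod_cast this
        _ = 2 * (D + 1) * P.card := by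
            rw [sum_const, card_range, smul_eq_mul]; ring
    · have h1 : N + 1 ≤ 2 * (D + 1) := by
        have : N ≤ W := by
          rw [hW]
          have : N ≤ N * zBn n := Nat.le_mul_of_pos_right _ hzn
          nlinarith
        omega
      calc (N + 1) * (P.filter (fun x => cap r₁ x g h ≤ D)).card
          ≤ (2 * (D + 1)) * P.card := Nat.mul_le_mul h1 hfc
        _ = 2 * (D + 1) * P.card := rfl

/-- **Facet density**, clean form (first polymatroid). -/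
theorem density {r₁ r₂ : Finset V → ℤ} {R : ℤ} (hr₁ : SubM r₁ R) (hr₂ : SubM r₂ R)
    (P : Finset (V → ℤ)) (hP : ∀ x, x ∈ P ↔ MemJ r₁ R x ∧ MemJ r₂ R x) {c : V → ℝ}
    (hc₁ : ∀ A, ∑ a ∈ A, c a ≤ (r₁ A : ℝ)) (hc₂ : ∀ A, ∑ a ∈ A, c a ≤ (r₂ A : ℝ))
    (hcR : ∑ a, c a = R) {g h : V} (hgh : g ≠ h) (m D : ℕ)
    (hm : ∀ A, g ∈ A → h ∉ A → (m : ℝ) ≤ r₁ A - ∑ a ∈ A, c a) :
    (m / kap (Fintype.card V) + 1) * (P.filter (fun x => cap r₁ x g h ≤ D)).card
      ≤ 2 * (D + 1) * P.card :=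
  density_e hr₁ hr₂ P hP le_rfl (fun A => by simpa using hc₁ A)
    (fun A => by simpa using hc₂ A) hcR hgh m D (fun A h1 h2 => by simpa using hm A h1 h2)

/-- **Facet density**, clean form (second polymatroid). -/
theorem density₂ {r₁ r₂ : Finset V → ℤ} {R : ℤ} (hr₁ : SubM r₁ R) (hr₂ : SubM r₂ R)
    (P : Finset (V → ℤ)) (hP : ∀ x, x ∈ P ↔ MemJ r₁ R x ∧ MemJ r₂ R x) {c : V → ℝ}
    (hc₁ : ∀ A, ∑ a ∈ A, c a ≤ (r₁ A : ℝ)) (hc₂ : ∀ A, ∑ a ∈ A, c a ≤ (r₂ A : ℝ))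
    (hcR : ∑ a, c a = R) {g h : V} (hgh : g ≠ h) (m D : ℕ)
    (hm : ∀ A, g ∈ A → h ∉ A → (m : ℝ) ≤ r₂ A - ∑ a ∈ A, c a) :
    (m / kap (Fintype.card V) + 1) * (P.filter (fun x => cap r₂ x g h ≤ D)).card
      ≤ 2 * (D + 1) * P.card :=
  density hr₂ hr₁ P (fun x => by rw [hP x, and_comm]) hc₂ hc₁ hcR hgh m D hm

/-- **Facet density**, clean form (second polymatroid), centre violating by at most `e`. -/
theorem density₂_e {r₁ r₂ : Finset V → ℤ} {R : ℤ} (hr₁ : SubM r₁ R) (hr₂ : SubM r₂ R)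
    (P : Finset (V → ℤ)) (hP : ∀ x, x ∈ P ↔ MemJ r₁ R x ∧ MemJ r₂ R x) {c : V → ℝ} {e : ℝ}
    (he : 0 ≤ e)
    (hc₁ : ∀ A, ∑ a ∈ A, c a ≤ (r₁ A : ℝ) + e) (hc₂ : ∀ A, ∑ a ∈ A, c a ≤ (r₂ A : ℝ) + e)
    (hcR : ∑ a, c a = R) {g h : V} (hgh : g ≠ h) (m D : ℕ)
    (hm : ∀ A, g ∈ A → h ∉ A →
      (m : ℝ) + (4 * (Fintype.card V : ℝ) + 1) * e ≤ r₂ A - ∑ a ∈ A, c a) :
    (m / kap (Fintype.card V) + 1) * (P.filter (fun x => cap r₂ x g h ≤ D)).card
      ≤ 2 * (D + 1) * P.card :=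
  density_e hr₂ hr₁ P (fun x => by rw [hP x, and_comm]) he hc₂ hc₁ hcR hgh m D hm

/-! ## Growth -/

/-- one-step growth in exponential form -/
theorem growth_exp_e {r₁ r₂ : Finset V → ℤ} {R : ℤ} (hr₁ : SubM r₁ R) (hr₂ : SubM r₂ R)
    {g h : V} (hgh : g ≠ h)
    (P P' : Finset (V → ℤ)) (hP : ∀ x, x ∈ P ↔ MemJ r₁ R x ∧ MemJ r₂ R x)
    (hP' : ∀ x, x ∈ P' ↔ MemJ (relax r₁ g h) R x ∧ MemJ r₂ R x) {c : V → ℝ} {e : ℝ}
    (he : 0 ≤ e)
    (hc₁ : ∀ A, ∑ a ∈ A, c a ≤ (r₁ A : ℝ) + e) (hc₂ : ∀ A, ∑ a ∈ A, c a ≤ (r₂ A : ℝ) + e)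
    (hcR : ∑ a, c a = R) {m : ℕ} (hmk : 4 * kap (Fintype.card V) ≤ m)
    (hm : ∀ A, g ∈ A → h ∉ A →
      (m : ℝ) + (4 * (Fintype.card V : ℝ) + 1) * e ≤ r₁ A - ∑ a ∈ A, c a) :
    (P'.card : ℝ) ≤ Real.exp (4 * kap (Fintype.card V) / m) * P.card := by
  have hn1 : 1 ≤ Fintype.card V := Fintype.card_pos_iff.2 ⟨g⟩
  set n := Fintype.card V with hn
  have hkpos := kap_pos hn1
  set N := m / kap n with hN
  have hN4 : 4 ≤ N := by
    rw [hN, Nat.le_div_iff_mul_le hkpos]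
    omega
  set W := 4 * n ^ 2 * (2 * (N * zBn n) + 1) with hW
  have hWm : (4 * (n : ℝ) + 1) * ((n : ℝ) ^ 2 * (2 * W)) ≤ m := by
    have h1 : (4 * n + 1) * (n ^ 2 * (2 * W)) ≤ m := by
      calc (4 * n + 1) * (n ^ 2 * (2 * W))
          = 8 * (4 * n + 1) * n ^ 4 * (2 * (N * zBn n) + 1) := by rw [hW]; ring
        _ ≤ 8 * (4 * n + 1) * n ^ 4 * (N * (2 * zBn n + 1)) := by
            apply Nat.mul_le_mul_left
            nlinarith
        _ = N * kap n := by unfold kap; ring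
        _ ≤ m := Nat.div_mul_le_self _ _
    exact_mod_cast h1
  have hNW : 4 * (n : ℤ) ^ 2 * (2 * (N * zB V) + 1) ≤ W := by
    rw [zB_eq, hW, ← hn]
    push_cast
    exact le_rfl
  have h1 := growth_e hr₁ hr₂ hgh P P' hP hP' he hc₁ hc₂ hcR hm hWm hNW
  have h1' : ((N : ℝ) + 1) * P'.card ≤ 2 * P'.card + (N + 1) * P.card := by exact_mod_cast h1
  have hNm : (m : ℝ) / kap n - 1 ≤ N := by
    have := Nat.lt_div_mul_add (a := m) hkpos
    rw [← hN] at this
    have h2 : (m : ℝ) < N * kap n + kap n := by exact_mod_cast this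
    have h3 : (0 : ℝ) < kap n := by exact_mod_cast hkpos
    rw [sub_le_iff_le_add, div_le_iff₀ h3]
    nlinarith
  have hmpos : (0 : ℝ) < m := by
    have : 0 < m := by omega
    exact_mod_cast this
  have hkm : (0 : ℝ) < kap n := by exact_mod_cast hkpos
  have h4k : (4 : ℝ) * kap n ≤ m := by exact_mod_cast hmk
  -- N - 1 ≥ m / (2κ)
  have hN1 : (m : ℝ) / (2 * kap n) ≤ N - 1 := by
    have h5 : (m : ℝ) / (2 * kap n) = (m / kap n) / 2 := by
      field_simp
    have h6 : (4 : ℝ) ≤ m / kap n := by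
      rw [le_div_iff₀ hkm]; exact h4k
    rw [h5]
    linarith
  have hpos1 : (0 : ℝ) < m / (2 * kap n) := by positivity
  have h7 : (P'.card : ℝ) ≤ (1 + 4 * kap n / m) * P.card := by
    have h8 : ((N : ℝ) - 1) * P'.card ≤ (N + 1) * P.card := by linarith
    have h9 : (P'.card : ℝ) ≤ ((N + 1) / (N - 1)) * P.card := by
      rw [div_mul_eq_mul_div, le_div_iff₀ (by linarith)]
      linarith
    refine h9.trans (mul_le_mul_of_nonneg_right ?_ (by positivity))
    have h10 : ((N : ℝ) + 1) / (N - 1) = 1 + 2 / (N - 1) := by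
      have : (N : ℝ) - 1 ≠ 0 := by linarith
      field_simp
      ring
    rw [h10]
    have h11 : (2 : ℝ) / (N - 1) ≤ 2 / (m / (2 * kap n)) :=
      div_le_div_of_nonneg_left (by norm_num) hpos1 hN1
    have h12 : (2 : ℝ) / (m / (2 * kap n)) = 4 * kap n / m := by
      field_simp
      ring
    linarith
  refine h7.trans (mul_le_mul_of_nonneg_right ?_ (by positivity))
  have := Real.add_one_le_exp (4 * (kap n : ℝ) / m)
  linarith

/-- one-step growth in exponential form -/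
theorem growth_exp {r₁ r₂ : Finset V → ℤ} {R : ℤ} (hr₁ : SubM r₁ R) (hr₂ : SubM r₂ R)
    {g h : V} (hgh : g ≠ h)
    (P P' : Finset (V → ℤ)) (hP : ∀ x, x ∈ P ↔ MemJ r₁ R x ∧ MemJ r₂ R x)
    (hP' : ∀ x, x ∈ P' ↔ MemJ (relax r₁ g h) R x ∧ MemJ r₂ R x) {c : V → ℝ}
    (hc₁ : ∀ A, ∑ a ∈ A, c a ≤ (r₁ A : ℝ)) (hc₂ : ∀ A, ∑ a ∈ A, c a ≤ (r₂ A : ℝ))
    (hcR : ∑ a, c a = R) {m : ℕ} (hmk : 4 * kap (Fintype.card V) ≤ m)
    (hm : ∀ A, g ∈ A → h ∉ A → (m : ℝ) ≤ r₁ A - ∑ a ∈ A, c a) :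
    (P'.card : ℝ) ≤ Real.exp (4 * kap (Fintype.card V) / m) * P.card :=
  growth_exp_e hr₁ hr₂ hgh P P' hP hP' le_rfl (fun A => by simpa using hc₁ A)
    (fun A => by simpa using hc₂ A) hcR hmk (fun A h1 h2 => by simpa using hm A h1 h2)

/-- iterated relaxation -/
def relaxL (r : Finset V → ℤ) (L : List (V × V)) : Finset V → ℤ :=
  L.foldr (fun p s => relax s p.1 p.2) r

omit [Fintype V] in
@[simp] theorem relaxL_nil (r : Finset V → ℤ) : relaxL r [] = r := rfl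

omit [Fintype V] in
@[simp] theorem relaxL_cons (r : Finset V → ℤ) (p : V × V) (L : List (V × V)) :
    relaxL r (p :: L) = relax (relaxL r L) p.1 p.2 := rfl

theorem relaxL_subM {r : Finset V → ℤ} {R : ℤ} (hr : SubM r R) (L : List (V × V)) :
    SubM (relaxL r L) R := by
  induction L with
  | nil => exact hr
  | cons p L ih => exact relax_subM ih _ _

omit [Fintype V] in
theorem le_relaxL (r : Finset V → ℤ) (L : List (V × V)) (A : Finset V) : r A ≤ relaxL r L A := by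
  induction L with
  | nil => exact le_rfl
  | cons p L ih => exact ih.trans (le_relax _ _ _ _)

omit [Fintype V] in
theorem relaxL_eq (r : Finset V → ℤ) (L : List (V × V)) (A : Finset V) :
    relaxL r L A = r A + (L.map (fun p => if p.1 ∈ A ∧ p.2 ∉ A then (1 : ℤ) else 0)).sum := by
  induction L with
  | nil => simp
  | cons p L ih =>
    rw [relaxL_cons, relax, ih, List.map_cons, List.sum_cons]
    ring

theorem memJ_relax {r : Finset V → ℤ} {R : ℤ} {x : V → ℤ} (hx : MemJ r R x) (g h : V) :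
    MemJ (relax r g h) R x :=
  ⟨fun A => (hx.1 A).trans (le_relax r g h A), hx.2⟩

theorem memJ_relax_add {r : Finset V → ℤ} {R : ℤ} {x : V → ℤ} (hx : MemJ r R x) (g h : V) :
    MemJ (relax r g h) R (fun v => x v + (ev g v - ev h v)) := by
  refine ⟨fun A => ?_, ?_⟩
  · rw [sum_add_distrib, sum_sub_distrib, sum_ev, sum_ev]
    have := hx.1 A
    unfold relax
    by_cases hg : g ∈ A <;> by_cases hh : h ∈ A <;> simp [hg, hh] <;> linarith
  · rw [sum_add_distrib, sum_sub_distrib, sum_ev_univ, sum_ev_univ, hx.2]; ring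

/-- finiteness: the intersection is a finset -/
theorem exists_finset {r₁ r₂ : Finset V → ℤ} {R : ℤ} (hr₁ : SubM r₁ R) :
    ∃ P : Finset (V → ℤ), ∀ x, x ∈ P ↔ MemJ r₁ R x ∧ MemJ r₂ R x := by
  classical
  have hfin : Set.Finite {x : V → ℤ | MemJ r₁ R x ∧ MemJ r₂ R x} := by
    apply Set.Finite.subset (Set.finite_Icc (fun v => R - r₁ (univ.erase v)) (fun v => r₁ {v}))
    rintro x ⟨hx, _⟩
    rw [Set.mem_Icc]
    constructor
    · intro v
      have h1 := hx.1 (univ.erase v)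
      have h2 := sum_erase_add univ x (mem_univ v)
      have h3 := hx.2
      simp only
      linarith
    · intro v
      have h1 := hx.1 {v}
      simpa using h1
  exact ⟨hfin.toFinset, fun x => by simp⟩

/-- **Iterated growth**, both sides. -/
theorem growth_iter_e {r₁ r₂ : Finset V → ℤ} {R : ℤ} (hr₁ : SubM r₁ R) (hr₂ : SubM r₂ R)
    (P : Finset (V → ℤ)) (hP : ∀ x, x ∈ P ↔ MemJ r₁ R x ∧ MemJ r₂ R x) {c : V → ℝ} {e : ℝ}
    (he : 0 ≤ e)
    (hc₁ : ∀ A, ∑ a ∈ A, c a ≤ (r₁ A : ℝ) + e) (hc₂ : ∀ A, ∑ a ∈ A, c a ≤ (r₂ A : ℝ) + e)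
    (hcR : ∑ a, c a = R) (m₁ m₂ : V × V → ℕ) (L₁ L₂ : List (V × V))
    (h₁ : ∀ p ∈ L₁, p.1 ≠ p.2 ∧ 4 * kap (Fintype.card V) ≤ m₁ p ∧
      ∀ A, p.1 ∈ A → p.2 ∉ A →
        (m₁ p : ℝ) + (4 * (Fintype.card V : ℝ) + 1) * e ≤ r₁ A - ∑ a ∈ A, c a)
    (h₂ : ∀ p ∈ L₂, p.1 ≠ p.2 ∧ 4 * kap (Fintype.card V) ≤ m₂ p ∧
      ∀ A, p.1 ∈ A → p.2 ∉ A →
        (m₂ p : ℝ) + (4 * (Fintype.card V : ℝ) + 1) * e ≤ r₂ A - ∑ a ∈ A, c a)
    (P' : Finset (V → ℤ)) (hP' : ∀ x, x ∈ P' ↔ MemJ (relaxL r₁ L₁) R x ∧ MemJ (relaxL r₂ L₂) R x) :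
    (P'.card : ℝ) ≤ Real.exp ((L₁.map (fun p => 4 * (kap (Fintype.card V) : ℝ) / m₁ p)).sum +
      (L₂.map (fun p => 4 * (kap (Fintype.card V) : ℝ) / m₂ p)).sum) * P.card := by
  induction L₁ generalizing P' with
  | nil =>
    induction L₂ generalizing P' with
    | nil =>
      have : P' = P := by
        ext x
        rw [hP', hP, relaxL_nil, relaxL_nil]
      rw [this]; simp
    | cons p L₂ ih =>
      obtain ⟨Q, hQ⟩ := exists_finset (r₁ := r₁) (r₂ := relaxL r₂ L₂) (R := R) hr₁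
      have hQ' := ih (fun q hq => h₂ q (List.mem_cons_of_mem _ hq)) Q (fun x => by
        rw [hQ, relaxL_nil])
      obtain ⟨hp1, hp2, hp3⟩ := h₂ p List.mem_cons_self
      have hle : ∀ A, (r₂ A : ℝ) ≤ (relaxL r₂ L₂ A : ℝ) := fun A => by
        exact_mod_cast le_relaxL r₂ L₂ A
      have h4 := growth_exp_e (relaxL_subM hr₂ L₂) hr₁ hp1 Q P'
        (fun x => by rw [hQ, and_comm]) (fun x => by rw [hP', and_comm, relaxL_nil, relaxL_cons])
        he (fun A => (hc₂ A).trans (add_le_add_left (hle A) e)) hc₁ hcR hp2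
        (fun A hA1 hA2 => (hp3 A hA1 hA2).trans (sub_le_sub_right (hle A) _))
      refine h4.trans ((mul_le_mul_of_nonneg_left hQ' (Real.exp_pos _).le).trans ?_)
      rw [← mul_assoc, ← Real.exp_add]
      apply mul_le_mul_of_nonneg_right _ (by positivity)
      apply Real.exp_le_exp.2
      rw [List.map_cons, List.sum_cons]
      linarith
  | cons p L₁ ih =>
    obtain ⟨Q, hQ⟩ := exists_finset (r₁ := relaxL r₁ L₁) (r₂ := relaxL r₂ L₂) (R := R)
      (relaxL_subM hr₁ L₁)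
    have hQ' := ih (fun q hq => h₁ q (List.mem_cons_of_mem _ hq)) Q hQ
    obtain ⟨hp1, hp2, hp3⟩ := h₁ p List.mem_cons_self
    have hle : ∀ A, (r₁ A : ℝ) ≤ (relaxL r₁ L₁ A : ℝ) := fun A => by
      exact_mod_cast le_relaxL r₁ L₁ A
    have hle₂ : ∀ A, (r₂ A : ℝ) ≤ (relaxL r₂ L₂ A : ℝ) := fun A => by
      exact_mod_cast le_relaxL r₂ L₂ A
    have h4 := growth_exp_e (relaxL_subM hr₁ L₁) (relaxL_subM hr₂ L₂) hp1 Q P' hQ
      (fun x => by rw [hP', relaxL_cons]) he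
      (fun A => (hc₁ A).trans (add_le_add_left (hle A) e))
      (fun A => (hc₂ A).trans (add_le_add_left (hle₂ A) e)) hcR hp2
      (fun A hA1 hA2 => (hp3 A hA1 hA2).trans (sub_le_sub_right (hle A) _))
    refine h4.trans ((mul_le_mul_of_nonneg_left hQ' (Real.exp_pos _).le).trans ?_)
    rw [← mul_assoc, ← Real.exp_add]
    apply mul_le_mul_of_nonneg_right _ (by positivity)
    apply Real.exp_le_exp.2
    rw [List.map_cons, List.sum_cons]
    linarith

/-- **Iterated growth**, both sides. -/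
theorem growth_iter {r₁ r₂ : Finset V → ℤ} {R : ℤ} (hr₁ : SubM r₁ R) (hr₂ : SubM r₂ R)
    (P : Finset (V → ℤ)) (hP : ∀ x, x ∈ P ↔ MemJ r₁ R x ∧ MemJ r₂ R x) {c : V → ℝ}
    (hc₁ : ∀ A, ∑ a ∈ A, c a ≤ (r₁ A : ℝ)) (hc₂ : ∀ A, ∑ a ∈ A, c a ≤ (r₂ A : ℝ))
    (hcR : ∑ a, c a = R) (m₁ m₂ : V × V → ℕ) (L₁ L₂ : List (V × V))
    (h₁ : ∀ p ∈ L₁, p.1 ≠ p.2 ∧ 4 * kap (Fintype.card V) ≤ m₁ p ∧
      ∀ A, p.1 ∈ A → p.2 ∉ A → (m₁ p : ℝ) ≤ r₁ A - ∑ a ∈ A, c a)
    (h₂ : ∀ p ∈ L₂, p.1 ≠ p.2 ∧ 4 * kap (Fintype.card V) ≤ m₂ p ∧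
      ∀ A, p.1 ∈ A → p.2 ∉ A → (m₂ p : ℝ) ≤ r₂ A - ∑ a ∈ A, c a)
    (P' : Finset (V → ℤ)) (hP' : ∀ x, x ∈ P' ↔ MemJ (relaxL r₁ L₁) R x ∧ MemJ (relaxL r₂ L₂) R x) :
    (P'.card : ℝ) ≤ Real.exp ((L₁.map (fun p => 4 * (kap (Fintype.card V) : ℝ) / m₁ p)).sum +
      (L₂.map (fun p => 4 * (kap (Fintype.card V) : ℝ) / m₂ p)).sum) * P.card :=
  growth_iter_e hr₁ hr₂ P hP le_rfl (fun A => by simpa using hc₁ A)
    (fun A => by simpa using hc₂ A) hcR m₁ m₂ L₁ L₂
    (fun p hp => ⟨(h₁ p hp).1, (h₁ p hp).2.1, fun A a1 a2 => by simpa using (h₁ p hp).2.2 A a1 a2⟩)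
    (fun p hp => ⟨(h₂ p hp).1, (h₂ p hp).2.1, fun A a1 a2 => by simpa using (h₂ p hp).2.2 A a1 a2⟩)
    P' hP'

/-! ## Centres -/

/-- `x` is a centre with constant `C`: all exchange capacities are within a factor `C` of their
maximum over `P` (additively relaxed by one). -/
def IsCenter (r₁ r₂ : Finset V → ℤ) (P : Finset (V → ℤ)) (C : ℕ) (x : V → ℤ) : Prop :=
  ∀ g h, g ≠ h → ∀ x' ∈ P, cap r₁ x' g h ≤ C * (cap r₁ x g h + 1) ∧
    cap r₂ x' g h ≤ C * (cap r₂ x g h + 1)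

omit [DecidableEq V] in
theorem MemJ.real_le {r : Finset V → ℤ} {R : ℤ} {x : V → ℤ} (hx : MemJ r R x) (A : Finset V) :
    ∑ a ∈ A, (x a : ℝ) ≤ (r A : ℝ) := by
  have := hx.1 A
  exact_mod_cast this

theorem center_one {r₁ r₂ : Finset V → ℤ} {R : ℤ} (hr₁ : SubM r₁ R) (hr₂ : SubM r₂ R)
    (P : Finset (V → ℤ)) (hP : ∀ x, x ∈ P ↔ MemJ r₁ R x ∧ MemJ r₂ R x)
    {g h : V} (hgh : g ≠ h) (C q : ℕ) (hC : 4 * q * kap (Fintype.card V) ≤ C) :
    q * (P.filter (fun x => ¬ ∀ x' ∈ P, cap r₁ x' g h ≤ C * (cap r₁ x g h + 1))).card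
      ≤ P.card := by
  classical
  have hn1 : 1 ≤ Fintype.card V := Fintype.card_pos_iff.2 ⟨g⟩
  set n := Fintype.card V with hn
  have hkpos := kap_pos hn1
  rcases P.eq_empty_or_nonempty with hPe | hPne
  · subst hPe; simp
  obtain ⟨y, hyP, hy⟩ := exists_max_image P (fun x => cap r₁ x g h) hPne
  have hyJ := (hP y).1 hyP
  obtain ⟨A, hA1, hA2, hA⟩ := exists_cap (r := r₁) (x := y) hgh
  have hm0 : 0 ≤ cap r₁ y g h := hA ▸ slk_nonneg hyJ.1 A
  obtain ⟨m, hm⟩ := Int.eq_ofNat_of_zero_le hm0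
  have hmslk : ∀ A, g ∈ A → h ∉ A → (m : ℝ) ≤ r₁ A - ∑ a ∈ A, (y a : ℝ) := by
    intro B hB1 hB2
    have h1 := cap_le (r := r₁) (x := y) hB1 hB2
    rw [hm] at h1
    unfold slk at h1
    exact_mod_cast h1
  have hyR : ∑ a, (y a : ℝ) = R := by
    have := hyJ.1.2
    exact_mod_cast this
  rcases Nat.eq_zero_or_pos q with hq | hq
  · subst hq; simp
  have hCpos : 0 < C := lt_of_lt_of_le (by positivity) hC
  by_cases hmC : m < C
  · -- trivial
    have : P.filter (fun x => ¬ ∀ x' ∈ P, cap r₁ x' g h ≤ C * (cap r₁ x g h + 1)) = ∅ := by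
      apply filter_eq_empty_iff.2
      intro x hx
      rw [not_not]
      intro x' hx'
      have h1 := hy x' hx'
      obtain ⟨B, hB1, hB2, hB⟩ := exists_cap (r := r₁) (x := x) hgh
      have h2 : 0 ≤ cap r₁ x g h := hB ▸ slk_nonneg ((hP x).1 hx).1 B
      rw [hm] at h1
      have h3 : (m : ℤ) < C := by exact_mod_cast hmC
      have h4 : (0 : ℤ) < C := by exact_mod_cast hCpos
      nlinarith
    rw [this]; simp
  · push Not at hmC
    set D := m / C - 1 with hD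
    have hmC1 : 1 ≤ m / C := (Nat.one_le_div_iff hCpos).2 hmC
    have hsub : P.filter (fun x => ¬ ∀ x' ∈ P, cap r₁ x' g h ≤ C * (cap r₁ x g h + 1)) ⊆
        P.filter (fun x => cap r₁ x g h ≤ D) := by
      intro x hx
      rw [mem_filter] at hx ⊢
      refine ⟨hx.1, ?_⟩
      have h2 := hx.2
      push Not at h2
      obtain ⟨x', hx', h3⟩ := h2
      have h1 := hy x' hx'
      rw [hm] at h1
      have h6 : (C : ℤ) * (cap r₁ x g h + 1) < m := lt_of_lt_of_le h3 h1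
      obtain ⟨B, hB1, hB2, hB⟩ := exists_cap (r := r₁) (x := x) hgh
      have h7 : 0 ≤ cap r₁ x g h := hB ▸ slk_nonneg ((hP x).1 hx.1).1 B
      obtain ⟨k, hk⟩ := Int.eq_ofNat_of_zero_le h7
      rw [hk] at h6 ⊢
      have h8 : C * (k + 1) < m := by exact_mod_cast h6
      have h9 : k + 1 ≤ m / C := by
        rw [Nat.le_div_iff_mul_le hCpos]
        nlinarith
      have h10 : k ≤ D := by omega
      exact_mod_cast h10
    have h1 := density hr₁ hr₂ P hP (c := fun a => (y a : ℝ)) (fun A => hyJ.1.real_le A)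
      (fun A => hyJ.2.real_le A) hyR hgh m D hmslk
    have hD1 : D + 1 = m / C := by omega
    rw [← hn, hD1] at h1
    -- q * 2 * (m / C) ≤ m / κ + 1
    have h2 : q * (2 * (m / C)) ≤ m / kap n + 1 := by
      have h3 : q * (2 * (m / C)) * kap n ≤ m := by
        have h4 : C * (m / C) ≤ m := Nat.mul_div_le m C
        have h5 : 4 * q * kap n * (m / C) ≤ C * (m / C) := Nat.mul_le_mul_right _ hC
        nlinarith [Nat.zero_le (q * kap n * (m / C))]
      have h6 : q * (2 * (m / C)) ≤ m / kap n := (Nat.le_div_iff_mul_le hkpos).2 h3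
      omega
    have h3 := Nat.mul_le_mul_left q (card_le_card hsub)
    have hmCpos : 0 < 2 * (m / C) := by omega
    have h4 : (2 * (m / C)) * (q * (P.filter (fun x => cap r₁ x g h ≤ D)).card) ≤
        (2 * (m / C)) * P.card := by
      calc (2 * (m / C)) * (q * (P.filter (fun x => cap r₁ x g h ≤ D)).card)
          = q * (2 * (m / C)) * (P.filter (fun x => cap r₁ x g h ≤ D)).card := by ring
        _ ≤ (m / kap n + 1) * (P.filter (fun x => cap r₁ x g h ≤ D)).card :=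
            Nat.mul_le_mul_right _ h2
        _ ≤ 2 * (m / C) * P.card := h1
    exact h3.trans (Nat.le_of_mul_le_mul_left h4 hmCpos)

open Classical in
/-- **Most points are centres**: with `C = 8 q n² κ(n)` at most a `1/q` fraction of the points of
`P` is not a centre with constant `C`. -/
theorem center_card {r₁ r₂ : Finset V → ℤ} {R : ℤ} (hr₁ : SubM r₁ R) (hr₂ : SubM r₂ R)
    (P : Finset (V → ℤ)) (hP : ∀ x, x ∈ P ↔ MemJ r₁ R x ∧ MemJ r₂ R x) (C q : ℕ)
    (hC : 8 * q * Fintype.card V ^ 2 * kap (Fintype.card V) ≤ C) :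
    q * (P.filter (fun x => ¬ IsCenter r₁ r₂ P C x)).card ≤ P.card := by
  classical
  set n := Fintype.card V with hn
  rcases Nat.eq_zero_or_pos n with hn0 | hnpos
  · -- no elements
    have : P.filter (fun x => ¬ IsCenter r₁ r₂ P C x) = ∅ := by
      apply filter_eq_empty_iff.2
      intro x _
      rw [not_not]
      intro g
      exact absurd (Fintype.card_pos_iff.2 ⟨g⟩) (by omega)
    rw [this]; simp
  set q' := 2 * q * n ^ 2 with hq'
  have hC' : 4 * q' * kap n ≤ C := by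
    refine le_trans (le_of_eq ?_) hC
    rw [hq']; ring
  have hsub : P.filter (fun x => ¬ IsCenter r₁ r₂ P C x) ⊆
      (univ : Finset (V × V × Bool)).biUnion (fun p => if p.1 = p.2.1 then ∅ else
        if p.2.2 then P.filter (fun x => ¬ ∀ x' ∈ P, cap r₁ x' p.1 p.2.1 ≤
            C * (cap r₁ x p.1 p.2.1 + 1))
        else P.filter (fun x => ¬ ∀ x' ∈ P, cap r₂ x' p.1 p.2.1 ≤
            C * (cap r₂ x p.1 p.2.1 + 1))) := by
    intro x hx
    rw [mem_filter] at hx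
    obtain ⟨hxP, hx2⟩ := hx
    unfold IsCenter at hx2
    push Not at hx2
    obtain ⟨g, h, hgh, x', hx', h3⟩ := hx2
    rw [mem_biUnion]
    by_cases h4 : cap r₁ x' g h ≤ C * (cap r₁ x g h + 1)
    · refine ⟨(g, h, false), mem_univ _, ?_⟩
      simp only [hgh, if_false, mem_filter, Bool.false_eq_true]
      refine ⟨hxP, fun hall => ?_⟩
      exact absurd (hall x' hx') (not_le.2 (h3 h4))
    · refine ⟨(g, h, true), mem_univ _, ?_⟩
      simp only [hgh, if_false, if_true, mem_filter]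
      exact ⟨hxP, fun hall => h4 (hall x' hx')⟩
  have h1 := (card_le_card hsub).trans card_biUnion_le
  have h2 : ∀ p : V × V × Bool, q' * (if p.1 = p.2.1 then (∅ : Finset (V → ℤ)) else
        if p.2.2 then P.filter (fun x => ¬ ∀ x' ∈ P, cap r₁ x' p.1 p.2.1 ≤
            C * (cap r₁ x p.1 p.2.1 + 1))
        else P.filter (fun x => ¬ ∀ x' ∈ P, cap r₂ x' p.1 p.2.1 ≤
            C * (cap r₂ x p.1 p.2.1 + 1))).card ≤ P.card := by
    rintro ⟨g, h, b⟩
    by_cases hgh : g = h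
    · simp [hgh]
    · cases b
      · simp only [hgh, if_false, Bool.false_eq_true]
        exact center_one hr₂ hr₁ P (fun x => by rw [hP x, and_comm]) hgh C q' hC'
      · simp only [hgh, if_false, if_true]
        exact center_one hr₁ hr₂ P hP hgh C q' hC'
  have h3 : q' * (P.filter (fun x => ¬ IsCenter r₁ r₂ P C x)).card ≤ 2 * n ^ 2 * P.card := by
    calc q' * (P.filter (fun x => ¬ IsCenter r₁ r₂ P C x)).card ≤ q' * _ :=
          Nat.mul_le_mul_left _ h1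
      _ = ∑ p : V × V × Bool, q' * _ := by rw [mul_sum]
      _ ≤ ∑ _p : V × V × Bool, P.card := sum_le_sum (fun p _ => h2 p)
      _ = 2 * n ^ 2 * P.card := by
          rw [sum_const, card_univ, Fintype.card_prod, Fintype.card_prod, Fintype.card_bool,
            smul_eq_mul, ← hn]
          ring
  have h4 : (2 * n ^ 2) * (q * (P.filter (fun x => ¬ IsCenter r₁ r₂ P C x)).card) ≤
      (2 * n ^ 2) * P.card := by
    refine le_trans (le_of_eq ?_) h3
    rw [hq']; ring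
  exact Nat.le_of_mul_le_mul_left h4 (by positivity)

end Crest.Agent.R302.Facet
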