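import Mathlib
import Crest.Agent.R302.Facet907B

/-!
R302 (helper970), block CENTER: a deterministic integral centre.

`zvec P1 P2` is a computable cone vector (sum of closed walks) for two Boolean relations;
`halfMove` moves `x` along it; going through the scales `2^K, ..., 2, 1` produces a point `c` of
`J₁ ∩ J₂` with `cap r_i x' g h ≤ C (cap r_i c g h + 1)` for all `x'` in `J₁ ∩ J₂`.
-/

set_option autoImplicit false

namespace Crest.Agent.R302.Center

open Finset Crest.Agent.R302.Facet

variable {n : ℕ}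

/-! ### the walk table -/

/-- one relaxation round -/
def wstep (P1 P2 : Fin n → Fin n → Bool) (W : Fin n → Fin n → Option (Fin n → ℤ)) :
    Fin n → Fin n → Option (Fin n → ℤ) := fun u v =>
  match W u v with
  | some z => some z
  | none => (List.finRange n).findSome? fun w =>
      match W u w with
      | some z => if P1 w v then some (fun i => z i + (ev w i - ev v i))
                  else if P2 v w then some z else none
      | none => none

/-- walks without steps -/
def w0 : Fin n → Fin n → Option (Fin n → ℤ) := fun u v => if u = v then some 0 else none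

/-- table of walks with at most `k` steps -/
def wtab (P1 P2 : Fin n → Fin n → Bool) (k : ℕ) : Fin n → Fin n → Option (Fin n → ℤ) :=
  (wstep P1 P2)^[k] w0

/-- what is known about a walk vector -/
structure WOK (ρ₁ ρ₂ : Fin n → Fin n → Prop) (u v : Fin n) (k : ℕ) (z : Fin n → ℤ) : Prop where
  c1 : ∀ B, Cl ρ₁ B → ∑ i ∈ B, z i ≤ 0
  c2 : ∀ B, Cl ρ₂ B → 0 ≤ ∑ i ∈ B, (ev u i - ev v i - z i)
  s0 : ∑ i, z i = 0
  nb : ∑ i, |z i| ≤ 2 * k
  re : Relation.ReflTransGen (Dg ρ₁ ρ₂) u v

theorem WOK.mono {ρ₁ ρ₂ : Fin n → Fin n → Prop} {u v : Fin n} {k l : ℕ} {z : Fin n → ℤ}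
    (h : WOK ρ₁ ρ₂ u v k z) (hkl : k ≤ l) : WOK ρ₁ ρ₂ u v l z :=
  ⟨h.c1, h.c2, h.s0, h.nb.trans (mul_le_mul_of_nonneg_left (by exact_mod_cast hkl) (by norm_num)),
    h.re⟩

theorem WOK.step1 {ρ₁ ρ₂ : Fin n → Fin n → Prop} {u w v : Fin n} {k : ℕ} {z : Fin n → ℤ}
    (h : WOK ρ₁ ρ₂ u w k z) (hwv : ρ₁ w v) :
    WOK ρ₁ ρ₂ u v (k + 1) (fun i => z i + (ev w i - ev v i)) := by
  refine ⟨?_, ?_, ?_, ?_, h.re.tail (Or.inl hwv)⟩
  · intro B hB
    rw [sum_add_distrib, sum_sub_distrib, sum_ev, sum_ev]
    have := h.c1 B hB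
    by_cases hw : w ∈ B
    · have hv : v ∈ B := hB w hw v hwv
      simp [hw, hv, this]
    · by_cases hv : v ∈ B <;> simp [hw, hv] <;> omega
  · intro B hB
    refine (h.c2 B hB).trans (le_of_eq ?_)
    exact sum_congr rfl fun i _ => by ring
  · rw [sum_add_distrib, sum_sub_distrib, sum_ev_univ, sum_ev_univ, h.s0]; norm_num
  · calc ∑ i, |z i + (ev w i - ev v i)| ≤ ∑ i, (|z i| + |ev w i - ev v i|) :=
          sum_le_sum (fun v _ => abs_add_le _ _)
      _ ≤ 2 * k + 2 := by
          rw [sum_add_distrib]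
          exact add_le_add h.nb (sum_abs_ev_sub w v)
      _ = 2 * ((k + 1 : ℕ) : ℤ) := by push_cast; ring

theorem WOK.step2 {ρ₁ ρ₂ : Fin n → Fin n → Prop} {u w v : Fin n} {k : ℕ} {z : Fin n → ℤ}
    (h : WOK ρ₁ ρ₂ u w k z) (hvw : ρ₂ v w) : WOK ρ₁ ρ₂ u v (k + 1) z := by
  refine ⟨h.c1, ?_, h.s0, ?_, h.re.tail (Or.inr hvw)⟩
  · intro B hB
    have := h.c2 B hB
    have h5 : 0 ≤ ∑ i ∈ B, (ev w i - ev v i) := by
      rw [sum_sub_distrib, sum_ev, sum_ev]
      by_cases hv : v ∈ B
      · have hw : w ∈ B := hB v hv w hvw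
        simp [hw, hv]
      · by_cases hw : w ∈ B <;> simp [hw, hv]
    have h6 : ∑ i ∈ B, (ev u i - ev v i - z i)
        = ∑ i ∈ B, (ev u i - ev w i - z i) + ∑ i ∈ B, (ev w i - ev v i) := by
      rw [← sum_add_distrib]
      exact sum_congr rfl fun i _ => by ring
    rw [h6]
    exact add_nonneg this h5
  · have := h.nb
    push_cast
    linarith

theorem wtab_ok (P1 P2 : Fin n → Fin n → Bool) (k : ℕ) :
    ∀ u v z, wtab P1 P2 k u v = some z →
      WOK (fun a b => P1 a b = true) (fun a b => P2 a b = true) u v k z := by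
  induction k with
  | zero =>
    intro u v z h
    simp only [wtab, Function.iterate_zero, id, w0] at h
    split_ifs at h with huv
    subst huv
    simp only [Option.some.injEq] at h
    subst h
    exact ⟨by simp, by simp, by simp, by simp, .refl⟩
  | succ k ih =>
    intro u v z h
    have h' : wstep P1 P2 (wtab P1 P2 k) u v = some z := by
      rw [wtab, Function.iterate_succ_apply'] at h
      exact h
    unfold wstep at h'
    cases hW : wtab P1 P2 k u v with
    | some z' =>
      rw [hW] at h'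
      simp only [Option.some.injEq] at h'
      subst h'
      exact (ih u v z' hW).mono (Nat.le_succ k)
    | none =>
      rw [hW] at h'
      simp only at h'
      obtain ⟨w, -, hw⟩ := List.exists_of_findSome?_eq_some h'
      cases hW' : wtab P1 P2 k u w with
      | none => rw [hW'] at hw; simp at hw
      | some z' =>
        rw [hW'] at hw
        simp only at hw
        have h1 := ih u w z' hW'
        split_ifs at hw with h2 h3
        · simp only [Option.some.injEq] at hw
          subst hw
          exact h1.step1 h2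
        · simp only [Option.some.injEq] at hw
          subst hw
          exact h1.step2 h3

theorem wtab_mono (P1 P2 : Fin n → Fin n → Bool) (k : ℕ) (u v : Fin n)
    (h : (wtab P1 P2 k u v).isSome) : (wtab P1 P2 (k + 1) u v).isSome := by
  rw [Option.isSome_iff_exists] at h
  obtain ⟨z, hz⟩ := h
  have : wtab P1 P2 (k + 1) u v = some z := by
    rw [wtab, Function.iterate_succ_apply']
    show wstep P1 P2 (wtab P1 P2 k) u v = some z
    unfold wstep
    rw [hz]
  rw [this]; rfl

theorem wtab_complete (P1 P2 : Fin n → Fin n → Bool) (u v : Fin n) (k : ℕ)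
    (h : PathN (Dg (fun a b => P1 a b = true) (fun a b => P2 a b = true)) u k v) :
    (wtab P1 P2 k u v).isSome := by
  induction h with
  | zero => simp [wtab, w0]
  | @succ k w v _ hwv ih =>
    by_cases hs : (wtab P1 P2 k u v).isSome
    · exact wtab_mono P1 P2 k u v hs
    · rw [Option.isSome_iff_exists] at ih
      obtain ⟨z, hz⟩ := ih
      have hnone : wtab P1 P2 k u v = none := by simpa using hs
      rw [wtab, Function.iterate_succ_apply']
      show (wstep P1 P2 (wtab P1 P2 k) u v).isSome
      unfold wstep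
      rw [hnone]
      simp only [List.findSome?_isSome_iff]
      refine ⟨w, List.mem_finRange w, ?_⟩
      rw [hz]
      simp only
      rcases hwv with h1 | h1
      · simp [h1]
      · by_cases h2 : P1 w v = true
        · simp [h2]
        · simp [h2, h1]

theorem wtab_mono_le (P1 P2 : Fin n → Fin n → Bool) {k l : ℕ} (hkl : k ≤ l) (u v : Fin n)
    (h : (wtab P1 P2 k u v).isSome) : (wtab P1 P2 l u v).isSome := by
  induction hkl with
  | refl => exact h
  | step _ ih => exact wtab_mono P1 P2 _ u v ih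

theorem wtab_reach (P1 P2 : Fin n → Fin n → Bool) (u v : Fin n)
    (h : Relation.ReflTransGen
      (Dg (fun a b => P1 a b = true) (fun a b => P2 a b = true)) u v) :
    (wtab P1 P2 n u v).isSome := by
  obtain ⟨k, hk, hp⟩ := exists_short_path _ u h
  rw [Fintype.card_fin] at hk
  exact wtab_mono_le P1 P2 hk u v (wtab_complete P1 P2 u v k hp)

/-- vector of the closed walk through the arc `a → b` -/
def cyc (P1 : Fin n → Fin n → Bool) (T : Fin n → Fin n → Option (Fin n → ℤ)) (a b : Fin n) :
    Fin n → ℤ :=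
  if P1 a b then
    match T b a with
    | some z => fun i => z i + (ev a i - ev b i)
    | none => fun _ => 0
  else fun _ => 0

/-- the computable cone vector -/
def zvec (P1 P2 : Fin n → Fin n → Bool) : Fin n → ℤ := fun i =>
  ∑ a, ∑ b, cyc P1 (wtab P1 P2 n) a b i

theorem cyc_spec (P1 P2 : Fin n → Fin n → Bool) (a b : Fin n) :
    (∀ B, Cl (fun a b => P1 a b = true) B → ∑ i ∈ B, cyc P1 (wtab P1 P2 n) a b i ≤ 0) ∧
    (∀ B, Cl (fun a b => P2 a b = true) B → ∑ i ∈ B, cyc P1 (wtab P1 P2 n) a b i ≤ 0) ∧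
    ∑ i, cyc P1 (wtab P1 P2 n) a b i = 0 ∧
    ∑ i, |cyc P1 (wtab P1 P2 n) a b i| ≤ 2 * (n : ℤ) + 2 ∧
    (P1 a b = true → Relation.ReflTransGen
      (Dg (fun a b => P1 a b = true) (fun a b => P2 a b = true)) b a →
      ∀ B, Cl (fun a b => P1 a b = true) B → a ∉ B → b ∈ B →
        ∑ i ∈ B, cyc P1 (wtab P1 P2 n) a b i ≤ -1) := by
  unfold cyc
  by_cases hab : P1 a b = true
  · rw [if_pos hab]
    cases hT : wtab P1 P2 n b a with
    | none =>
      refine ⟨by simp, by simp, by simp, by simp; positivity, ?_⟩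
      intro _ hre
      have := wtab_reach P1 P2 b a hre
      rw [hT] at this
      simp at this
    | some z =>
      have hz := wtab_ok P1 P2 n b a z hT
      simp only
      refine ⟨?_, ?_, ?_, ?_, ?_⟩
      · intro B hB
        rw [sum_add_distrib, sum_sub_distrib, sum_ev, sum_ev]
        have := hz.c1 B hB
        by_cases ha : a ∈ B
        · have hb : b ∈ B := hB a ha b hab
          simp [ha, hb, this]
        · by_cases hb : b ∈ B <;> simp [ha, hb] <;> omega
      · intro B hB
        have := hz.c2 B hB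
        have h6 : ∑ v ∈ B, (z v + (ev a v - ev b v)) = - ∑ v ∈ B, (ev b v - ev a v - z v) := by
          rw [← sum_neg_distrib]
          exact sum_congr rfl fun v _ => by ring
        rw [h6]
        omega
      · rw [sum_add_distrib, sum_sub_distrib, sum_ev_univ, sum_ev_univ, hz.s0]; norm_num
      · calc ∑ v, |z v + (ev a v - ev b v)| ≤ ∑ v, (|z v| + |ev a v - ev b v|) :=
              sum_le_sum (fun v _ => abs_add_le _ _)
          _ ≤ 2 * n + 2 := by
              rw [sum_add_distrib]
              exact add_le_add hz.nb (sum_abs_ev_sub a b)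
      · intro _ _ B hB ha hb
        rw [sum_add_distrib, sum_sub_distrib, sum_ev, sum_ev]
        have := hz.c1 B hB
        simp [ha, hb]
        omega
  · rw [if_neg hab]
    exact ⟨by simp, by simp, by simp, by simp; positivity, fun h => absurd h hab⟩

theorem zvec_spec (P1 P2 : Fin n → Fin n → Bool) :
    (∀ B, Cl (fun a b => P1 a b = true) B → ∑ i ∈ B, zvec P1 P2 i ≤ 0) ∧
    (∀ B, Cl (fun a b => P2 a b = true) B → ∑ i ∈ B, zvec P1 P2 i ≤ 0) ∧
    ∑ i, zvec P1 P2 i = 0 ∧ ∑ i, |zvec P1 P2 i| ≤ zB (Fin n) ∧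
    (∀ B, Cl (fun a b => P1 a b = true) B → (∃ a b, P1 a b = true ∧ Relation.ReflTransGen
      (Dg (fun a b => P1 a b = true) (fun a b => P2 a b = true)) b a ∧ a ∉ B ∧ b ∈ B) →
        ∑ i ∈ B, zvec P1 P2 i ≤ -1) := by
  have hswap : ∀ B : Finset (Fin n), ∑ i ∈ B, zvec P1 P2 i
      = ∑ a, ∑ b, ∑ i ∈ B, cyc P1 (wtab P1 P2 n) a b i := by
    intro B
    unfold zvec
    rw [sum_comm]
    exact sum_congr rfl fun a _ => sum_comm
  refine ⟨?_, ?_, ?_, ?_, ?_⟩
  · intro B hB
    rw [hswap]
    exact sum_nonpos fun a _ => sum_nonpos fun b _ => (cyc_spec P1 P2 a b).1 B hB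
  · intro B hB
    rw [hswap]
    exact sum_nonpos fun a _ => sum_nonpos fun b _ => (cyc_spec P1 P2 a b).2.1 B hB
  · rw [hswap]
    exact sum_eq_zero fun a _ => sum_eq_zero fun b _ => (cyc_spec P1 P2 a b).2.2.1
  · calc ∑ i, |zvec P1 P2 i| ≤ ∑ i, ∑ a, ∑ b, |cyc P1 (wtab P1 P2 n) a b i| := by
          apply sum_le_sum
          intro i _
          unfold zvec
          exact (abs_sum_le_sum_abs _ _).trans (sum_le_sum fun a _ => abs_sum_le_sum_abs _ _)
      _ = ∑ a, ∑ b, ∑ i, |cyc P1 (wtab P1 P2 n) a b i| := by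
          rw [sum_comm]
          exact sum_congr rfl fun a _ => sum_comm
      _ ≤ ∑ _a : Fin n, ∑ _b : Fin n, (2 * (n : ℤ) + 2) :=
          sum_le_sum fun a _ => sum_le_sum fun b _ => (cyc_spec P1 P2 a b).2.2.2.1
      _ = zB (Fin n) := by
          unfold zB
          simp only [sum_const, card_univ, Fintype.card_fin, nsmul_eq_mul]
          ring
  · rintro B hB ⟨a, b, hab, hre, ha, hb⟩
    rw [hswap]
    calc ∑ a', ∑ b', ∑ i ∈ B, cyc P1 (wtab P1 P2 n) a' b' i
        ≤ ∑ a', ∑ b', (if a' = a ∧ b' = b then -1 else 0) := by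
          apply sum_le_sum
          intro a' _
          apply sum_le_sum
          intro b' _
          split_ifs with h
          · obtain ⟨rfl, rfl⟩ := h
            exact (cyc_spec P1 P2 a' b').2.2.2.2 hab hre B hB ha hb
          · exact (cyc_spec P1 P2 a' b').1 B hB
      _ = -1 := by
          rw [Finset.sum_eq_single a]
          · rw [Finset.sum_eq_single b]
            · simp
            · intro b' _ h; simp [h]
            · simp
          · intro a' _ h; simp [h]
          · simp

end Crest.Agent.R302.Center
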