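import Mathlib
import Crest.Agent.R302.Center970A

/-!
R302 (helper970), block CENTER, part B: the algorithm and its correctness.

`center cp1 cp2 K x` : start from `x ∈ J₁ ∩ J₂`, go through the scales `2^K, ..., 2, 1`, at each
scale one move for `(r₁, r₂)` and one for `(r₂, r₁)`.
`center_isCenter` : the result is an (integral) center in the sense of `Facet.IsCenter`.
-/

set_option autoImplicit false

namespace Crest.Agent.R302.Center

open Finset Crest.Agent.R302.Facet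

variable {n : ℕ}

/-- `ℓ¹` bound as a number -/
def zb (n : ℕ) : ℤ := (n : ℤ) ^ 2 * (2 * (n : ℤ) + 2)

theorem zb_eq (n : ℕ) : zb n = zB (Fin n) := by
  unfold zb zB; rw [Fintype.card_fin]

theorem zb_nonneg (n : ℕ) : 0 ≤ zb n := by unfold zb; positivity

/-- relation at threshold `θ` as a Boolean table -/
def thr (cp : Fin n → Fin n → ℤ) (θ : ℤ) : Fin n → Fin n → Bool :=
  fun a b => decide (a ≠ b ∧ θ < cp a b)

theorem thr_cap (r : Finset (Fin n) → ℤ) (x : Fin n → ℤ) (θ : ℤ) :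
    (fun a b => thr (cap r x) θ a b = true) = rel r x θ := by
  funext a b
  simp [thr, rel]

/-- one half-step -/
def halfMove (cp1 cp2 : Fin n → Fin n → ℤ) (θ : ℤ) (x : Fin n → ℤ) : Fin n → ℤ :=
  fun i => x i + (θ / (16 * zb n)) * zvec (thr cp1 θ) (thr cp2 θ) i

/-- one scale -/
def cstep (cp1 cp2 : (Fin n → ℤ) → Fin n → Fin n → ℤ) (θ : ℤ) (x : Fin n → ℤ) : Fin n → ℤ :=
  halfMove (cp2 (halfMove (cp1 x) (cp2 x) θ x)) (cp1 (halfMove (cp1 x) (cp2 x) θ x)) θ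
    (halfMove (cp1 x) (cp2 x) θ x)

/-- all scales `2^K, ..., 2, 1` -/
def center (cp1 cp2 : (Fin n → ℤ) → Fin n → Fin n → ℤ) : ℕ → (Fin n → ℤ) → Fin n → ℤ
  | 0, x => cstep cp1 cp2 1 x
  | k + 1, x => center cp1 cp2 k (cstep cp1 cp2 (2 ^ (k + 1)) x)

/-- step length -/
def jl (n : ℕ) (θ : ℤ) : ℤ := θ / (16 * zb n)

theorem jl_nonneg {θ : ℤ} (hθ : 0 ≤ θ) : 0 ≤ jl n θ :=
  Int.ediv_nonneg hθ (by have := zb_nonneg n; omega)

theorem jl_mul {θ : ℤ} (hθ : 0 ≤ θ) : 16 * (jl n θ * zb n) ≤ θ := by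
  have h := zb_nonneg n
  rcases h.eq_or_lt with h0 | hpos
  · rw [← h0]; simpa using hθ
  · have h1 := Int.ediv_mul_le θ (b := 16 * zb n) (by omega)
    unfold jl
    nlinarith

theorem jl_le {θ : ℤ} (hθ : 0 ≤ θ) : 16 * jl n θ ≤ θ := by
  have h := zb_nonneg n
  rcases h.eq_or_lt with h0 | hpos
  · unfold jl; rw [← h0]; simpa using hθ
  · have h1 := jl_mul (n := n) hθ
    have h2 := jl_nonneg (n := n) hθ
    nlinarith

structure HalfOK (r₁ r₂ : Finset (Fin n) → ℤ) (R θ : ℤ) (x y : Fin n → ℤ) : Prop where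
  m1 : MemJ r₁ R y
  m2 : MemJ r₂ R y
  a1 : ∀ B, slk r₁ x B ≤ θ → slk r₁ x B ≤ slk r₁ y B
  a2 : ∀ B, slk r₂ x B ≤ θ → slk r₂ x B ≤ slk r₂ y B
  l1 : ∀ B, 16 * (slk r₁ x B - slk r₁ y B) ≤ θ
  l2 : ∀ B, 16 * (slk r₂ x B - slk r₂ y B) ≤ θ

theorem half_aux {r : Finset (Fin n) → ℤ} {x z : Fin n → ℤ} {θ j : ℤ} (hj0 : 0 ≤ j)
    (hj : 16 * (j * zb n) ≤ θ) (hz : ∀ B, Cl (rel r x θ) B → ∑ i ∈ B, z i ≤ 0)
    (hzn : ∑ i, |z i| ≤ zb n) :
    (∀ B, slk r x B ≤ θ → slk r x B ≤ slk r (fun i => x i + j * z i) B) ∧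
    (∀ B, 16 * (slk r x B - slk r (fun i => x i + j * z i) B) ≤ θ) := by
  have hs : ∀ B, slk r (fun i => x i + j * z i) B = slk r x B - j * ∑ i ∈ B, z i := by
    intro B
    rw [slk_add r x (fun i => j * z i) B, ← mul_sum]
  have hab : ∀ B : Finset (Fin n), ∑ i ∈ B, z i ≤ zb n := fun B =>
    ((abs_le.1 (abs_sum_le z B)).2).trans hzn
  constructor
  · intro B hB
    rw [hs]
    have hcl : Cl (rel r x θ) B := by
      by_contra h
      have := slk_not_closed h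
      omega
    have := mul_nonneg_of_nonneg_of_nonpos_neg hj0 (hz B hcl)
    linarith
  · intro B
    rw [hs]
    have h1 := mul_le_mul_of_nonneg_left (hab B) hj0
    linarith
where
  mul_nonneg_of_nonneg_of_nonpos_neg {a b : ℤ} (ha : 0 ≤ a) (hb : b ≤ 0) : a * b ≤ 0 :=
    mul_nonpos_of_nonneg_of_nonpos ha hb

theorem half_ok {r₁ r₂ : Finset (Fin n) → ℤ} {R θ : ℤ} {x : Fin n → ℤ} (hx₁ : MemJ r₁ R x)
    (hx₂ : MemJ r₂ R x) (hθ : 0 ≤ θ) :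
    HalfOK r₁ r₂ R θ x (halfMove (cap r₁ x) (cap r₂ x) θ x) := by
  have hz := zvec_spec (thr (cap r₁ x) θ) (thr (cap r₂ x) θ)
  rw [thr_cap, thr_cap, ← zb_eq] at hz
  set z := zvec (thr (cap r₁ x) θ) (thr (cap r₂ x) θ) with hzdef
  have hj0 := jl_nonneg (n := n) hθ
  have hj := jl_mul (n := n) hθ
  have hmove : halfMove (cap r₁ x) (cap r₂ x) θ x = fun i => x i + jl n θ * z i := rfl
  rw [hmove]
  obtain ⟨h1, h2⟩ := half_aux (r := r₁) hj0 hj hz.1 hz.2.2.2.1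
  obtain ⟨h3, h4⟩ := half_aux (r := r₂) hj0 hj hz.2.1 hz.2.2.2.1
  have hN : jl n θ * ∑ i, |z i| ≤ θ := by
    have h5 := mul_le_mul_of_nonneg_left hz.2.2.2.1 hj0
    have h6 : 0 ≤ jl n θ * zb n := mul_nonneg hj0 (zb_nonneg n)
    linarith
  obtain ⟨m, hm⟩ := Int.eq_ofNat_of_zero_le hj0
  rw [hm] at hN ⊢
  refine ⟨memJ_move hx₁ hz.1 hz.2.2.1 m hN, memJ_move hx₂ hz.2.1 hz.2.2.1 m hN, ?_, ?_, ?_, ?_⟩
  · rw [← hm]; exact h1
  · rw [← hm]; exact h3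
  · rw [← hm]; exact h2
  · rw [← hm]; exact h4

/-- gain for the first side -/
theorem half_gain {r₁ r₂ : Finset (Fin n) → ℤ} {R θ : ℤ} {x xs : Fin n → ℤ} (hr₁ : SubM r₁ R)
    (hr₂ : SubM r₂ R) (hx₁ : MemJ r₁ R x) (hx₂ : MemJ r₂ R x) (hθ : 0 ≤ θ)
    (hs₁ : MemJ r₁ R xs) (hs₂ : MemJ r₂ R xs) {g h : Fin n}
    (hm : (4 * (n : ℤ) + 1) * ((n : ℤ) ^ 2 * θ) < cap r₁ xs g h) {B : Finset (Fin n)}
    (hg : g ∈ B) (hh : h ∉ B) :
    jl n θ ≤ slk r₁ (halfMove (cap r₁ x) (cap r₂ x) θ x) B := by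
  have hz := zvec_spec (thr (cap r₁ x) θ) (thr (cap r₂ x) θ)
  have hok := half_ok (r₁ := r₁) (r₂ := r₂) hx₁ hx₂ hθ
  have hj0 := jl_nonneg (n := n) hθ
  have hj1 := jl_le (n := n) hθ
  by_cases hcl : Cl (rel r₁ x θ) B
  · have harc := center_arc (r₁ := r₁) (r₂ := r₂) (x := x) (θ := θ) hr₁ hr₂ hx₁ hx₂ hθ
      (c := fun i => (xs i : ℝ)) (fun A => hs₁.real_le A) (fun A => hs₂.real_le A)
      (by exact_mod_cast congrArg (Int.cast (R := ℝ)) hs₁.2) (B := B) (m := (cap r₁ xs g h : ℝ))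
      (by
        have h1 : cap r₁ xs g h ≤ slk r₁ xs B := cap_le hg hh
        have h2 : ((cap r₁ xs g h : ℤ) : ℝ) ≤ ((slk r₁ xs B : ℤ) : ℝ) := by exact_mod_cast h1
        unfold slk at h2
        push_cast at h2
        exact h2)
      (by
        rw [Fintype.card_fin]
        exact_mod_cast hm)
      hcl
    have hz5 := hz.2.2.2.2
    rw [thr_cap, thr_cap] at hz5
    obtain ⟨a, b, hab, hre, ha, hb⟩ := harc
    have h1 := hz5 B hcl ⟨a, b, by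
      have := congrFun (congrFun (thr_cap r₁ x θ) a) b
      exact this.mpr hab, hre, ha, hb⟩
    have h2 : slk r₁ (halfMove (cap r₁ x) (cap r₂ x) θ x) B
        = slk r₁ x B - jl n θ * ∑ i ∈ B, zvec (thr (cap r₁ x) θ) (thr (cap r₂ x) θ) i := by
      rw [mul_sum]
      exact slk_add r₁ x (fun i => jl n θ * zvec (thr (cap r₁ x) θ) (thr (cap r₂ x) θ) i) B
    have h3 := slk_nonneg hx₁ B
    rw [h2]
    nlinarith
  · have h1 := slk_not_closed hcl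
    have h2 := hok.l1 B
    omega

theorem HalfOK.ge1 {r₁ r₂ : Finset (Fin n) → ℤ} {R θ : ℤ} {x y : Fin n → ℤ}
    (h : HalfOK r₁ r₂ R θ x y) {B : Finset (Fin n)} {t : ℤ} (ht : 16 * t ≤ 15 * θ)
    (hx : t ≤ slk r₁ x B) : t ≤ slk r₁ y B := by
  rcases le_or_gt (slk r₁ x B) θ with h1 | h1
  · exact hx.trans (h.a1 B h1)
  · have := h.l1 B
    omega

theorem HalfOK.ge2 {r₁ r₂ : Finset (Fin n) → ℤ} {R θ : ℤ} {x y : Fin n → ℤ}
    (h : HalfOK r₁ r₂ R θ x y) {B : Finset (Fin n)} {t : ℤ} (ht : 16 * t ≤ 15 * θ)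
    (hx : t ≤ slk r₂ x B) : t ≤ slk r₂ y B := by
  rcases le_or_gt (slk r₂ x B) θ with h1 | h1
  · exact hx.trans (h.a2 B h1)
  · have := h.l2 B
    omega

/-- everything about one scale -/
structure StepOK (r₁ r₂ : Finset (Fin n) → ℤ) (R θ : ℤ) (x y : Fin n → ℤ) : Prop where
  m1 : MemJ r₁ R y
  m2 : MemJ r₂ R y
  l1 : ∀ B, 8 * (slk r₁ x B - slk r₁ y B) ≤ θ
  l2 : ∀ B, 8 * (slk r₂ x B - slk r₂ y B) ≤ θ
  k1 : ∀ B, 2 * slk r₁ x B ≤ θ → slk r₁ x B ≤ slk r₁ y B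
  k2 : ∀ B, 2 * slk r₂ x B ≤ θ → slk r₂ x B ≤ slk r₂ y B
  g1 : ∀ xs, MemJ r₁ R xs → MemJ r₂ R xs → ∀ g h : Fin n,
    (4 * (n : ℤ) + 1) * ((n : ℤ) ^ 2 * θ) < cap r₁ xs g h →
    ∀ B : Finset (Fin n), g ∈ B → h ∉ B → jl n θ ≤ slk r₁ y B
  g2 : ∀ xs, MemJ r₁ R xs → MemJ r₂ R xs → ∀ g h : Fin n,
    (4 * (n : ℤ) + 1) * ((n : ℤ) ^ 2 * θ) < cap r₂ xs g h →
    ∀ B : Finset (Fin n), g ∈ B → h ∉ B → jl n θ ≤ slk r₂ y B

theorem cstep_ok {r₁ r₂ : Finset (Fin n) → ℤ} {R θ : ℤ} {x : Fin n → ℤ} (hr₁ : SubM r₁ R)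
    (hr₂ : SubM r₂ R) (hx₁ : MemJ r₁ R x) (hx₂ : MemJ r₂ R x) (hθ : 0 ≤ θ) :
    StepOK r₁ r₂ R θ x (cstep (cap r₁) (cap r₂) θ x) := by
  have h1 := half_ok (r₁ := r₁) (r₂ := r₂) hx₁ hx₂ hθ
  unfold cstep
  set y := halfMove (cap r₁ x) (cap r₂ x) θ x with hy
  have h2 := half_ok (r₁ := r₂) (r₂ := r₁) h1.m2 h1.m1 hθ
  set z := halfMove (cap r₂ y) (cap r₁ y) θ y with hz
  have hj1 := jl_le (n := n) hθ
  refine ⟨h2.m2, h2.m1, ?_, ?_, ?_, ?_, ?_, ?_⟩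
  · intro B; have a := h1.l1 B; have b := h2.l2 B; omega
  · intro B; have a := h1.l2 B; have b := h2.l1 B; omega
  · intro B hB
    exact h2.ge2 (by omega) (h1.ge1 (by omega) le_rfl)
  · intro B hB
    exact h2.ge1 (by omega) (h1.ge2 (by omega) le_rfl)
  · intro xs hs₁ hs₂ g h hm B hg hh
    exact h2.ge2 (by omega) (half_gain hr₁ hr₂ hx₁ hx₂ hθ hs₁ hs₂ hm hg hh)
  · intro xs hs₁ hs₂ g h hm B hg hh
    exact half_gain hr₂ hr₁ h1.m2 h1.m1 hθ hs₂ hs₁ hm hg hh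

/-- everything about all scales -/
structure RunOK (r₁ r₂ : Finset (Fin n) → ℤ) (R : ℤ) (k : ℕ) (x y : Fin n → ℤ) : Prop where
  m1 : MemJ r₁ R y
  m2 : MemJ r₂ R y
  l1 : ∀ B, 4 * (slk r₁ x B - slk r₁ y B) ≤ 2 ^ k
  l2 : ∀ B, 4 * (slk r₂ x B - slk r₂ y B) ≤ 2 ^ k
  h1 : ∀ B, slk r₁ x B ≤ 2 * slk r₁ y B
  h2 : ∀ B, slk r₂ x B ≤ 2 * slk r₂ y B
  g1 : ∀ j ≤ k, ∀ xs, MemJ r₁ R xs → MemJ r₂ R xs → ∀ g h : Fin n,
    (4 * (n : ℤ) + 1) * ((n : ℤ) ^ 2 * 2 ^ j) < cap r₁ xs g h →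
    ∀ B : Finset (Fin n), g ∈ B → h ∉ B → jl n (2 ^ j) ≤ 2 * slk r₁ y B
  g2 : ∀ j ≤ k, ∀ xs, MemJ r₁ R xs → MemJ r₂ R xs → ∀ g h : Fin n,
    (4 * (n : ℤ) + 1) * ((n : ℤ) ^ 2 * 2 ^ j) < cap r₂ xs g h →
    ∀ B : Finset (Fin n), g ∈ B → h ∉ B → jl n (2 ^ j) ≤ 2 * slk r₂ y B

theorem run_ok {r₁ r₂ : Finset (Fin n) → ℤ} {R : ℤ} (hr₁ : SubM r₁ R) (hr₂ : SubM r₂ R) (k : ℕ) :
    ∀ {x : Fin n → ℤ}, MemJ r₁ R x → MemJ r₂ R x →
      RunOK r₁ r₂ R k x (center (cap r₁) (cap r₂) k x) := by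
  induction k with
  | zero =>
    intro x hx₁ hx₂
    have h := cstep_ok hr₁ hr₂ hx₁ hx₂ (θ := 1) (by norm_num)
    show RunOK r₁ r₂ R 0 x (cstep (cap r₁) (cap r₂) 1 x)
    set y := cstep (cap r₁) (cap r₂) 1 x
    have n1 := fun B => slk_nonneg hx₁ B
    have n2 := fun B => slk_nonneg hx₂ B
    refine ⟨h.m1, h.m2, ?_, ?_, ?_, ?_, ?_, ?_⟩
    · intro B; have := h.l1 B; simp only [pow_zero]; omega
    · intro B; have := h.l2 B; simp only [pow_zero]; omega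
    · intro B; have := h.l1 B; have := n1 B; omega
    · intro B; have := h.l2 B; have := n2 B; omega
    · intro j hj xs a b g h' hm B hg hh
      obtain rfl : j = 0 := by omega
      simp only [pow_zero] at hm ⊢
      have := h.g1 xs a b g h' hm B hg hh
      have := jl_nonneg (n := n) (θ := 1) (by norm_num)
      omega
    · intro j hj xs a b g h' hm B hg hh
      obtain rfl : j = 0 := by omega
      simp only [pow_zero] at hm ⊢
      have := h.g2 xs a b g h' hm B hg hh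
      have := jl_nonneg (n := n) (θ := 1) (by norm_num)
      omega
  | succ k ih =>
    intro x hx₁ hx₂
    have h := cstep_ok hr₁ hr₂ hx₁ hx₂ (θ := 2 ^ (k + 1)) (by positivity)
    show RunOK r₁ r₂ R (k + 1) x (center (cap r₁) (cap r₂) k
      (cstep (cap r₁) (cap r₂) (2 ^ (k + 1)) x))
    set y := cstep (cap r₁) (cap r₂) (2 ^ (k + 1)) x
    have h' := ih h.m1 h.m2
    set z := center (cap r₁) (cap r₂) k y
    have hpow : (2 : ℤ) ^ (k + 1) = 2 * 2 ^ k := by ring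
    refine ⟨h'.m1, h'.m2, ?_, ?_, ?_, ?_, ?_, ?_⟩
    · intro B; have a := h.l1 B; have b := h'.l1 B; rw [hpow] at a ⊢; omega
    · intro B; have a := h.l2 B; have b := h'.l2 B; rw [hpow] at a ⊢; omega
    · intro B
      rcases le_or_gt (2 * slk r₁ x B) (2 ^ (k + 1)) with h3 | h3
      · exact (h.k1 B h3).trans (h'.h1 B)
      · have a := h.l1 B; have b := h'.l1 B; rw [hpow] at a h3; omega
    · intro B
      rcases le_or_gt (2 * slk r₂ x B) (2 ^ (k + 1)) with h3 | h3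
      · exact (h.k2 B h3).trans (h'.h2 B)
      · have a := h.l2 B; have b := h'.l2 B; rw [hpow] at a h3; omega
    · intro j hj xs a b g h'' hm B hg hh
      rcases Nat.lt_or_ge j (k + 1) with h3 | h3
      · exact h'.g1 j (by omega) xs a b g h'' hm B hg hh
      · obtain rfl : j = k + 1 := by omega
        exact (h.g1 xs a b g h'' hm B hg hh).trans (h'.h1 B)
    · intro j hj xs a b g h'' hm B hg hh
      rcases Nat.lt_or_ge j (k + 1) with h3 | h3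
      · exact h'.g2 j (by omega) xs a b g h'' hm B hg hh
      · obtain rfl : j = k + 1 := by omega
        exact (h.g2 xs a b g h'' hm B hg hh).trans (h'.h2 B)

/-- the constant of the center -/
def cC (n : ℕ) : ℕ := 64 * ((4 * n + 1) * n ^ 2) * (n ^ 2 * (2 * n + 2))

theorem cap_final {r : Finset (Fin n) → ℤ} {R : ℤ} {y : Fin n → ℤ} (hy : MemJ r R y) {K : ℕ}
    {g h : Fin n} (hgh : g ≠ h) {m : ℤ} (hmK : m ≤ 2 ^ K)
    (hgain : ∀ j ≤ K, (4 * (n : ℤ) + 1) * ((n : ℤ) ^ 2 * 2 ^ j) < m →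
      ∀ B : Finset (Fin n), g ∈ B → h ∉ B → jl n (2 ^ j) ≤ 2 * slk r y B) :
    m ≤ (cC n : ℤ) * (cap r y g h + 1) := by
  obtain ⟨B, hg, hh, hB⟩ := exists_cap (r := r) (x := y) hgh
  have hcap0 : 0 ≤ cap r y g h := by rw [← hB]; exact slk_nonneg hy B
  have hn : 1 ≤ n := by
    have := g.pos; omega
  have hnz : (1 : ℤ) ≤ (n : ℤ) := by exact_mod_cast hn
  set A : ℤ := (4 * (n : ℤ) + 1) * (n : ℤ) ^ 2 with hA
  have hA1 : 1 ≤ A := by
    rw [hA]; nlinarith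
  have hzb1 : 1 ≤ zb n := by
    unfold zb; nlinarith
  have hC : (cC n : ℤ) = 64 * A * zb n := by
    unfold cC zb; rw [hA]; push_cast; ring
  rw [hC]
  have hAz : A ≤ A * zb n := by nlinarith
  by_cases hmA : m ≤ A
  · have : (0 : ℤ) ≤ A * zb n := by positivity
    nlinarith
  · push Not at hmA
    -- the largest admissible scale
    have hex : ∃ k ≤ K, A * 2 ^ k < m ∧ m ≤ 2 * (A * 2 ^ k) := by
      have h1 : ∀ k, k ≤ K → A * 2 ^ k < m ∨ ∃ k' ≤ K, A * 2 ^ k' < m ∧ m ≤ 2 * (A * 2 ^ k') := by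
        intro k
        induction k with
        | zero => intro _; left; simpa using hmA
        | succ k ih =>
          intro hk
          rcases ih (by omega) with h2 | h2
          · by_cases h3 : A * 2 ^ (k + 1) < m
            · exact Or.inl h3
            · push Not at h3
              exact Or.inr ⟨k, by omega, h2, by rw [pow_succ] at h3; linarith⟩
          · exact Or.inr h2
      rcases h1 K le_rfl with h2 | h2
      · refine ⟨K, le_rfl, h2, ?_⟩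
        have : (2 : ℤ) ^ K ≤ A * 2 ^ K := by
          have : (0 : ℤ) < 2 ^ K := by positivity
          nlinarith
        have : (0 : ℤ) < 2 ^ K := by positivity
        nlinarith
      · exact h2
    obtain ⟨k, hk, h1, h2⟩ := hex
    have h3 := hgain k hk (by rw [hA] at h1; linarith) B hg hh
    rw [hB] at h3
    -- 2^k < 16 zb (jl + 1)
    have h4 : (2 : ℤ) ^ k < 16 * zb n * (jl n (2 ^ k) + 1) := by
      have := Int.lt_ediv_add_one_mul_self ((2 : ℤ) ^ k) (b := 16 * zb n) (by omega)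
      unfold jl
      linarith
    have h5 : 16 * zb n * (jl n (2 ^ k) + 1) ≤ 16 * zb n * (2 * cap r y g h + 1) :=
      mul_le_mul_of_nonneg_left (by omega) (by omega)
    have h6 : (2 : ℤ) ^ k ≤ 32 * zb n * (cap r y g h + 1) := by nlinarith
    calc m ≤ 2 * (A * 2 ^ k) := h2
      _ ≤ 2 * (A * (32 * zb n * (cap r y g h + 1))) := by
          have := mul_le_mul_of_nonneg_left h6 (by omega : (0 : ℤ) ≤ A)
          linarith
      _ = 64 * A * zb n * (cap r y g h + 1) := by ring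

/-- **the deterministic integral center** -/
theorem center_isCenter {r₁ r₂ : Finset (Fin n) → ℤ} {R : ℤ} (hr₁ : SubM r₁ R) (hr₂ : SubM r₂ R)
    {x : Fin n → ℤ} (hx₁ : MemJ r₁ R x) (hx₂ : MemJ r₂ R x) {K : ℕ}
    (hK₁ : ∀ y, MemJ r₁ R y → MemJ r₂ R y → ∀ g h, g ≠ h → cap r₁ y g h ≤ 2 ^ K)
    (hK₂ : ∀ y, MemJ r₁ R y → MemJ r₂ R y → ∀ g h, g ≠ h → cap r₂ y g h ≤ 2 ^ K)
    (P : Finset (Fin n → ℤ)) (hP : ∀ x, x ∈ P → MemJ r₁ R x ∧ MemJ r₂ R x) :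
    MemJ r₁ R (center (cap r₁) (cap r₂) K x) ∧ MemJ r₂ R (center (cap r₁) (cap r₂) K x) ∧
      IsCenter r₁ r₂ P (cC n) (center (cap r₁) (cap r₂) K x) := by
  have h := run_ok hr₁ hr₂ K hx₁ hx₂
  refine ⟨h.m1, h.m2, ?_⟩
  intro g g' hgg x' hx'
  obtain ⟨h1, h2⟩ := hP x' hx'
  exact ⟨cap_final h.m1 hgg (hK₁ x' h1 h2 g g' hgg)
      (fun j hj hm B hg hh => h.g1 j hj x' h1 h2 g g' hm B hg hh),
    cap_final h.m2 hgg (hK₂ x' h1 h2 g g' hgg)
      (fun j hj hm B hg hh => h.g2 j hj x' h1 h2 g g' hm B hg hh)⟩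

end Crest.Agent.R302.Center
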