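import Crest.Agent.R302.Ann425F
import Crest.Agent.R302.Center970B

/-!
# R302: the scale `X = 2 ^ s` of all the constants of the sampler (helper272)

`s = size n + size (size R) + size m + 20` (`m` = accuracy), `X = 2 ^ s`; every constant of the sampler is a power
of `X` or a multiple `c * s`.
-/

set_option autoImplicit false

namespace Crest.Agent.R302.Cst

open Crest.Agent.Lib.PT Crest.Agent.R302.Facet Crest.Agent.R302.AnnBox

/-- the exponent of the scale -/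
def sC (n R m : ℕ) : ℕ := Nat.size n + Nat.size (Nat.size R) + Nat.size m + 20

/-- the scale -/
def XC (n R m : ℕ) : ℕ := 2 ^ sC n R m

section bounds

variable {n R m : ℕ}

theorem sC_ge : 20 ≤ sC n R m := by unfold sC; omega

theorem XC_eq : XC n R m = 2 ^ Nat.size n * 2 ^ Nat.size (Nat.size R) * 2 ^ Nat.size m * 2 ^ 20 := by
  unfold XC sC; rw [pow_add, pow_add, pow_add]

theorem XC_pow (c : ℕ) : XC n R m ^ c = 2 ^ (c * sC n R m) := by
  unfold XC; rw [← pow_mul, mul_comm]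

theorem two20_le : 2 ^ 20 ≤ XC n R m := Nat.pow_le_pow_right (by norm_num) sC_ge

theorem two16_le : 2 ^ 16 ≤ XC n R m := le_trans (by norm_num) two20_le

theorem XC_pos : 0 < XC n R m := by unfold XC; positivity

theorem one_le_XC : 1 ≤ XC n R m := XC_pos

theorem succ_n_le : n + 1 ≤ XC n R m := by
  have h1 : n < 2 ^ Nat.size n := Nat.lt_size_self n
  have h2 : 2 ^ Nat.size n ≤ XC n R m := Nat.pow_le_pow_right (by norm_num) (by unfold sC; omega)
  omega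

theorem n_le : n ≤ XC n R m := (Nat.le_succ n).trans succ_n_le

theorem succ_size_le : Nat.size R + 1 ≤ XC n R m := by
  have h1 : Nat.size R < 2 ^ Nat.size (Nat.size R) := Nat.lt_size_self _
  have h2 : 2 ^ Nat.size (Nat.size R) ≤ XC n R m := Nat.pow_le_pow_right (by norm_num) (by unfold sC; omega)
  omega

theorem succ_m_le : m + 1 ≤ XC n R m := by
  have h1 : m < 2 ^ Nat.size m := Nat.lt_size_self _
  have h2 : 2 ^ Nat.size m ≤ XC n R m := Nat.pow_le_pow_right (by norm_num) (by unfold sC; omega)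
  omega

theorem mul_le_two_pow (s : ℕ) (hs : 20 ≤ s) : 50000 * s ≤ 2 ^ s := by
  induction s, hs using Nat.le_induction with
  | base => norm_num
  | succ s hs ih =>
    rw [pow_succ]
    have : 50000 ≤ 50000 * s := by omega
    omega

/-- small multiples of `s` are below `X` -/
theorem c_mul_s_le {c : ℕ} (hc : c ≤ 50000) : c * sC n R m ≤ XC n R m :=
  (Nat.mul_le_mul_right _ hc).trans (mul_le_two_pow _ sC_ge)

theorem R_lt : R < 2 ^ XC n R m := by
  have h1 : R < 2 ^ Nat.size R := Nat.lt_size_self R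
  have h2 : (2 : ℕ) ^ Nat.size R ≤ 2 ^ XC n R m :=
    Nat.pow_le_pow_right (by norm_num) ((Nat.le_succ _).trans succ_size_le)
  omega

end bounds

/-! ### powers -/

section pw

variable {X : ℕ}

theorem pw_mono (hX : 1 ≤ X) {a b : ℕ} (h : a ≤ b) : X ^ a ≤ X ^ b := Nat.pow_le_pow_right hX h

/-- absorb a constant -/
theorem c_mul_pw (hX : 2 ^ 16 ≤ X) {c a : ℕ} (hc : c ≤ 2 ^ 16) : c * X ^ a ≤ X ^ (a + 1) := by
  rw [pow_succ, mul_comm (X ^ a)]
  exact Nat.mul_le_mul_right _ (hc.trans hX)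

theorem c_mul_pw' (hX : 2 ^ 16 ≤ X) {c a b : ℕ} (hc : c ≤ 2 ^ 16) (hab : a + 1 ≤ b) : c * X ^ a ≤ X ^ b :=
  (c_mul_pw hX hc).trans (Nat.pow_le_pow_right (by omega) hab)

/-- absorb a sum -/
theorem pw_add (hX : 2 ^ 16 ≤ X) {a b c : ℕ} (h1 : a + 1 ≤ c) (h2 : b + 1 ≤ c) : X ^ a + X ^ b ≤ X ^ c := by
  have e1 : X ^ a ≤ X ^ (c - 1) := Nat.pow_le_pow_right (by omega) (by omega)
  have e2 : X ^ b ≤ X ^ (c - 1) := Nat.pow_le_pow_right (by omega) (by omega)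
  have e3 : 2 * X ^ (c - 1) ≤ X ^ (c - 1 + 1) := c_mul_pw hX (by norm_num)
  rw [show c - 1 + 1 = c by omega] at e3
  omega

theorem zBn_le {n : ℕ} (hn : n + 1 ≤ X) : zBn n ≤ 2 * X ^ 3 := by
  unfold zBn
  have h1 : n ^ 2 ≤ X ^ 2 := Nat.pow_le_pow_left (by omega) 2
  calc n ^ 2 * (2 * n + 2) ≤ X ^ 2 * (2 * X) := Nat.mul_le_mul h1 (by omega)
    _ = 2 * X ^ 3 := by ring

theorem kap_le (hX : 2 ^ 16 ≤ X) {n : ℕ} (hn : n + 1 ≤ X) : Facet.kap n ≤ 160 * X ^ 8 := by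
  unfold Facet.kap
  have h1 : n ^ 4 ≤ X ^ 4 := Nat.pow_le_pow_left (by omega) 4
  have h2 := zBn_le hn
  have h3 : 1 ≤ X ^ 3 := Nat.one_le_pow _ _ (by omega)
  calc 8 * (4 * n + 1) * n ^ 4 * (2 * zBn n + 1) ≤ 8 * (4 * X) * X ^ 4 * (5 * X ^ 3) := by
        apply Nat.mul_le_mul (Nat.mul_le_mul (Nat.mul_le_mul_left _ (by omega)) h1) (by omega)
    _ = 160 * X ^ 8 := by ring

theorem kap_le' (hX : 2 ^ 16 ≤ X) {n : ℕ} (hn : n + 1 ≤ X) : Facet.kap n ≤ X ^ 9 :=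
  (kap_le hX hn).trans (c_mul_pw hX (by norm_num))

theorem cA_le (hX : 2 ^ 16 ≤ X) {n : ℕ} (hn : n + 1 ≤ X) : cA n ≤ X ^ 12 := by
  unfold cA annC
  have h1 : n ^ 3 ≤ X ^ 3 := Nat.pow_le_pow_left (by omega) 3
  have h2 := kap_le hX hn
  have h3 : 1 ≤ X ^ 11 := Nat.one_le_pow _ _ (by omega)
  have h4 : 64 * n ^ 3 * Facet.kap n ≤ 10240 * X ^ 11 := by
    calc 64 * n ^ 3 * Facet.kap n ≤ 64 * X ^ 3 * (160 * X ^ 8) :=
          Nat.mul_le_mul (Nat.mul_le_mul_left _ h1) h2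
      _ = 10240 * X ^ 11 := by ring
  have h5 : 10241 * X ^ 11 ≤ X ^ 12 := c_mul_pw hX (by norm_num)
  omega

theorem cC_le (hX : 2 ^ 16 ≤ X) {n : ℕ} (hn : n + 1 ≤ X) : Center.cC n ≤ X ^ 7 := by
  unfold Center.cC
  have h1 : n ^ 2 ≤ X ^ 2 := Nat.pow_le_pow_left (by omega) 2
  calc 64 * ((4 * n + 1) * n ^ 2) * (n ^ 2 * (2 * n + 2)) ≤ 64 * ((4 * X) * X ^ 2) * (X ^ 2 * (2 * X)) := by
        apply Nat.mul_le_mul (Nat.mul_le_mul_left _ (Nat.mul_le_mul (by omega) h1))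
          (Nat.mul_le_mul h1 (by omega))
    _ = 512 * X ^ 6 := by ring
    _ ≤ X ^ 7 := c_mul_pw hX (by norm_num)

theorem nStages_le (hX : 2 ^ 16 ≤ X) {n L K : ℕ} (hn : n + 1 ≤ X) (hL : L ≤ X) (hK : Nat.clog 2 K ≤ X) :
    nStages n L K ≤ X ^ 15 := by
  unfold nStages AnnBox.T0
  have h1 := cA_le hX hn
  have h2 : n * (L * cA n) ≤ X ^ 14 := by
    calc n * (L * cA n) ≤ X * (X * X ^ 12) := Nat.mul_le_mul (by omega) (Nat.mul_le_mul hL h1)
      _ = X ^ 14 := by ring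
  have h3 : 2 * cA n * Nat.clog 2 K ≤ X ^ 14 := by
    calc 2 * cA n * Nat.clog 2 K ≤ 2 * X ^ 12 * X := Nat.mul_le_mul (Nat.mul_le_mul_left _ h1) hK
      _ = 2 * X ^ 13 := by ring
      _ ≤ X ^ 14 := c_mul_pw hX (by norm_num)
  have h4 := pw_add hX (a := 14) (b := 14) (c := 15) (by norm_num) (by norm_num)
  omega

end pw

/-! ### closures -/

section clo

variable {γ : Type} [PTCode γ]

theorem ptu_sC {n R m : γ → ℕ} (hn : PTU n) (hR : PTF R) (hm : PTU m) :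
    PTU (fun c => sC (n c) (R c) (m c)) := by
  unfold sC
  exact ((hn.toPTF.natSizeUn.add hR.natSizeUn.toPTF.natSizeUn).add hm.toPTF.natSizeUn).add (PTU.const 20)

theorem two_pow_size_le (k : ℕ) : 2 ^ Nat.size k ≤ 2 * k + 1 := by
  rcases Nat.eq_zero_or_pos k with rfl | hk
  · simp
  · have h1 : 0 < Nat.size k := Nat.size_pos.2 hk
    have h2 : 2 ^ (Nat.size k - 1) ≤ k := Nat.lt_size.1 (by omega)
    have h3 : 2 ^ Nat.size k = 2 * 2 ^ (Nat.size k - 1) := by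
      rw [← pow_succ']; congr 1; omega
    omega

theorem XC_le_prod (n R m : ℕ) :
    XC n R m ≤ (2 * n + 1) * (2 * Nat.size R + 1) * (2 * m + 1) * 2 ^ 20 := by
  rw [XC_eq]
  exact Nat.mul_le_mul_right _ (Nat.mul_le_mul (Nat.mul_le_mul (two_pow_size_le n)
    (two_pow_size_le _)) (two_pow_size_le m))

theorem ptu_XC {n R m : γ → ℕ} (hn : PTU n) (hR : PTF R) (hm : PTU m) :
    PTU (fun c => XC (n c) (R c) (m c)) := by
  have h1 : PTF (fun c => XC (n c) (R c) (m c)) := PTF.natTwoPow (ptu_sC hn hR hm)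
  refine h1.toPTU (PB.mono (g := fun c => (2 * n c + 1) * (2 * Nat.size (R c) + 1) * (2 * m c + 1) * 2 ^ 20)
    ?_ fun c => XC_le_prod _ _ _)
  have a1 : PB (fun c => 2 * n c + 1) := ((PB.const 2).mul hn.pb).add (PB.const 1)
  have a2 : PB (fun c => 2 * Nat.size (R c) + 1) := ((PB.const 2).mul hR.natSizeUn.pb).add (PB.const 1)
  have a3 : PB (fun c => 2 * m c + 1) := ((PB.const 2).mul hm.pb).add (PB.const 1)
  exact ((a1.mul a2).mul a3).mul (PB.const _)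

theorem ptu_XC_pow {n R m : γ → ℕ} (hn : PTU n) (hR : PTF R) (hm : PTU m) (c : ℕ) :
    PTU (fun x => XC (n x) (R x) (m x) ^ c) := (ptu_XC hn hR hm).pow c

end clo

end Crest.Agent.R302.Cst
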