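import Crest.Agent.R302.Prog166
import Crest.Agent.R302.Num272A
import Crest.Agent.R302.Rep646
import Crest.Agent.R302.Conc725

/-!
# R302: THE CONCRETE PARAMETERS (helper272)

`X = 2 ^ s`, `s = ss s`.  `Lam = X ^ 75`, `P = X ^ 76`, `w₁ = X ^ 112`, `G = X ^ 18`, `h₀ = X ^ 6`, `Kw = X ^ 4`,
`A = X ^ 1500`, `δ = X ^ (-1630)`, `T = X ^ 3135`, `mx = 2 ^ (4 X)`.
-/

set_option autoImplicit false

namespace Crest.Agent.R302.Prog

open Crest.Agent.R302.Smp Crest.Agent.R302.Top Crest.Agent.R302.Cst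

/-- **the constants of the program** -/
def cPar : Par where
  L s := 46 * ss s
  aE s := 2 * ss s
  aM s := 33 * ss s
  D s := XX s ^ 23
  w₁ s := XX s ^ 112
  dk s := XX s ^ 75
  dl s := sn s * (2 * sn s + 1) ^ 2 * XX s ^ 76
  qa s := 3 * ss s
  qb s := XX s ^ 2
  M s := 2 ^ (5 * XX s)
  Lb s := 2 ^ (5 * XX s)
  N s := 3210 * ss s
  B s := XX s ^ 4
  kmax s := 3210 * ss s
  TE s := XX s ^ 3135
  TM s := XX s ^ 3135
  rp := Rep646.repL

/-- the numerical parameters of a stage record (`a` = cost exponent of a link) -/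
def cC (s : SIn) (a : ℕ) : Conc.Par where
  w₁ := (cPar.w₁ s : ℤ)
  dk := cPar.dk s
  dl := cPar.dl s
  a := a
  M := cPar.M s
  Lb := cPar.Lb s
  qa := cPar.qa s
  qb := cPar.qb s

end Crest.Agent.R302.Prog
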