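import Crest.Agent.R302.Prog166

/-!
# R302 (helper166): the concrete program is computable relative to the query function
-/

set_option autoImplicit false
set_option linter.dupNamespace false
set_option maxHeartbeats 400000

namespace Crest.Agent.R302.Prog

open Crest.Agent.R302.ORAM Crest.Agent.R302.Loop Crest.Agent.R302.CenL Crest.Agent.R302.AnnBox
open Crest.Agent.R302.Top Crest.Agent.R302.Smp Crest.Agent.R302.Step Crest.Agent.R302.EDM
open Crest.Agent.R302.StageL Crest.Agent.R302.GeoSpec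
open Crest.Agent.R309.Tape Crest.Agent.Lib.PT Crest.Agent.R309.PTX

/-- numerical closures of the parameters -/
structure Par.Num (P : Par) : Prop where
  L : PTU P.L
  aE : PTU P.aE
  aM : PTU P.aM
  K : PTU (fun s => P.D s * 2 ^ (2 * P.aE s))
  w₁ : PTF P.w₁
  dk : PTU P.dk
  dl : PTU P.dl
  qa : PTU P.qa
  qb : PTU P.qb
  M : PTF P.M
  Lb : PTF P.Lb
  N : PTU P.N
  B : PTU P.B
  kmax : PTU P.kmax
  TE : PTU P.TE
  TM : PTU P.TM
  rp : PTF (fun p : Un × ℤ × List (List ℤ) × List (List ℤ) => P.rp p.1.val p.2.1 p.2.2.1 p.2.2.2)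

variable {P : Par}

theorem Par.Num.bits (h : P.Num) : PTU (bitsS P) := by
  unfold bitsS
  exact PTU.add (PTU.add (PTU.add h.qa h.qb) (PTU.const 2))
    (PTU.add h.kmax (PTU.add (PTU.mul ptu_sn h.B) (PTU.mul ptu_sn h.B)))

theorem Par.Num.nT (h : P.Num) : PTU (nT P) := ptu_nStages ptu_sn h.L ptf_sR

/-- the numerical closures of the program data -/
theorem Par.Num.prgNum (h : P.Num) : (Prog.prg P).Num where
  L := h.L
  m := PTU.mul (PTU.const 2) h.aE
  K := h.K
  E := PTU.mul h.TE h.bits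
  M := PTU.mul h.TM h.bits

section closure

variable {γ : Type} [PTCode γ] {Q : Inst → Qf} {s : Inst → γ → SIn} {t : Inst → γ → ℕ}

theorem sn_optu (hs : OPTF s) : OPTU (fun I c => sn (s I c)) := OPTU.post ptu_sn hs

theorem sR_optf (hs : OPTF s) : OPTF (fun I c => sR (s I c)) := OPTF.post ptf_sR hs

theorem slo_optf (hs : OPTF s) : OPTF (fun I c => slo (s I c)) := OPTF.post ptf_slo hs

theorem shi_optf (hs : OPTF s) : OPTF (fun I c => shi (s I c)) := OPTF.post ptf_shi hs

theorem nT_optu (h : P.Num) (hs : OPTF s) : OPTU (fun I c => nT P (s I c)) := OPTU.post h.nT hs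

theorem tt_optu (h : P.Num) (hs : OPTF s) (ht : OPTF t) :
    OPTU (fun I c => tt P (s I c) (t I c)) :=
  OPTU.post (n := fun p : ℕ × Un => min p.1 p.2.val)
    (PTF.natMinUn (by fun_prop) (PTU.val (by fun_prop)))
    (f := fun I c => (t I c + 1, Un.mk (nT P (s I c))))
    (OPTF.prodMk (OPTF.natAdd ht (OPTF.const 1)) (nT_optu h hs))

theorem rk_optf (hQ : OPTF (fun I (p : Bool × List Bool) => Q I p.1 p.2)) (b : Bool) :
    OPTF (fun I (p : γ × List Bool) => rk (Q I) b p.2) :=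
  OPTF.intNatCast (OPTF.comp (g := fun I (p : Bool × List Bool) => Q I p.1 p.2)
    (f := fun _ (p : γ × List Bool) => (b, p.2)) hQ (OPTF.of_ptf (by fun_prop)))

theorem cen_optf (hQ : OPTF (fun I (p : Bool × List Bool) => Q I p.1 p.2)) (hs : OPTF s) :
    OPTF (fun I c => cen (Q I) (s I c)) :=
  OPTF.comp (g := fun I s => cen (Q I) s) (rc_cen Q hQ) hs

theorem stQ_optf {n L k : Inst → γ → ℕ} (hn : OPTU n) (hL : OPTU L) (hk : OPTU k) :
    OPTF (fun I c => stQ (n I c) (L I c) (k I c)) :=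
  OPTF.post (g := fun p : Un × Un × Un => stQ p.1.val p.2.1.val p.2.2.val)
    (ptf_stQ (PTU.val (by fun_prop)) (PTU.val (by fun_prop)) (PTU.val (by fun_prop)))
    (f := fun I c => (Un.mk (n I c), Un.mk (L I c), Un.mk (k I c)))
    (OPTF.prodMk hn (OPTF.prodMk hL hk))

theorem loL_optf {n q : Inst → γ → ℕ} {x l : Inst → γ → List ℤ} (hn : OPTU n) (hq : OPTF q)
    (hx : OPTF x) (hl : OPTF l) : OPTF (fun I c => loL (n I c) (q I c) (x I c) (l I c)) :=
  OPTF.post (g := fun p : Un × ℕ × List ℤ × List ℤ => loL p.1.val p.2.1 p.2.2.1 p.2.2.2)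
    (ptf_loL (PTU.val (by fun_prop)) (by fun_prop) (by fun_prop) (by fun_prop))
    (f := fun I c => (Un.mk (n I c), q I c, x I c, l I c))
    (OPTF.prodMk hn (OPTF.prodMk hq (OPTF.prodMk hx hl)))

theorem hiL_optf {n q : Inst → γ → ℕ} {x l : Inst → γ → List ℤ} (hn : OPTU n) (hq : OPTF q)
    (hx : OPTF x) (hl : OPTF l) : OPTF (fun I c => hiL (n I c) (q I c) (x I c) (l I c)) :=
  OPTF.post (g := fun p : Un × ℕ × List ℤ × List ℤ => hiL p.1.val p.2.1 p.2.2.1 p.2.2.2)
    (ptf_hiL (PTU.val (by fun_prop)) (by fun_prop) (by fun_prop) (by fun_prop))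
    (f := fun I c => (Un.mk (n I c), q I c, x I c, l I c))
    (OPTF.prodMk hn (OPTF.prodMk hq (OPTF.prodMk hx hl)))

theorem loT_optf (h : P.Num) (hQ : OPTF (fun I (p : Bool × List Bool) => Q I p.1 p.2))
    (hs : OPTF s) (ht : OPTF t) : OPTF (fun I c => loT P (Q I) (s I c) (t I c)) := by
  unfold loT
  exact loL_optf (sn_optu hs) (stQ_optf (sn_optu hs) (OPTU.post h.L hs) (tt_optu h hs ht))
    (cen_optf hQ hs) (slo_optf hs)

theorem hiT_optf (h : P.Num) (hQ : OPTF (fun I (p : Bool × List Bool) => Q I p.1 p.2))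
    (hs : OPTF s) (ht : OPTF t) : OPTF (fun I c => hiT P (Q I) (s I c) (t I c)) := by
  unfold hiT
  exact hiL_optf (sn_optu hs) (stQ_optf (sn_optu hs) (OPTU.post h.L hs) (tt_optu h hs ht))
    (cen_optf hQ hs) (shi_optf hs)

theorem matT_optf (h : P.Num) (hQ : OPTF (fun I (p : Bool × List Bool) => Q I p.1 p.2))
    (hs : OPTF s) (ht : OPTF t) (b : Bool) :
    OPTF (fun I c => matT P (Q I) (s I c) (t I c) b) := by
  unfold matT
  exact matBL_optf (sn_optu hs) (sR_optf hs) (rk_optf hQ b) (loT_optf h hQ hs ht)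
    (hiT_optf h hQ hs ht) (cen_optf hQ hs)

theorem envT_optf (h : P.Num) (hQ : OPTF (fun I (p : Bool × List Bool) => Q I p.1 p.2))
    (hs : OPTF s) (ht : OPTF t) : OPTF (fun I c => envT P (Q I) (s I c) (t I c)) := by
  unfold envT
  refine OPTF.post (g := fun p : Un × ℤ × Un × Un × List (List ℤ) × List (List ℤ) =>
    envL p.1.val p.2.1 p.2.2.1.val p.2.2.2.1.val p.2.2.2.2.1 p.2.2.2.2.2)
    (ptf_envL (PTU.val (by fun_prop)) (by fun_prop) ?_ ?_ (by fun_prop)
      (by fun_prop))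
    (f := fun I c => (Un.mk (sn (s I c)), (P.w₁ (s I c) : ℤ), Un.mk (P.dk (s I c)),
      Un.mk (P.dl (s I c)), matT P (Q I) (s I c) (t I c) false, matT P (Q I) (s I c) (t I c) true))
    (OPTF.prodMk (sn_optu hs) (OPTF.prodMk (OPTF.intNatCast (OPTF.post h.w₁ hs))
      (OPTF.prodMk (OPTU.post h.dk hs) (OPTF.prodMk (OPTU.post h.dl hs)
        (OPTF.prodMk (matT_optf h hQ hs ht false) (matT_optf h hQ hs ht true))))))
  all_goals first
    | exact PTU.val (by fun_prop)
    | exact PTU.toPTF (PTU.val (by fun_prop))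

theorem repT_optf (h : P.Num) (hQ : OPTF (fun I (p : Bool × List Bool) => Q I p.1 p.2))
    (hs : OPTF s) (ht : OPTF t) {u : Inst → γ → ℕ} (hu : OPTF u) :
    OPTF (fun I c => repT P (Q I) (s I c) (t I c) (u I c)) := by
  unfold repT
  refine OPTF.getD ?_ hu (OPTF.const 0)
  exact OPTF.post h.rp
    (f := fun I c => (Un.mk (sn (s I c)), (P.w₁ (s I c) : ℤ),
      matT P (Q I) (s I c) (t I c) false, matT P (Q I) (s I c) (t I c) true))
    (OPTF.prodMk (sn_optu hs) (OPTF.prodMk (OPTF.intNatCast (OPTF.post h.w₁ hs))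
      (OPTF.prodMk (matT_optf h hQ hs ht false) (matT_optf h hQ hs ht true))))

theorem gaT_optf (h : P.Num) (hQ : OPTF (fun I (p : Bool × List Bool) => Q I p.1 p.2))
    (hs : OPTF s) (ht : OPTF t) {g : Inst → γ → List ℤ} (hg : OPTF g) :
    OPTF (fun I c => gaT P (Q I) (s I c) (t I c) (g I c)) := by
  unfold gaT
  refine OPTF.map (OPTF.range (sn_optu hs)) ?_
  exact OPTF.getD (off hg) (repT_optf (γ := γ × ℕ) (s := fun I p => s I p.1)
    (t := fun I p => t I p.1) h hQ (off hs) (off ht) (OPTF.snd OPTF.id)) (OPTF.const 0)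

theorem prm_optf (h : P.Num) (hQ : OPTF (fun I (p : Bool × List Bool) => Q I p.1 p.2))
    (hs : OPTF s) (ht : OPTF t) {a : Inst → γ → ℕ} (ha : OPTF a) {g : Inst → γ → List ℤ}
    (hg : OPTF g) : PrmOPT (fun I c => prm P (Q I) (s I c) (t I c) (a I c) (g I c)) where
  par₁ := (envT_optf h hQ hs ht).fst.fst
  par₂ := (envT_optf h hQ hs ht).fst.snd
  sub₁ := (envT_optf h hQ hs ht).snd.fst.fst
  sub₂ := (envT_optf h hQ hs ht).snd.fst.snd
  ks₁ := (envT_optf h hQ hs ht).snd.snd.fst.fst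
  ks₂ := (envT_optf h hQ hs ht).snd.snd.fst.snd
  a := ha
  g := gaT_optf h hQ hs ht hg
  c := cen_optf hQ hs
  M := (OPTF.post h.M hs : OPTF (fun I c => P.M (s I c)))
  Lb := (OPTF.post h.Lb hs : OPTF (fun I c => P.Lb (s I c)))
  cs := (envT_optf h hQ hs ht).snd.snd.snd
  qa := (OPTU.post h.qa hs : OPTU (fun I c => P.qa (s I c)))
  qb := (OPTU.post h.qb hs : OPTU (fun I c => P.qb (s I c)))

theorem wT_optf (h : P.Num) (hQ : OPTF (fun I (p : Bool × List Bool) => Q I p.1 p.2))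
    (hs : OPTF s) (ht : OPTF t) :
    OPTF (fun I (p : γ × List ℤ) => wT P (Q I) (s I p.1) (t I p.1) p.2) := by
  unfold wT
  refine OPTF.intNatCast ?_
  exact OPTF.post (g := fun p : Un × Un × Un × List ℤ × List ℤ =>
    stHL p.1.val p.2.1.val p.2.2.1.val p.2.2.2.1 p.2.2.2.2)
    (ptf_stHL (PTU.val (by fun_prop)) (PTU.val (by fun_prop)) (PTU.val (by fun_prop))
      (by fun_prop) (by fun_prop))
    (f := fun I (p : γ × List ℤ) => (Un.mk (sn (s I p.1)), Un.mk (P.L (s I p.1)),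
      Un.mk (tt P (s I p.1) (t I p.1)), cen (Q I) (s I p.1), p.2))
    (OPTF.prodMk (sn_optu (off hs)) (OPTF.prodMk (OPTU.post h.L (off hs))
      (OPTF.prodMk (tt_optu h (off hs) (off ht)) (OPTF.prodMk (cen_optf hQ (off hs))
        (OPTF.snd OPTF.id)))))

theorem memT_optf (h : P.Num) (hQ : OPTF (fun I (p : Bool × List Bool) => Q I p.1 p.2))
    (hs : OPTF s) (ht : OPTF t) (b : Bool) :
    OPTF (fun I (p : γ × List ℤ) => memT P (Q I) (s I p.1) (t I p.1) b p.2) := by
  unfold memT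
  exact memBL_optf (sn_optu (off hs)) (sR_optf (off hs)) (rk_optf hQ b)
    (OPTF.intNatCast (sR_optf (off hs))) (loT_optf h hQ (off hs) (off ht))
    (hiT_optf h hQ (off hs) (off ht)) (OPTF.snd OPTF.id)

theorem pfT_optf (h : P.Num) (hQ : OPTF (fun I (p : Bool × List Bool) => Q I p.1 p.2))
    (hs : OPTF s) (ht : OPTF t) {x : Inst → γ → List ℤ} (hx : OPTF x) :
    OPTF (fun I c => pfT P (Q I) (s I c) (t I c) (x I c)) := by
  unfold pfT
  have e := envT_optf h hQ hs ht
  exact pfL_optf (sn_optu hs) e.fst.fst e.fst.snd e.snd.fst.fst e.snd.fst.snd hx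

theorem runT_optf (h : P.Num) (hQ : OPTF (fun I (p : Bool × List Bool) => Q I p.1 p.2))
    (hs : OPTF s) (ht : OPTF t) {a T : Inst → γ → ℕ} (ha : OPTF a) (hT : OPTU T)
    {g x : Inst → γ → List ℤ} (hg : OPTF g) (hx : OPTF x) {l : Inst → γ → List Bool}
    (hl : OPTF l) :
    OPTF (fun I c => runT P (Q I) (s I c) (t I c) (a I c) (T I c) (g I c) (x I c) (l I c)) := by
  unfold runT stp
  exact run_optf (N := fun I c => sn (s I c))
    (P := fun I c => prm P (Q I) (s I c) (t I c) (a I c) (g I c))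
    (w := fun I c => wT P (Q I) (s I c) (t I c))
    (mem₁ := fun I c => memT P (Q I) (s I c) (t I c) false)
    (mem₂ := fun I c => memT P (Q I) (s I c) (t I c) true)
    (kmax := fun I c => P.kmax (s I c)) (Ns := fun I c => P.N (s I c)) (B := fun I c => P.B (s I c))
    (sn_optu hs) (prm_optf h hQ hs ht ha hg) (wT_optf h hQ hs ht) (memT_optf h hQ hs ht false)
    (memT_optf h hQ hs ht true) (OPTU.post h.kmax hs) (OPTU.post h.N hs) (OPTU.post h.B hs) hT
    (pfT_optf h hQ hs ht hx) hl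

theorem addE_optf {n u : Inst → γ → ℕ} {x : Inst → γ → List ℤ} (hn : OPTU n) (hx : OPTF x)
    (hu : OPTF u) : OPTF (fun I c => addE (n I c) (x I c) (u I c)) := by
  unfold addE
  have h1 : OPTF (fun I (p : γ × ℕ) => x I p.1) := off hx
  have h2 : OPTF (fun I (p : γ × ℕ) => u I p.1) := off hu
  opt_solve

theorem outT_optf (h : P.Num) (hQ : OPTF (fun I (p : Bool × List Bool) => Q I p.1 p.2))
    (hs : OPTF s) (ht : OPTF t) {y : Inst → γ → St} (hy : OPTF y) :
    OPTF (fun I c => outT P (Q I) (s I c) (t I c) (y I c)) := by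
  unfold outT outL
  have e := envT_optf h hQ hs ht
  have h1 := pfL_optf (sn_optu hs) e.fst.fst e.fst.snd e.snd.fst.fst e.snd.fst.snd hy.fst
  have h2 : OPTF (fun I c => memT P (Q I) (s I c) (t I c) false (y I c).1) :=
    OPTF.comp₂ (g := fun I c z => memT P (Q I) (s I c) (t I c) false z)
      (memT_optf h hQ hs ht false) OPTF.id hy.fst
  have h3 : OPTF (fun I c => memT P (Q I) (s I c) (t I c) true (y I c).1) :=
    OPTF.comp₂ (g := fun I c z => memT P (Q I) (s I c) (t I c) true z)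
      (memT_optf h hQ hs ht true) OPTF.id hy.fst
  exact OPTF.ite (OPTF.toOPTP (OPTF.and (OPTP.toOPTF (OPTP.eq h1 hy)) (OPTF.and h2 h3)))
    (OPTF.some hy.fst) (OPTF.const none)

theorem evT_optf (h : P.Num) (hQ : OPTF (fun I (p : Bool × List Bool) => Q I p.1 p.2))
    (hs : OPTF s) (ht : OPTF t) {u v : Inst → γ → ℕ} (hu : OPTF u) (hv : OPTF v)
    {y : Inst → γ → St} (hy : OPTF y) :
    OPTF (fun I c => evT P (Q I) (s I c) (t I c) (u I c) (v I c) (y I c)) := by
  unfold evT evL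
  have e := envT_optf h hQ hs ht
  have h1 := blkL_optf (sn_optu hs) e.fst.fst e.snd.fst.fst (addE_optf (sn_optu hs) hy.fst hu)
  have h2 := blkL_optf (sn_optu hs) e.fst.snd e.snd.fst.snd (addE_optf (sn_optu hs) hy.fst hv)
  exact OPTF.and (OPTP.toOPTF (OPTP.eq h1 hy.snd.fst)) (OPTP.toOPTF (OPTP.eq h2 hy.snd.snd))

end closure

/-- **the functional closures of the program** -/
theorem Par.Num.prgComp (h : P.Num) : (Prog.prg P).Comp where
  E := by
    intro Q hQ
    exact runT_optf (γ := SIn × ℕ × List ℤ × List ℤ × List Bool) (s := fun _ p => p.1)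
      (t := fun _ p => p.2.1) (a := fun _ p => P.aE p.1) (T := fun _ p => P.TE p.1)
      (g := fun _ p => p.2.2.1) (x := fun _ p => p.2.2.2.1) (l := fun _ p => p.2.2.2.2) h hQ
      (OPTF.of_ptf (by fun_prop)) (OPTF.of_ptf (by fun_prop))
      (OPTU.toOPTF (OPTU.post h.aE (OPTF.of_ptf (by fun_prop))))
      (OPTU.post h.TE (OPTF.of_ptf (by fun_prop))) (OPTF.of_ptf (by fun_prop))
      (OPTF.of_ptf (by fun_prop)) (OPTF.of_ptf (by fun_prop))
  M := by
    intro Q hQ
    exact runT_optf (γ := SIn × ℕ × List ℤ × List ℤ × List Bool) (s := fun _ p => p.1)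
      (t := fun _ p => p.2.1) (a := fun _ p => P.aM p.1) (T := fun _ p => P.TM p.1)
      (g := fun _ p => p.2.2.1) (x := fun _ p => p.2.2.2.1) (l := fun _ p => p.2.2.2.2) h hQ
      (OPTF.of_ptf (by fun_prop)) (OPTF.of_ptf (by fun_prop))
      (OPTU.toOPTF (OPTU.post h.aM (OPTF.of_ptf (by fun_prop))))
      (OPTU.post h.TM (OPTF.of_ptf (by fun_prop))) (OPTF.of_ptf (by fun_prop))
      (OPTF.of_ptf (by fun_prop)) (OPTF.of_ptf (by fun_prop))
  out := by
    intro Q hQ
    exact outT_optf (γ := SIn × ℕ × St) (s := fun _ p => p.1) (t := fun _ p => p.2.1)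
      (y := fun _ p => p.2.2) h hQ (OPTF.of_ptf (by fun_prop)) (OPTF.of_ptf (by fun_prop))
      (OPTF.of_ptf (by fun_prop))
  ev := by
    intro Q hQ
    exact evT_optf (γ := SIn × ℕ × ℕ × ℕ × St) (s := fun _ p => p.1) (t := fun _ p => p.2.1)
      (u := fun _ p => p.2.2.1) (v := fun _ p => p.2.2.2.1) (y := fun _ p => p.2.2.2.2) h hQ
      (OPTF.of_ptf (by fun_prop)) (OPTF.of_ptf (by fun_prop)) (OPTF.of_ptf (by fun_prop))
      (OPTF.of_ptf (by fun_prop)) (OPTF.of_ptf (by fun_prop))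
  rep := by
    intro Q hQ
    exact repT_optf (γ := SIn × ℕ × ℕ) (s := fun _ p => p.1) (t := fun _ p => p.2.1)
      (u := fun _ p => p.2.2) h hQ (OPTF.of_ptf (by fun_prop)) (OPTF.of_ptf (by fun_prop))
      (OPTF.of_ptf (by fun_prop))

/-! ### the size invariant -/

/-- size bound of the particles -/
def BSz (P : Par) (Q : Inst → Qf) (I : Inst) (s : SIn) : ℕ :=
  sz (cen (Q I) s) + szBx (sn s) (bxLo (sn s) (cen (Q I) s) (P.M s) (P.Lb s)).1
    (bxHi (sn s) (cen (Q I) s) (P.M s) (P.Lb s)).1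

theorem outL_cases {n : ℕ} {par₁ par₂ : List ℕ} {sub₁ sub₂ : List (List Bool)}
    {mem₁ mem₂ : List ℤ → Bool} {y : St} (x : List ℤ) :
    (outL n par₁ par₂ sub₁ sub₂ mem₁ mem₂ y).getD x = x ∨
      (outL n par₁ par₂ sub₁ sub₂ mem₁ mem₂ y).getD x = y.1 := by
  unfold outL
  split_ifs
  · exact Or.inr rfl
  · exact Or.inl rfl

/-- **the sampler is computable relative to the query function** -/
theorem Par.Num.relSmp (h : P.Num) : RelSmp (smp (Prog.prg P)) := by
  refine Smp.relSmp h.prgNum h.prgComp (BSz P) (fun Q hQ => ?_) (fun Q I s => Nat.le_add_right _ _) ?_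
  · have hc : OPTF (fun I (s : SIn) => cen (Q I) s) := rc_cen Q hQ
    have hs : OPTF (fun (_ : Inst) (s : SIn) => s) := OPTF.of_ptf (by fun_prop)
    have hp := prm_optf (γ := SIn) (s := fun _ s => s) (t := fun _ _ => 0) (a := fun _ _ => 0)
      (g := fun _ _ => []) h hQ hs (OPTF.const 0) (OPTF.const 0) (OPTF.const [])
    have hlo := bxLo_optf (sn_optu hs) hp
    have hhi := bxHi_optf (sn_optu hs) hp
    unfold BSz szBx
    exact hc.bound.add ((sn_optu hs).opb.mul (((OPB.const 2).mul ((OPB.const 3).add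
      (hlo.fst.bound.add hhi.fst.bound))).add (OPB.const 1)))
  · intro Q I s t g x y l hx hy
    show sz ((outT P (Q I) s t (runT P (Q I) s t (P.aM s) (P.TM s) g y l)).getD x) ≤ BSz P Q I s
    unfold outT
    rcases outL_cases (n := sn s) (par₁ := (envT P (Q I) s t).1.1)
      (par₂ := (envT P (Q I) s t).1.2) (sub₁ := (envT P (Q I) s t).2.1.1)
      (sub₂ := (envT P (Q I) s t).2.1.2) (mem₁ := memT P (Q I) s t false)
      (mem₂ := memT P (Q I) s t true)
      (y := runT P (Q I) s t (P.aM s) (P.TM s) g y l) x with h1 | h1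
    · rw [h1]; exact hx
    · rw [h1]
      refine (sz_run_fst_le (sn s) (prm P (Q I) s t (P.aM s) g) (wT P (Q I) s t)
        (memT P (Q I) s t false) (memT P (Q I) s t true) (P.kmax s) (P.N s) (P.B s) (bitsS P s)
        (P.TM s) (pfT P (Q I) s t y) l).trans ?_
      refine max_le hy (le_trans ?_ (Nat.le_add_left _ _))
      exact le_rfl

/-- **S0461 and S0462 from `SmpSpec` of the program** -/
theorem exists_estimator' (h : P.Num) (hS : SmpSpec (smp (prg P)) (slen (prg P))) :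
    ∃ (G : (Bool → List Bool → ℕ) → CIn × List Bool → ℚ) (N : CIn → ℕ),
      RelComp G ∧ PTU N ∧ CountSpec G N :=
  exists_estimator hS h.relSmp h.prgNum.slen

end Crest.Agent.R302.Prog
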