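import Crest.Agent.R302.CPar272
import Crest.Agent.R302.Prog166B

/-!
# R302 (helper166): closures of the concrete parameters `cPar`, top level

* `cPar_num : cPar.Num`;
* `StagesOK` : the remaining fact, `ChainOK` at every stage of the concrete program;
* `estimator_of : StagesOK → ∃ G N, RelComp G ∧ PTU N ∧ CountSpec G N`;
* `slkLen_cPar` : the number of bits `B` of one slack is large enough.
-/

set_option autoImplicit false
set_option linter.dupNamespace false

namespace Crest.Agent.R302.Prog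

open Crest.Agent.R302.ORAM Crest.Agent.R302.Loop Crest.Agent.R302.CenL Crest.Agent.R302.AnnBox
open Crest.Agent.R302.Top Crest.Agent.R302.Smp Crest.Agent.R302.Step Crest.Agent.R302.EDM
open Crest.Agent.R302.StageL Crest.Agent.R302.GeoSpec Crest.Agent.R302.Cst Crest.Agent.R302.Slk
open Crest.Agent.R309.Tape Crest.Agent.Lib.PT Crest.Agent.R309.PTX

/-! ### closures -/

theorem ptu_ss : PTU ss := ptu_sC ptu_sn ptf_sR ptu_sm

theorem ptu_XX : PTU XX := ptu_XC ptu_sn ptf_sR ptu_sm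

theorem ptu_mul_ss (c : ℕ) : PTU (fun s => c * ss s) := PTU.mul (PTU.const c) ptu_ss

theorem ptu_XX_pow (c : ℕ) : PTU (fun s => XX s ^ c) := ptu_XC_pow ptu_sn ptf_sR ptu_sm c

theorem ptf_two_pow_XX (c : ℕ) : PTF (fun s => 2 ^ (c * XX s)) :=
  PTF.natTwoPow (PTU.mul (PTU.const c) ptu_XX)

/-- **closures of the concrete parameters** -/
theorem cPar_num : cPar.Num where
  L := ptu_mul_ss 46
  aE := ptu_mul_ss 2
  aM := ptu_mul_ss 33
  K := by
    have h : (fun s => cPar.D s * 2 ^ (2 * cPar.aE s)) = fun s => XX s ^ 23 * XX s ^ 4 := by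
      funext s
      show XX s ^ 23 * 2 ^ (2 * (2 * ss s)) = _
      rw [← mul_assoc, two_pow_mul_ss, show 2 * 2 = 4 from rfl]
    rw [h]
    exact PTU.mul (ptu_XX_pow 23) (ptu_XX_pow 4)
  w₁ := (ptu_XX_pow 112).toPTF
  dk := ptu_XX_pow 75
  dl := PTU.mul (PTU.mul ptu_sn ((PTU.add (PTU.mul (PTU.const 2) ptu_sn) (PTU.const 1)).pow 2)) (ptu_XX_pow 76)
  qa := ptu_mul_ss 3
  qb := ptu_XX_pow 2
  M := ptf_two_pow_XX 5
  Lb := ptf_two_pow_XX 5
  N := ptu_mul_ss 3210
  B := ptu_XX_pow 4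
  kmax := ptu_mul_ss 3210
  TE := ptu_XX_pow 3135
  TM := ptu_XX_pow 3135
  rp := Rep646.ptf_repL (PTU.val (by fun_prop)) (by fun_prop) (by fun_prop) (by fun_prop)

/-! ### the top level -/

theorem cPar_pL (s : SIn) : (prg cPar).pL s = 46 * ss s := rfl

theorem cPar_pm (s : SIn) : (prg cPar).pm s = 4 * ss s := by
  show 2 * (2 * ss s) = 4 * ss s
  omega

theorem cPar_pD (s : SIn) : (prg cPar).pD s = XX s ^ 23 := rfl

theorem cPar_pD_pos (s : SIn) : 0 < (prg cPar).pD s := by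
  rw [cPar_pD]
  have := XX_ge s
  exact Nat.pow_pos (by omega)

/-- **the remaining fact**: `ChainOK` at every stage of the concrete program -/
def StagesOK : Prop :=
  ∀ (n R m : ℕ) (r₁ r₂ : Finset (Fin n) → ℕ) (lo hi : Fin n → ℤ) (𝒜 : AnnData n),
    IsInst (prg cPar) n R m r₁ r₂ lo hi 𝒜 → ∀ t < (prg cPar).T (inp n R m lo hi), ∃ π : List ℤ → Law St,
      ChainOK ((prg cPar).ch (rq r₁ r₂) (inp n R m lo hi)) n t (𝒜.stLaw t) (𝒜.stLaw (t + 1)) π
        (NN 𝒜 t) (NN 𝒜 (t + 1)) (𝒜.Z t) (𝒜.Z (t + 1)) 2 2 (eE0 (inp n R m lo hi))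
        (eM0 (inp n R m lo hi))

/-- the sampler specification from the stages -/
theorem smpSpec_cPar (H : StagesOK) : SmpSpec (smp (prg cPar)) (slen (prg cPar)) :=
  smpSpec (prg cPar) eE0 eM0 (fun s => hL0 _ s (cPar_pL s)) cPar_pD_pos eE0_nonneg eM0_nonneg
    (fun s _ hm => err_le _ s (cPar_pL s) (cPar_pm s) (cPar_pD s) hm) H

/-- **the counting algorithm from the stages** -/
theorem estimator_of (H : StagesOK) :
    ∃ (G : (Bool → List Bool → ℕ) → CIn × List Bool → ℚ) (N : CIn → ℕ),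
      RelComp G ∧ PTU N ∧ CountSpec G N :=
  exists_estimator' cPar_num (smpSpec_cPar H)

/-! ### bits of one slack -/

theorem geoLen_mono {k k' N : ℕ} (h : k ≤ k') : geoLen k N ≤ geoLen k' N := by
  unfold geoLen dgt prc
  exact Nat.mul_le_mul (by omega) (by omega)

theorem slkLen_mono {k k' N : ℕ} (h : k ≤ k') : slkLen k N ≤ slkLen k' N := by
  unfold slkLen
  have := geoLen_mono (N := N + 1) h
  omega

/-- the bits of a slack suffice -/
theorem slkLen_cPar (s : SIn) {k : ℕ} (hk : k ≤ 5 * XX s) : slkLen k (cPar.N s) ≤ cPar.B s := by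
  refine (slkLen_mono hk).trans ?_
  have hX := XX_ge s
  have hN : 3210 * ss s ≤ XX s := c_mul_s_le (by norm_num)
  show slkLen (5 * XX s) (3210 * ss s) ≤ XX s ^ 4
  set X := XX s with hXd
  set N := 3210 * ss s with hNd
  unfold slkLen geoLen dgt prc
  have h1 : 5 * X + (N + 1 + 2) ≤ 7 * X := by omega
  have h2 : 5 * X + (N + 1 + 2) + (N + 1 + 3) ≤ 9 * X := by omega
  have h3 := Nat.mul_le_mul h1 h2
  have h4 : 4 * (7 * X * (9 * X)) ≤ X ^ 4 := by
    have h5 : 252 * X ^ 2 ≤ X ^ 4 := by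
      have : 252 * 1 ≤ X * X := Nat.mul_le_mul (by omega) (by omega)
      calc 252 * X ^ 2 ≤ (X * X) * X ^ 2 := Nat.mul_le_mul_right _ (by omega)
        _ = X ^ 4 := by ring
    calc 4 * (7 * X * (9 * X)) = 252 * X ^ 2 := by ring
      _ ≤ _ := h5
  omega

end Crest.Agent.R302.Prog
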