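import Crest.Agent.R302.EDM2
import Crest.Agent.Lib.PT.ArithMore

/-!
# R302 / EDM, part 3: finding a common base by coordinatewise bisection
-/

set_option autoImplicit false

namespace Crest.Agent.R302.EDM

open Finset Crest.Agent.R302.Facet Crest.Agent.R302.Sfm646 Crest.Agent.Lib.PT.Arith

/-- the largest `t < 2 ^ K` with `Q t` (for `Q` an initial segment) -/
def bsMax (K : ℕ) (Q : ℕ → Bool) : ℕ := ((bsStep Q)^[K] (2 ^ K, 0)).2

theorem bsMax_eq {F K : ℕ} {Q : ℕ → Bool} (hQ : ∀ m, m < 2 ^ K → (Q m = true ↔ m ≤ F))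
    (hF : F < 2 ^ K) : bsMax K Q = F := by
  unfold bsMax
  rw [bsStep_iter F K Q hQ hF K le_rfl]
  simp

variable {n : ℕ}

/-- one coordinate -/
def findStep (K : ℕ) (P : (Fin n → ℤ) → Bool) (l : Fin n → ℤ) (j : Fin n) : Fin n → ℤ :=
  Function.update l j (bsMax K fun t => P (Function.update l j (t : ℤ)))

/-- coordinatewise maximal lower bound -/
def findVec (K : ℕ) (P : (Fin n → ℤ) → Bool) : Fin n → ℤ :=
  (List.finRange n).foldl (findStep K P) fun _ => 0

/-- **the finder**: `P l` decides whether some vector of `B` is `≥ l`. -/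
theorem findVec_spec {K : ℕ} {P : (Fin n → ℤ) → Bool} {B : (Fin n → ℤ) → Prop}
    (hP : ∀ l, P l = true ↔ ∃ x, (∀ i, l i ≤ x i) ∧ B x)
    (hB : ∀ x, B x → ∀ i, x i < 2 ^ K) (h0 : P (fun _ => 0) = true) : B (findVec K P) := by
  classical
  have anti : ∀ l l' : Fin n → ℤ, (∀ i, l i ≤ l' i) → P l' = true → P l = true := by
    intro l l' h h'
    obtain ⟨x, hx, hb⟩ := (hP l').1 h'
    exact (hP l).2 ⟨x, fun i => (h i).trans (hx i), hb⟩
  -- one step
  have stepS : ∀ (l : Fin n → ℤ) (j : Fin n), P l = true → l j = 0 →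
      P (findStep K P l j) = true ∧ (∀ x, B x → (∀ i, findStep K P l j i ≤ x i) →
        x j = findStep K P l j j) := by
    intro l j hl hj
    have hex : ∃ F : ℕ, F < 2 ^ K ∧ ∀ m : ℕ, m < 2 ^ K →
        (P (Function.update l j (m : ℤ)) = true ↔ m ≤ F) := by
      set S := (Finset.range (2 ^ K)).filter fun m : ℕ =>
        P (Function.update l j (m : ℤ)) = true with hS
      have hS0 : (0 : ℕ) ∈ S := by
        rw [hS, mem_filter, Finset.mem_range]
        refine ⟨by positivity, ?_⟩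
        rw [Nat.cast_zero, ← hj, Function.update_eq_self]
        exact hl
      refine ⟨S.max' ⟨0, hS0⟩, ?_, fun m hm => ⟨fun h => ?_, fun h => ?_⟩⟩
      · have := Finset.mem_filter.1 (S.max'_mem ⟨0, hS0⟩)
        exact Finset.mem_range.1 this.1
      · exact S.le_max' m (by rw [hS, mem_filter, Finset.mem_range]; exact ⟨hm, h⟩)
      · have h2 := Finset.mem_filter.1 (S.max'_mem ⟨0, hS0⟩)
        refine anti _ _ (fun i => ?_) h2.2
        by_cases hi : i = j
        · subst hi
          rw [Function.update_self, Function.update_self]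
          exact_mod_cast h
        · rw [Function.update_of_ne hi, Function.update_of_ne hi]
    obtain ⟨F, hF, hF2⟩ := hex
    have hb : bsMax K (fun t => P (Function.update l j (t : ℤ))) = F := bsMax_eq hF2 hF
    unfold findStep
    rw [hb]
    refine ⟨(hF2 F hF).2 le_rfl, fun x hx hle => ?_⟩
    rw [Function.update_self]
    have h1 := hle j
    rw [Function.update_self] at h1
    by_contra hne
    have h2 : (F : ℤ) + 1 ≤ x j := by omega
    have h3 : F + 1 < 2 ^ K := by
      have := hB x hx j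
      have h4 : ((F + 1 : ℕ) : ℤ) < 2 ^ K := by push_cast; linarith
      exact_mod_cast h4
    have h5 : P (Function.update l j ((F + 1 : ℕ) : ℤ)) = true := by
      refine (hP _).2 ⟨x, fun i => ?_, hx⟩
      by_cases hi : i = j
      · subst hi
        rw [Function.update_self]
        push_cast
        exact h2
      · have := hle i
        rw [Function.update_of_ne hi] at this ⊢
        exact this
    have := (hF2 _ h3).1 h5
    omega
  -- the whole fold
  have fold : ∀ (L : List (Fin n)) (l : Fin n → ℤ) (D : Finset (Fin n)), L.Nodup →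
      (∀ j ∈ L, j ∉ D) → P l = true → (∀ j, j ∉ D → l j = 0) →
      (∀ x, B x → (∀ i, l i ≤ x i) → ∀ i ∈ D, x i = l i) →
      P (L.foldl (findStep K P) l) = true ∧
        ∀ x, B x → (∀ i, L.foldl (findStep K P) l i ≤ x i) →
          ∀ i, i ∈ D ∨ i ∈ L → x i = L.foldl (findStep K P) l i := by
    intro L
    induction L with
    | nil =>
      intro l D _ _ hl _ hD
      refine ⟨hl, fun x hx hle i hi => ?_⟩
      rcases hi with hi | hi
      · exact hD x hx hle i hi
      · simp at hi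
    | cons j L ih =>
      intro l D hnd hdis hl hz hD
      obtain ⟨s1, s2⟩ := stepS l j hl (hz j (hdis j (by simp)))
      have hle0 : ∀ i, l i ≤ findStep K P l j i := by
        intro i
        unfold findStep
        by_cases hi : i = j
        · subst hi
          rw [Function.update_self, hz i (hdis i (by simp))]
          positivity
        · rw [Function.update_of_ne hi]
      have heq : ∀ i, i ≠ j → findStep K P l j i = l i := fun i hi => by
        unfold findStep; rw [Function.update_of_ne hi]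
      obtain ⟨r1, r2⟩ := ih (findStep K P l j) (insert j D) (List.nodup_cons.1 hnd).2
        (fun k hk hk' => by
          rcases mem_insert.1 hk' with rfl | hk'
          · exact (List.nodup_cons.1 hnd).1 hk
          · exact hdis k (List.mem_cons_of_mem _ hk) hk') s1
        (fun k hk => by
          rw [mem_insert, not_or] at hk
          rw [heq k hk.1]; exact hz k hk.2)
        (fun x hx hle i hi => by
          rcases mem_insert.1 hi with rfl | hi'
          · exact s2 x hx hle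
          · have hij : i ≠ j := by
              rintro rfl; exact hdis i (by simp) hi'
            rw [heq i hij]
            exact hD x hx (fun k => (hle0 k).trans (hle k)) i hi')
      refine ⟨r1, fun x hx hle i hi => r2 x hx hle i ?_⟩
      rcases hi with hi | hi
      · exact Or.inl (mem_insert_of_mem hi)
      · rcases List.mem_cons.1 hi with rfl | hi
        · exact Or.inl (mem_insert_self _ _)
        · exact Or.inr hi
  obtain ⟨r1, r2⟩ := fold (List.finRange n) (fun _ => 0) ∅ (List.nodup_finRange n)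
    (fun _ _ => notMem_empty _) h0 (fun _ _ => rfl) (fun _ _ _ i hi => absurd hi (notMem_empty i))
  obtain ⟨x, hx, hb⟩ := (hP _).1 r1
  have : findVec K P = x := by
    funext i
    exact (r2 x hb hx i (Or.inr (List.mem_finRange i))).symm
  rw [this]
  exact hb

/-- a common base of `r₁, r₂` (if there is one) -/
def baseQ (n K : ℕ) (r₁ r₂ : Finset (Fin n) → ℤ) (R : ℕ) : Fin n → ℤ :=
  findVec R.size (feasQ n K r₁ r₂ R)

theorem baseQ_spec {r₁ r₂ : Finset (Fin n) → ℤ} {K R : ℕ} (h₁ : SubM r₁ R)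
    (h₂ : SubM r₂ R) (K₁ : ∀ A, |r₁ A| ≤ K) (K₂ : ∀ A, |r₂ A| ≤ K)
    (m₁ : ∀ A B, A ⊆ B → r₁ A ≤ r₁ B)
    (hne : ∃ x : Fin n → ℤ, MemJ r₁ R x ∧ MemJ r₂ R x) :
    MemJ r₁ R (baseQ n K r₁ r₂ R) ∧ MemJ r₂ R (baseQ n K r₁ r₂ R) := by
  have hx0 : ∀ x : Fin n → ℤ, MemJ r₁ R x → ∀ i, 0 ≤ x i := by
    intro x hx i
    have c1 := hx.1 {i}ᶜ
    have c2 := m₁ {i}ᶜ univ (subset_univ _)
    have c3 := Finset.sum_add_sum_compl {i} x
    rw [h₁.univ] at c2
    rw [hx.2, Finset.sum_singleton] at c3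
    linarith
  refine findVec_spec (B := fun x => MemJ r₁ R x ∧ MemJ r₂ R x)
    (fun l => feasQ_iff h₁ h₂ K₁ K₂ m₁ l) (fun x hx i => ?_) ?_
  · have h1 : x i ≤ (R : ℤ) := by
      rw [← hx.1.2]
      exact Finset.single_le_sum (fun j _ => hx0 x hx.1 j) (mem_univ i)
    have h2 : R < 2 ^ R.size := Nat.lt_size_self R
    calc x i ≤ (R : ℤ) := h1
      _ < 2 ^ R.size := by exact_mod_cast h2
  · rw [feasQ_iff h₁ h₂ K₁ K₂ m₁]
    obtain ⟨x, hx1, hx2⟩ := hne
    exact ⟨x, hx0 x hx1, hx1, hx2⟩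

/-! ### the row's data -/

open Crest.Polymatroid

/-- the rank function with integer values -/
def zr (r : Finset (Fin n) → ℕ) : Finset (Fin n) → ℤ := fun A => (r A : ℤ)

theorem zr_subM {r : Finset (Fin n) → ℕ} (h : IsPolymatroidRank r) {R : ℕ}
    (hR : r univ = R) : SubM (zr r) R :=
  ⟨fun A B => by
    have := h.2.2 A B
    show (r (A ∪ B) : ℤ) + (r (A ∩ B) : ℤ) ≤ r A + r B
    exact_mod_cast this, by simp [zr, h.1], by simp [zr, hR]⟩

theorem zr_abs {r : Finset (Fin n) → ℕ} (h : IsPolymatroidRank r) {R : ℕ}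
    (hR : r univ = R) (A : Finset (Fin n)) : |zr r A| ≤ R := by
  have := h.2.1 A univ (subset_univ _)
  rw [hR] at this
  unfold zr
  rw [abs_of_nonneg (by positivity)]
  exact_mod_cast this

theorem zr_mono {r : Finset (Fin n) → ℕ} (h : IsPolymatroidRank r) (A B : Finset (Fin n))
    (hAB : A ⊆ B) : zr r A ≤ zr r B := by
  unfold zr
  exact_mod_cast h.2.1 A B hAB

theorem memJ_iff_isBaseVec {R : ℕ} {r₁ r₂ : Finset (Fin n) → ℕ} (x : Fin n → ℕ) :
    (MemJ (zr r₁) R (fun i => (x i : ℤ)) ∧ MemJ (zr r₂) R (fun i => (x i : ℤ))) ↔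
      IsBaseVec R r₁ r₂ x := by
  unfold MemJ IsBaseVec zr
  simp only
  constructor
  · rintro ⟨⟨h1, h2⟩, h3, _⟩
    refine ⟨by exact_mod_cast h2, fun A => ⟨?_, ?_⟩⟩
    · have := h1 A
      exact_mod_cast this
    · have := h3 A
      exact_mod_cast this
  · rintro ⟨h1, h2⟩
    refine ⟨⟨fun A => ?_, by exact_mod_cast h1⟩, fun A => ?_, by exact_mod_cast h1⟩
    · have := (h2 A).1
      exact_mod_cast this
    · have := (h2 A).2
      exact_mod_cast this

theorem memJ_nonneg {r : Finset (Fin n) → ℕ} (h : IsPolymatroidRank r) {R : ℕ}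
    (hR : r univ = R) {x : Fin n → ℤ} (hx : MemJ (zr r) R x) (i : Fin n) : 0 ≤ x i := by
  have c1 := hx.1 {i}ᶜ
  have c2 := zr_mono h {i}ᶜ univ (subset_univ _)
  have c3 := Finset.sum_add_sum_compl {i} x
  rw [(zr_subM h hR).univ] at c2
  rw [hx.2, Finset.sum_singleton] at c3
  linarith

/-- emptiness is decided exactly -/
theorem gapQ_neg_iff {R : ℕ} {r₁ r₂ : Finset (Fin n) → ℕ} (h₁ : IsPolymatroidRank r₁)
    (h₂ : IsPolymatroidRank r₂) (e₁ : r₁ univ = R) (e₂ : r₂ univ = R) :
    gapQ n R (zr r₁) (zr r₂) R < 0 ↔ numCommonIntBases R r₁ r₂ = 0 := by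
  rw [numCommonIntBases_eq_zero_iff h₁ h₂ e₁ e₂, ← not_le,
    gapQ_nonneg_iff (zr_subM h₁ e₁) (zr_subM h₂ e₂) (zr_abs h₁ e₁) (zr_abs h₂ e₂)]
  push Not
  constructor
  · rintro ⟨A, hA⟩
    refine ⟨A, ?_⟩
    unfold zr at hA
    exact_mod_cast hA
  · rintro ⟨A, hA⟩
    refine ⟨A, ?_⟩
    unfold zr
    exact_mod_cast hA

/-- if there is a common base then `baseQ` is one -/
theorem baseQ_mem {R : ℕ} {r₁ r₂ : Finset (Fin n) → ℕ} (h₁ : IsPolymatroidRank r₁)
    (h₂ : IsPolymatroidRank r₂) (e₁ : r₁ univ = R) (e₂ : r₂ univ = R)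
    (hne : numCommonIntBases R r₁ r₂ ≠ 0) :
    MemJ (zr r₁) R (baseQ n R (zr r₁) (zr r₂) R) ∧ MemJ (zr r₂) R (baseQ n R (zr r₁) (zr r₂) R) := by
  refine baseQ_spec (zr_subM h₁ e₁) (zr_subM h₂ e₂) (zr_abs h₁ e₁) (zr_abs h₂ e₂)
    (zr_mono h₁) ?_
  obtain ⟨x, hx⟩ := (numCommonIntBases_ne_zero_iff R r₁ r₂).1 hne
  exact ⟨fun i => (x i : ℤ), (memJ_iff_isBaseVec x).2 hx⟩

end Crest.Agent.R302.EDM
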