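import Mathlib
import Crest.Agent.R302.Center970B
import Crest.Agent.R302.EDM3

/-!
R302 (helper970), block CENTER, part C: the center with the computable capacities `capQ` of
helper838.

`centerQ n K r₁ r₂ x` : start at `x ∈ J₁ ∩ J₂`, `K` bounds `|r₁|, |r₂|`.
-/

set_option autoImplicit false

namespace Crest.Agent.R302.Center

open Finset Crest.Agent.R302.Facet Crest.Agent.R302.EDM

variable {n : ℕ}

theorem thr_congr {cp cp' : Fin n → Fin n → ℤ} (h : ∀ a b, a ≠ b → cp a b = cp' a b) (θ : ℤ) :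
    thr cp θ = thr cp' θ := by
  funext a b
  unfold thr
  by_cases hab : a = b
  · simp [hab]
  · rw [h a b hab]

theorem halfMove_congr {cp1 cp2 cp1' cp2' : Fin n → Fin n → ℤ}
    (h1 : ∀ a b, a ≠ b → cp1 a b = cp1' a b) (h2 : ∀ a b, a ≠ b → cp2 a b = cp2' a b) (θ : ℤ)
    (x : Fin n → ℤ) : halfMove cp1 cp2 θ x = halfMove cp1' cp2' θ x := by
  unfold halfMove
  rw [thr_congr h1, thr_congr h2]

theorem cstep_congr {cp1 cp2 cp1' cp2' : (Fin n → ℤ) → Fin n → Fin n → ℤ}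
    (h1 : ∀ x a b, a ≠ b → cp1 x a b = cp1' x a b) (h2 : ∀ x a b, a ≠ b → cp2 x a b = cp2' x a b)
    (θ : ℤ) (x : Fin n → ℤ) : cstep cp1 cp2 θ x = cstep cp1' cp2' θ x := by
  unfold cstep
  rw [halfMove_congr (h1 x) (h2 x), halfMove_congr (h2 _) (h1 _)]

theorem center_congr {cp1 cp2 cp1' cp2' : (Fin n → ℤ) → Fin n → Fin n → ℤ}
    (h1 : ∀ x a b, a ≠ b → cp1 x a b = cp1' x a b) (h2 : ∀ x a b, a ≠ b → cp2 x a b = cp2' x a b)
    (k : ℕ) : ∀ x, center cp1 cp2 k x = center cp1' cp2' k x := by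
  induction k with
  | zero => intro x; exact cstep_congr h1 h2 1 x
  | succ k ih =>
    intro x
    show center cp1 cp2 k (cstep cp1 cp2 (2 ^ (k + 1)) x)
      = center cp1' cp2' k (cstep cp1' cp2' (2 ^ (k + 1)) x)
    rw [cstep_congr h1 h2, ih]

/-- the center, started at a common base `x`; `K` bounds `|r₁ A|, |r₂ A|` -/
def centerQ (n K : ℕ) (r₁ r₂ : Finset (Fin n) → ℤ) (x : Fin n → ℤ) : Fin n → ℤ :=
  center (capQ n K r₁) (capQ n K r₂) (3 * K).size x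

theorem cap_le_three {r : Finset (Fin n) → ℤ} {R : ℤ} {K : ℕ} (hr : SubM r R)
    (hK : ∀ A, |r A| ≤ K) {x : Fin n → ℤ} (hx : MemJ r R x) {g h : Fin n} (hgh : g ≠ h) :
    cap r x g h ≤ 3 * K := by
  obtain ⟨B, hg, hh, hB⟩ := exists_cap (r := r) (x := x) hgh
  rw [← hB]
  unfold slk
  have c1 := hx.1 Bᶜ
  have c3 := Finset.sum_add_sum_compl B x
  rw [hx.2] at c3
  have c4 := hr.univ
  have k1 := abs_le.1 (hK B)
  have k2 := abs_le.1 (hK Bᶜ)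
  have k3 := abs_le.1 (hK univ)
  rw [c4] at k3
  omega

theorem centerQ_spec {r₁ r₂ : Finset (Fin n) → ℤ} {R : ℤ} {K : ℕ} (hr₁ : SubM r₁ R)
    (hr₂ : SubM r₂ R) (K₁ : ∀ A, |r₁ A| ≤ K) (K₂ : ∀ A, |r₂ A| ≤ K) {x : Fin n → ℤ}
    (hx₁ : MemJ r₁ R x) (hx₂ : MemJ r₂ R x) (P : Finset (Fin n → ℤ))
    (hP : ∀ x, x ∈ P → MemJ r₁ R x ∧ MemJ r₂ R x) :
    MemJ r₁ R (centerQ n K r₁ r₂ x) ∧ MemJ r₂ R (centerQ n K r₁ r₂ x) ∧
      IsCenter r₁ r₂ P (cC n) (centerQ n K r₁ r₂ x) := by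
  have he : centerQ n K r₁ r₂ x = center (cap r₁) (cap r₂) (3 * K).size x :=
    center_congr (fun x a b hab => capQ_eq hr₁ K₁ x hab) (fun x a b hab => capQ_eq hr₂ K₂ x hab)
      _ x
  rw [he]
  have hlt : ((3 * K : ℕ) : ℤ) < 2 ^ (3 * K).size := by
    exact_mod_cast Nat.lt_size_self (3 * K)
  push_cast at hlt
  exact center_isCenter hr₁ hr₂ hx₁ hx₂
    (fun y hy₁ _ g h hgh => (cap_le_three hr₁ K₁ hy₁ hgh).trans hlt.le)
    (fun y _ hy₂ g h hgh => (cap_le_three hr₂ K₂ hy₂ hgh).trans hlt.le) P hP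

end Crest.Agent.R302.Center
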