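import Crest.Agent.R302.CenOPT646
import Crest.Agent.R302.Center970C
import Crest.Agent.R302.EDM6

/-!
# R302: the deterministic integral centre of `J₁ ∩ J₂ ∩ [lo, hi]`, list version and program
-/

set_option autoImplicit false
set_option linter.dupNamespace false

namespace Crest.Agent.R302.CenL

open Finset Crest.Agent.R302.Facet Crest.Agent.R302.Center Crest.Agent.R302.EDM
open Crest.Agent.Lib.PT Crest.Agent.R309.PTX Crest.Agent.R302.ORAM Function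

section corr

variable {n : ℕ}

theorem cstepL_eq_inv {cp1 cp2 : List ℤ → ℕ → ℕ → ℤ} {c1 c2 : (Fin n → ℤ) → Fin n → Fin n → ℤ}
    {Inv : (Fin n → ℤ) → Prop}
    (h1 : ∀ x, Inv (vecL n x) → ∀ a b : Fin n, a ≠ b → cp1 x a b = c1 (vecL n x) a b)
    (h2 : ∀ x, Inv (vecL n x) → ∀ a b : Fin n, a ≠ b → cp2 x a b = c2 (vecL n x) a b) {θ : ℤ}
    (i1 : ∀ x, Inv x → Inv (halfMove (c1 x) (c2 x) θ x)) {x : List ℤ} (hx : Inv (vecL n x)) :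
    cstepL n cp1 cp2 θ x = List.ofFn (cstep c1 c2 θ (vecL n x)) := by
  unfold cstepL cstep
  rw [halfL_cap (h1 x hx) (h2 x hx)]
  have hy : Inv (vecL n (List.ofFn (halfMove (c1 (vecL n x)) (c2 (vecL n x)) θ (vecL n x)))) := by
    rw [vecL_ofFn]; exact i1 _ hx
  rw [halfL_cap (h2 _ hy) (h1 _ hy), vecL_ofFn]

/-- equality along an invariant set -/
theorem centerL_eq_inv {cp1 cp2 : List ℤ → ℕ → ℕ → ℤ} {c1 c2 : (Fin n → ℤ) → Fin n → Fin n → ℤ}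
    {Inv : (Fin n → ℤ) → Prop}
    (h1 : ∀ x, Inv (vecL n x) → ∀ a b : Fin n, a ≠ b → cp1 x a b = c1 (vecL n x) a b)
    (h2 : ∀ x, Inv (vecL n x) → ∀ a b : Fin n, a ≠ b → cp2 x a b = c2 (vecL n x) a b)
    (i1 : ∀ θ : ℤ, 0 ≤ θ → ∀ x, Inv x → Inv (halfMove (c1 x) (c2 x) θ x))
    (i2 : ∀ θ : ℤ, 0 ≤ θ → ∀ x, Inv x → Inv (halfMove (c2 x) (c1 x) θ x)) (k : ℕ) :
    ∀ x : List ℤ, Inv (vecL n x) →
      centerL n cp1 cp2 k x = List.ofFn (center c1 c2 k (vecL n x)) := by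
  unfold centerL
  induction k with
  | zero =>
    intro x hx
    simp only [zero_add, Function.iterate_one, centerItL, pow_zero]
    rw [cstepL_eq_inv h1 h2 (i1 1 (by norm_num)) hx]
    rfl
  | succ k ih =>
    intro x hx
    rw [Function.iterate_succ_apply]
    have h : centerItL n cp1 cp2 (x, 2 ^ (k + 1)) = (cstepL n cp1 cp2 (2 ^ (k + 1)) x, 2 ^ k) := by
      unfold centerItL
      have : (2 : ℤ) ^ (k + 1) / 2 = 2 ^ k := by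
        rw [pow_succ]
        exact Int.mul_ediv_cancel _ (by norm_num)
      simp only [this]
    have hc := cstepL_eq_inv h1 h2 (i1 (2 ^ (k + 1)) (by positivity)) hx
    have hi : Inv (cstep c1 c2 (2 ^ (k + 1)) (vecL n x)) := by
      unfold cstep
      exact i2 _ (by positivity) _ (i1 _ (by positivity) _ hx)
    rw [h, ih _ (by rw [hc, vecL_ofFn]; exact hi), hc, vecL_ofFn]
    rfl

/-- **the centre of the box instance** -/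
def cenBL (n K : ℕ) (r₁ r₂ : List Bool → ℤ) (R : ℕ) (lo hi : List ℤ) : List ℤ :=
  centerL n (fun x a b => capBL n K r₁ lo hi x a b) (fun x a b => capBL n K r₂ lo hi x a b)
    (3 * K).size (baseBL n K r₁ r₂ R lo hi)

theorem length_cstepL (cp1 cp2 : List ℤ → ℕ → ℕ → ℤ) (θ : ℤ) (x : List ℤ) :
    (cstepL n cp1 cp2 θ x).length = n := by
  unfold cstepL halfL
  simp

theorem length_centerL (cp1 cp2 : List ℤ → ℕ → ℕ → ℤ) (k : ℕ) (x : List ℤ) :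
    (centerL n cp1 cp2 k x).length = n := by
  unfold centerL
  rw [Function.iterate_succ_apply']
  exact length_cstepL _ _ _ _

theorem length_cenBL (K : ℕ) (r₁ r₂ : List Bool → ℤ) (R : ℕ) (lo hi : List ℤ) :
    (cenBL n K r₁ r₂ R lo hi).length = n := length_centerL _ _ _ _

theorem ofFn_vecL {x : List ℤ} (hx : x.length = n) : List.ofFn (vecL n x) = x := by
  apply List.ext_getElem
  · simp [hx]
  · intro i h1 h2
    rw [List.getElem_ofFn]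
    show x.getD i 0 = _
    rw [List.getD_eq_getElem?_getD, List.getElem?_eq_getElem h2]
    rfl

theorem ofFn_cenBL (K : ℕ) (r₁ r₂ : List Bool → ℤ) (R : ℕ) (lo hi : List ℤ) :
    List.ofFn (vecL n (cenBL n K r₁ r₂ R lo hi)) = cenBL n K r₁ r₂ R lo hi :=
  ofFn_vecL (length_cenBL K r₁ r₂ R lo hi)

theorem cenBL_eq {r₁ r₂ : List Bool → ℤ} {ρ₁ ρ₂ : Finset (Fin n) → ℤ}
    (e₁ : RepL n r₁ ρ₁) (e₂ : RepL n r₂ ρ₂) {K R : ℕ} (s₁ : SubM ρ₁ R) (s₂ : SubM ρ₂ R)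
    (b₁ : ∀ A, |ρ₁ A| ≤ K) (b₂ : ∀ A, |ρ₂ A| ≤ K) {lo hi : List ℤ}
    (hR : ∀ i, vecL n hi i - vecL n lo i ≤ R)
    (hne : ∃ x : Fin n → ℤ, (∀ i, vecL n lo i ≤ x i ∧ x i ≤ vecL n hi i) ∧ MemJ ρ₁ R x ∧
      MemJ ρ₂ R x) :
    vecL n (cenBL n K r₁ r₂ R lo hi) =
      center (cap (boxR (vecL n lo) (vecL n hi) ρ₁)) (cap (boxR (vecL n lo) (vecL n hi) ρ₂))
        (3 * K).size (vecL n (baseBL n K r₁ r₂ R lo hi)) := by
  obtain ⟨hb, m1, m2⟩ := baseBL_spec e₁ e₂ s₁ s₂ b₁ b₂ hR hne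
  unfold cenBL
  rw [centerL_eq_inv (c1 := cap (boxR (vecL n lo) (vecL n hi) ρ₁))
    (c2 := cap (boxR (vecL n lo) (vecL n hi) ρ₂))
    (Inv := fun x => MemJ (boxR (vecL n lo) (vecL n hi) ρ₁) R x ∧
      MemJ (boxR (vecL n lo) (vecL n hi) ρ₂) R x) ?_ ?_ ?_ ?_ (3 * K).size _ ?_, vecL_ofFn]
  · rintro x ⟨hx, -⟩ a b hab
    obtain ⟨hx, hbox⟩ := (AnnBox.memJ_boxR s₁ _ _ _).1 hx
    exact capBL_eq e₁ s₁ b₁ hx hbox hab
  · rintro x ⟨-, hx⟩ a b hab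
    obtain ⟨hx, hbox⟩ := (AnnBox.memJ_boxR s₂ _ _ _).1 hx
    exact capBL_eq e₂ s₂ b₂ hx hbox hab
  · rintro θ hθ x ⟨h1, h2⟩
    have h := half_ok h1 h2 hθ
    exact ⟨h.m1, h.m2⟩
  · rintro θ hθ x ⟨h1, h2⟩
    have h := half_ok h2 h1 hθ
    exact ⟨h.m2, h.m1⟩
  · exact ⟨(AnnBox.memJ_boxR s₁ _ _ _).2 ⟨m1, hb⟩, (AnnBox.memJ_boxR s₂ _ _ _).2 ⟨m2, hb⟩⟩

/-- **specification**: an integral centre of the box instance -/
theorem cenBL_spec {r₁ r₂ : List Bool → ℤ} {ρ₁ ρ₂ : Finset (Fin n) → ℤ}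
    (e₁ : RepL n r₁ ρ₁) (e₂ : RepL n r₂ ρ₂) {K R : ℕ} (s₁ : SubM ρ₁ R) (s₂ : SubM ρ₂ R)
    (b₁ : ∀ A, |ρ₁ A| ≤ K) (b₂ : ∀ A, |ρ₂ A| ≤ K) {lo hi : List ℤ}
    (hR : ∀ i, vecL n hi i - vecL n lo i ≤ R)
    (hne : ∃ x : Fin n → ℤ, (∀ i, vecL n lo i ≤ x i ∧ x i ≤ vecL n hi i) ∧ MemJ ρ₁ R x ∧
      MemJ ρ₂ R x) (P : Finset (Fin n → ℤ))
    (hP : ∀ x, x ∈ P → (∀ i, vecL n lo i ≤ x i ∧ x i ≤ vecL n hi i) ∧ MemJ ρ₁ R x ∧
      MemJ ρ₂ R x) :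
    (∀ i, vecL n lo i ≤ vecL n (cenBL n K r₁ r₂ R lo hi) i ∧
      vecL n (cenBL n K r₁ r₂ R lo hi) i ≤ vecL n hi i) ∧
      MemJ ρ₁ R (vecL n (cenBL n K r₁ r₂ R lo hi)) ∧
      MemJ ρ₂ R (vecL n (cenBL n K r₁ r₂ R lo hi)) ∧
      IsCenter (boxR (vecL n lo) (vecL n hi) ρ₁) (boxR (vecL n lo) (vecL n hi) ρ₂) P (cC n)
        (vecL n (cenBL n K r₁ r₂ R lo hi)) := by
  obtain ⟨hb, m1, m2⟩ := baseBL_spec e₁ e₂ s₁ s₂ b₁ b₂ hR hne
  rw [cenBL_eq e₁ e₂ s₁ s₂ b₁ b₂ hR hne]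
  have t₁ : SubM (boxR (vecL n lo) (vecL n hi) ρ₁) R := AnnBox.subM_boxR s₁ m1 hb
  have t₂ : SubM (boxR (vecL n lo) (vecL n hi) ρ₂) R := AnnBox.subM_boxR s₂ m2 hb
  have hlt : ((3 * K : ℕ) : ℤ) < 2 ^ (3 * K).size := by
    exact_mod_cast Nat.lt_size_self (3 * K)
  push_cast at hlt
  have main := center_isCenter t₁ t₂ ((AnnBox.memJ_boxR s₁ _ _ _).2 ⟨m1, hb⟩)
    ((AnnBox.memJ_boxR s₂ _ _ _).2 ⟨m2, hb⟩) (K := (3 * K).size)
    (fun y hy₁ _ g h hgh => by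
      obtain ⟨hy, hbox⟩ := (AnnBox.memJ_boxR s₁ _ _ _).1 hy₁
      rw [AnnBox.cap_boxR s₁ hy hbox hgh]
      exact (min_le_left _ _).trans ((cap_le_three s₁ b₁ hy hgh).trans hlt.le))
    (fun y _ hy₂ g h hgh => by
      obtain ⟨hy, hbox⟩ := (AnnBox.memJ_boxR s₂ _ _ _).1 hy₂
      rw [AnnBox.cap_boxR s₂ hy hbox hgh]
      exact (min_le_left _ _).trans ((cap_le_three s₂ b₂ hy hgh).trans hlt.le)) P
    (fun x hx => by
      obtain ⟨h1, h2, h3⟩ := hP x hx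
      exact ⟨(AnnBox.memJ_boxR s₁ _ _ _).2 ⟨h2, h1⟩, (AnnBox.memJ_boxR s₂ _ _ _).2 ⟨h3, h1⟩⟩)
  obtain ⟨c1, c2, c3⟩ := main
  obtain ⟨d1, d2⟩ := (AnnBox.memJ_boxR s₁ _ _ _).1 c1
  obtain ⟨d3, -⟩ := (AnnBox.memJ_boxR s₂ _ _ _).1 c2
  exact ⟨d2, d1, d3, c3⟩

end corr

section optf

variable {γ : Type} [PTCode γ]

/-- **the centre of the box instance is computable relative to the oracle** -/
theorem cenBL_optf {N K R : Inst → γ → ℕ} {r₁ r₂ : Inst → γ → List Bool → ℤ}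
    {lo hi : Inst → γ → List ℤ} (hn : OPTU N) (hK : OPTF K)
    (h₁ : OPTF (fun I (p : γ × List Bool) => r₁ I p.1 p.2))
    (h₂ : OPTF (fun I (p : γ × List Bool) => r₂ I p.1 p.2)) (hR : OPTF R) (hlo : OPTF lo)
    (hhi : OPTF hi) :
    OPTF (fun I c => cenBL (N I c) (K I c) (r₁ I c) (r₂ I c) (R I c) (lo I c) (hi I c)) := by
  unfold cenBL
  have key : ∀ {r : Inst → γ → List Bool → ℤ},
      OPTF (fun I (p : γ × List Bool) => r I p.1 p.2) →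
      OPTF (fun I (p : γ × List ℤ × ℕ × ℕ) =>
        capBL (N I p.1) (K I p.1) (r I p.1) (lo I p.1) (hi I p.1) p.2.1 p.2.2.1 p.2.2.2) := by
    intro r hr
    exact capBL_optf (ouf hn) (off hK) (ofr hr) (off hlo) (off hhi)
      (OPTF.of_ptf (f := fun p : γ × List ℤ × ℕ × ℕ => p.2.1) (by fun_prop))
      (OPTF.of_ptf (f := fun p : γ × List ℤ × ℕ × ℕ => p.2.2.1) (by fun_prop))
      (OPTF.of_ptf (f := fun p : γ × List ℤ × ℕ × ℕ => p.2.2.2) (by fun_prop))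
  exact centerL_optf (n := N) (k := fun I c => (3 * K I c).size)
    (cp1 := fun I c x a b => capBL (N I c) (K I c) (r₁ I c) (lo I c) (hi I c) x a b)
    (cp2 := fun I c x a b => capBL (N I c) (K I c) (r₂ I c) (lo I c) (hi I c) x a b)
    hn (key h₁) (key h₂) (OPTF.natSize (OPTF.natMul (OPTF.const 3) hK))
    (baseBL_optf hn hK h₁ h₂ hR hlo hhi)

end optf

end Crest.Agent.R302.CenL
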