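import Crest.Agent.R302.SfmPT646
import Crest.Agent.R302.ORAM.OPTF

/-! The cutting-simplices algorithm as a polynomial-time function relative to an oracle. -/

set_option autoImplicit false
set_option linter.dupNamespace false

namespace Crest.Agent.R302.Sfm646

open Finset Crest.Agent.Lib.PT Crest.Agent.R302.ORAM Function

/-! ### size of the orbit for arbitrary answers -/

section size

variable {n : ℕ}

theorem ellL_VL' (g : List ℤ) (V : Fin (n+1) → Fin n → ℤ) :
    ellL n g (VL V) (List.ofFn (cen V)) = List.ofFn (ell (fun j => g.getD j 0) V) := by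
  unfold ellL
  refine range_map_eq_ofFn _ _ _ fun i => ?_
  rw [Finset.sum_range]
  unfold ell
  exact Finset.sum_congr rfl fun j _ => by rw [getD_ofFn, G2_VL]

theorem stepVL_VL' (g : List ℤ) (V : Fin (n+1) → Fin n → ℤ) :
    stepVL n (VL V) g (List.ofFn (cen V)) = VL (stepV V (fun j => g.getD j 0)) := by
  unfold stepVL
  simp only [ellL_VL', argmL_VL]
  unfold VL
  refine range_map_eq_ofFn _ _ _ fun i => ?_
  refine range_map_eq_ofFn _ _ _ fun j => ?_
  have h1 := G2_VL V (argm (ell (fun j => g.getD j 0) V)) j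
  have h2 := G2_VL V i j
  unfold VL at h1 h2
  rw [h1, h2, getD_ofFn, getD_ofFn]
  unfold stepV KcL Kc
  simp only [Fin.val_inj]

/-- shape of a state after `k` steps with arbitrary answers of size at most `T` -/
def Shape (n k T : ℕ) (σ : LSt) : Prop :=
  ∃ V : Fin (n+1) → Fin n → ℤ, σ.1.1 = VL V ∧ (∀ i j, |V i j| ≤ (192 * (n:ℤ)^3)^k * n) ∧
    σ.1.2 = (64 * (n:ℤ)^3)^k ∧ sz σ.2.1 ≤ 3 * n ∧ sz σ.2.2 ≤ T

theorem shape_zero (n T : ℕ) (hT : 3 ≤ T) : Shape n 0 T (sfm0 n) := by
  refine ⟨V0 n, ?_, ?_, by simp [sfm0], ?_, ?_⟩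
  · unfold sfm0 VL V0
    refine range_map_eq_ofFn _ _ _ fun i => ?_
    refine range_map_eq_ofFn _ _ _ fun j => ?_
    simp [Fin.ext_iff]
  · intro i j
    simp only [V0, pow_zero, one_mul]
    split_ifs
    · simp
    · simp
  · simp only [sfm0]
    rw [sz_listBool]; simp
  · have : sz (0:ℤ) = 3 := by rw [sz_int]; rfl
    simp only [sfm0]
    omega

theorem shape_succ (n k T : ℕ) (hT : 3 ≤ T) (σ : LSt) (hσ : Shape n k T σ) (A : List ℤ)
    (hA : ∀ a ∈ A, sz a ≤ T) : Shape n (k+1) T (sfmU n σ A) := by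
  obtain ⟨V, hV, hb, hs, hl, hv⟩ := hσ
  obtain ⟨⟨V', s'⟩, bv⟩ := σ
  simp only at hV hs hl hv
  subst hV
  refine ⟨stepV V (fun j => (cutL n s' (cenL n (VL V)) A).getD j 0), ?_, ?_, ?_, ?_, ?_⟩
  · simp only [sfmU]
    rw [cenL_VL]
    exact stepVL_VL' _ V
  · intro i j
    rcases Nat.eq_zero_or_pos n with hn | hn
    · subst hn; exact j.elim0
    · refine (stepV_bound hn V _ _ hb i j).trans (le_of_eq ?_)
      ring
  · simp only [sfmU, hs]
    ring
  · have key : ∀ (l : List ℕ) (b : List Bool × ℤ), sz b.1 ≤ 3 * n →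
        sz (l.foldl (bestStep n (cenL n (VL V)) A) b).1 ≤ 3 * n := by
      intro l
      induction l with
      | nil => intro b hb; exact hb
      | cons a l ih =>
        intro b hb
        rw [List.foldl_cons]
        apply ih
        unfold bestStep
        split_ifs
        · exact (sz_levL _ _ _).le
        · exact hb
    simp only [sfmU, newBestL]
    cases badL n s' (cenL n (VL V)) with
    | none => exact key _ _ hl
    | some _ => exact hl
  · have hg : ∀ j, sz (A.getD j 0) ≤ T := by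
      intro j
      rw [List.getD_eq_getElem?_getD]
      cases h : A[j]? with
      | none =>
        have : sz (0:ℤ) = 3 := by rw [sz_int]; rfl
        simp only [Option.getD_none]
        omega
      | some a => exact hA a (List.mem_of_getElem? h)
    have key : ∀ (l : List ℕ) (b : List Bool × ℤ), sz b.2 ≤ T →
        sz (l.foldl (bestStep n (cenL n (VL V)) A) b).2 ≤ T := by
      intro l
      induction l with
      | nil => intro b hb; exact hb
      | cons a l ih =>
        intro b hb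
        rw [List.foldl_cons]
        apply ih
        unfold bestStep
        split_ifs
        · exact hg a
        · exact hb
    simp only [sfmU, newBestL]
    cases badL n s' (cenL n (VL V)) with
    | none => exact key _ _ hv
    | some _ => exact hv

theorem length_levL (n : ℕ) (c : List ℤ) (j : ℕ) : (levL n c j).length = n := by simp [levL]

theorem length_levEL (n : ℕ) (c : List ℤ) (j : ℕ) : (levEL n c j).length = n := by simp [levEL]

theorem length_mem_sfmQ (n : ℕ) (σ : LSt) (l : List Bool) (hl : l ∈ sfmQ n σ) : l.length = n := by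
  unfold sfmQ qL at hl
  rw [List.mem_append, List.mem_map, List.mem_map] at hl
  rcases hl with ⟨j, _, rfl⟩ | ⟨j, _, rfl⟩
  · exact length_levL _ _ _
  · exact length_levEL _ _ _

theorem shape_iter (n T : ℕ) (hT : 3 ≤ T) (F : List Bool → ℤ)
    (hF : ∀ l : List Bool, l.length = n → sz (F l) ≤ T) (k : ℕ) :
    Shape n k T ((sfmStep n F)^[k] (sfm0 n)) := by
  induction k with
  | zero => exact shape_zero n T hT
  | succ k ih =>
    rw [Function.iterate_succ_apply']
    refine shape_succ n k T hT _ ih _ ?_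
    intro a ha
    rw [List.mem_map] at ha
    obtain ⟨l, hl, rfl⟩ := ha
    exact hF l (length_mem_sfmQ n _ l hl)

/-- explicit size bound -/
def sfmSzT (n T k : ℕ) : ℕ :=
  2 * (2 * ((n+1) * (2 * (n * (2 * (3 + (n + k * (8 + 3 * n) + 1)) + 1)) + 1)) + 1 +
    (3 + (k * (6 + 3 * n) + 1))) + 1 + (2 * (3 * n) + 1 + T)

theorem sfmSzT_mono (n T : ℕ) {k k' : ℕ} (h : k ≤ k') : sfmSzT n T k ≤ sfmSzT n T k' := by
  unfold sfmSzT
  gcongr

theorem Shape.sz_le {n k T : ℕ} {σ : LSt} (h : Shape n k T σ) : sz σ ≤ sfmSzT n T k := by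
  obtain ⟨V, hV, hb, hs, hl, hv⟩ := h
  have h1 : (n:ℤ) ≤ 2^n := by
    have := Nat.lt_two_pow_self (n := n)
    exact_mod_cast this.le
  have hV' : sz σ.1.1 ≤
      (n+1) * (2 * (n * (2 * (3 + (n + k * (8 + 3 * n) + 1)) + 1)) + 1) := by
    rw [hV]
    refine sz_VL_le _ _ fun i j => (hb i j).trans ?_
    have h2 : 192 * (n:ℤ)^3 ≤ 2^(8 + 3*n) := by
      calc 192 * (n:ℤ)^3 ≤ 256 * (2^n)^3 := by gcongr; norm_num
        _ = 2^(8 + 3*n) := by rw [pow_add, pow_mul']; norm_num
    calc (192 * (n:ℤ)^3)^k * n ≤ (2^(8 + 3*n))^k * 2^n := by gcongr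
      _ = 2 ^ (n + k * (8 + 3 * n)) := by rw [← pow_mul, ← pow_add]; ring_nf
  have hs' : sz σ.1.2 ≤ 3 + (k * (6 + 3 * n) + 1) := by
    refine sz_int_le _ _ ?_
    rw [hs]
    have h2 : 64 * (n:ℤ)^3 ≤ 2^(6 + 3*n) := by
      calc 64 * (n:ℤ)^3 ≤ 64 * (2^n)^3 := by gcongr
        _ = 2^(6 + 3*n) := by rw [pow_add, pow_mul']; norm_num
    rw [abs_of_nonneg (by positivity)]
    calc (64 * (n:ℤ)^3)^k ≤ (2^(6 + 3*n))^k := by gcongr
      _ = 2 ^ (k * (6 + 3 * n)) := by rw [← pow_mul]; ring_nf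
  unfold sfmSzT
  rw [sz_prod, sz_prod, sz_prod]
  omega

end size

/-! ### the program -/

/-- run of the algorithm: the best set and its value -/
def sfmRun (n M : ℕ) (F : List Bool → ℤ) : List Bool × ℤ :=
  ((sfmStep n F)^[sfmIter n M] (sfm0 n)).2

section optf

variable {γ : Type} [PTCode γ]

/-- **the minimiser is computable relative to the oracle** -/
theorem sfmRun_optf {n : γ → ℕ} {M : γ → ℕ} {F : Inst → γ → List Bool → ℤ} (hn : PTU n)
    (hM : PTF M) (hF : OPTF (fun I (p : γ × List Bool) => F I p.1 p.2)) :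
    OPTF (fun I c => sfmRun (n c) (M c) (F I c)) := by
  obtain ⟨p, hp⟩ := hF.bound
  have hstep : OPTF (fun I (q : γ × LSt) => sfmStep (n q.1) (F I q.1) q.2) := by
    have hn1 : PTU (fun q : γ × LSt => n q.1) := PTU.comp hn PTF.fst
    have h1 : OPTF (fun I (q : γ × LSt) => (sfmQ (n q.1) q.2).map (F I q.1)) := by
      refine OPTF.map (f := fun I (q : γ × LSt) l => F I q.1 l)
        (OPTF.of_ptf (ptf_sfmQ hn1 (by fun_prop))) ?_
      exact OPTF.pre (g := fun I (p : γ × List Bool) => F I p.1 p.2)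
        (f := fun q : (γ × LSt) × List Bool => (q.1.1, q.2)) hF (by fun_prop)
    have h2 : PTF (fun q : (γ × LSt) × List ℤ => sfmU (n q.1.1) q.1.2 q.2) :=
      ptf_sfmU (PTU.comp hn (by fun_prop)) (by fun_prop) (by fun_prop)
    exact OPTF.post (f := fun I (q : γ × LSt) => (q, (sfmQ (n q.1) q.2).map (F I q.1)))
      h2 (OPTF.prodMk OPTF.id h1)
  have hit : OPTF (fun I c => (sfmStep (n c) (F I c))^[sfmIter (n c) (M c)] (sfm0 (n c))) := by
    refine OPTF.iterate (f := fun I c σ => sfmStep (n c) (F I c) σ)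
      (n := fun _ c => sfmIter (n c) (M c)) (a := fun _ c => sfm0 (n c))
      (OPTU.of_ptu (ptu_sfmIter hn hM)) hstep (OPTF.of_ptf (ptf_sfm0 hn))
      (B := fun I c => sfmSzT (n c) (p.eval (2 * sz c + 1 + 3 * n c + I.sz) + 3)
        (sfmIter (n c) (M c))) ?_ ?_
    · have hnB : OPB (fun (_ : Inst) (c : γ) => n c) := OPB.of_pb (PTU.pb hn)
      have hkB : OPB (fun (_ : Inst) (c : γ) => sfmIter (n c) (M c)) :=
        OPB.of_pb (PTU.pb (ptu_sfmIter hn hM))
      have hT : OPB (fun I (c : γ) => p.eval (2 * sz c + 1 + 3 * n c + I.sz) + 3) :=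
        (OPB.eval p (((((OPB.const 2).mul OPB.sz).add (OPB.const 1)).add
          ((OPB.const 3).mul hnB)).add OPB.inst)).add (OPB.const 3)
      have c2 := OPB.const (α := γ) 2
      have c1 := OPB.const (α := γ) 1
      have c3 := OPB.const (α := γ) 3
      have h8 : OPB (fun (_ : Inst) (c : γ) => 8 + 3 * n c) := (OPB.const 8).add (c3.mul hnB)
      have h6 : OPB (fun (_ : Inst) (c : γ) => 6 + 3 * n c) := (OPB.const 6).add (c3.mul hnB)
      unfold sfmSzT
      exact ((c2.mul (((c2.mul ((hnB.add c1).mul ((c2.mul (hnB.mul ((c2.mul (c3.add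
        ((hnB.add (hkB.mul h8)).add c1))).add c1))).add c1))).add c1).add
        (c3.add ((hkB.mul h6).add c1)))).add c1).add (((c2.mul (c3.mul hnB)).add c1).add hT)
    · intro I c i hi
      refine ((shape_iter (n c) (p.eval (2 * sz c + 1 + 3 * n c + I.sz) + 3) (by omega) (F I c)
        ?_ i).sz_le).trans (sfmSzT_mono _ _ hi)
      intro l hl
      have h := hp I (c, l)
      rw [sz_prod, sz_listBool, hl] at h
      exact h.trans (Nat.le_add_right _ _)
  exact OPTF.snd hit

end optf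

/-! ### specification -/

section spec

variable {n : ℕ}

theorem sfmRun_eq (M : ℕ) (f : Finset (Fin n) → ℤ) (F : List Bool → ℤ)
    (hF : ∀ A, F (bitsOf A) = f A) (h0 : f ∅ = 0) :
    sfmRun n M F = (bitsOf (sfmArg n M f), f (sfmArg n M f)) :=
  sfmStep_final M f F hF h0

/-- minimisation without normalisation: values `F l`, `|F| ≤ M` -/
def minSF (n M : ℕ) (F : List Bool → ℤ) : List Bool × ℤ :=
  ((sfmRun n (2 * M) (fun l => F l - F (List.replicate n false))).1,
    (sfmRun n (2 * M) (fun l => F l - F (List.replicate n false))).2 + F (List.replicate n false))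

theorem bitsOf_empty : bitsOf (∅ : Finset (Fin n)) = List.replicate n false := by
  unfold bitsOf
  simp only [Finset.notMem_empty, decide_false]
  exact List.ofFn_const n false

theorem minSF_spec {M : ℕ} {f : Finset (Fin n) → ℤ} {F : List Bool → ℤ}
    (hF : ∀ A, F (bitsOf A) = f A) (hf : ∀ A B, f (A ∪ B) + f (A ∩ B) ≤ f A + f B)
    (hM : ∀ A, |f A| ≤ M) :
    ∃ S, minSF n M F = (bitsOf S, f S) ∧ ∀ A, f S ≤ f A := by
  have h1 := sfmRun_eq (2 * M) (fun A => f A - f ∅) (fun l => F l - F (List.replicate n false))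
    (fun A => by rw [hF, ← bitsOf_empty, hF]) (by simp)
  refine ⟨sfmArg n (2 * M) (fun A => f A - f ∅), ?_, ?_⟩
  · unfold minSF
    rw [h1, ← bitsOf_empty, hF]
    simp
  · intro A
    have := sfmArg_spec (n := n) (fun A => f A - f ∅) (fun A B => by linarith [hf A B]) (by simp)
      (2 * M) (fun A => by
        have h2 := abs_le.mp (hM A)
        have h3 := abs_le.mp (hM ∅)
        rw [abs_le]; push_cast; constructor <;> linarith [h2.1, h2.2, h3.1, h3.2]) A
    linarith

/-- constrained version: sets containing `inc` and disjoint from `exc` -/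
def forceL (inc exc : List Bool) (l : List Bool) : List Bool :=
  List.zipWith (fun (a : Bool) (b : Bool × Bool) => (a && !b.2) || b.1) l (inc.zip exc)

theorem forceL_bitsOf (Ic Oc A : Finset (Fin n)) :
    forceL (bitsOf Ic) (bitsOf Oc) (bitsOf A) = bitsOf ((A \ Oc) ∪ Ic) := by
  unfold forceL bitsOf
  apply List.ext_getElem
  · simp
  · intro i h1 h2
    simp

/-- constrained minimisation -/
def minSFC (n M : ℕ) (inc exc : List Bool) (F : List Bool → ℤ) : List Bool × ℤ :=
  (forceL inc exc (minSF n M (fun l => F (forceL inc exc l))).1,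
    (minSF n M (fun l => F (forceL inc exc l))).2)

theorem minSFC_spec {M : ℕ} {f : Finset (Fin n) → ℤ} {F : List Bool → ℤ}
    (hF : ∀ A, F (bitsOf A) = f A) (hf : ∀ A B, f (A ∪ B) + f (A ∩ B) ≤ f A + f B)
    (hM : ∀ A, |f A| ≤ M) (Ic Oc : Finset (Fin n)) (hd : Disjoint Ic Oc) :
    ∃ S, minSFC n M (bitsOf Ic) (bitsOf Oc) F = (bitsOf S, f S) ∧ Ic ⊆ S ∧ Disjoint S Oc ∧
      ∀ A, Ic ⊆ A → Disjoint A Oc → f S ≤ f A := by
  obtain ⟨S, hS, hS'⟩ := minSF_spec (n := n) (M := M) (f := fun A => f ((A \ Oc) ∪ Ic))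
    (F := fun l => F (forceL (bitsOf Ic) (bitsOf Oc) l))
    (fun A => by rw [forceL_bitsOf, hF])
    (fun A B => by
      have h := hf ((A \ Oc) ∪ Ic) ((B \ Oc) ∪ Ic)
      have e1 : ((A \ Oc) ∪ Ic) ∪ ((B \ Oc) ∪ Ic) = ((A ∪ B) \ Oc) ∪ Ic := by
        ext x; simp only [mem_union, mem_sdiff]; tauto
      have e2 : ((A \ Oc) ∪ Ic) ∩ ((B \ Oc) ∪ Ic) = ((A ∩ B) \ Oc) ∪ Ic := by
        ext x; simp only [mem_union, mem_sdiff, mem_inter]; tauto
      rw [e1, e2] at h
      exact h) (fun A => hM _)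
  refine ⟨(S \ Oc) ∪ Ic, ?_, subset_union_right, ?_, ?_⟩
  · unfold minSFC
    rw [hS]
    simp only [forceL_bitsOf]
  · rw [disjoint_union_left]
    exact ⟨disjoint_sdiff_self_left, hd⟩
  · intro A hA hA'
    have := hS' A
    have e : (A \ Oc) ∪ Ic = A := by
      rw [sdiff_eq_self_of_disjoint hA', union_eq_left.mpr hA]
    rw [e] at this
    exact this

end spec

section optf2

variable {γ : Type} [PTCode γ]

theorem minSF_optf {n : γ → ℕ} {M : γ → ℕ} {F : Inst → γ → List Bool → ℤ} (hn : PTU n)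
    (hM : PTF M) (hF : OPTF (fun I (p : γ × List Bool) => F I p.1 p.2)) :
    OPTF (fun I c => minSF (n c) (M c) (F I c)) := by
  have hz : OPTF (fun I (c : γ) => F I c (List.replicate (n c) false)) :=
    OPTF.pre (g := fun I (p : γ × List Bool) => F I p.1 p.2)
      (f := fun c : γ => (c, List.replicate (n c) false)) hF
      (PTF.prodMk PTF.id (PTF.replicate hn (PTF.const false)))
  have hz' : OPTF (fun I (p : γ × List Bool) => F I p.1 (List.replicate (n p.1) false)) :=
    OPTF.pre (g := fun I (c : γ) => F I c (List.replicate (n c) false))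
      (f := fun p : γ × List Bool => p.1) hz (by fun_prop)
  have hd : OPTF (fun I (p : γ × List Bool) =>
      F I p.1 p.2 - F I p.1 (List.replicate (n p.1) false)) :=
    OPTF.post₂ (g := fun a b : ℤ => a - b) (PTF.intSub (by fun_prop) (by fun_prop)) hF hz'
  have hM2 : PTF (fun c : γ => 2 * M c) := PTF.natMul (PTF.const 2) hM
  have hr := sfmRun_optf (F := fun I c l => F I c l - F I c (List.replicate (n c) false)) hn hM2 hd
  exact OPTF.prodMk (OPTF.fst hr) (OPTF.post₂ (g := fun a b : ℤ => a + b) (PTF.intAdd (by fun_prop) (by fun_prop)) (OPTF.snd hr) hz)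

theorem ptf_forceL {inc exc l : γ → List Bool} (hi : PTF inc) (he : PTF exc) (hl : PTF l) :
    PTF (fun c => forceL (inc c) (exc c) (l c)) := by
  unfold forceL
  refine PTF.zipWith (f := fun _ (a : Bool) (b : Bool × Bool) => (a && !b.2) || b.1) hl
    (PTF.zip hi he) ?_
  fun_prop

theorem minSFC_optf {n : γ → ℕ} {M : γ → ℕ} {inc exc : γ → List Bool}
    {F : Inst → γ → List Bool → ℤ} (hn : PTU n) (hM : PTF M) (hi : PTF inc) (he : PTF exc)
    (hF : OPTF (fun I (p : γ × List Bool) => F I p.1 p.2)) :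
    OPTF (fun I c => minSFC (n c) (M c) (inc c) (exc c) (F I c)) := by
  have hF' : OPTF (fun I (p : γ × List Bool) => F I p.1 (forceL (inc p.1) (exc p.1) p.2)) :=
    OPTF.pre (g := fun I (p : γ × List Bool) => F I p.1 p.2)
      (f := fun p : γ × List Bool => (p.1, forceL (inc p.1) (exc p.1) p.2)) hF
      (PTF.prodMk PTF.fst (ptf_forceL (PTF.comp hi PTF.fst) (PTF.comp he PTF.fst) PTF.snd))
  have hm := minSF_optf (F := fun I c l => F I c (forceL (inc c) (exc c) l)) hn hM hF'
  refine OPTF.prodMk ?_ (OPTF.snd hm)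
  exact OPTF.post (g := fun p : γ × List Bool => forceL (inc p.1) (exc p.1) p.2)
    (f := fun I c => (c, (minSF (n c) (M c) (fun l => F I c (forceL (inc c) (exc c) l))).1))
    (ptf_forceL (PTF.comp hi PTF.fst) (PTF.comp he PTF.fst) PTF.snd)
    (OPTF.prodMk OPTF.id (OPTF.fst hm))

end optf2

end Crest.Agent.R302.Sfm646
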