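import Crest.Agent.R302.EDMBox
import Crest.Agent.R302.SfmOPT646

/-!
# R302 / EDM, part 4: list-coded versions (data are lists of booleans / integers)
-/

set_option autoImplicit false

namespace Crest.Agent.R302.EDM

open Finset Crest.Agent.R302.Facet Crest.Agent.R302.Sfm646 Crest.Agent.Lib.PT.Arith

/-! ### codes -/

/-- the set coded by a list of booleans -/
def setL (n : ℕ) (l : List Bool) : Finset (Fin n) := univ.filter fun i => l.getD i false = true

/-- the code of a set -/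
def bitsL (n : ℕ) (A : Finset (Fin n)) : List Bool := List.ofFn fun i : Fin n => decide (i ∈ A)

/-- the vector coded by a list of integers -/
def vecL (n : ℕ) (x : List ℤ) : Fin n → ℤ := fun i => x.getD i 0

variable {n : ℕ}

theorem mem_setL {l : List Bool} {i : Fin n} : i ∈ setL n l ↔ l.getD i false = true := by
  simp [setL]

theorem setL_bitsL (A : Finset (Fin n)) : setL n (bitsL n A) = A := by
  ext i
  rw [mem_setL, bitsL, List.getD_eq_getElem?_getD, List.getElem?_ofFn]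
  simp

theorem length_bitsL (A : Finset (Fin n)) : (bitsL n A).length = n := by simp [bitsL]

theorem getD_mapRange {α : Type*} (g : ℕ → α) (d : α) (i : Fin n) :
    ((List.range n).map g).getD i d = g i := by
  rw [List.getD_eq_getElem?_getD, List.getElem?_map, List.getElem?_range i.isLt]
  rfl

theorem setL_map (g : ℕ → Bool) :
    setL n ((List.range n).map g) = univ.filter fun i : Fin n => g i = true := by
  ext i
  rw [mem_setL, getD_mapRange]
  simp

theorem sum_mapRange {M : Type*} [AddCommMonoid M] (g : ℕ → M) :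
    ((List.range n).map g).sum = ∑ i : Fin n, g i := by
  rw [Fin.sum_univ_eq_sum_range g n, ← List.sum_toFinset g List.nodup_range, List.toFinset_range]

/-- the list function `r` represents the set function `ρ` -/
def RepL (n : ℕ) (r : List Bool → ℤ) (ρ : Finset (Fin n) → ℤ) : Prop := ∀ l, r l = ρ (setL n l)

theorem RepL.comp_bitsL {r : List Bool → ℤ} {ρ : Finset (Fin n) → ℤ} (h : RepL n r ρ) :
    (fun A => r (bitsL n A)) = ρ := by
  funext A
  rw [h, setL_bitsL]

/-! ### submodular minimisation -/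

/-- the minimiser as a list (helper646's program) -/
def sfmL (n M : ℕ) (f : List Bool → ℤ) : List Bool := (sfmRun n M f).1

theorem setL_sfmL (M : ℕ) {f : List Bool → ℤ} {φ : Finset (Fin n) → ℤ} (h : RepL n f φ)
    (h0 : φ ∅ = 0) : setL n (sfmL n M f) = sfmArg n M φ := by
  rw [sfmL, sfmRun_eq M φ f (fun A => by rw [h]; exact congrArg φ (setL_bitsL A)) h0]
  exact setL_bitsL _

theorem RepL.sfmL {f : List Bool → ℤ} {φ : Finset (Fin n) → ℤ} (h : RepL n f φ) (M : ℕ)
    (h0 : φ ∅ = 0) : f (sfmL n M f) = sfmMin n M φ := by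
  rw [h, setL_sfmL M h h0]
  rfl

/-! ### linear functions -/

/-- `∑ x j` over the coded set -/
def dotL (n : ℕ) (x : List ℤ) (l : List Bool) : ℤ :=
  ((List.range n).map fun j => if l.getD j false = true then x.getD j 0 else 0).sum

theorem dotL_eq (x : List ℤ) (l : List Bool) : dotL n x l = ∑ j ∈ setL n l, vecL n x j := by
  rw [dotL, sum_mapRange, setL, Finset.sum_filter]
  rfl

/-- `∑ x j` -/
def totL (n : ℕ) (x : List ℤ) : ℤ := ((List.range n).map fun j => x.getD j 0).sum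

theorem totL_eq (x : List ℤ) : totL n x = ∑ j, vecL n x j := by
  rw [totL, sum_mapRange]
  rfl

/-- `∑ |x j|` -/
def nrmL (n : ℕ) (x : List ℤ) : ℕ := ((List.range n).map fun j => (x.getD j 0).natAbs).sum

theorem nrmL_eq (x : List ℤ) : nrmL n x = nrm (vecL n x) := by
  rw [nrmL, sum_mapRange]
  rfl

/-- slack -/
def slkL (n : ℕ) (r : List Bool → ℤ) (x : List ℤ) (l : List Bool) : ℤ := r l - dotL n x l

theorem slkL_rep {r : List Bool → ℤ} {ρ : Finset (Fin n) → ℤ} (h : RepL n r ρ) (x : List ℤ) :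
    RepL n (slkL n r x) (fun A => ρ A - ∑ j ∈ A, vecL n x j) := by
  intro l
  rw [slkL, h, dotL_eq]

/-- minimum of the slack -/
def minSlkL (n K : ℕ) (r : List Bool → ℤ) (x : List ℤ) : ℤ :=
  slkL n r x (sfmL n (K + nrmL n x) (slkL n r x))

theorem minSlkL_eq (K : ℕ) {r : List Bool → ℤ} {ρ : Finset (Fin n) → ℤ} (h : RepL n r ρ)
    (h0 : ρ ∅ = 0) (x : List ℤ) : minSlkL n K r x = minSlk n K ρ (vecL n x) := by
  rw [minSlkL, (slkL_rep h x).sfmL _ (by simp [h0]), nrmL_eq]
  rfl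

/-- membership in the base polytope -/
def memL (n K : ℕ) (r : List Bool → ℤ) (R : ℤ) (x : List ℤ) : Bool :=
  decide (totL n x = R) && decide (0 ≤ minSlkL n K r x)

theorem memL_eq (K : ℕ) {r : List Bool → ℤ} {ρ : Finset (Fin n) → ℤ} (h : RepL n r ρ)
    (h0 : ρ ∅ = 0) (R : ℤ) (x : List ℤ) : memL n K r R x = memQ n K ρ R (vecL n x) := by
  rw [memL, memQ, totL_eq, minSlkL_eq K h h0]

theorem memL_iff {r : List Bool → ℤ} {ρ : Finset (Fin n) → ℤ} (h : RepL n r ρ) {K : ℕ} {R : ℤ}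
    (hr : SubM ρ R) (hK : ∀ A, |ρ A| ≤ K) (x : List ℤ) :
    memL n K r R x = true ↔ MemJ ρ R (vecL n x) := by
  rw [memL_eq K h hr.empty, memQ_iff hr hK]

/-! ### constrained minimisation and capacities -/

/-- `(A \ O) ∪ I` -/
def maskL (n : ℕ) (I O l : List Bool) : List Bool :=
  (List.range n).map fun j => (l.getD j false && !O.getD j false) || I.getD j false

theorem setL_maskL (I O l : List Bool) :
    setL n (maskL n I O l) = setL n l \ setL n O ∪ setL n I := by
  rw [maskL, setL_map]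
  ext i
  simp only [mem_filter, mem_univ, true_and, mem_union, mem_sdiff, mem_setL, Bool.or_eq_true,
    Bool.and_eq_true, Bool.not_eq_true', Bool.not_eq_true]

/-- minimiser between `I` and the complement of `O` -/
def minInL (n M : ℕ) (I O : List Bool) (f : List Bool → ℤ) : List Bool :=
  maskL n I O (sfmL n (2 * M) fun l => f (maskL n I O l) - f I)

theorem setL_minInL (M : ℕ) (I O : List Bool) {f : List Bool → ℤ} {φ : Finset (Fin n) → ℤ}
    (h : RepL n f φ) : setL n (minInL n M I O f) = minIn n M (setL n I) (setL n O) φ := by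
  rw [minInL, setL_maskL, setL_sfmL (φ := fun A => φ (A \ setL n O ∪ setL n I) - φ (setL n I))]
  · rfl
  · intro l
    show f (maskL n I O l) - f I = _
    rw [h, h, setL_maskL]
  · simp

/-- a singleton -/
def singL (n a : ℕ) : List Bool := (List.range n).map fun j => decide (j = a)

theorem setL_singL (a : Fin n) : setL n (singL n a) = {a} := by
  rw [singL, setL_map]
  ext i
  simp [Fin.ext_iff]

/-- exchange capacity -/
def capL (n K : ℕ) (r : List Bool → ℤ) (x : List ℤ) (a b : ℕ) : ℤ :=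
  slkL n r x (minInL n (K + nrmL n x) (singL n a) (singL n b) (slkL n r x))

theorem capL_eq_capQ (K : ℕ) {r : List Bool → ℤ} {ρ : Finset (Fin n) → ℤ} (h : RepL n r ρ)
    (x : List ℤ) (a b : Fin n) : capL n K r x a b = capQ n K ρ (vecL n x) a b := by
  rw [capL, slkL_rep h x, setL_minInL _ _ _ (slkL_rep h x), setL_singL, setL_singL, nrmL_eq]
  rfl

theorem capL_eq {r : List Bool → ℤ} {ρ : Finset (Fin n) → ℤ} (h : RepL n r ρ) {K : ℕ} {R : ℤ}
    (hr : SubM ρ R) (hK : ∀ A, |ρ A| ≤ K) (x : List ℤ) {a b : Fin n} (hab : a ≠ b) :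
    capL n K r x a b = cap ρ (vecL n x) a b := by
  rw [capL_eq_capQ K h, capQ_eq hr hK _ hab]

/-! ### emptiness -/

/-- complement -/
def cmpL (n : ℕ) (l : List Bool) : List Bool := (List.range n).map fun j => !l.getD j false

theorem setL_cmpL (l : List Bool) : setL n (cmpL n l) = (setL n l)ᶜ := by
  rw [cmpL, setL_map]
  ext i
  simp only [mem_filter, mem_univ, true_and, mem_compl, mem_setL, Bool.not_eq_true',
    Bool.not_eq_true]

/-- `r₁ A + r₂ Aᶜ - R` -/
def cplL (n : ℕ) (r₁ r₂ : List Bool → ℤ) (R : ℤ) (l : List Bool) : ℤ := r₁ l + r₂ (cmpL n l) - R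

theorem cplL_rep {r₁ r₂ : List Bool → ℤ} {ρ₁ ρ₂ : Finset (Fin n) → ℤ} (h₁ : RepL n r₁ ρ₁)
    (h₂ : RepL n r₂ ρ₂) (R : ℤ) : RepL n (cplL n r₁ r₂ R) (fun A => ρ₁ A + ρ₂ Aᶜ - R) := by
  intro l
  rw [cplL, h₁, h₂, setL_cmpL]

/-- the emptiness gap -/
def gapL (n K : ℕ) (r₁ r₂ : List Bool → ℤ) (R : ℤ) : ℤ :=
  cplL n r₁ r₂ R (sfmL n (2 * K + R.natAbs) (cplL n r₁ r₂ R))

theorem gapL_eq (K : ℕ) {r₁ r₂ : List Bool → ℤ} {ρ₁ ρ₂ : Finset (Fin n) → ℤ}
    (h₁ : RepL n r₁ ρ₁) (h₂ : RepL n r₂ ρ₂) {R : ℤ} (s₁ : SubM ρ₁ R) (s₂ : SubM ρ₂ R) :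
    gapL n K r₁ r₂ R = gapQ n K ρ₁ ρ₂ R := by
  rw [gapL, (cplL_rep h₁ h₂ R).sfmL _ (by simp [s₁.empty, s₂.univ])]
  rfl

/-! ### halves -/

/-- first half -/
def fstL (n : ℕ) (l : List Bool) : List Bool := (List.range n).map fun j => l.getD j false

/-- second half -/
def sndL (n : ℕ) (l : List Bool) : List Bool := (List.range n).map fun j => l.getD (n + j) false

theorem setL_fstL (l : List Bool) : setL n (fstL n l) = fstH (setL (n + n) l) := by
  rw [fstL, setL_map, fstH]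
  ext i
  simp only [mem_filter, mem_univ, true_and, mem_setL, Fin.val_castAdd]

theorem setL_sndL (l : List Bool) : setL n (sndL n l) = sndH (setL (n + n) l) := by
  rw [sndL, setL_map, sndH]
  ext i
  simp only [mem_filter, mem_univ, true_and, mem_setL, Fin.val_natAdd]

/-- the coupled function of `feasQ` -/
def dblFL (n : ℕ) (r₁ r₂ : List Bool → ℤ) (R : ℤ) (x : List ℤ) (l : List Bool) : ℤ :=
  r₁ (fstL n l) + r₂ (cmpL n (sndL n l)) +
    ((List.range n).map fun j =>
      if l.getD (n + j) false = true ∧ l.getD j false = false then R else 0).sum -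
    ((List.range n).map fun j =>
      if l.getD j false = true ∧ l.getD (n + j) false = false then x.getD j 0 else 0).sum - R

theorem mem_fstH_setL {l : List Bool} {i : Fin n} :
    i ∈ fstH (setL (n + n) l) ↔ l.getD i false = true := by
  rw [fstH, mem_filter, mem_setL]
  simp

theorem mem_sndH_setL {l : List Bool} {i : Fin n} :
    i ∈ sndH (setL (n + n) l) ↔ l.getD (n + i) false = true := by
  rw [sndH, mem_filter, mem_setL]
  simp [add_comm]

theorem dblFL_rep {r₁ r₂ : List Bool → ℤ} {ρ₁ ρ₂ : Finset (Fin n) → ℤ} (h₁ : RepL n r₁ ρ₁)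
    (h₂ : RepL n r₂ ρ₂) (R : ℤ) (x : List ℤ) :
    RepL (n + n) (dblFL n r₁ r₂ R x) (dblF ρ₁ ρ₂ R (vecL n x)) := by
  intro l
  rw [dblFL, dblF, h₁, h₂, setL_cmpL, setL_fstL, setL_sndL, sum_mapRange, sum_mapRange]
  simp only [mem_fstH_setL, mem_sndH_setL, Bool.not_eq_true]
  rfl

/-- is there a common base above the vector? -/
def feasL (n K : ℕ) (r₁ r₂ : List Bool → ℤ) (R : ℤ) (x : List ℤ) : Bool :=
  (List.range n).all (fun j => decide (x.getD j 0 ≤ R)) &&
    decide (0 ≤ dblFL n r₁ r₂ R x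
      (sfmL (n + n) (2 * K + (n + 1) * R.natAbs + nrmL n x) (dblFL n r₁ r₂ R x)))

theorem all_range_iff (p : ℕ → Bool) :
    (List.range n).all p = (List.finRange n).all fun i : Fin n => p i := by
  rw [Bool.eq_iff_iff, List.all_eq_true, List.all_eq_true]
  constructor
  · intro h i _
    exact h i (List.mem_range.2 i.isLt)
  · intro h j hj
    exact h ⟨j, List.mem_range.1 hj⟩ (List.mem_finRange _)

theorem feasL_eq (K : ℕ) {r₁ r₂ : List Bool → ℤ} {ρ₁ ρ₂ : Finset (Fin n) → ℤ}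
    (h₁ : RepL n r₁ ρ₁) (h₂ : RepL n r₂ ρ₂) {R : ℤ} (s₁ : SubM ρ₁ R) (s₂ : SubM ρ₂ R)
    (x : List ℤ) : feasL n K r₁ r₂ R x = feasQ n K ρ₁ ρ₂ R (vecL n x) := by
  rw [feasL, feasQ, (dblFL_rep h₁ h₂ R x).sfmL _ (by simp [dblF, fstH, sndH, s₁.empty, s₂.univ]),
    nrmL_eq, all_range_iff]
  rfl

/-- the coupled function of `feasB` -/
def dblBL (n : ℕ) (r₁ r₂ : List Bool → ℤ) (R : ℤ) (lo hi : List ℤ) (l : List Bool) : ℤ :=
  r₁ (fstL n l) + r₂ (cmpL n (sndL n l)) +
    (((List.range n).map fun j =>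
      if l.getD (n + j) false = true ∧ l.getD j false = false then hi.getD j 0 else 0).sum -
    ((List.range n).map fun j =>
      if l.getD j false = true ∧ l.getD (n + j) false = false then lo.getD j 0 else 0).sum) - R

theorem dblBL_rep {r₁ r₂ : List Bool → ℤ} {ρ₁ ρ₂ : Finset (Fin n) → ℤ} (h₁ : RepL n r₁ ρ₁)
    (h₂ : RepL n r₂ ρ₂) (R : ℤ) (lo hi : List ℤ) :
    RepL (n + n) (dblBL n r₁ r₂ R lo hi) (dblB ρ₁ ρ₂ R (vecL n lo) (vecL n hi)) := by
  intro l
  rw [dblBL, dblB, h₁, h₂, setL_cmpL, setL_fstL, setL_sndL, sum_mapRange, sum_mapRange, bx,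
    ← Finset.sum_filter, ← Finset.sum_filter]
  congr 4
  · ext i
    simp only [mem_filter, mem_univ, true_and, mem_sdiff, mem_fstH_setL, mem_sndH_setL,
      Bool.not_eq_true]
  · ext i
    simp only [mem_filter, mem_univ, true_and, mem_sdiff, mem_fstH_setL, mem_sndH_setL,
      Bool.not_eq_true]

/-- is there a common base in the box? -/
def feasBL (n K : ℕ) (r₁ r₂ : List Bool → ℤ) (R : ℤ) (lo hi : List ℤ) : Bool :=
  (List.range n).all (fun j => decide (lo.getD j 0 ≤ hi.getD j 0)) &&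
    decide (0 ≤ dblBL n r₁ r₂ R lo hi
      (sfmL (n + n) (2 * K + R.natAbs + (nrmL n hi + nrmL n lo)) (dblBL n r₁ r₂ R lo hi)))

theorem feasBL_eq (K : ℕ) {r₁ r₂ : List Bool → ℤ} {ρ₁ ρ₂ : Finset (Fin n) → ℤ}
    (h₁ : RepL n r₁ ρ₁) (h₂ : RepL n r₂ ρ₂) {R : ℤ} (s₁ : SubM ρ₁ R) (s₂ : SubM ρ₂ R)
    (lo hi : List ℤ) :
    feasBL n K r₁ r₂ R lo hi = feasB n K ρ₁ ρ₂ R (vecL n lo) (vecL n hi) := by
  rw [feasBL, feasB, (dblBL_rep h₁ h₂ R lo hi).sfmL _
    (by simp [dblB, fstH, sndH, s₁.empty, s₂.univ, bx]), nrmL_eq, nrmL_eq, all_range_iff]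
  rfl

theorem feasBL_iff {r₁ r₂ : List Bool → ℤ} {ρ₁ ρ₂ : Finset (Fin n) → ℤ} (h₁ : RepL n r₁ ρ₁)
    (h₂ : RepL n r₂ ρ₂) {K : ℕ} {R : ℤ} (s₁ : SubM ρ₁ R) (s₂ : SubM ρ₂ R)
    (K₁ : ∀ A, |ρ₁ A| ≤ K) (K₂ : ∀ A, |ρ₂ A| ≤ K) (lo hi : List ℤ) :
    feasBL n K r₁ r₂ R lo hi = true ↔ ∃ x : Fin n → ℤ,
      (∀ i, vecL n lo i ≤ x i ∧ x i ≤ vecL n hi i) ∧ MemJ ρ₁ R x ∧ MemJ ρ₂ R x := by
  rw [feasBL_eq K h₁ h₂ s₁ s₂, feasB_iff s₁ s₂ K₁ K₂]

/-! ### the finder -/

/-- one coordinate -/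
def findStepL (K : ℕ) (P : List ℤ → Bool) (l : List ℤ) (j : ℕ) : List ℤ :=
  l.set j (bsMax K fun t => P (l.set j (t : ℤ)))

/-- coordinatewise maximal lower bound -/
def findVecL (n K : ℕ) (P : List ℤ → Bool) : List ℤ :=
  (List.range n).foldl (findStepL K P) (List.replicate n 0)

theorem vecL_set {l : List ℤ} (j : Fin n) (hj : n ≤ l.length) (t : ℤ) :
    vecL n (l.set j t) = Function.update (vecL n l) j t := by
  funext i
  unfold vecL
  rw [List.getD_eq_getElem?_getD, List.getElem?_set]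
  by_cases h : i = j
  · subst h
    rw [Function.update_self, if_pos rfl, if_pos (by omega)]
    rfl
  · rw [Function.update_of_ne h, if_neg (fun e => h (Fin.ext e.symm)), List.getD_eq_getElem?_getD]

theorem findVecL_aux (K : ℕ) {P : List ℤ → Bool} {Q : (Fin n → ℤ) → Bool}
    (h : ∀ l : List ℤ, P l = Q (vecL n l)) (L : List (Fin n)) (l : List ℤ) (hl : n ≤ l.length) :
    vecL n ((L.map fun i : Fin n => (i : ℕ)).foldl (findStepL K P) l) =
      L.foldl (findStep K Q) (vecL n l) := by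
  induction L generalizing l with
  | nil => rfl
  | cons j L ih =>
    rw [List.map_cons, List.foldl_cons, List.foldl_cons, ih _ (by simpa [findStepL] using hl)]
    congr 1
    rw [findStepL, vecL_set j hl, findStep]
    congr 3
    funext t
    rw [h, vecL_set j hl]

theorem map_val_finRange (n : ℕ) : (List.finRange n).map (fun i : Fin n => (i : ℕ)) =
    List.range n := by
  refine List.ext_getElem (by simp) fun i h1 h2 => ?_
  simp

theorem findVecL_eq (K : ℕ) {P : List ℤ → Bool} {Q : (Fin n → ℤ) → Bool}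
    (h : ∀ l : List ℤ, P l = Q (vecL n l)) : vecL n (findVecL n K P) = findVec K Q := by
  rw [findVecL, ← map_val_finRange, findVecL_aux K h _ _ (by simp)]
  congr 1
  funext i
  simp [vecL]

theorem length_foldl_findStepL (K : ℕ) (P : List ℤ → Bool) (L : List ℕ) (l : List ℤ) :
    (L.foldl (findStepL K P) l).length = l.length := by
  induction L generalizing l with
  | nil => rfl
  | cons j L ih => rw [List.foldl_cons, ih, findStepL, List.length_set]

theorem length_findVecL (K : ℕ) (P : List ℤ → Bool) : (findVecL n K P).length = n := by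
  rw [findVecL, length_foldl_findStepL, List.length_replicate]

/-- a common base -/
def baseL (n K : ℕ) (r₁ r₂ : List Bool → ℤ) (R : ℕ) : List ℤ :=
  findVecL n R.size (feasL n K r₁ r₂ R)

theorem baseL_eq (K : ℕ) {r₁ r₂ : List Bool → ℤ} {ρ₁ ρ₂ : Finset (Fin n) → ℤ}
    (h₁ : RepL n r₁ ρ₁) (h₂ : RepL n r₂ ρ₂) {R : ℕ} (s₁ : SubM ρ₁ R) (s₂ : SubM ρ₂ R) :
    vecL n (baseL n K r₁ r₂ R) = baseQ n K ρ₁ ρ₂ R :=
  findVecL_eq _ (fun l => feasL_eq K h₁ h₂ s₁ s₂ l)

theorem length_baseL (K : ℕ) (r₁ r₂ : List Bool → ℤ) (R : ℕ) :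
    (baseL n K r₁ r₂ R).length = n := length_findVecL _ _

/-! ### binary search: the size invariant -/

theorem bsStep_inv (Q : ℕ → Bool) (K i : ℕ) :
    ((bsStep Q)^[i] (2 ^ K, 0)).1 + ((bsStep Q)^[i] (2 ^ K, 0)).2 ≤ 2 ^ K := by
  induction i with
  | zero => simp
  | succ i ih =>
    rw [Function.iterate_succ_apply']
    generalize (bsStep Q)^[i] (2 ^ K, 0) = s at ih
    unfold bsStep
    rw [Nat.div2_val]
    have h := Nat.div_mul_le_self s.1 2
    simp only
    cases Q (s.2 + s.1 / 2)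
    · simp only [cond_false]; omega
    · simp only [cond_true]; omega

theorem bsMax_le (K : ℕ) (Q : ℕ → Bool) : bsMax K Q ≤ 2 ^ K := by
  have := bsStep_inv Q K K
  unfold bsMax
  omega

end Crest.Agent.R302.EDM
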