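import Crest.Agent.R302.Center970B
import Crest.Agent.R302.EDM4

/-!
# R302: list version of helper970's deterministic integral centre
-/

set_option autoImplicit false

namespace Crest.Agent.R302.CenL

open Finset Crest.Agent.R302.Facet Crest.Agent.R302.Center Crest.Agent.R302.EDM

/-! ### definitions -/

/-- lookup in a table of optional vectors -/
def lkT (T : List (List (Option (List ℤ)))) (u v : ℕ) : Option (List ℤ) :=
  (T.getD u []).getD v none

/-- lookup in a Boolean table -/
def lkB (P : List (List Bool)) (u v : ℕ) : Bool := (P.getD u []).getD v false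

/-- lookup in an integer table -/
def lkZ (C : List (List ℤ)) (u v : ℕ) : ℤ := (C.getD u []).getD v 0

/-- unit vector -/
def ev01 (w i : ℕ) : ℤ := if i = w then 1 else 0

/-- candidate for the entry `(u, v)` through `w` -/
def wcandL (n : ℕ) (P1 P2 : List (List Bool)) (T : List (List (Option (List ℤ)))) (u v w : ℕ) :
    Option (List ℤ) :=
  match lkT T u w with
  | none => none
  | some z => if lkB P1 w v then
        some ((List.range n).map fun i => z.getD i 0 + (ev01 w i - ev01 v i))
      else if lkB P2 v w then some z else none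

/-- new entry `(u, v)` -/
def wentL (n : ℕ) (P1 P2 : List (List Bool)) (T : List (List (Option (List ℤ)))) (u v : ℕ) :
    Option (List ℤ) :=
  match lkT T u v with
  | none => ((List.range n).filterMap (wcandL n P1 P2 T u v)).head?
  | some z => some z

/-- one relaxation round -/
def wstepL (n : ℕ) (P1 P2 : List (List Bool)) (T : List (List (Option (List ℤ)))) :
    List (List (Option (List ℤ))) :=
  (List.range n).map fun u => (List.range n).map fun v => wentL n P1 P2 T u v

/-- walks without steps -/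
def w0L (n : ℕ) : List (List (Option (List ℤ))) :=
  (List.range n).map fun u => (List.range n).map fun v =>
    if u = v then some ((List.range n).map fun _ => 0) else none

/-- the walk table -/
def wtabL (n : ℕ) (P1 P2 : List (List Bool)) : List (List (Option (List ℤ))) :=
  (wstepL n P1 P2)^[n] (w0L n)

/-- entry of the closed walk vector -/
def cycL (P1 : List (List Bool)) (T : List (List (Option (List ℤ)))) (a b i : ℕ) : ℤ :=
  if lkB P1 a b then
    match lkT T b a with
    | none => 0
    | some z => z.getD i 0 + (ev01 a i - ev01 b i)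
  else 0

/-- the cone vector from the table -/
def zsumL (n : ℕ) (P1 : List (List Bool)) (T : List (List (Option (List ℤ)))) : List ℤ :=
  (List.range n).map fun i =>
    ((List.range n).map fun a => ((List.range n).map fun b => cycL P1 T a b i).sum).sum

/-- the cone vector -/
def zvecL (n : ℕ) (P1 P2 : List (List Bool)) : List ℤ := zsumL n P1 (wtabL n P1 P2)

/-- threshold table -/
def thrL (n : ℕ) (C : List (List ℤ)) (θ : ℤ) : List (List Bool) :=
  (List.range n).map fun a => (List.range n).map fun b => decide (a ≠ b ∧ θ < lkZ C a b)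

/-- one half-step -/
def halfL (n : ℕ) (C1 C2 : List (List ℤ)) (θ : ℤ) (x : List ℤ) : List ℤ :=
  (List.range n).map fun i =>
    x.getD i 0 + (θ / (16 * zb n)) * (zvecL n (thrL n C1 θ) (thrL n C2 θ)).getD i 0

/-- table of all capacities -/
def capTabL (n : ℕ) (cp : List ℤ → ℕ → ℕ → ℤ) (x : List ℤ) : List (List ℤ) :=
  (List.range n).map fun a => (List.range n).map fun b => cp x a b

/-- one scale -/
def cstepL (n : ℕ) (cp1 cp2 : List ℤ → ℕ → ℕ → ℤ) (θ : ℤ) (x : List ℤ) : List ℤ :=
  halfL n (capTabL n cp2 (halfL n (capTabL n cp1 x) (capTabL n cp2 x) θ x))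
    (capTabL n cp1 (halfL n (capTabL n cp1 x) (capTabL n cp2 x) θ x)) θ
    (halfL n (capTabL n cp1 x) (capTabL n cp2 x) θ x)

/-- one scale with the counter -/
def centerItL (n : ℕ) (cp1 cp2 : List ℤ → ℕ → ℕ → ℤ) (σ : List ℤ × ℤ) : List ℤ × ℤ :=
  (cstepL n cp1 cp2 σ.2 σ.1, σ.2 / 2)

/-- all scales `2^k, …, 2, 1` -/
def centerL (n : ℕ) (cp1 cp2 : List ℤ → ℕ → ℕ → ℤ) (k : ℕ) (x : List ℤ) : List ℤ :=
  ((centerItL n cp1 cp2)^[k + 1] (x, 2 ^ k)).1

/-! ### correspondence -/

section corr

variable {n : ℕ}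

theorem mapRange_ofFn {α : Type*} (F : ℕ → α) (G : Fin n → α) (h : ∀ i : Fin n, F i = G i) :
    (List.range n).map F = List.ofFn G := by
  apply List.ext_getElem
  · simp
  · intro i h1 h2
    simp only [List.getElem_map, List.getElem_range, List.getElem_ofFn]
    exact h ⟨i, by simpa using h1⟩

theorem getD_ofFn' {α : Type*} (G : Fin n → α) (d : α) (i : Fin n) :
    (List.ofFn G).getD i d = G i := by
  simp [List.getD_eq_getElem?_getD]

/-- table of a function -/
def TL (W : Fin n → Fin n → Option (Fin n → ℤ)) : List (List (Option (List ℤ))) :=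
  List.ofFn fun u => List.ofFn fun v => (W u v).map List.ofFn

theorem lkT_TL (W : Fin n → Fin n → Option (Fin n → ℤ)) (u v : Fin n) :
    lkT (TL W) u v = (W u v).map List.ofFn := by
  unfold lkT TL
  rw [getD_ofFn', getD_ofFn']

theorem ev01_eq (w i : Fin n) : ev01 w i = ev w i := by
  unfold ev01 ev
  simp only [Fin.ext_iff]

/-- the Boolean function of a table -/
def bf (n : ℕ) (P : List (List Bool)) : Fin n → Fin n → Bool := fun a b => lkB P a b

theorem wcandL_TL (P1 P2 : List (List Bool)) (W : Fin n → Fin n → Option (Fin n → ℤ))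
    (u v w : Fin n) : wcandL n P1 P2 (TL W) u v w = (match W u w with
      | some z => if bf n P1 w v then some (fun i => z i + (ev w i - ev v i))
                  else if bf n P2 v w then some z else none
      | none => none : Option (Fin n → ℤ)).map List.ofFn := by
  unfold wcandL
  rw [lkT_TL]
  cases W u w with
  | none => rfl
  | some z =>
    simp only [Option.map_some]
    by_cases h1 : lkB P1 w v = true
    · have h1' : bf n P1 w v = true := h1
      rw [if_pos h1, if_pos h1', Option.map_some, Option.some.injEq]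
      exact mapRange_ofFn _ _ fun i => by rw [getD_ofFn', ev01_eq, ev01_eq]
    · have h1' : ¬ bf n P1 w v = true := h1
      rw [if_neg h1, if_neg h1']
      by_cases h2 : lkB P2 v w = true
      · have h2' : bf n P2 v w = true := h2
        rw [if_pos h2, if_pos h2']
        rfl
      · have h2' : ¬ bf n P2 v w = true := h2
        rw [if_neg h2, if_neg h2']
        rfl

theorem wentL_TL (P1 P2 : List (List Bool)) (W : Fin n → Fin n → Option (Fin n → ℤ))
    (u v : Fin n) : wentL n P1 P2 (TL W) u v =
      (wstep (bf n P1) (bf n P2) W u v).map List.ofFn := by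
  unfold wentL wstep
  rw [lkT_TL]
  cases W u v with
  | some z => rfl
  | none =>
    simp only [Option.map_none]
    rw [List.head?_filterMap, ← List.map_coe_finRange_eq_range, List.findSome?_map]
    have key : ∀ l : List (Fin n), List.findSome? (wcandL n P1 P2 (TL W) u v ∘ fun x : Fin n => (x : ℕ)) l =
        (l.findSome? fun w => match W u w with
          | some z => if bf n P1 w v then some (fun i => z i + (ev w i - ev v i))
                  else if bf n P2 v w then some z else none
          | none => none).map List.ofFn := by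
      intro l
      induction l with
      | nil => rfl
      | cons a l ih =>
        rw [List.findSome?_cons, List.findSome?_cons, ih]
        have h := wcandL_TL P1 P2 W u v a
        simp only [Function.comp_apply]
        rw [h]
        generalize (match W u a with
          | some z => if bf n P1 a v then some (fun i => z i + (ev a i - ev v i))
                  else if bf n P2 v a then some z else none
          | none => none : Option (Fin n → ℤ)) = o
        cases o <;> rfl
    exact key _

theorem wstepL_TL (P1 P2 : List (List Bool)) (W : Fin n → Fin n → Option (Fin n → ℤ)) :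
    wstepL n P1 P2 (TL W) = TL (wstep (bf n P1) (bf n P2) W) := by
  unfold wstepL
  conv_rhs => unfold TL
  exact mapRange_ofFn _ _ fun u => mapRange_ofFn _ _ fun v => wentL_TL P1 P2 W u v

theorem w0L_eq : w0L n = TL (w0 (n := n)) := by
  unfold w0L TL
  refine mapRange_ofFn _ _ fun u => mapRange_ofFn _ _ fun v => ?_
  unfold w0
  simp only [Fin.ext_iff]
  split_ifs
  · simp only [Option.map_some, Option.some.injEq]
    exact mapRange_ofFn _ _ fun i => rfl
  · rfl

theorem wstepL_iter (P1 P2 : List (List Bool)) (k : ℕ) :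
    (wstepL n P1 P2)^[k] (w0L n) = TL (wtab (bf n P1) (bf n P2) k) := by
  induction k with
  | zero => rw [Function.iterate_zero, id, w0L_eq]; rfl
  | succ k ih =>
    rw [Function.iterate_succ_apply', ih, wstepL_TL]
    unfold wtab
    rw [Function.iterate_succ_apply']

theorem wtabL_eq (P1 P2 : List (List Bool)) :
    wtabL n P1 P2 = TL (wtab (bf n P1) (bf n P2) n) := wstepL_iter P1 P2 n

theorem cycL_eq (P1 : List (List Bool)) (W : Fin n → Fin n → Option (Fin n → ℤ))
    (a b i : Fin n) : cycL P1 (TL W) a b i = cyc (bf n P1) W a b i := by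
  unfold cycL cyc
  rw [lkT_TL]
  by_cases h : lkB P1 a b = true
  · have h' : bf n P1 a b = true := h
    rw [if_pos h, if_pos h']
    cases W b a with
    | none => rfl
    | some z =>
      simp only [Option.map_some]
      rw [getD_ofFn', ev01_eq, ev01_eq]
  · have h' : ¬ bf n P1 a b = true := h
    rw [if_neg h, if_neg h']

theorem zvecL_eq (P1 P2 : List (List Bool)) :
    zvecL n P1 P2 = List.ofFn (zvec (bf n P1) (bf n P2)) := by
  unfold zvecL zsumL
  rw [wtabL_eq]
  refine mapRange_ofFn _ _ fun i => ?_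
  unfold zvec
  rw [sum_mapRange]
  refine Finset.sum_congr rfl fun a _ => ?_
  rw [sum_mapRange]
  exact Finset.sum_congr rfl fun b _ => cycL_eq P1 _ a b i

theorem bf_thrL (C : List (List ℤ)) (θ : ℤ) :
    bf n (thrL n C θ) = thr (fun a b : Fin n => lkZ C a b) θ := by
  funext a b
  unfold bf lkB thrL thr
  rw [getD_mapRange, getD_mapRange]
  simp only [ne_eq, Fin.ext_iff]

theorem halfL_eq (C1 C2 : List (List ℤ)) (θ : ℤ) (x : List ℤ) :
    halfL n C1 C2 θ x = List.ofFn (halfMove (fun a b : Fin n => lkZ C1 a b)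
      (fun a b : Fin n => lkZ C2 a b) θ (vecL n x)) := by
  unfold halfL
  refine mapRange_ofFn _ _ fun i => ?_
  unfold halfMove
  rw [zvecL_eq, getD_ofFn', bf_thrL, bf_thrL]
  rfl

theorem thr_congr {c c' : Fin n → Fin n → ℤ} (h : ∀ a b, a ≠ b → c a b = c' a b) (θ : ℤ) :
    thr c θ = thr c' θ := by
  funext a b
  unfold thr
  by_cases hab : a = b
  · simp [hab]
  · rw [h a b hab]

theorem vecL_ofFn (f : Fin n → ℤ) : vecL n (List.ofFn f) = f := by
  funext i
  unfold vecL
  rw [getD_ofFn']

theorem lkZ_capTabL (cp : List ℤ → ℕ → ℕ → ℤ) (x : List ℤ) (a b : Fin n) :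
    lkZ (capTabL n cp x) a b = cp x a b := by
  unfold lkZ capTabL
  rw [getD_mapRange, getD_mapRange]

theorem halfL_cap {cp1 cp2 : List ℤ → ℕ → ℕ → ℤ} {c1 c2 : (Fin n → ℤ) → Fin n → Fin n → ℤ}
    {x : List ℤ} (h1 : ∀ a b : Fin n, a ≠ b → cp1 x a b = c1 (vecL n x) a b)
    (h2 : ∀ a b : Fin n, a ≠ b → cp2 x a b = c2 (vecL n x) a b) (θ : ℤ) :
    halfL n (capTabL n cp1 x) (capTabL n cp2 x) θ x =
      List.ofFn (halfMove (c1 (vecL n x)) (c2 (vecL n x)) θ (vecL n x)) := by
  rw [halfL_eq]
  unfold halfMove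
  rw [thr_congr (c := fun a b : Fin n => lkZ (capTabL n cp1 x) a b) (c' := c1 (vecL n x))
      (fun a b hab => by rw [lkZ_capTabL]; exact h1 a b hab),
    thr_congr (c := fun a b : Fin n => lkZ (capTabL n cp2 x) a b) (c' := c2 (vecL n x))
      (fun a b hab => by rw [lkZ_capTabL]; exact h2 a b hab)]

theorem cstepL_eq {cp1 cp2 : List ℤ → ℕ → ℕ → ℤ} {c1 c2 : (Fin n → ℤ) → Fin n → Fin n → ℤ}
    (h1 : ∀ x (a b : Fin n), a ≠ b → cp1 x a b = c1 (vecL n x) a b)
    (h2 : ∀ x (a b : Fin n), a ≠ b → cp2 x a b = c2 (vecL n x) a b) (θ : ℤ) (x : List ℤ) :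
    cstepL n cp1 cp2 θ x = List.ofFn (cstep c1 c2 θ (vecL n x)) := by
  unfold cstepL cstep
  rw [halfL_cap (h1 x) (h2 x), halfL_cap (h2 _) (h1 _), vecL_ofFn]

theorem centerItL_iter {cp1 cp2 : List ℤ → ℕ → ℕ → ℤ} {c1 c2 : (Fin n → ℤ) → Fin n → Fin n → ℤ}
    (h1 : ∀ x (a b : Fin n), a ≠ b → cp1 x a b = c1 (vecL n x) a b)
    (h2 : ∀ x (a b : Fin n), a ≠ b → cp2 x a b = c2 (vecL n x) a b) (k : ℕ) :
    ∀ x : List ℤ, ((centerItL n cp1 cp2)^[k + 1] (x, 2 ^ k)).1 =
      List.ofFn (center c1 c2 k (vecL n x)) := by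
  induction k with
  | zero =>
    intro x
    simp only [zero_add, Function.iterate_one, centerItL, pow_zero]
    rw [cstepL_eq h1 h2]
    rfl
  | succ k ih =>
    intro x
    rw [Function.iterate_succ_apply]
    have h : centerItL n cp1 cp2 (x, 2 ^ (k + 1)) = (cstepL n cp1 cp2 (2 ^ (k + 1)) x, 2 ^ k) := by
      unfold centerItL
      have : (2 : ℤ) ^ (k + 1) / 2 = 2 ^ k := by
        rw [pow_succ]
        exact Int.mul_ediv_cancel _ (by norm_num)
      simp only [this]
    rw [h, ih, cstepL_eq h1 h2, vecL_ofFn]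
    rfl

/-- **the list version computes the centre** -/
theorem centerL_eq {cp1 cp2 : List ℤ → ℕ → ℕ → ℤ} {c1 c2 : (Fin n → ℤ) → Fin n → Fin n → ℤ}
    (h1 : ∀ x (a b : Fin n), a ≠ b → cp1 x a b = c1 (vecL n x) a b)
    (h2 : ∀ x (a b : Fin n), a ≠ b → cp2 x a b = c2 (vecL n x) a b) (k : ℕ) (x : List ℤ) :
    centerL n cp1 cp2 k x = List.ofFn (center c1 c2 k (vecL n x)) :=
  centerItL_iter h1 h2 k x

/-- the centre program with the submodular oracles -/
theorem centerL_cap {r₁ r₂ : List Bool → ℤ} {ρ₁ ρ₂ : Finset (Fin n) → ℤ} (e₁ : RepL n r₁ ρ₁)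
    (e₂ : RepL n r₂ ρ₂) {K : ℕ} {R : ℤ} (s₁ : SubM ρ₁ R) (s₂ : SubM ρ₂ R)
    (b₁ : ∀ A, |ρ₁ A| ≤ K) (b₂ : ∀ A, |ρ₂ A| ≤ K) (k : ℕ) (x : List ℤ) :
    vecL n (centerL n (capL n K r₁) (capL n K r₂) k x) =
      center (cap ρ₁) (cap ρ₂) k (vecL n x) := by
  rw [centerL_eq (c1 := cap ρ₁) (c2 := cap ρ₂) (fun x a b hab => capL_eq e₁ s₁ b₁ x hab)
    (fun x a b hab => capL_eq e₂ s₂ b₂ x hab), vecL_ofFn]

end corr

end Crest.Agent.R302.CenL
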