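import Crest.Agent.R302.SfmL646
import Crest.Agent.R309.PTSolve

/-! Poly-time computability of the two halves of one step of the cutting-simplices algorithm. -/

set_option autoImplicit false
set_option linter.dupNamespace false

namespace Crest.Agent.R302.Sfm646

open Crest.Agent.Lib.PT Crest.Agent.R309.PTX

variable {γ : Type} [PTCode γ]

theorem ptf_cast {n : γ → ℕ} (hn : PTU n) : PTF (fun c => ((n c : ℕ) : ℤ)) :=
  PTF.intNatCast (PTU.toPTF hn)

theorem ptu_fst {δ : Type} [PTCode δ] {n : γ → ℕ} (hn : PTU n) : PTU (fun p : γ × δ => n p.1) :=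
  PTU.comp hn PTF.fst

theorem ptf_G2 {V : γ → List (List ℤ)} {i j : γ → ℕ} (hV : PTF V) (hi : PTF i) (hj : PTF j) :
    PTF (fun c => G2 (V c) (i c) (j c)) :=
  ptf_getD' hj (ptf_getD' hi hV (PTF.const [])) (PTF.const 0)

theorem ptf_cenL {n : γ → ℕ} {V : γ → List (List ℤ)} (hn : PTU n) (hV : PTF V) :
    PTF (fun c => cenL (n c) (V c)) := by
  unfold cenL
  refine PTF.tabulate hn ?_
  refine PTF.intSumRange (n := fun p : γ × ℕ => n p.1 + 1)
    (f := fun p i => G2 (V p.1) i p.2) (PTU.succ (ptu_fst hn)) ?_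
  exact ptf_G2 (PTF.comp hV (by fun_prop)) (by fun_prop) (by fun_prop)

theorem ptf_ellL {n : γ → ℕ} {V : γ → List (List ℤ)} {g c' : γ → List ℤ} (hn : PTU n) (hV : PTF V)
    (hg : PTF g) (hc : PTF c') :
    PTF (fun c => ellL (n c) (g c) (V c) (c' c)) := by
  unfold ellL
  refine PTF.tabulate (PTU.succ hn) ?_
  refine PTF.intSumRange (n := fun p : γ × ℕ => n p.1)
    (f := fun p j => (g p.1).getD j 0 * (((n p.1 : ℤ) + 1) * G2 (V p.1) p.2 j - (c' p.1).getD j 0))
    (ptu_fst hn) ?_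
  dsimp only [PTF₂]
  refine PTF.intMul (ptf_getD' (by fun_prop) (PTF.comp hg (by fun_prop)) (PTF.const 0)) ?_
  refine PTF.intSub (PTF.intMul (PTF.intAdd ?_ (PTF.const 1)) ?_) ?_
  · exact ptf_cast (n := fun p : (γ × ℕ) × ℕ => n p.1.1) (ptu_fst (n := fun p : γ × ℕ => n p.1) (ptu_fst hn))
  · exact ptf_G2 (PTF.comp hV (by fun_prop)) (by fun_prop) (by fun_prop)
  · exact ptf_getD' (by fun_prop) (PTF.comp hc (by fun_prop)) (PTF.const 0)

theorem ptf_argmL {n : γ → ℕ} {l : γ → List ℤ} (hn : PTU n) (hl : PTF l) :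
    PTF (fun c => argmL (n c) (l c)) := by
  unfold argmL
  refine PTF.foldl_bdd (f := fun c (b i : ℕ) => if (l c).getD i 0 < (l c).getD b 0 then i else b)
    (PTF.range (PTU.succ hn)) ?_ (PTF.const 0) (G := fun c => sz (List.range (n c + 1)))
    (PTF.sz (PTF.range (PTU.succ hn))) ?_ ?_
  · refine PTF.ite (PTPred.intLt ?_ ?_) (by fun_prop) (by fun_prop)
    · exact ptf_getD' (by fun_prop) (PTF.comp hl (by fun_prop)) (PTF.const 0)
    · exact ptf_getD' (by fun_prop) (PTF.comp hl (by fun_prop)) (PTF.const 0)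
  · intro c b a ha hb
    have h1 : sz a ≤ sz (List.range (n c + 1)) := sz_mem_le ha
    split_ifs
    · exact h1
    · exact hb
  · intro c
    have : sz (0:ℕ) = 0 := by rw [sz_nat]; rfl
    omega

theorem ptf_KcL {n : γ → ℕ} {L l : γ → ℤ} (hn : PTU n) (hL : PTF L) (hl : PTF l) :
    PTF (fun c => KcL (n c) (L c) (l c)) := by
  unfold KcL cdiv
  have h1 := ptf_cast hn
  have h3 : PTF (fun c => 64 * ((n c : ℕ) : ℤ)^3 * (8 * ((n c : ℕ) : ℤ)^2 * L c)) :=
    PTF.intMul (PTF.intMul (PTF.const 64) (PTF.intPowConst h1 3))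
      (PTF.intMul (PTF.intMul (PTF.const 8) (PTF.intPowConst h1 2)) hL)
  have h4 : PTF (fun c => 8 * ((n c : ℕ) : ℤ)^2 * L c + l c) :=
    PTF.intAdd (PTF.intMul (PTF.intMul (PTF.const 8) (PTF.intPowConst h1 2)) hL) hl
  exact PTF.intNeg (PTF.intEdiv (PTF.intNeg h3) h4)

theorem ptf_stepVL {n : γ → ℕ} {V : γ → List (List ℤ)} {g c' : γ → List ℤ} (hn : PTU n)
    (hV : PTF V) (hg : PTF g) (hc : PTF c') :
    PTF (fun c => stepVL (n c) (V c) (g c) (c' c)) := by
  have hℓ := ptf_ellL hn hV hg hc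
  have hm := ptf_argmL hn hℓ
  have h : PTF (fun c => (List.range (n c + 1)).map fun i =>
    (List.range (n c)).map fun j =>
      if i = argmL (n c) (ellL (n c) (g c) (V c) (c' c)) then
        64 * ((n c : ℕ) : ℤ)^3 * G2 (V c) (argmL (n c) (ellL (n c) (g c) (V c) (c' c))) j
      else KcL (n c) (-(ellL (n c) (g c) (V c) (c' c)).getD
            (argmL (n c) (ellL (n c) (g c) (V c) (c' c))) 0)
            ((ellL (n c) (g c) (V c) (c' c)).getD i 0) * G2 (V c) i j +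
        (64 * ((n c : ℕ) : ℤ)^3 - KcL (n c) (-(ellL (n c) (g c) (V c) (c' c)).getD
            (argmL (n c) (ellL (n c) (g c) (V c) (c' c))) 0)
            ((ellL (n c) (g c) (V c) (c' c)).getD i 0)) *
          G2 (V c) (argmL (n c) (ellL (n c) (g c) (V c) (c' c))) j) := by
    generalize hE : (fun c => ellL (n c) (g c) (V c) (c' c)) = E at hℓ
    have hE' : ∀ c, ellL (n c) (g c) (V c) (c' c) = E c := fun c => congrFun hE c
    simp only [hE'] at hm ⊢
    generalize hM : (fun c => argmL (n c) (E c)) = m at hm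
    have hM' : ∀ c, argmL (n c) (E c) = m c := fun c => congrFun hM c
    simp only [hM']
    refine PTF.tabulate (PTU.succ hn) ?_
    refine PTF.tabulate (n := fun p : γ × ℕ => n p.1) (ptu_fst hn) ?_
    dsimp only [PTF₂]
    have hn2 : PTU (fun p : (γ × ℕ) × ℕ => n p.1.1) :=
      ptu_fst (n := fun p : γ × ℕ => n p.1) (ptu_fst hn)
    have hm2 : PTF (fun p : (γ × ℕ) × ℕ => m p.1.1) := PTF.comp hm (by fun_prop)
    have hE2 : PTF (fun p : (γ × ℕ) × ℕ => E p.1.1) := PTF.comp hℓ (by fun_prop)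
    have hV2 : PTF (fun p : (γ × ℕ) × ℕ => V p.1.1) := PTF.comp hV (by fun_prop)
    have hD : PTF (fun p : (γ × ℕ) × ℕ => 64 * ((n p.1.1 : ℕ) : ℤ)^3) :=
      PTF.intMul (PTF.const 64) (PTF.intPowConst (ptf_cast hn2) 3)
    have hGm : PTF (fun p : (γ × ℕ) × ℕ => G2 (V p.1.1) (m p.1.1) p.2) :=
      ptf_G2 hV2 hm2 (by fun_prop)
    have hGi : PTF (fun p : (γ × ℕ) × ℕ => G2 (V p.1.1) p.1.2 p.2) :=
      ptf_G2 hV2 (by fun_prop) (by fun_prop)
    have hK : PTF (fun p : (γ × ℕ) × ℕ => KcL (n p.1.1) (-(E p.1.1).getD (m p.1.1) 0)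
        ((E p.1.1).getD p.1.2 0)) :=
      ptf_KcL hn2 (PTF.intNeg (ptf_getD' hm2 hE2 (PTF.const 0)))
        (ptf_getD' (by fun_prop) hE2 (PTF.const 0))
    exact PTF.ite (PTPred.natEq (by fun_prop) hm2) (PTF.intMul hD hGm)
      (PTF.intAdd (PTF.intMul hK hGi) (PTF.intMul (PTF.intSub hD hK) hGm))
  exact h

theorem ptf_badL {n : γ → ℕ} {s : γ → ℤ} {c' : γ → List ℤ} (hn : PTU n) (hs : PTF s)
    (hc : PTF c') : PTF (fun c => badL (n c) (s c) (c' c)) := by
  unfold badL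
  refine PTF.find? (PTF.range hn) ?_
  dsimp only [PTF₂]
  have h1 : PTF (fun p : γ × ℕ => (c' p.1).getD p.2 0) :=
    ptf_getD' (by fun_prop) (PTF.comp hc (by fun_prop)) (PTF.const 0)
  have h2 : PTF (fun p : γ × ℕ => ((n p.1 : ℕ) : ℤ)) := ptf_cast (ptu_fst hn)
  exact PTPred.toPTF (PTPred.or (PTPred.intLt h1 (PTF.const 0))
    (PTPred.intLt (PTF.intMul (PTF.intAdd h2 (PTF.const 1)) (PTF.comp hs (by fun_prop))) h1))

theorem ptf_levL {n : γ → ℕ} {j : γ → ℕ} {c' : γ → List ℤ} (hn : PTU n) (hj : PTF j)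
    (hc : PTF c') : PTF (fun c => levL (n c) (c' c) (j c)) := by
  unfold levL
  refine PTF.tabulate hn ?_
  dsimp only [PTF₂]
  have h1 : PTF (fun p : γ × ℕ => (c' p.1).getD p.2 0) :=
    ptf_getD' (by fun_prop) (PTF.comp hc (by fun_prop)) (PTF.const 0)
  have h2 : PTF (fun p : γ × ℕ => (c' p.1).getD (j p.1) 0) :=
    ptf_getD' (PTF.comp hj (by fun_prop)) (PTF.comp hc (by fun_prop)) (PTF.const 0)
  exact PTPred.toPTF (PTPred.or (PTPred.intLt h2 h1)
    (PTPred.and (PTPred.intEq h1 h2) (PTPred.natLe (by fun_prop) (PTF.comp hj (by fun_prop)))))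

theorem ptf_levEL {n : γ → ℕ} {j : γ → ℕ} {c' : γ → List ℤ} (hn : PTU n) (hj : PTF j)
    (hc : PTF c') : PTF (fun c => levEL (n c) (c' c) (j c)) := by
  unfold levEL
  refine PTF.tabulate hn ?_
  dsimp only [PTF₂]
  have h1 : PTF (fun p : γ × ℕ => (c' p.1).getD p.2 0) :=
    ptf_getD' (by fun_prop) (PTF.comp hc (by fun_prop)) (PTF.const 0)
  have h2 : PTF (fun p : γ × ℕ => (c' p.1).getD (j p.1) 0) :=
    ptf_getD' (PTF.comp hj (by fun_prop)) (PTF.comp hc (by fun_prop)) (PTF.const 0)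
  have h3 : PTF (fun p : γ × ℕ => j p.1) := PTF.comp hj (by fun_prop)
  exact PTPred.toPTF (PTPred.and (PTPred.not (PTPred.natEq (by fun_prop) h3))
    (PTPred.or (PTPred.intLt h2 h1) (PTPred.and (PTPred.intEq h1 h2) (PTPred.natLe (by fun_prop) h3))))

theorem ptf_qL {n : γ → ℕ} {c' : γ → List ℤ} (hn : PTU n) (hc : PTF c') :
    PTF (fun c => qL (n c) (c' c)) := by
  unfold qL
  refine PTF.append (PTF.tabulate hn ?_) (PTF.tabulate hn ?_)
  · exact ptf_levL (γ := γ × ℕ) (n := fun p => n p.1) (j := fun p => p.2) (c' := fun p => c' p.1)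
      (ptu_fst hn) (by fun_prop) (PTF.comp hc (by fun_prop))
  · exact ptf_levEL (γ := γ × ℕ) (n := fun p => n p.1) (j := fun p => p.2) (c' := fun p => c' p.1)
      (ptu_fst hn) (by fun_prop) (PTF.comp hc (by fun_prop))

theorem ptf_gyL {n : γ → ℕ} {A : γ → List ℤ} (hn : PTU n) (hA : PTF A) :
    PTF (fun c => gyL (n c) (A c)) := by
  unfold gyL
  refine PTF.tabulate hn ?_
  dsimp only [PTF₂]
  refine PTF.intSub (ptf_getD' (by fun_prop) (PTF.comp hA (by fun_prop)) (PTF.const 0)) ?_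
  exact ptf_getD' (PTF.natAdd (PTU.toPTF (ptu_fst hn)) (by fun_prop))
    (PTF.comp hA (by fun_prop)) (PTF.const 0)

theorem ptf_cutL {n : γ → ℕ} {s : γ → ℤ} {c' A : γ → List ℤ} (hn : PTU n) (hs : PTF s)
    (hc : PTF c') (hA : PTF A) : PTF (fun c => cutL (n c) (s c) (c' c) (A c)) := by
  have h1 := ptf_badL hn hs hc
  refine PTF.of_eq (PTF.optionCasesOn (s := fun c => badL (n c) (s c) (c' c))
    (f := fun c => gyL (n c) (A c))
    (g := fun c j0 => (List.range (n c)).map fun j =>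
      if j = j0 then (if (c' c).getD j0 0 < 0 then (-1:ℤ) else 1) else 0) h1 (ptf_gyL hn hA) ?_)
    (fun c => ?_)
  · refine PTF.tabulate (n := fun p : γ × ℕ => n p.1) (ptu_fst hn) ?_
    dsimp only [PTF₂]
    refine PTF.ite (PTPred.natEq (by fun_prop) (by fun_prop)) ?_ (PTF.const 0)
    refine PTF.ite (PTPred.intLt ?_ (PTF.const 0)) (PTF.const _) (PTF.const _)
    exact ptf_getD' (by fun_prop) (PTF.comp hc (by fun_prop)) (PTF.const 0)
  · unfold cutL
    cases badL (n c) (s c) (c' c) <;> rfl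

theorem ptf_bestStep {n : γ → ℕ} {c' A : γ → List ℤ} {bv : γ → List Bool × ℤ} {j : γ → ℕ}
    (hn : PTU n) (hc : PTF c') (hA : PTF A) (hb : PTF bv) (hj : PTF j) :
    PTF (fun c => bestStep (n c) (c' c) (A c) (bv c) (j c)) := by
  unfold bestStep
  have h1 : PTF (fun c => (A c).getD (j c) 0) := ptf_getD' hj hA (PTF.const 0)
  exact PTF.ite (PTPred.intLt h1 (PTF.comp PTF.snd hb)) (PTF.prodMk (ptf_levL hn hj hc) h1) hb

theorem sz_levL (n : ℕ) (c : List ℤ) (j : ℕ) : sz (levL n c j) = 3 * n := by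
  rw [sz_listBool]; simp [levL]

theorem sz_getD_le (A : List ℤ) (j : ℕ) : sz (A.getD j 0) ≤ sz A + 3 := by
  rw [List.getD_eq_getElem?_getD]
  cases h : A[j]? with
  | none =>
    have : sz (0:ℤ) = 3 := by rw [sz_int]; rfl
    simp only [Option.getD_none]
    omega
  | some a =>
    have := sz_mem_le (List.mem_of_getElem? h)
    simp only [Option.getD_some]
    omega

theorem sz_bestStep_le (n : ℕ) (c A : List ℤ) (bv : List Bool × ℤ) (j : ℕ) (B : ℕ)
    (hB : sz bv ≤ B) (hB' : 2 * (3 * n) + 1 + (sz A + 3) ≤ B) : sz (bestStep n c A bv j) ≤ B := by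
  unfold bestStep
  split_ifs
  · have h1 := sz_getD_le A j
    have h2 := sz_levL n c j
    rw [sz_prod]
    simp only
    omega
  · exact hB

theorem ptf_newBestL {n : γ → ℕ} {s : γ → ℤ} {c' A : γ → List ℤ} {bv : γ → List Bool × ℤ}
    (hn : PTU n) (hs : PTF s) (hc : PTF c') (hA : PTF A) (hb : PTF bv) :
    PTF (fun c => newBestL (n c) (s c) (c' c) (A c) (bv c)) := by
  have h1 := ptf_badL hn hs hc
  have h2 : PTF (fun c => (List.range (n c)).foldl (bestStep (n c) (c' c) (A c)) (bv c)) := by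
    refine PTF.foldl_bdd (f := fun c b j => bestStep (n c) (c' c) (A c) b j)
      (PTF.range hn) ?_ hb (G := fun c => sz (bv c) + (2 * (3 * n c) + 1 + (sz (A c) + 3)))
      ?_ ?_ ?_
    · exact ptf_bestStep (γ := γ × (List Bool × ℤ) × ℕ) (n := fun p => n p.1)
        (c' := fun p => c' p.1) (A := fun p => A p.1) (bv := fun p => p.2.1) (j := fun p => p.2.2)
        (ptu_fst hn) (PTF.comp hc (by fun_prop)) (PTF.comp hA (by fun_prop)) (by fun_prop)
        (by fun_prop)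
    · have := PTU.pb hn
      fun_prop
    · intro c b a _ hb
      exact sz_bestStep_le _ _ _ _ _ _ hb (by omega)
    · intro c; omega
  refine PTF.of_eq (PTF.optionCasesOn (s := fun c => badL (n c) (s c) (c' c))
    (f := fun c => (List.range (n c)).foldl (bestStep (n c) (c' c) (A c)) (bv c))
    (g := fun c _ => bv c) h1 h2 (PTF.comp hb (by fun_prop))) (fun c => ?_)
  unfold newBestL
  cases badL (n c) (s c) (c' c) <;> rfl

/-- the query half of a step -/
theorem ptf_sfmQ {n : γ → ℕ} {σ : γ → LSt} (hn : PTU n) (hσ : PTF σ) :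
    PTF (fun c => sfmQ (n c) (σ c)) :=
  ptf_qL hn (ptf_cenL hn (PTF.comp (g := fun s : LSt => s.1.1) (by fun_prop) hσ))

/-- the update half of a step -/
theorem ptf_sfmU {n : γ → ℕ} {σ : γ → LSt} {A : γ → List ℤ} (hn : PTU n) (hσ : PTF σ) (hA : PTF A) :
    PTF (fun c => sfmU (n c) (σ c) (A c)) := by
  have hV : PTF (fun c => (σ c).1.1) := PTF.comp (g := fun s : LSt => s.1.1) (by fun_prop) hσ
  have hs : PTF (fun c => (σ c).1.2) := PTF.comp (g := fun s : LSt => s.1.2) (by fun_prop) hσ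
  have hb : PTF (fun c => (σ c).2) := PTF.comp (g := fun s : LSt => s.2) (by fun_prop) hσ
  have hc := ptf_cenL hn hV
  have hD : PTF (fun c => 64 * ((n c : ℕ) : ℤ)^3) :=
    PTF.intMul (PTF.const 64) (PTF.intPowConst (ptf_cast hn) 3)
  exact PTF.prodMk (PTF.prodMk (ptf_stepVL hn hV (ptf_cutL hn hs hc hA) hc) (PTF.intMul hD hs))
    (ptf_newBestL hn hs hc hA hb)

theorem ptf_sfm0 {n : γ → ℕ} (hn : PTU n) : PTF (fun c => sfm0 (n c)) := by
  unfold sfm0
  refine PTF.prodMk (PTF.prodMk ?_ (PTF.const 1)) (PTF.prodMk ?_ (PTF.const 0))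
  · refine PTF.tabulate (PTU.succ hn) ?_
    refine PTF.tabulate (n := fun p : γ × ℕ => n p.1) (ptu_fst hn) ?_
    dsimp only [PTF₂]
    refine PTF.ite (PTPred.natEq (by fun_prop) (PTF.natAdd (by fun_prop) (PTF.const 1))) ?_
      (PTF.const 0)
    exact ptf_cast (n := fun p : (γ × ℕ) × ℕ => n p.1.1)
      (ptu_fst (n := fun p : γ × ℕ => n p.1) (ptu_fst hn))
  · exact PTF.tabulate hn (PTF.const false)

theorem ptu_sfmIter {n M : γ → ℕ} (hn : PTU n) (hM : PTF M) :
    PTU (fun c => sfmIter (n c) (M c)) := by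
  unfold sfmIter
  have h1 : PTF (fun c => n c * (3 * M c + 1)) :=
    PTF.natMul (PTU.toPTF hn) (PTF.natAdd (PTF.natMul (PTF.const 3) hM) (PTF.const 1))
  have h2 : PTU (fun c => Nat.clog 2 (n c * (3 * M c + 1))) := by
    have h3 : PTU (fun c => (n c * (3 * M c + 1) - 1).size) :=
      PTF.natSizeUn (PTF.natSub h1 (PTF.const 1))
    refine PTU.of_eq (PTU.ite (PTPred.natLe h1 (PTF.const 1)) (PTU.const 0) h3) (fun c => ?_)
    generalize n c * (3 * M c + 1) = x
    split_ifs with h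
    · rw [Nat.clog_of_right_le_one h]
    · have h1 : 1 < x := not_le.mp h
      apply le_antisymm
      · rw [Nat.size_le]
        have := Nat.le_pow_clog (by norm_num : 1 < 2) x
        omega
      · rw [Nat.clog_le_iff_le_pow (by norm_num)]
        have := Nat.lt_size_self (x - 1)
        omega
  exact PTU.mul (PTU.mul (PTU.const 64) (PTU.pow hn 3)) (PTU.succ h2)

/-! ### size of the orbit -/

section size

open Finset

variable {n : ℕ}

theorem Kc_bounds (hn : 1 ≤ n) (ℓ : Fin (n+1) → ℤ) (hsum : ∑ i, ℓ i = 0) (i : Fin (n+1)) :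
    0 ≤ Kc n ℓ (argm ℓ) i ∧ Kc n ℓ (argm ℓ) i ≤ 2 * (64 * (n:ℤ)^3) := by
  have hmin := argm_le ℓ
  have hD : (0:ℤ) < 64 * (n:ℤ)^3 := by
    have : (1:ℤ) ≤ n := by exact_mod_cast hn
    positivity
  have hle : ℓ (argm ℓ) ≤ 0 := by
    by_contra hcon
    have hcon := not_le.mp hcon
    have : 0 < ∑ i, ℓ i := Finset.sum_pos (fun i _ => lt_of_lt_of_le hcon (hmin i)) ⟨0, by simp⟩
    omega
  rcases hle.eq_or_lt with h0 | hneg
  · have hall : ∀ i, ℓ i = 0 := by
      have h1 : ∀ i ∈ (univ : Finset (Fin (n+1))), 0 ≤ ℓ i := fun i _ => h0 ▸ hmin i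
      intro i
      exact (Finset.sum_eq_zero_iff_of_nonneg h1).mp hsum i (Finset.mem_univ i)
    have : Kc n ℓ (argm ℓ) i = 0 := by
      unfold Kc cdiv
      rw [hall, hall]; simp
    rw [this]
    constructor <;> omega
  · have hd := den_pos hn ℓ (argm ℓ) hmin hneg i
    have hK := Kc_pos hn ℓ (argm ℓ) hmin hneg i
    refine ⟨hK.le, ?_⟩
    have h3 := cdiv_mul_lt (64 * (n:ℤ)^3 * (8 * (n:ℤ)^2 * (-ℓ (argm ℓ)))) _ hd
    change Kc n ℓ (argm ℓ) i * _ < _ at h3
    by_contra hcon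
    have hcon := not_le.mp hcon
    have h1 : (1:ℤ) ≤ n := by exact_mod_cast hn
    have h2 : (1:ℤ) ≤ (n:ℤ)^2 := by nlinarith
    have h4 := hmin i
    set A := 8 * (n:ℤ)^2 * (-ℓ (argm ℓ)) with hA
    have h5 : 8 * (-ℓ (argm ℓ)) ≤ A := by rw [hA]; nlinarith
    set D := 64 * (n:ℤ)^3 with hDdef
    have h6 : (2 * D + 1) * (A + ℓ i) ≤ Kc n ℓ (argm ℓ) i * (A + ℓ i) := by
      apply mul_le_mul_of_nonneg_right _ hd.le
      omega
    have h7 : 0 < A + 2 * ℓ i := by omega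
    nlinarith

theorem stepV_bound (hn : 1 ≤ n) (V : Fin (n+1) → Fin n → ℤ) (g : Fin n → ℤ) (B : ℤ)
    (hB : ∀ i j, |V i j| ≤ B) (i : Fin (n+1)) (j : Fin n) :
    |stepV V g i j| ≤ 3 * (64 * (n:ℤ)^3) * B := by
  have hD : (0:ℤ) < 64 * (n:ℤ)^3 := by
    have : (1:ℤ) ≤ n := by exact_mod_cast hn
    positivity
  have hB0 : 0 ≤ B := (abs_nonneg _).trans (hB i j)
  unfold stepV
  split_ifs
  · rw [abs_mul, abs_of_pos hD]
    have := hB (argm (ell g V)) j
    nlinarith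
  · obtain ⟨h1, h2⟩ := Kc_bounds hn (ell g V) (sum_ell g V) i
    set K := Kc n (ell g V) (argm (ell g V)) i
    set D := 64 * (n:ℤ)^3
    have h3 : |K| ≤ 2 * D := by rw [abs_of_nonneg h1]; exact h2
    have h4 : |D - K| ≤ D := by rw [abs_le]; constructor <;> omega
    calc |K * V i j + (D - K) * V (argm (ell g V)) j|
        ≤ |K * V i j| + |(D - K) * V (argm (ell g V)) j| := abs_add_le _ _
      _ = |K| * |V i j| + |D - K| * |V (argm (ell g V)) j| := by rw [abs_mul, abs_mul]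
      _ ≤ 2 * D * B + D * B := by
          have := hB i j
          have := hB (argm (ell g V)) j
          gcongr
      _ = _ := by ring

theorem orbit_bound (hn : 1 ≤ n) (f : Finset (Fin n) → ℤ) (k : ℕ) (i : Fin (n+1)) (j : Fin n) :
    |((stp f)^[k] (st0 n)).V i j| ≤ 2 ^ (n + k * (8 + 3 * n)) := by
  have key : ∀ k, ∀ i j, |((stp f)^[k] (st0 n)).V i j| ≤ (192 * (n:ℤ)^3)^k * n := by
    intro k
    induction k with
    | zero =>
      intro i j
      simp only [Function.iterate_zero, id, st0, V0, pow_zero, one_mul]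
      split_ifs
      · simp
      · simp
    | succ k ih =>
      intro i j
      rw [Function.iterate_succ_apply']
      have h := stepV_bound hn ((stp f)^[k] (st0 n)).V (cutg f ((stp f)^[k] (st0 n))) _ ih i j
      refine h.trans (le_of_eq ?_)
      ring
  refine (key k i j).trans ?_
  have h1 : (n:ℤ) ≤ 2^n := by
    have := Nat.lt_two_pow_self (n := n)
    exact_mod_cast this.le
  have h2 : 192 * (n:ℤ)^3 ≤ 2^(8 + 3*n) := by
    calc 192 * (n:ℤ)^3 ≤ 256 * (2^n)^3 := by gcongr; norm_num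
      _ = 2^(8 + 3*n) := by rw [pow_add, pow_mul']; norm_num
  calc (192 * (n:ℤ)^3)^k * n ≤ (2^(8 + 3*n))^k * 2^n := by gcongr
    _ = 2 ^ (n + k * (8 + 3 * n)) := by rw [← pow_mul, ← pow_add]; ring_nf

/-- explicit size bound -/
def sfmSz (n M k : ℕ) : ℕ :=
  2 * (2 * ((n+1) * (2 * (n * (2 * (3 + (n + k * (8 + 3 * n) + 1)) + 1)) + 1)) + 1 +
    (3 + (k * (6 + 3 * n) + 1))) + 1 + (2 * (3 * n) + 1 + (3 + M.size))

theorem sz_int_le (z : ℤ) (B : ℕ) (h : |z| ≤ 2^B) : sz z ≤ 3 + (B + 1) := by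
  rw [sz_int]
  have h1 : z.natAbs ≤ 2^B := by
    have : (z.natAbs : ℤ) ≤ 2^B := by rwa [Int.natCast_natAbs]
    exact_mod_cast this
  have : z.natAbs.size ≤ B + 1 := by
    rw [Nat.size_le]
    calc z.natAbs ≤ 2^B := h1
      _ < 2^(B+1) := Nat.pow_lt_pow_right (by norm_num) (by omega)
  omega

theorem sz_VL_le (V : Fin (n+1) → Fin n → ℤ) (B : ℕ) (h : ∀ i j, |V i j| ≤ 2^B) :
    sz (VL V) ≤ (n+1) * (2 * (n * (2 * (3 + (B + 1)) + 1)) + 1) := by
  have h1 : ∀ r ∈ VL V, sz r ≤ n * (2 * (3 + (B + 1)) + 1) := by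
    intro r hr
    unfold VL at hr
    rw [List.mem_ofFn] at hr
    obtain ⟨i, rfl⟩ := hr
    have h2 : ∀ a ∈ List.ofFn (V i), sz a ≤ 3 + (B + 1) := by
      intro a ha
      rw [List.mem_ofFn] at ha
      obtain ⟨j, rfl⟩ := ha
      exact sz_int_le _ _ (h i j)
    have := sz_list_le h2
    simpa using this
  have := sz_list_le h1
  simpa [VL] using this

theorem sz_codeSt_le (f : Finset (Fin n) → ℤ) (M : ℕ) (hM : ∀ A, |f A| ≤ M) (k : ℕ) :
    sz (codeSt f ((stp f)^[k] (st0 n))) ≤ sfmSz n M k := by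
  have hV : sz (VL ((stp f)^[k] (st0 n)).V) ≤
      (n+1) * (2 * (n * (2 * (3 + (n + k * (8 + 3 * n) + 1)) + 1)) + 1) := by
    refine sz_VL_le _ _ fun i j => ?_
    rcases Nat.eq_zero_or_pos n with hn | hn
    · subst hn; exact j.elim0
    · exact orbit_bound hn f k i j
  have hs : sz ((stp f)^[k] (st0 n)).s ≤ 3 + (k * (6 + 3 * n) + 1) := by
    refine sz_int_le _ _ ?_
    rw [iter_s]
    have h1 : (n:ℤ) ≤ 2^n := by
      have := Nat.lt_two_pow_self (n := n)
      exact_mod_cast this.le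
    have h2 : 64 * (n:ℤ)^3 ≤ 2^(6 + 3*n) := by
      calc 64 * (n:ℤ)^3 ≤ 64 * (2^n)^3 := by gcongr
        _ = 2^(6 + 3*n) := by rw [pow_add, pow_mul']; norm_num
    have h0 : (0:ℤ) ≤ 64 * (n:ℤ)^3 := by positivity
    rw [abs_of_nonneg (by positivity)]
    calc (64 * (n:ℤ)^3)^k ≤ (2^(6 + 3*n))^k := by gcongr
      _ = 2 ^ (k * (6 + 3 * n)) := by rw [← pow_mul]; ring_nf
  have hb : sz (bitsOf ((stp f)^[k] (st0 n)).best) = 3 * n := by
    rw [sz_listBool]; simp [bitsOf]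
  have hf : sz (f ((stp f)^[k] (st0 n)).best) ≤ 3 + M.size := by
    rw [sz_int]
    have h1 := hM ((stp f)^[k] (st0 n)).best
    have h2 : (f ((stp f)^[k] (st0 n)).best).natAbs ≤ M := by
      have : ((f ((stp f)^[k] (st0 n)).best).natAbs : ℤ) ≤ M := by rwa [Int.natCast_natAbs]
      exact_mod_cast this
    have := Nat.size_le_size h2
    omega
  unfold codeSt sfmSz
  simp only [sz_prod]
  rw [hb]
  omega

/-- size of the orbit of the program -/
theorem sz_orbit_le (f : Finset (Fin n) → ℤ) (F : List Bool → ℤ)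
    (hF : ∀ A, F (bitsOf A) = f A) (h0 : f ∅ = 0) (M : ℕ) (hM : ∀ A, |f A| ≤ M) (k : ℕ) :
    sz ((sfmStep n F)^[k] (sfm0 n)) ≤ sfmSz n M k := by
  rw [sfmStep_iter f F hF h0]
  exact sz_codeSt_le f M hM k

end size

end Crest.Agent.R302.Sfm646
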