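import Crest.Agent.R302.CenL646
import Crest.Agent.R302.SfmPT646
import Crest.Agent.R302.OPTSolve

/-!
# R302: the deterministic integral centre is a polynomial-time function relative to the oracle
-/

set_option autoImplicit false
set_option linter.dupNamespace false

namespace Crest.Agent.R302.CenL

open Finset Crest.Agent.R302.Facet Crest.Agent.R302.Center Crest.Agent.R302.EDM
open Crest.Agent.Lib.PT Crest.Agent.R309.PTX Crest.Agent.R302.ORAM Function

section ptf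

variable {γ : Type} [PTCode γ]

/-! ### poly-time pieces -/

theorem ptf_lkT {T : γ → List (List (Option (List ℤ)))} {u v : γ → ℕ} (hT : PTF T) (hu : PTF u)
    (hv : PTF v) : PTF (fun c => lkT (T c) (u c) (v c)) :=
  ptf_getD' hv (ptf_getD' hu hT (PTF.const [])) (PTF.const none)

theorem ptf_lkB {T : γ → List (List Bool)} {u v : γ → ℕ} (hT : PTF T) (hu : PTF u)
    (hv : PTF v) : PTF (fun c => lkB (T c) (u c) (v c)) :=
  ptf_getD' hv (ptf_getD' hu hT (PTF.const [])) (PTF.const false)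

theorem ptf_lkZ {T : γ → List (List ℤ)} {u v : γ → ℕ} (hT : PTF T) (hu : PTF u)
    (hv : PTF v) : PTF (fun c => lkZ (T c) (u c) (v c)) :=
  ptf_getD' hv (ptf_getD' hu hT (PTF.const [])) (PTF.const 0)

theorem ptf_ev01 {w i : γ → ℕ} (hw : PTF w) (hi : PTF i) : PTF (fun c => ev01 (w c) (i c)) :=
  PTF.ite (PTPred.natEq hi hw) (PTF.const 1) (PTF.const 0)

theorem ptf_wcandL {n : γ → ℕ} {P1 P2 : γ → List (List Bool)}
    {T : γ → List (List (Option (List ℤ)))} {u v w : γ → ℕ} (hn : PTU n) (hP1 : PTF P1)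
    (hP2 : PTF P2) (hT : PTF T) (hu : PTF u) (hv : PTF v) (hw : PTF w) :
    PTF (fun c => wcandL (n c) (P1 c) (P2 c) (T c) (u c) (v c) (w c)) := by
  refine PTF.of_eq (PTF.optionCasesOn (s := fun c => lkT (T c) (u c) (w c))
    (f := fun _ => none)
    (g := fun c z => if lkB (P1 c) (w c) (v c) = true then
        some ((List.range (n c)).map fun i => z.getD i 0 + (ev01 (w c) i - ev01 (v c) i))
      else if lkB (P2 c) (v c) (w c) = true then some z else none)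
    (ptf_lkT hT hu hw) (PTF.const none) ?_) (fun c => ?_)
  · have hw1 : PTF (fun p : γ × List ℤ => w p.1) := PTF.comp hw (by fun_prop)
    have hv1 : PTF (fun p : γ × List ℤ => v p.1) := PTF.comp hv (by fun_prop)
    have hP11 : PTF (fun p : γ × List ℤ => P1 p.1) := PTF.comp hP1 (by fun_prop)
    have hP21 : PTF (fun p : γ × List ℤ => P2 p.1) := PTF.comp hP2 (by fun_prop)
    have h3 : PTF (fun p : γ × List ℤ => (List.range (n p.1)).map fun i =>
        p.2.getD i 0 + (ev01 (w p.1) i - ev01 (v p.1) i)) := by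
      refine PTF.tabulate (n := fun p : γ × List ℤ => n p.1) (PTU.comp hn (by fun_prop)) ?_
      dsimp only [PTF₂]
      exact PTF.intAdd (ptf_getD' (by fun_prop) (by fun_prop) (PTF.const 0))
        (PTF.intSub (ptf_ev01 (PTF.comp hw (by fun_prop)) (by fun_prop))
          (ptf_ev01 (PTF.comp hv (by fun_prop)) (by fun_prop)))
    refine PTF.ite (PTPred.iff_ptf.2 (ptf_lkB hP11 hw1 hv1)) ?_
      (PTF.ite (PTPred.iff_ptf.2 (ptf_lkB hP21 hv1 hw1)) (by fun_prop) (PTF.const none))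
    exact PTF.comp (g := fun l : List ℤ => some l) (by fun_prop) h3
  · unfold wcandL
    cases lkT (T c) (u c) (w c) <;> rfl

theorem ptf_wentL {n : γ → ℕ} {P1 P2 : γ → List (List Bool)}
    {T : γ → List (List (Option (List ℤ)))} {u v : γ → ℕ} (hn : PTU n) (hP1 : PTF P1)
    (hP2 : PTF P2) (hT : PTF T) (hu : PTF u) (hv : PTF v) :
    PTF (fun c => wentL (n c) (P1 c) (P2 c) (T c) (u c) (v c)) := by
  refine PTF.of_eq (PTF.optionCasesOn (s := fun c => lkT (T c) (u c) (v c))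
    (f := fun c => ((List.range (n c)).filterMap
      (wcandL (n c) (P1 c) (P2 c) (T c) (u c) (v c))).head?)
    (g := fun _ z => some z)
    (ptf_lkT hT hu hv) ?_
    (PTF.comp (g := fun z : List ℤ => some z) (f := fun p : γ × List ℤ => p.2) (by fun_prop)
      PTF.snd)) (fun c => ?_)
  · refine PTF.head? (PTF.filterMap (f := fun c w => wcandL (n c) (P1 c) (P2 c) (T c) (u c) (v c) w)
      (PTF.range hn) ?_)
    dsimp only [PTF₂]
    exact ptf_wcandL (n := fun p : γ × ℕ => n p.1) (PTU.comp hn (by fun_prop))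
      (PTF.comp hP1 (by fun_prop)) (PTF.comp hP2 (by fun_prop)) (PTF.comp hT (by fun_prop))
      (PTF.comp hu (by fun_prop)) (PTF.comp hv (by fun_prop)) (by fun_prop)
  · unfold wentL
    cases lkT (T c) (u c) (v c) <;> rfl

theorem ptf_wstepL {n : γ → ℕ} {P1 P2 : γ → List (List Bool)}
    {T : γ → List (List (Option (List ℤ)))} (hn : PTU n) (hP1 : PTF P1)
    (hP2 : PTF P2) (hT : PTF T) :
    PTF (fun c => wstepL (n c) (P1 c) (P2 c) (T c)) := by
  unfold wstepL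
  refine PTF.tabulate hn ?_
  refine PTF.tabulate (n := fun p : γ × ℕ => n p.1) (PTU.comp hn (by fun_prop)) ?_
  dsimp only [PTF₂]
  exact ptf_wentL (n := fun p : (γ × ℕ) × ℕ => n p.1.1) (PTU.comp hn (by fun_prop))
      (PTF.comp hP1 (by fun_prop)) (PTF.comp hP2 (by fun_prop)) (PTF.comp hT (by fun_prop))
      (by fun_prop) (by fun_prop)

theorem ptf_w0L {n : γ → ℕ} (hn : PTU n) : PTF (fun c => w0L (n c)) := by
  unfold w0L
  refine PTF.tabulate hn ?_
  refine PTF.tabulate (n := fun p : γ × ℕ => n p.1) (PTU.comp hn (by fun_prop)) ?_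
  dsimp only [PTF₂]
  refine PTF.ite (PTPred.natEq (by fun_prop) (by fun_prop)) ?_ (PTF.const none)
  exact PTF.comp (g := fun l : List ℤ => some l) (by fun_prop)
    (PTF.tabulate (n := fun p : (γ × ℕ) × ℕ => n p.1.1) (f := fun _ _ => (0:ℤ))
      (PTU.comp hn (by fun_prop)) (PTF.const 0))

/-- size of the walk table -/
theorem sz_TL_le {n : ℕ} (W : Fin n → Fin n → Option (Fin n → ℤ)) (B : ℕ)
    (h : ∀ u v z, W u v = some z → ∀ i, |z i| ≤ 2 ^ B) :
    sz (TL W) ≤ n * (2 * (n * (2 * (n * (2 * (3 + (B + 1)) + 1) + 1) + 1)) + 1) := by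
  have h1 : ∀ r ∈ TL W, sz r ≤ n * (2 * (n * (2 * (3 + (B + 1)) + 1) + 1) + 1) := by
    intro r hr
    unfold TL at hr
    rw [List.mem_ofFn] at hr
    obtain ⟨u, rfl⟩ := hr
    have h2 : ∀ o ∈ List.ofFn (fun v => (W u v).map List.ofFn),
        sz o ≤ n * (2 * (3 + (B + 1)) + 1) + 1 := by
      intro o ho
      rw [List.mem_ofFn] at ho
      obtain ⟨v, rfl⟩ := ho
      cases hW : W u v with
      | none => simp
      | some z =>
        simp only [Option.map_some, sz_some]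
        have h3 : ∀ a ∈ List.ofFn z, sz a ≤ 3 + (B + 1) := by
          intro a ha
          rw [List.mem_ofFn] at ha
          obtain ⟨j, rfl⟩ := ha
          exact Sfm646.sz_int_le _ _ (h u v z hW j)
        have := sz_list_le h3
        simp only [List.length_ofFn] at this
        omega
    have := sz_list_le h2
    simpa using this
  have := sz_list_le h1
  simpa [TL] using this

theorem sz_wtabL_iter (n k : ℕ) (P1 P2 : List (List Bool)) :
    sz ((wstepL n P1 P2)^[k] (w0L n)) ≤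
      n * (2 * (n * (2 * (n * (2 * (3 + (2 * k + 1)) + 1) + 1) + 1)) + 1) := by
  rw [wstepL_iter]
  refine sz_TL_le _ _ fun u v z hz i => ?_
  have h := (wtab_ok _ _ k u v z hz).nb
  have h1 : |z i| ≤ ∑ i, |z i| :=
    Finset.single_le_sum (f := fun i => |z i|) (fun i _ => abs_nonneg _) (Finset.mem_univ i)
  have h2 : (2 * k : ℕ) < 2 ^ (2 * k) := Nat.lt_two_pow_self
  have h3 : ((2 * k : ℕ) : ℤ) ≤ 2 ^ (2 * k) := by exact_mod_cast h2.le
  push_cast at h3
  linarith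

theorem ptf_wtabL {n : γ → ℕ} {P1 P2 : γ → List (List Bool)} (hn : PTU n) (hP1 : PTF P1)
    (hP2 : PTF P2) : PTF (fun c => wtabL (n c) (P1 c) (P2 c)) := by
  unfold wtabL
  refine PTF.iterate' (f := fun c T => wstepL (n c) (P1 c) (P2 c) T) hn ?_ (ptf_w0L hn)
    (B := fun c => n c * (2 * (n c * (2 * (n c * (2 * (3 + (2 * n c + 1)) + 1) + 1) + 1)) + 1))
    ?_ ?_
  · dsimp only [PTF₂]
    exact ptf_wstepL (γ := γ × List (List (Option (List ℤ)))) (n := fun p => n p.1)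
      (P1 := fun p => P1 p.1) (P2 := fun p => P2 p.1) (T := fun p => p.2)
      (PTU.comp hn (by fun_prop))
      (PTF.comp hP1 (by fun_prop)) (PTF.comp hP2 (by fun_prop)) (by fun_prop)
  · have := PTU.pb hn
    fun_prop
  · intro c i hi
    refine (sz_wtabL_iter (n c) i (P1 c) (P2 c)).trans ?_
    gcongr

theorem ptf_cycL {P1 : γ → List (List Bool)} {T : γ → List (List (Option (List ℤ)))}
    {a b i : γ → ℕ} (hP1 : PTF P1) (hT : PTF T) (ha : PTF a) (hb : PTF b) (hi : PTF i) :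
    PTF (fun c => cycL (P1 c) (T c) (a c) (b c) (i c)) := by
  unfold cycL
  refine PTF.ite (PTPred.iff_ptf.2 (ptf_lkB hP1 ha hb)) ?_ (PTF.const 0)
  refine PTF.of_eq (PTF.optionCasesOn (s := fun c => lkT (T c) (b c) (a c))
    (f := fun _ => (0:ℤ))
    (g := fun c z => z.getD (i c) 0 + (ev01 (a c) (i c) - ev01 (b c) (i c)))
    (ptf_lkT hT hb ha) (PTF.const 0) ?_) (fun c => ?_)
  · have hi1 : PTF (fun p : γ × List ℤ => i p.1) := PTF.comp hi (by fun_prop)
    exact PTF.intAdd (ptf_getD' hi1 (by fun_prop) (PTF.const 0))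
        (PTF.intSub (ptf_ev01 (PTF.comp ha (by fun_prop)) hi1)
          (ptf_ev01 (PTF.comp hb (by fun_prop)) hi1))
  · cases lkT (T c) (b c) (a c) <;> rfl

theorem ptf_zvecL {n : γ → ℕ} {P1 P2 : γ → List (List Bool)} (hn : PTU n) (hP1 : PTF P1)
    (hP2 : PTF P2) : PTF (fun c => zvecL (n c) (P1 c) (P2 c)) := by
  unfold zvecL
  have hT := ptf_wtabL hn hP1 hP2
  generalize hE : (fun c => wtabL (n c) (P1 c) (P2 c)) = T at hT
  have hE' : ∀ c, wtabL (n c) (P1 c) (P2 c) = T c := fun c => congrFun hE c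
  simp only [hE']
  unfold zsumL
  refine PTF.tabulate hn ?_
  dsimp only [PTF₂]
  refine PTF.intListSum (PTF.tabulate (n := fun p : γ × ℕ => n p.1)
    (PTU.comp hn (by fun_prop)) ?_)
  dsimp only [PTF₂]
  refine PTF.intListSum (PTF.tabulate (n := fun p : (γ × ℕ) × ℕ => n p.1.1)
    (PTU.comp hn (by fun_prop)) ?_)
  dsimp only [PTF₂]
  exact ptf_cycL (PTF.comp hP1 (by fun_prop)) (PTF.comp hT (by fun_prop)) (by fun_prop)
    (by fun_prop) (by fun_prop)

theorem ptf_thrL {n : γ → ℕ} {C : γ → List (List ℤ)} {θ : γ → ℤ} (hn : PTU n) (hC : PTF C)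
    (hθ : PTF θ) : PTF (fun c => thrL (n c) (C c) (θ c)) := by
  unfold thrL
  refine PTF.tabulate hn ?_
  refine PTF.tabulate (n := fun p : γ × ℕ => n p.1) (PTU.comp hn (by fun_prop)) ?_
  dsimp only [PTF₂]
  exact PTPred.toPTF (PTPred.and (PTPred.not (PTPred.natEq (by fun_prop) (by fun_prop)))
    (PTPred.intLt (PTF.comp hθ (by fun_prop))
      (ptf_lkZ (PTF.comp hC (by fun_prop)) (by fun_prop) (by fun_prop))))

theorem ptf_zb {n : γ → ℕ} (hn : PTU n) : PTF (fun c => zb (n c)) := by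
  unfold zb
  have h1 := Sfm646.ptf_cast hn
  exact PTF.intMul (PTF.intPowConst h1 2) (PTF.intAdd (PTF.intMul (PTF.const 2) h1) (PTF.const 2))

theorem ptf_halfL {n : γ → ℕ} {C1 C2 : γ → List (List ℤ)} {θ : γ → ℤ} {x : γ → List ℤ}
    (hn : PTU n) (hC1 : PTF C1) (hC2 : PTF C2) (hθ : PTF θ) (hx : PTF x) :
    PTF (fun c => halfL (n c) (C1 c) (C2 c) (θ c) (x c)) := by
  have hz := ptf_zvecL hn (ptf_thrL hn hC1 hθ) (ptf_thrL hn hC2 hθ)
  unfold halfL
  generalize hE : (fun c => zvecL (n c) (thrL (n c) (C1 c) (θ c)) (thrL (n c) (C2 c) (θ c))) = Z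
    at hz
  have hE' : ∀ c, zvecL (n c) (thrL (n c) (C1 c) (θ c)) (thrL (n c) (C2 c) (θ c)) = Z c :=
    fun c => congrFun hE c
  simp only [hE']
  refine PTF.tabulate hn ?_
  dsimp only [PTF₂]
  refine PTF.intAdd (ptf_getD' (by fun_prop) (PTF.comp hx (by fun_prop)) (PTF.const 0))
    (PTF.intMul (PTF.intEdiv (PTF.comp hθ (by fun_prop)) (PTF.intMul (PTF.const 16)
      (ptf_zb (n := fun p : γ × ℕ => n p.1) (PTU.comp hn (by fun_prop)))))
      (ptf_getD' (by fun_prop) (PTF.comp hz (by fun_prop)) (PTF.const 0)))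

end ptf

/-! ### size of the orbit -/

section size

variable {n : ℕ}

theorem halfMove_le (c1 c2 : Fin n → Fin n → ℤ) {θ : ℤ} (hθ : 0 ≤ θ) (x : Fin n → ℤ) (i : Fin n) :
    |halfMove c1 c2 θ x i - x i| ≤ θ := by
  have h := (zvec_spec (thr c1 θ) (thr c2 θ)).2.2.2.1
  rw [← zb_eq] at h
  have h1 : |zvec (thr c1 θ) (thr c2 θ) i| ≤ zb n :=
    (Finset.single_le_sum (f := fun i => |zvec (thr c1 θ) (thr c2 θ) i|)
      (fun i _ => abs_nonneg _) (Finset.mem_univ i)).trans h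
  have h2 : halfMove c1 c2 θ x i - x i = jl n θ * zvec (thr c1 θ) (thr c2 θ) i := by
    unfold halfMove jl; ring
  have h3 := jl_nonneg (n := n) hθ
  have h4 := jl_mul (n := n) hθ
  rw [h2, abs_mul, abs_of_nonneg h3]
  have h5 := mul_le_mul_of_nonneg_left h1 h3
  have h6 : 0 ≤ jl n θ * zb n := mul_nonneg h3 (zb_nonneg n)
  linarith

theorem cstepL_shape (cp1 cp2 : List ℤ → ℕ → ℕ → ℤ) {θ : ℤ} (hθ : 0 ≤ θ) (x : List ℤ) :
    ∃ f : Fin n → ℤ, cstepL n cp1 cp2 θ x = List.ofFn f ∧ ∀ i, |f i - vecL n x i| ≤ 2 * θ := by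
  refine ⟨_, halfL_eq _ _ θ _, fun i => ?_⟩
  have h1 := halfMove_le
    (fun a b : Fin n => lkZ (capTabL n cp2 (halfL n (capTabL n cp1 x) (capTabL n cp2 x) θ x)) a b)
    (fun a b : Fin n => lkZ (capTabL n cp1 (halfL n (capTabL n cp1 x) (capTabL n cp2 x) θ x)) a b)
    hθ (vecL n (halfL n (capTabL n cp1 x) (capTabL n cp2 x) θ x)) i
  have h2 : |vecL n (halfL n (capTabL n cp1 x) (capTabL n cp2 x) θ x) i - vecL n x i| ≤ θ := by
    rw [halfL_eq, vecL_ofFn]
    exact halfMove_le _ _ hθ _ i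
  rw [abs_le] at h1 h2 ⊢
  constructor <;> linarith [h1.1, h1.2, h2.1, h2.2]

theorem centerIt_shape (cp1 cp2 : List ℤ → ℕ → ℕ → ℤ) (k : ℕ) (x : List ℤ) (i : ℕ) :
    (0 ≤ ((centerItL n cp1 cp2)^[i] (x, 2 ^ k)).2 ∧
      ((centerItL n cp1 cp2)^[i] (x, 2 ^ k)).2 ≤ 2 ^ k) ∧
    (((centerItL n cp1 cp2)^[i] (x, 2 ^ k)).1 = x ∨
      ∃ f : Fin n → ℤ, ((centerItL n cp1 cp2)^[i] (x, 2 ^ k)).1 = List.ofFn f) ∧
    ∀ j : Fin n, |vecL n ((centerItL n cp1 cp2)^[i] (x, 2 ^ k)).1 j| ≤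
      |vecL n x j| + 2 * i * 2 ^ k := by
  induction i with
  | zero =>
    refine ⟨⟨by simp, by simp⟩, Or.inl rfl, fun j => by simp⟩
  | succ i ih =>
    rw [Function.iterate_succ_apply']
    obtain ⟨⟨h0, hk⟩, -, hb⟩ := ih
    set σ := (centerItL n cp1 cp2)^[i] (x, 2 ^ k) with hσ
    obtain ⟨f, hf, hf'⟩ := cstepL_shape (n := n) cp1 cp2 h0 σ.1
    refine ⟨⟨?_, ?_⟩, Or.inr ⟨f, hf⟩, fun j => ?_⟩
    · show 0 ≤ σ.2 / 2
      omega
    · show σ.2 / 2 ≤ 2 ^ k
      omega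
    · show |vecL n (cstepL n cp1 cp2 σ.2 σ.1) j| ≤ _
      rw [hf, vecL_ofFn]
      have h1 := hf' j
      have h2 := hb j
      have h3 : |f j| ≤ |f j - vecL n σ.1 j| + |vecL n σ.1 j| := by
        have := abs_add_le (f j - vecL n σ.1 j) (vecL n σ.1 j)
        simpa using this
      push_cast
      linarith

theorem vecL_le (x : List ℤ) (j : Fin n) : |vecL n x j| ≤ 2 ^ sz x := by
  unfold vecL
  have h1 := Sfm646.sz_getD_le x j
  rw [sz_int] at h1
  have h2 : (x.getD j 0).natAbs.size ≤ sz x := by omega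
  rw [Nat.size_le] at h2
  have h3 : (((x.getD j 0).natAbs : ℕ) : ℤ) ≤ 2 ^ sz x := by exact_mod_cast h2.le
  rwa [Int.natCast_natAbs] at h3

/-- bound for the sizes of the states -/
def cenSz (n k s : ℕ) : ℕ :=
  2 * (s + n * (2 * (3 + (s + 2 * k + 2 + 1)) + 1)) + 1 + (3 + (k + 1))

theorem centerIt_sz (cp1 cp2 : List ℤ → ℕ → ℕ → ℤ) (k : ℕ) (x : List ℤ) {i : ℕ}
    (hi : i ≤ k + 1) : sz ((centerItL n cp1 cp2)^[i] (x, 2 ^ k)) ≤ cenSz n k (sz x) := by
  obtain ⟨⟨h0, hk⟩, hs, hb⟩ := centerIt_shape (n := n) cp1 cp2 k x i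
  set σ := (centerItL n cp1 cp2)^[i] (x, 2 ^ k) with hσ
  have h2 : sz σ.2 ≤ 3 + (k + 1) := Sfm646.sz_int_le _ _ (by rw [abs_of_nonneg h0]; exact hk)
  have h1 : sz σ.1 ≤ sz x + n * (2 * (3 + (sz x + 2 * k + 2 + 1)) + 1) := by
    rcases hs with hs | ⟨f, hf⟩
    · rw [hs]; omega
    · have h3 : ∀ a ∈ List.ofFn f, sz a ≤ 3 + (sz x + 2 * k + 2 + 1) := by
        intro a ha
        rw [List.mem_ofFn] at ha
        obtain ⟨j, rfl⟩ := ha
        refine Sfm646.sz_int_le _ _ ?_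
        have h4 := hb j
        rw [hf, vecL_ofFn] at h4
        have h5 := vecL_le x j
        have h6 : (i : ℤ) ≤ 2 ^ k := by
          have h7 : k < 2 ^ k := Nat.lt_two_pow_self
          have h8 : i ≤ 2 ^ k := by omega
          exact_mod_cast h8
        have h9 : 2 * (i : ℤ) * 2 ^ k ≤ 2 * 2 ^ k * 2 ^ k := by gcongr
        have h10 : (2 : ℤ) * 2 ^ k * 2 ^ k = 2 ^ (2 * k + 1) := by
          rw [pow_succ, two_mul k, pow_add]; ring
        have h11 : (2 : ℤ) ^ sz x ≤ 2 ^ (sz x + (2 * k + 1)) :=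
          pow_le_pow_right₀ (by norm_num) (by omega)
        have h12 : (2 : ℤ) ^ (2 * k + 1) ≤ 2 ^ (sz x + (2 * k + 1)) :=
          pow_le_pow_right₀ (by norm_num) (by omega)
        have h13 : (2 : ℤ) ^ (sz x + 2 * k + 2) = 2 * 2 ^ (sz x + (2 * k + 1)) := by
          rw [show sz x + 2 * k + 2 = (sz x + (2 * k + 1)) + 1 by ring, pow_succ]; ring
        rw [h13]
        linarith
      have := sz_list_le h3
      rw [List.length_ofFn] at this
      rw [hf]
      omega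
  unfold cenSz
  rw [sz_prod]
  omega

end size

/-! ### the program -/

section optf

variable {γ : Type} [PTCode γ]

theorem capTabL_optf {n : Inst → γ → ℕ} {cp : Inst → γ → List ℤ → ℕ → ℕ → ℤ}
    {x : Inst → γ → List ℤ} (hn : OPTU n)
    (hcp : OPTF (fun I (p : γ × List ℤ × ℕ × ℕ) => cp I p.1 p.2.1 p.2.2.1 p.2.2.2))
    (hx : OPTF x) : OPTF (fun I c => capTabL (n I c) (cp I c) (x I c)) := by
  unfold capTabL
  refine OPTF.map (f := fun I c a => (List.range (n I c)).map fun b => cp I c (x I c) a b)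
    (OPTF.range hn) ?_
  refine OPTF.map (f := fun I (p : γ × ℕ) b => cp I p.1 (x I p.1) p.2 b)
    (OPTF.range (OPTU.comp (n := n) (f := fun _ (p : γ × ℕ) => p.1) hn
      (OPTF.of_ptf (by fun_prop)))) ?_
  refine OPTF.comp (g := fun I (p : γ × List ℤ × ℕ × ℕ) => cp I p.1 p.2.1 p.2.2.1 p.2.2.2)
    (f := fun I (p : (γ × ℕ) × ℕ) => (p.1.1, x I p.1.1, p.1.2, p.2)) hcp ?_
  refine OPTF.prodMk (OPTF.of_ptf (by fun_prop)) (OPTF.prodMk ?_ (OPTF.of_ptf (by fun_prop)))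
  exact OPTF.comp (g := x) (f := fun _ (p : (γ × ℕ) × ℕ) => p.1.1) hx (OPTF.of_ptf (by fun_prop))

theorem halfL_optf {n : Inst → γ → ℕ} {C1 C2 : Inst → γ → List (List ℤ)} {θ : Inst → γ → ℤ}
    {x : Inst → γ → List ℤ} (hn : OPTU n) (h1 : OPTF C1) (h2 : OPTF C2) (hθ : OPTF θ)
    (hx : OPTF x) : OPTF (fun I c => halfL (n I c) (C1 I c) (C2 I c) (θ I c) (x I c)) := by
  have hg : PTF (fun p : Un × List (List ℤ) × List (List ℤ) × ℤ × List ℤ =>
      halfL p.1.val p.2.1 p.2.2.1 p.2.2.2.1 p.2.2.2.2) :=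
    ptf_halfL (n := fun p : Un × List (List ℤ) × List (List ℤ) × ℤ × List ℤ => p.1.val)
      (PTU.val (by fun_prop)) (by fun_prop) (by fun_prop) (by fun_prop) (by fun_prop)
  exact OPTF.post (g := fun p : Un × List (List ℤ) × List (List ℤ) × ℤ × List ℤ =>
      halfL p.1.val p.2.1 p.2.2.1 p.2.2.2.1 p.2.2.2.2)
    (f := fun I c => (Un.mk (n I c), C1 I c, C2 I c, θ I c, x I c)) hg
    (OPTF.prodMk hn (h1.prodMk (h2.prodMk (hθ.prodMk hx))))

theorem cstepL_optf {n : Inst → γ → ℕ} {cp1 cp2 : Inst → γ → List ℤ → ℕ → ℕ → ℤ}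
    {θ : Inst → γ → ℤ} {x : Inst → γ → List ℤ} (hn : OPTU n)
    (h1 : OPTF (fun I (p : γ × List ℤ × ℕ × ℕ) => cp1 I p.1 p.2.1 p.2.2.1 p.2.2.2))
    (h2 : OPTF (fun I (p : γ × List ℤ × ℕ × ℕ) => cp2 I p.1 p.2.1 p.2.2.1 p.2.2.2))
    (hθ : OPTF θ) (hx : OPTF x) :
    OPTF (fun I c => cstepL (n I c) (cp1 I c) (cp2 I c) (θ I c) (x I c)) := by
  unfold cstepL
  have hy := halfL_optf hn (capTabL_optf hn h1 hx) (capTabL_optf hn h2 hx) hθ hx
  exact halfL_optf hn (capTabL_optf hn h2 hy) (capTabL_optf hn h1 hy) hθ hy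

/-- **the deterministic integral centre is computable relative to the oracle** -/
theorem centerL_optf {n k : Inst → γ → ℕ} {cp1 cp2 : Inst → γ → List ℤ → ℕ → ℕ → ℤ}
    {x : Inst → γ → List ℤ} (hn : OPTU n)
    (h1 : OPTF (fun I (p : γ × List ℤ × ℕ × ℕ) => cp1 I p.1 p.2.1 p.2.2.1 p.2.2.2))
    (h2 : OPTF (fun I (p : γ × List ℤ × ℕ × ℕ) => cp2 I p.1 p.2.1 p.2.2.1 p.2.2.2))
    (hk : OPTU k) (hx : OPTF x) :
    OPTF (fun I c => centerL (n I c) (cp1 I c) (cp2 I c) (k I c) (x I c)) := by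
  unfold centerL
  refine OPTF.fst ?_
  refine OPTF.iterate (n := fun I c => k I c + 1)
    (f := fun I c σ => centerItL (n I c) (cp1 I c) (cp2 I c) σ)
    (a := fun I c => (x I c, 2 ^ k I c))
    (hk.add (OPTU.const 1)) ?_ ?_
    (B := fun I c => cenSz (n I c) (k I c) (sz (x I c))) ?_ ?_
  · unfold centerItL
    refine OPTF.prodMk ?_ (OPTF.intEdiv (OPTF.of_ptf (by fun_prop)) (OPTF.const 2))
    refine cstepL_optf (γ := γ × (List ℤ × ℤ)) (n := fun I q => n I q.1)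
      (cp1 := fun I q => cp1 I q.1) (cp2 := fun I q => cp2 I q.1) (θ := fun _ q => q.2.2)
      (x := fun _ q => q.2.1) ?_ ?_ ?_ (OPTF.of_ptf (by fun_prop)) (OPTF.of_ptf (by fun_prop))
    · exact OPTU.comp (n := n) (f := fun _ (p : γ × (List ℤ × ℤ)) => p.1) hn
        (OPTF.of_ptf (by fun_prop))
    · exact OPTF.pre (g := fun I (p : γ × List ℤ × ℕ × ℕ) => cp1 I p.1 p.2.1 p.2.2.1 p.2.2.2)
        (f := fun p : (γ × (List ℤ × ℤ)) × List ℤ × ℕ × ℕ => (p.1.1, p.2)) h1 (by fun_prop)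
    · exact OPTF.pre (g := fun I (p : γ × List ℤ × ℕ × ℕ) => cp2 I p.1 p.2.1 p.2.2.1 p.2.2.2)
        (f := fun p : (γ × (List ℤ × ℤ)) × List ℤ × ℕ × ℕ => (p.1.1, p.2)) h2 (by fun_prop)
  · refine OPTF.prodMk hx ?_
    exact (OPTF.intNatCast (OPTF.natTwoPow hk)).of_eq (fun I c => by push_cast; rfl)
  · have hnB := hn.opb
    have hkB := hk.opb
    have hsB : OPB (fun I c => sz (x I c)) := hx.bound
    unfold cenSz
    exact (((OPB.const 2).mul (hsB.add (hnB.mul (((OPB.const 2).mul ((OPB.const 3).add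
      (((hsB.add ((OPB.const 2).mul hkB)).add (OPB.const 2)).add (OPB.const 1)))).add
      (OPB.const 1))))).add (OPB.const 1)).add ((OPB.const 3).add (hkB.add (OPB.const 1)))
  · intro I c i hi
    exact centerIt_sz _ _ _ _ hi

end optf

end Crest.Agent.R302.CenL
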