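import Mathlib

/-!
R302 (helper550): the CLOSURE in the exact form asked for by helper893 (#7732).
-/

set_option autoImplicit false

namespace Crest.Agent.R302.Close

open Finset

/-- **CLOSURE** (helper893's form). -/
theorem clo {V : Type*} [Fintype V] (P : Finset V) (below : V → Finset V)
    (X L s B D Tl : V → ℝ) (V0 kap PP : ℝ)
    (hX : ∀ p, 0 ≤ X p) (hL : ∀ p, 1 ≤ L p) (hs : ∀ p, 0 ≤ s p) (hD : ∀ p, 0 ≤ D p)
    (hTl : ∀ p, 0 ≤ Tl p) (hV0 : 0 ≤ V0) (hkap : 1 ≤ kap) (hPP : 0 ≤ PP)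
    (hbelow : ∀ p ∈ P, below p ⊆ P)
    (h1 : ∀ p ∈ P, 2 * X p ≤ 2 * kap * L p ^ 2 * V0
      + 2 * (Real.sqrt V0 * Real.sqrt (Fintype.card V * kap * (2 * kap * L p ^ 2) ^ 2
          * ∑ q ∈ P, B q ^ 2 * X q))
      + 6 * (Fintype.card V * ∑ q ∈ below p, s q * X q) + (2 * L p + 2) * Tl p)
    (h2 : ∀ p ∈ P, 6 * (Fintype.card V * ∑ q ∈ below p, s q * L q ^ 2) ≤ L p ^ 2)
    (h3 : ∑ q ∈ P, B q ^ 2 * L q ^ 2 ≤ PP)
    (h4 : V0 ≤ ∑ p ∈ P, Real.sqrt (X p * D p)) :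
    V0 ≤ (Fintype.card V * (4 * kap + 16 * Fintype.card V * kap ^ 3 * PP))
        * (∑ p ∈ P, L p ^ 2 * D p) + 2 * ∑ p ∈ P, Tl p / L p := by
  classical
  have hN0 : (0 : ℝ) ≤ (Fintype.card V : ℝ) := by positivity
  have hcard : (P.card : ℝ) ≤ Fintype.card V := by exact_mod_cast card_le_univ P
  generalize hN : (Fintype.card V : ℝ) = N at *
  have hL0 : ∀ p, 0 < L p := fun p => lt_of_lt_of_le one_pos (hL p)
  have hτ0 : 0 ≤ ∑ p ∈ P, Tl p / L p := sum_nonneg fun p _ => div_nonneg (hTl p) (hL0 p).le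
  have hW0 : 0 ≤ ∑ p ∈ P, L p ^ 2 * D p :=
    sum_nonneg fun p _ => mul_nonneg (sq_nonneg _) (hD p)
  rcases P.eq_empty_or_nonempty with he | hne
  · rw [he, sum_empty] at h4
    have : 0 ≤ (N * (4 * kap + 16 * N * kap ^ 3 * PP)) * (∑ p ∈ P, L p ^ 2 * D p) := by
      positivity
    linarith
  set τ := ∑ p ∈ P, Tl p / L p with hτ
  set W := ∑ p ∈ P, L p ^ 2 * D p with hW
  obtain ⟨p, hpP, hp⟩ := exists_max_image P (fun p => X p / L p ^ 2) hne
  set x := X p / L p ^ 2 with hx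
  have hmax : ∀ q ∈ P, X q ≤ L q ^ 2 * x := by
    intro q hq
    have := hp q hq
    rw [div_le_iff₀ (pow_pos (hL0 q) 2)] at this
    linarith
  have hx0 : 0 ≤ x := div_nonneg (hX p) (by positivity)
  have hLp : 0 < L p ^ 2 := pow_pos (hL0 p) 2
  have hXp : X p = L p ^ 2 * x := by
    rw [hx, mul_div_cancel₀ _ hLp.ne']
  have hsum1 : ∑ q ∈ P, B q ^ 2 * X q ≤ PP * x := by
    calc ∑ q ∈ P, B q ^ 2 * X q ≤ ∑ q ∈ P, (B q ^ 2 * L q ^ 2) * x := by
          refine sum_le_sum fun q hq => ?_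
          have := mul_le_mul_of_nonneg_left (hmax q hq) (sq_nonneg (B q))
          linarith
      _ = (∑ q ∈ P, B q ^ 2 * L q ^ 2) * x := by rw [sum_mul]
      _ ≤ PP * x := mul_le_mul_of_nonneg_right h3 hx0
  have hsum2 : 6 * (N * ∑ q ∈ below p, s q * X q) ≤ L p ^ 2 * x := by
    have h5 : ∑ q ∈ below p, s q * X q ≤ (∑ q ∈ below p, s q * L q ^ 2) * x := by
      rw [sum_mul]
      refine sum_le_sum fun q hq => ?_
      have := mul_le_mul_of_nonneg_left (hmax q (hbelow p hpP hq)) (hs q)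
      linarith
    have h6 := mul_le_mul_of_nonneg_left h5 hN0
    have h7 := mul_le_mul_of_nonneg_right (h2 p hpP) hx0
    linarith
  have hroot : 2 * (Real.sqrt V0 * Real.sqrt (N * kap * (2 * kap * L p ^ 2) ^ 2
      * ∑ q ∈ P, B q ^ 2 * X q)) ≤ L p ^ 2 * (x / 2 + 8 * N * kap ^ 3 * PP * V0) := by
    have h6 : N * kap * (2 * kap * L p ^ 2) ^ 2 * ∑ q ∈ P, B q ^ 2 * X q
        ≤ N * kap * (2 * kap * L p ^ 2) ^ 2 * (PP * x) :=
      mul_le_mul_of_nonneg_left hsum1 (by positivity)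
    have h7 : Real.sqrt V0 * Real.sqrt (N * kap * (2 * kap * L p ^ 2) ^ 2
        * ∑ q ∈ P, B q ^ 2 * X q)
        ≤ Real.sqrt (V0 * (N * kap * (2 * kap * L p ^ 2) ^ 2 * (PP * x))) := by
      rw [← Real.sqrt_mul hV0]
      exact Real.sqrt_le_sqrt (mul_le_mul_of_nonneg_left h6 hV0)
    have h8 : Real.sqrt (V0 * (N * kap * (2 * kap * L p ^ 2) ^ 2 * (PP * x)))
        ≤ L p ^ 2 * (x / 4 + 4 * N * kap ^ 3 * PP * V0) := by
      refine Real.sqrt_le_iff.2 ⟨by positivity, ?_⟩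
      have h9 : 0 ≤ (x / 4 - 4 * N * kap ^ 3 * PP * V0) ^ 2 := sq_nonneg _
      have h10 : 4 * N * kap ^ 3 * PP * V0 * x ≤ (x / 4 + 4 * N * kap ^ 3 * PP * V0) ^ 2 := by
        nlinarith
      have h11 := mul_le_mul_of_nonneg_left h10 (by positivity : (0:ℝ) ≤ L p ^ 4)
      calc V0 * (N * kap * (2 * kap * L p ^ 2) ^ 2 * (PP * x))
          = L p ^ 4 * (4 * N * kap ^ 3 * PP * V0 * x) := by ring
        _ ≤ L p ^ 4 * (x / 4 + 4 * N * kap ^ 3 * PP * V0) ^ 2 := h11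
        _ = (L p ^ 2 * (x / 4 + 4 * N * kap ^ 3 * PP * V0)) ^ 2 := by ring
    nlinarith
  have htail : (2 * L p + 2) * Tl p ≤ L p ^ 2 * (4 * τ) := by
    have h9 : Tl p / L p ≤ τ :=
      single_le_sum (f := fun p => Tl p / L p) (fun q _ => div_nonneg (hTl q) (hL0 q).le) hpP
    have h10 : Tl p ≤ τ * L p := by rwa [div_le_iff₀ (hL0 p)] at h9
    have h11 : 2 * L p + 2 ≤ 4 * L p := by linarith [hL p]
    calc (2 * L p + 2) * Tl p ≤ (4 * L p) * Tl p := mul_le_mul_of_nonneg_right h11 (hTl p)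
      _ ≤ (4 * L p) * (τ * L p) := mul_le_mul_of_nonneg_left h10 (by linarith [hL0 p])
      _ = L p ^ 2 * (4 * τ) := by ring
  have hfin := h1 p hpP
  rw [hXp] at hfin
  have h12 : L p ^ 2 * (2 * x) ≤ L p ^ 2 * (2 * kap * V0
      + (x / 2 + 8 * N * kap ^ 3 * PP * V0) + x + 4 * τ) := by
    calc L p ^ 2 * (2 * x) = 2 * (L p ^ 2 * x) := by ring
      _ ≤ _ := hfin
      _ ≤ 2 * kap * L p ^ 2 * V0 + L p ^ 2 * (x / 2 + 8 * N * kap ^ 3 * PP * V0) + L p ^ 2 * x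
          + L p ^ 2 * (4 * τ) := by linarith
      _ = _ := by ring
  have h13 := le_of_mul_le_mul_left h12 hLp
  have h14 : x ≤ (4 * kap + 16 * N * kap ^ 3 * PP) * V0 + 8 * τ := by linarith
  set K := 4 * kap + 16 * N * kap ^ 3 * PP with hK
  have hK4 : 4 ≤ K := by
    have : 0 ≤ 16 * N * kap ^ 3 * PP := by positivity
    linarith
  have hK0 : 0 < K := by linarith
  -- the last step
  set Z := ∑ q ∈ P, L q * Real.sqrt (D q) with hZ
  have hZ2 : Z ^ 2 ≤ N * W := by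
    refine (sq_sum_le_card_mul_sum_sq (s := P) (f := fun q => L q * Real.sqrt (D q))).trans ?_
    have e : ∑ q ∈ P, (L q * Real.sqrt (D q)) ^ 2 = W := by
      rw [hW]
      refine sum_congr rfl fun q _ => ?_
      rw [mul_pow, Real.sq_sqrt (hD q)]
    rw [e]
    exact mul_le_mul_of_nonneg_right hcard hW0
  have h15 : V0 ≤ Real.sqrt (K * V0 + 8 * τ) * Z := by
    refine h4.trans ?_
    rw [hZ, mul_sum]
    refine sum_le_sum fun q hq => ?_
    rw [Real.sqrt_mul (hX q)]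
    have h2 : Real.sqrt (X q) ≤ L q * Real.sqrt (K * V0 + 8 * τ) := by
      have h16 : X q ≤ L q ^ 2 * (K * V0 + 8 * τ) :=
        (hmax q hq).trans (mul_le_mul_of_nonneg_left h14 (sq_nonneg _))
      refine (Real.sqrt_le_sqrt h16).trans ?_
      rw [Real.sqrt_mul (sq_nonneg _), Real.sqrt_sq (hL0 q).le]
    calc Real.sqrt (X q) * Real.sqrt (D q)
        ≤ (L q * Real.sqrt (K * V0 + 8 * τ)) * Real.sqrt (D q) :=
          mul_le_mul_of_nonneg_right h2 (Real.sqrt_nonneg _)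
      _ = Real.sqrt (K * V0 + 8 * τ) * (L q * Real.sqrt (D q)) := by ring
  have hKv : 0 ≤ K * V0 + 8 * τ := by positivity
  have h3' : Real.sqrt (K * V0 + 8 * τ) * Z ≤ (K * V0 + 8 * τ) / (2 * K) + K * Z ^ 2 / 2 := by
    have h4' : Real.sqrt (K * V0 + 8 * τ) ^ 2 = K * V0 + 8 * τ := Real.sq_sqrt hKv
    set t := Real.sqrt (K * V0 + 8 * τ)
    rw [← h4']
    have h5 : 0 ≤ (t - K * Z) ^ 2 / (2 * K) := by positivity
    have h6 : (t - K * Z) ^ 2 / (2 * K) = t ^ 2 / (2 * K) + K * Z ^ 2 / 2 - t * Z := by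
      field_simp; ring
    linarith
  have h7 : (K * V0 + 8 * τ) / (2 * K) = V0 / 2 + 4 * τ / K := by field_simp; ring
  have h8 : K * Z ^ 2 ≤ K * (N * W) := mul_le_mul_of_nonneg_left hZ2 hK0.le
  have h9 : 4 * τ / K ≤ τ := by
    rw [div_le_iff₀ hK0]; nlinarith
  have h10 : V0 ≤ K * (N * W) + 2 * τ := by linarith
  calc V0 ≤ K * (N * W) + 2 * τ := h10
    _ = N * K * W + 2 * τ := by ring

end Crest.Agent.R302.Close
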