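import Mathlib

/-!
R302 (helper550): the CLOSURE (step (8) of helper893's proof of the multi-scale Poincare
inequality) as pure lemmas on real numbers.
-/

set_option autoImplicit false

namespace Crest.Agent.R302.Close

open Finset

variable {V : Type*}

/-- **CLOSURE.**  `X p` = energies, `v` = variance, `N = card V`. -/
theorem closure [Fintype V] (X L b : V → ℝ) (D : V → Finset V) (v U κ P0 Pf c τ : ℝ)
    (hX : ∀ p, 0 ≤ X p) (hv : 0 ≤ v) (hL : ∀ p, 0 < L p) (hb : ∀ p, 0 ≤ b p)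
    (hc : 0 ≤ c)
    (hbL : ∀ q, b q * L q ≤ P0)
    (hbf : ∀ p, ∀ q ∈ D p, b q * L q ≤ Pf)
    (hLf : ∀ p, (D p).Nonempty → c * Fintype.card V * Pf ^ 2 ≤ L p ^ 2)
    (h : ∀ p, 2 * X p ≤ U * L p ^ 2 * v
      + 2 * Real.sqrt v * Real.sqrt (κ ^ 2 * L p ^ 4 * ∑ q, b q ^ 2 * X q)
      + c * (∑ q ∈ D p, b q ^ 2 * X q) + L p ^ 2 * τ) :
    ∀ p, X p ≤ L p ^ 2 * ((2 * U + 4 * κ ^ 2 * Fintype.card V * P0 ^ 2) * v + 2 * τ) := by
  classical
  intro p0
  have : Nonempty V := ⟨p0⟩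
  -- the maximiser of `X p / L p ^ 2`
  obtain ⟨p, -, hp⟩ := exists_max_image univ (fun p => X p / L p ^ 2) univ_nonempty
  set x := X p / L p ^ 2 with hx
  have hmax : ∀ q, X q ≤ L q ^ 2 * x := by
    intro q
    have := hp q (mem_univ q)
    rw [div_le_iff₀ (pow_pos (hL q) 2)] at this
    linarith
  have hx0 : 0 ≤ x := div_nonneg (hX p) (by positivity)
  have hXp : X p = L p ^ 2 * x := by
    rw [hx]; field_simp [(hL p).ne']
  have hLp := pow_pos (hL p) 2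
  -- the sum over all `q`
  have hsum1 : ∑ q, b q ^ 2 * X q ≤ Fintype.card V * P0 ^ 2 * x := by
    calc ∑ q, b q ^ 2 * X q ≤ ∑ _q : V, P0 ^ 2 * x := by
          refine sum_le_sum fun q _ => ?_
          have h1 : b q ^ 2 * X q ≤ b q ^ 2 * (L q ^ 2 * x) :=
            mul_le_mul_of_nonneg_left (hmax q) (sq_nonneg _)
          have h2 : (b q * L q) ^ 2 ≤ P0 ^ 2 :=
            pow_le_pow_left₀ (mul_nonneg (hb q) (hL q).le) (hbL q) 2
          nlinarith [mul_le_mul_of_nonneg_right h2 hx0]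
      _ = Fintype.card V * P0 ^ 2 * x := by
          rw [sum_const, card_univ, nsmul_eq_mul]; ring
  have hsum2 : c * (∑ q ∈ D p, b q ^ 2 * X q) ≤ L p ^ 2 * x := by
    rcases (D p).eq_empty_or_nonempty with he | hne
    · rw [he, sum_empty, mul_zero]; positivity
    have h3 : ∑ q ∈ D p, b q ^ 2 * X q ≤ Fintype.card V * (Pf ^ 2 * x) := by
      calc ∑ q ∈ D p, b q ^ 2 * X q ≤ ∑ _q ∈ D p, Pf ^ 2 * x := by
            refine sum_le_sum fun q hq => ?_
            have h1 : b q ^ 2 * X q ≤ b q ^ 2 * (L q ^ 2 * x) :=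
              mul_le_mul_of_nonneg_left (hmax q) (sq_nonneg _)
            have h2 : (b q * L q) ^ 2 ≤ Pf ^ 2 :=
              pow_le_pow_left₀ (mul_nonneg (hb q) (hL q).le) (hbf p q hq) 2
            nlinarith [mul_le_mul_of_nonneg_right h2 hx0]
        _ = (D p).card * (Pf ^ 2 * x) := by rw [sum_const, nsmul_eq_mul]
        _ ≤ Fintype.card V * (Pf ^ 2 * x) := by
            refine mul_le_mul_of_nonneg_right ?_ (by positivity)
            exact_mod_cast card_le_univ _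
    have h4 := mul_le_mul_of_nonneg_left h3 hc
    have h5 := mul_le_mul_of_nonneg_right (hLf p hne) hx0
    linarith
  -- the square root term
  have hN0 : (0 : ℝ) ≤ (Fintype.card V : ℝ) := by positivity
  generalize hN : (Fintype.card V : ℝ) = N at *
  have hroot : 2 * Real.sqrt v * Real.sqrt (κ ^ 2 * L p ^ 4 * ∑ q, b q ^ 2 * X q)
      ≤ L p ^ 2 * (2 * κ ^ 2 * N * P0 ^ 2 * v + x / 2) := by
    have h6 : κ ^ 2 * L p ^ 4 * ∑ q, b q ^ 2 * X q ≤ κ ^ 2 * L p ^ 4 * (N * P0 ^ 2 * x) :=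
      mul_le_mul_of_nonneg_left hsum1 (by positivity)
    have h7 : Real.sqrt v * Real.sqrt (κ ^ 2 * L p ^ 4 * ∑ q, b q ^ 2 * X q)
        ≤ Real.sqrt (v * (κ ^ 2 * L p ^ 4 * (N * P0 ^ 2 * x))) := by
      rw [← Real.sqrt_mul hv]
      exact Real.sqrt_le_sqrt (mul_le_mul_of_nonneg_left h6 hv)
    have h8 : Real.sqrt (v * (κ ^ 2 * L p ^ 4 * (N * P0 ^ 2 * x)))
        ≤ L p ^ 2 * (κ ^ 2 * N * P0 ^ 2 * v + x / 4) := by
      refine Real.sqrt_le_iff.2 ⟨by positivity, ?_⟩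
      have h9 : 0 ≤ (κ ^ 2 * N * P0 ^ 2 * v - x / 4) ^ 2 := sq_nonneg _
      have h10 : κ ^ 2 * N * P0 ^ 2 * v * x ≤ (κ ^ 2 * N * P0 ^ 2 * v + x / 4) ^ 2 := by
        nlinarith
      have h11 := mul_le_mul_of_nonneg_left h10 (by positivity : (0:ℝ) ≤ L p ^ 4)
      calc v * (κ ^ 2 * L p ^ 4 * (N * P0 ^ 2 * x))
          = L p ^ 4 * (κ ^ 2 * N * P0 ^ 2 * v * x) := by ring
        _ ≤ L p ^ 4 * (κ ^ 2 * N * P0 ^ 2 * v + x / 4) ^ 2 := h11
        _ = (L p ^ 2 * (κ ^ 2 * N * P0 ^ 2 * v + x / 4)) ^ 2 := by ring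
    nlinarith
  have hfin := h p
  rw [hXp] at hfin
  have h12 : L p ^ 2 * (2 * x) ≤ L p ^ 2 * (U * v + (2 * κ ^ 2 * N * P0 ^ 2 * v + x / 2)
      + x + τ) := by
    calc L p ^ 2 * (2 * x) = 2 * (L p ^ 2 * x) := by ring
      _ ≤ _ := hfin
      _ ≤ U * L p ^ 2 * v + L p ^ 2 * (2 * κ ^ 2 * N * P0 ^ 2 * v + x / 2) + L p ^ 2 * x
          + L p ^ 2 * τ := by linarith
      _ = _ := by ring
  have h13 := le_of_mul_le_mul_left h12 hLp
  have h14 : x ≤ (2 * U + 4 * κ ^ 2 * N * P0 ^ 2) * v + 2 * τ := by linarith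
  exact (hmax p0).trans (mul_le_mul_of_nonneg_left h14 (by positivity))

/-- the last step: from the energies to the variance -/
theorem final (X L Dq : V → ℝ) (v K τ : ℝ) (I : Finset V) (hK : 0 < K)
    (hD : ∀ q, 0 ≤ Dq q)
    (hX : ∀ q ∈ I, X q ≤ L q ^ 2 * (K * v + τ)) (hKv : 0 ≤ K * v + τ) (hL : ∀ q, 0 ≤ L q)
    (hv : v ≤ ∑ q ∈ I, Real.sqrt (X q) * Real.sqrt (Dq q)) :
    v ≤ K * (I.card * ∑ q ∈ I, L q ^ 2 * Dq q) + τ / K := by
  classical
  set W := ∑ q ∈ I, L q * Real.sqrt (Dq q) with hW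
  have hW2 : W ^ 2 ≤ I.card * ∑ q ∈ I, L q ^ 2 * Dq q := by
    refine (sq_sum_le_card_mul_sum_sq (s := I) (f := fun q => L q * Real.sqrt (Dq q))).trans ?_
    refine le_of_eq ?_
    congr 1
    refine sum_congr rfl fun q _ => ?_
    rw [mul_pow, Real.sq_sqrt (hD q)]
  have h1 : v ≤ Real.sqrt (K * v + τ) * W := by
    refine hv.trans ?_
    rw [hW, mul_sum]
    refine sum_le_sum fun q hq => ?_
    have h2 : Real.sqrt (X q) ≤ L q * Real.sqrt (K * v + τ) := by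
      refine (Real.sqrt_le_sqrt (hX q hq)).trans ?_
      rw [Real.sqrt_mul (sq_nonneg _), Real.sqrt_sq (hL q)]
    calc Real.sqrt (X q) * Real.sqrt (Dq q)
        ≤ (L q * Real.sqrt (K * v + τ)) * Real.sqrt (Dq q) :=
          mul_le_mul_of_nonneg_right h2 (Real.sqrt_nonneg _)
      _ = Real.sqrt (K * v + τ) * (L q * Real.sqrt (Dq q)) := by ring
  have h3 : Real.sqrt (K * v + τ) * W ≤ (K * v + τ) / (2 * K) + K * W ^ 2 / 2 := by
    have h4 : Real.sqrt (K * v + τ) ^ 2 = K * v + τ := Real.sq_sqrt hKv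
    set s := Real.sqrt (K * v + τ)
    rw [← h4]
    have h5 : 0 ≤ (s - K * W) ^ 2 / (2 * K) := by positivity
    have h6 : (s - K * W) ^ 2 / (2 * K) = s ^ 2 / (2 * K) + K * W ^ 2 / 2 - s * W := by
      field_simp; ring
    linarith
  have h7 : (K * v + τ) / (2 * K) = v / 2 + τ / K / 2 := by field_simp
  have h8 : K * W ^ 2 ≤ K * (I.card * ∑ q ∈ I, L q ^ 2 * Dq q) :=
    mul_le_mul_of_nonneg_left hW2 hK.le
  linarith

end Crest.Agent.R302.Close
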