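import Crest.Agent.R302.Top497A
import Crest.Agent.R302.EDM5
import Crest.Agent.R302.ORAM.Final
import Crest.Agent.R309.Count632D

/-!
# R302, block TOP (helper497), part B: the estimator built on a box sampler, and its law

`smp q s τ` is a sampler of common integer bases in a box (input `s : SIn = (n, R, m, lo, hi)`), correct up to `1/m`
in total variation (`SmpSpec`); `G smp slen` is the estimator of `Final.lean` and `CountSpec (G ..) (N ..)` holds.
-/

set_option autoImplicit false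
set_option linter.dupNamespace false

namespace Crest.Agent.R302.Top

open Finset Crest.Polymatroid Crest.Agent.R302.Facet Crest.Agent.R302.EDM Crest.Agent.R302.ORAM
open Crest.Agent.R309.Tape Crest.Agent.R309.Count632 Crest.Agent.Lib.PT

/-- input of the sampler: `n` (unary), `R`, accuracy `m` (unary), lower and upper bounds -/
abbrev SIn : Type := Un × ℕ × Un × List ℤ × List ℤ

/-- the type of samplers -/
abbrev Smp : Type := (Bool → List Bool → ℕ) → SIn → List Bool → List ℤ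

/-- **The specification of the sampler.** -/
def SmpSpec (smp : Smp) (slen : SIn → ℕ) : Prop :=
  ∀ (n R : ℕ) (r₁ r₂ : Finset (Fin n) → ℕ) (m : ℕ) (lo hi : Fin n → ℤ),
    IsPolymatroidRank r₁ → IsPolymatroidRank r₂ → r₁ Finset.univ = R → r₂ Finset.univ = R →
    1 ≤ m → (∀ i, 0 ≤ lo i ∧ lo i ≤ hi i ∧ hi i ≤ R) → (PB r₁ r₂ R lo hi).Nonempty →
    ∀ φ : List ℤ → ℝ, (∀ y, 0 ≤ φ y ∧ φ y ≤ 1) →
      |avg (slen (⟨n⟩, R, ⟨m⟩, List.ofFn lo, List.ofFn hi))
          (fun l => φ (smp (rq r₁ r₂) (⟨n⟩, R, ⟨m⟩, List.ofFn lo, List.ofFn hi) l)) -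
        (∑ x ∈ PB r₁ r₂ R lo hi, φ (List.ofFn x)) / (PB r₁ r₂ R lo hi).card| ≤ 1 / m

/-! ### parameters -/

/-- ground set size -/
def cn (c : CIn) : ℕ := c.1.val
/-- total rank -/
def cR (c : CIn) : ℕ := c.2.1
/-- accuracy -/
def cE (c : CIn) : ℕ := c.2.2.2.2.val
/-- number of rounds -/
def cJ (c : CIn) : ℕ := cn c * (cR c).size + 1
/-- samples per round -/
def cK (c : CIn) : ℕ := 64 * cJ c ^ 3 * cE c ^ 2
/-- accuracy of a sample -/
def cm (c : CIn) : ℕ := 8 * cJ c * cE c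
/-- half the number of runs -/
def cM (c : CIn) : ℕ := 3 * (c.2.2.2.1.den).size
/-- bound for the size of a box -/
def cS (c : CIn) : ℕ := 3 * (cn c * (2 * (3 + (cR c).size) + 1)) + 1
/-- bound for the size of a sampler input -/
def cI (c : CIn) : ℕ := 2 * cn c + 1 + (2 * (cR c).size + 1 + (2 * cm c + 1 + cS c))
/-- bits per sample; `q` bounds the number of bits of the sampler -/
def cr (q : Polynomial ℕ) (c : CIn) : ℕ := q.eval (cI c)

/-- the input of the sampler -/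
def sin (c : CIn) (s : Bx) : SIn := (⟨cn c⟩, cR c, ⟨cm c⟩, s.1, s.2)

/-- the coin -/
def coin (smp : Smp) (slen : SIn → ℕ) (Q : Bool → List Bool → ℕ) (c : CIn) (s : Bx)
    (l : List Bool) : Bool :=
  decide ((smp Q (sin c s) (l.take (slen (sin c s)))).getD (pj (cn c) s) 0 ≤ mid (cn c) s)

/-- the leaf test -/
def leaf (Q : Bool → List Bool → ℕ) (c : CIn) (s : Bx) : Bool :=
  feasBL (cn c) (cR c) (fun l => (Q false l : ℤ)) (fun l => (Q true l : ℤ)) (cR c) s.1 s.2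

/-- the root box -/
def s0 (c : CIn) : Bx := (List.replicate (cn c) 0, List.replicate (cn c) (cR c : ℤ))

/-- one run of the estimator -/
def run (smp : Smp) (slen : SIn → ℕ) (q : Polynomial ℕ) (Q : Bool → List Bool → ℕ)
    (p : CIn × List Bool) : ℚ :=
  base (coin smp slen Q p.1) (loS (cn p.1)) (hiS (cn p.1)) (finB (cn p.1)) (leaf Q p.1) (cr q p.1)
    (cK p.1) (cJ p.1) (s0 p.1) p.2

/-- **The estimator.** -/
def G (smp : Smp) (slen : SIn → ℕ) (q : Polynomial ℕ) (Q : Bool → List Bool → ℕ)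
    (p : CIn × List Bool) : ℚ :=
  est (coin smp slen Q p.1) (loS (cn p.1)) (hiS (cn p.1)) (finB (cn p.1)) (leaf Q p.1) (cr q p.1)
    (cK p.1) (cJ p.1) (cM p.1) (s0 p.1) p.2

/-- the number of random bits -/
def N (q : Polynomial ℕ) (c : CIn) : ℕ := 2 * cM c * (cJ c * (cK c * cr q c))

/-! ### sizes -/

theorem natAbs_size_le {z : ℤ} {R : ℕ} (h0 : 0 ≤ z) (h1 : z ≤ R) : sz z ≤ 3 + R.size := by
  rw [sz_int]
  have : z.natAbs ≤ R := by omega
  have := Nat.size_le_size this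
  omega

theorem sz_ofFn_le {n R : ℕ} {f : Fin n → ℤ} (h : ∀ i, 0 ≤ f i ∧ f i ≤ R) :
    sz (List.ofFn f) ≤ n * (2 * (3 + R.size) + 1) := by
  have h1 : ∀ a ∈ List.ofFn f, sz a ≤ 3 + R.size := by
    intro a ha
    rw [List.mem_ofFn] at ha
    obtain ⟨i, rfl⟩ := ha
    exact natAbs_size_le (h i).1 (h i).2
  have := sz_list_le h1
  rwa [List.length_ofFn] at this

theorem sz_box_le {c : CIn} {s : Bx} (h : V (cn c) (cR c) s) : sz s ≤ cS c := by
  obtain ⟨lo, hi, rfl, hb⟩ := h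
  rw [sz_prod]
  have h1 := sz_ofFn_le (f := lo) (R := cR c) (fun i => ⟨(hb i).1, by have := hb i; omega⟩)
  have h2 := sz_ofFn_le (f := hi) (R := cR c) (fun i => ⟨by have := hb i; omega, (hb i).2.2⟩)
  unfold cS
  simp only
  omega

theorem sz_sin_le {c : CIn} {s : Bx} (h : V (cn c) (cR c) s) : sz (sin c s) ≤ cI c := by
  have h1 := sz_box_le h
  have e : sz s = 2 * sz s.1 + 1 + sz s.2 := by
    conv_lhs => rw [← Prod.mk.eta (p := s)]
    rw [sz_prod]
  unfold sin cI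
  simp only [sz_prod, sz_un, sz_nat]
  omega

/-! ### correctness -/

theorem repL {n : ℕ} (r₁ r₂ : Finset (Fin n) → ℕ) (b : Bool) :
    RepL n (fun l => (rq r₁ r₂ b l : ℤ)) (zr (if b then r₂ else r₁)) := by
  intro l
  unfold rq zr
  simp only [lset_eq_setL]

theorem leaf_iff {n R : ℕ} {r₁ r₂ : Finset (Fin n) → ℕ} {ε δ : ℚ} (h₁ : IsPolymatroidRank r₁)
    (h₂ : IsPolymatroidRank r₂) (e₁ : r₁ univ = R) (e₂ : r₂ univ = R) (s : Bx) :
    leaf (rq r₁ r₂) (cin n R ε δ) s = true ↔ 0 < cnt r₁ r₂ R s := by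
  have hr1 := repL r₁ r₂ false
  have hr2 := repL r₁ r₂ true
  simp only [Bool.false_eq_true, if_false, if_true] at hr1 hr2
  have h := feasBL_iff (n := n) hr1 hr2 (K := R) (R := (R : ℤ)) (zr_subM h₁ e₁) (zr_subM h₂ e₂)
    (zr_abs h₁ e₁) (zr_abs h₂ e₂) s.1 s.2
  have h' : leaf (rq r₁ r₂) (cin n R ε δ) s = feasBL n R (fun l => (rq r₁ r₂ false l : ℤ))
      (fun l => (rq r₁ r₂ true l : ℤ)) (R : ℤ) s.1 s.2 := rfl
  rw [h', h]
  unfold cnt
  rw [Finset.card_pos]
  constructor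
  · rintro ⟨x, hx⟩
    exact ⟨x, mem_PB.2 hx⟩
  · rintro ⟨x, hx⟩
    exact ⟨x, mem_PB.1 hx⟩

theorem coin_law {smp : Smp} {slen : SIn → ℕ} (hS : SmpSpec smp slen) {q : Polynomial ℕ}
    (hq : ∀ s, slen s ≤ q.eval (sz s)) {n R : ℕ} {r₁ r₂ : Finset (Fin n) → ℕ} {ε δ : ℚ}
    (h₁ : IsPolymatroidRank r₁) (h₂ : IsPolymatroidRank r₂) (e₁ : r₁ univ = R) (e₂ : r₂ univ = R)
    (hm : 1 ≤ cm (cin n R ε δ)) (s : Bx) (hV : V n R s) (hf : finB n s = false)
    (hN : 0 < cnt r₁ r₂ R s) :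
    |pr (cr q (cin n R ε δ)) (fun l => coin smp slen (rq r₁ r₂) (cin n R ε δ) s l = true) -
      (cnt r₁ r₂ R (loS n s) : ℝ) / cnt r₁ r₂ R s| ≤ 1 / cm (cin n R ε δ) := by
  classical
  set c := cin n R ε δ with hc
  have hcn : cn c = n := rfl
  have hcR : cR c = R := rfl
  have hlen : slen (sin c s) ≤ cr q c := (hq _).trans (eval_mono q (sz_sin_le (c := c) hV))
  set φ : List ℤ → ℝ := fun y => ind (y.getD (pj n s) 0 ≤ mid n s) with hφ
  have e : pr (cr q c) (fun l => coin smp slen (rq r₁ r₂) c s l = true) =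
      avg (slen (sin c s)) (fun l => φ (smp (rq r₁ r₂) (sin c s) l)) := by
    rw [← avg_take hlen (fun l => φ (smp (rq r₁ r₂) (sin c s) l))]
    unfold pr coin
    simp only [decide_eq_true_eq, hcn, hφ]
  obtain ⟨lo, hi, rfl, hb⟩ := id hV
  have hspec := hS n R r₁ r₂ (cm c) lo hi h₁ h₂ e₁ e₂ hm hb
    (by
      unfold cnt at hN
      simp only [vecL_ofFn] at hN
      exact Finset.card_pos.1 hN) φ (fun y => ⟨ind_nonneg _, ind_le_one _⟩)
  have e2 : (∑ x ∈ PB r₁ r₂ R lo hi, φ (List.ofFn x)) / (PB r₁ r₂ R lo hi).card =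
      (cnt r₁ r₂ R (loS n (List.ofFn lo, List.ofFn hi)) : ℝ) /
        cnt r₁ r₂ R (List.ofFn lo, List.ofFn hi) := by
    have h3 := ratio r₁ r₂ hV hf φ (fun y => by
      simp only [hφ]
      by_cases h : y.getD (pj n (List.ofFn lo, List.ofFn hi)) 0 ≤ mid n (List.ofFn lo, List.ofFn hi)
      · rw [ind_of h, if_pos h]
      · rw [ind_of_not h, if_neg h])
    simp only [vecL_ofFn] at h3
    rw [h3]
    congr 2
    unfold cnt
    simp only [vecL_ofFn]
  rw [e, ← e2]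
  exact hspec

theorem pow_le_delta {δ : ℚ} (hδ : 0 < δ) : ((3 : ℝ) / 4) ^ (3 * δ.den.size) ≤ (δ : ℝ) := by
  have hd : (0 : ℝ) < δ.den := by exact_mod_cast δ.den_pos
  have h1 : ((3 : ℝ) / 4) ^ (3 * δ.den.size) ≤ (1 / 2) ^ δ.den.size := by
    rw [pow_mul]
    exact pow_le_pow_left₀ (by norm_num) (by norm_num) _
  have h2 : ((1 : ℝ) / 2) ^ δ.den.size ≤ 1 / δ.den := by
    rw [one_div_pow]
    refine one_div_le_one_div_of_le hd ?_
    exact_mod_cast (Nat.lt_size_self δ.den).le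
  have h3 : (1 : ℝ) / δ.den ≤ δ := by
    have h4 : (1 : ℝ) ≤ δ.num := by
      have := Rat.num_pos.2 hδ
      exact_mod_cast this
    have h5 : (δ : ℝ) = δ.num / δ.den := by
      conv_lhs => rw [← Rat.num_div_den δ]
      push_cast
      rfl
    rw [h5]
    gcongr
  linarith

/-- **The estimator satisfies the counting specification.** -/
theorem countSpec {smp : Smp} {slen : SIn → ℕ} (hS : SmpSpec smp slen) {q : Polynomial ℕ}
    (hq : ∀ s, slen s ≤ q.eval (sz s)) : CountSpec (G smp slen q) (N q) := by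
  intro n R r₁ r₂ ε δ h₁ h₂ e₁ e₂ hε hε1 hδ hδ1
  set c := cin n R ε δ with hc
  have hcn : cn c = n := rfl
  have hcR : cR c = R := rfl
  have hs0 : s0 c = (List.replicate n 0, List.replicate n (R : ℤ)) := rfl
  have hcnt : cnt r₁ r₂ R (s0 c) = numCommonIntBases R r₁ r₂ := by rw [hs0]; exact cnt_init R r₁ r₂
  have hV0 : V n R (s0 c) := by rw [hs0]; exact V_init n R
  have hsplit := split (n := n) (R := R) r₁ r₂ (leaf (rq r₁ r₂) c)
    (fun s _ => leaf_iff (ε := ε) (δ := δ) h₁ h₂ e₁ e₂ s)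
  have hE : 1 ≤ cE c := by
    show 1 ≤ ⌈ε⁻¹⌉₊
    exact Nat.succ_le_of_lt (Nat.ceil_pos.2 (by positivity))
  have hJ : 1 ≤ cJ c := by unfold cJ; omega
  have hm : 1 ≤ cm c := by
    unfold cm
    have : 0 < 8 * cJ c * cE c := by positivity
    omega
  refine ⟨?_, ?_, ?_⟩
  · intro τ _
    exact est_nonneg _ _ _ _ _ _ _ _ _ _ _
  · intro h0 τ _
    exact est_eq_zero hsplit _ _ _ _ _ _ hV0 (by rw [hcnt]; exact h0) τ
  · have h := est_pr hsplit (coin smp slen (rq r₁ r₂) c) (cr q c) (cK c) (cJ c) (cE c) (cM c)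
      hJ hE le_rfl
      (fun s hV hf hN => by
        have h3 : ((cm c : ℕ) : ℝ) = 8 * cJ c * cE c := by unfold cm; push_cast; ring
        rw [← h3]
        exact coin_law hS hq h₁ h₂ e₁ e₂ hm s hV hf hN)
      (s0 c) hV0 (by rw [hs0, mu_init]; unfold cJ; rw [hcn, hcR]; omega)
    have hM : ((3 : ℝ) / 4) ^ cM c ≤ δ := pow_le_delta hδ
    refine le_trans (by linarith) (h.trans (pr_mono fun τ _ hτ => ?_))
    have hEε : 1 / (cE c : ℚ) ≤ ε := by
      have h5 : ε⁻¹ ≤ (cE c : ℚ) := Nat.le_ceil _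
      have h6 : (0 : ℚ) < ε⁻¹ := by positivity
      calc 1 / (cE c : ℚ) ≤ 1 / ε⁻¹ := one_div_le_one_div_of_le h6 h5
        _ = ε := by rw [one_div, inv_inv]
    rw [hcnt] at hτ
    have hN0 : (0 : ℚ) ≤ numCommonIntBases R r₁ r₂ := Nat.cast_nonneg _
    constructor
    · refine le_trans ?_ hτ.1
      exact mul_le_mul_of_nonneg_right (by linarith) hN0
    · refine hτ.2.trans ?_
      exact mul_le_mul_of_nonneg_right (by linarith) hN0

end Crest.Agent.R302.Top
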