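import Crest.Agent.R302.Loop272C
import Crest.Agent.R302.Ann425F
import Crest.Agent.R302.CenBox646
import Crest.Agent.R302.Top497B

/-!
# R302, assembly (helper272): the sampler `smp` and `SmpSpec` from one `ChainOK` per stage

* `Prg Ω` : the data of the program (all parameters are functions of the input of the sampler, the runs may depend
  on the query function); `Prg.ch` : the chain of `Loop272C`; `smp`, `slen` : the sampler.
* `IsInst` : an instance together with its annealing data (`425`), centre (`646`, `970`).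
* `smpSpec` : if all the stages satisfy `ChainOK` and the errors sum up to at most `1/m`, then `SmpSpec`.
-/

set_option autoImplicit false
set_option linter.dupNamespace false

namespace Crest.Agent.R302.Smp

open Finset Crest.Polymatroid Crest.Agent.R302.Facet Crest.Agent.R302.EDM Crest.Agent.R302.ORAM
open Crest.Agent.R302.AnnBox Crest.Agent.R302.Loop Crest.Agent.R302.CenL Crest.Agent.R302.Center
open Crest.Agent.R302.Top Crest.Agent.R309.Tape Crest.Agent.Lib.PT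

variable {Ω : Type*}

/-! ### decoding the input -/

def sn (s : SIn) : ℕ := s.1.val
def sR (s : SIn) : ℕ := s.2.1
def sm (s : SIn) : ℕ := s.2.2.1.val
def slo (s : SIn) : List ℤ := s.2.2.2.1
def shi (s : SIn) : List ℤ := s.2.2.2.2

/-- the input of the sampler -/
def inp (n R m : ℕ) (lo hi : Fin n → ℤ) : SIn := (⟨n⟩, R, ⟨m⟩, List.ofFn lo, List.ofFn hi)

/-- query functions -/
abbrev Qf : Type := Bool → List Bool → ℕ

/-- the program data -/
structure Prg (Ω : Type*) where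
  /-- precision exponent of the start -/
  pL : SIn → ℕ
  /-- link exponent of a pair of links (estimators) -/
  pm : SIn → ℕ
  /-- accuracy of the gauge estimates -/
  pD : SIn → ℕ
  /-- bits of an estimator run -/
  pE : SIn → ℕ
  /-- bits of a mover run -/
  pM : SIn → ℕ
  runE : Qf → SIn → ℕ → List ℤ → List ℤ → List Bool → Ω
  runM : Qf → SIn → ℕ → List ℤ → List ℤ → List Bool → Ω
  out : Qf → SIn → ℕ → Ω → Option (List ℤ)
  ev : Qf → SIn → ℕ → ℕ → ℕ → Ω → Bool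
  rep : Qf → SIn → ℕ → ℕ → ℕ

namespace Prg

variable (P : Prg Ω)

/-- the chain of `Loop272C` -/
def ch (Q : Qf) (s : SIn) : Chain (List ℤ) Ω where
  runE := P.runE Q s
  runM := P.runM Q s
  out := P.out Q s
  ev := P.ev Q s
  rep := P.rep Q s
  ρE := P.pE s
  ρM := P.pM s
  m := P.pm s
  D := P.pD s

/-- number of stages -/
def T (s : SIn) : ℕ := nStages (sn s) (P.pL s) (sR s)

/-- number of estimator particles -/
def K (s : SIn) : ℕ := P.pD s * 2 ^ P.pm s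

/-- size of the population at the start -/
def pop (s : SIn) : ℕ := 1 + P.T s * (1 + P.K s)

/-- bits per stage -/
def rb (s : SIn) : ℕ := P.K s * P.pE s + P.pop s * P.pM s

end Prg

/-- the centre of the box instance -/
def cen (Q : Qf) (s : SIn) : List ℤ :=
  cenBL (sn s) (sR s) (fun l => (Q false l : ℤ)) (fun l => (Q true l : ℤ)) (sR s) (slo s) (shi s)

/-- **the sampler** -/
def smp (P : Prg Ω) : Smp := fun Q s l =>
  if sn s = 0 then [] else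
    (runSteps (stage ((P.ch Q s).sys (sn s))) (P.rb s) (P.T s)
      (0, List.replicate (sn s) 0,
        List.replicate (popSize ((P.ch Q s).sys (sn s)) 1 (P.T s)) (cen Q s)) l).2.2.headD (cen Q s)

/-- the number of bits -/
def slen (P : Prg Ω) (s : SIn) : ℕ := P.T s * P.rb s

theorem popSize_ch (P : Prg Ω) (Q : Qf) (s : SIn) :
    popSize ((P.ch Q s).sys (sn s)) 1 (P.T s) = P.pop s := by
  rw [popSize_sys]; rfl

/-! ### instances -/

/-- one-link counts, indexed by natural numbers; `NN u v` = mass of the pairs `z₂ = z₁ + e_v - e_u` -/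
noncomputable def NN {n : ℕ} (𝒜 : AnnData n) (t : ℕ) (u v : ℕ) : ℝ :=
  if h : u < n ∧ v < n then 𝒜.Nst t ⟨v, h.2⟩ ⟨u, h.1⟩ else 0

theorem NN_eq {n : ℕ} (𝒜 : AnnData n) (t : ℕ) (u v : Fin n) : NN 𝒜 t u v = 𝒜.Nst t v u := by
  unfold NN; rw [dif_pos ⟨u.2, v.2⟩]

/-- an instance of the sampler with its annealing data -/
structure IsInst (P : Prg Ω) (n R m : ℕ) (r₁ r₂ : Finset (Fin n) → ℕ) (lo hi : Fin n → ℤ)
    (𝒜 : AnnData n) : Prop where
  n0 : 0 < n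
  m1 : 1 ≤ m
  pr₁ : IsPolymatroidRank r₁
  pr₂ : IsPolymatroidRank r₂
  e₁ : r₁ Finset.univ = R
  e₂ : r₂ Finset.univ = R
  box : ∀ i, 0 ≤ lo i ∧ lo i ≤ hi i ∧ hi i ≤ R
  A₁ : 𝒜.r₁ = boxR lo hi (zr r₁)
  A₂ : 𝒜.r₂ = boxR lo hi (zr r₂)
  AR : 𝒜.R = R
  Ax : 𝒜.x₀ = vecL n (cen (rq r₁ r₂) (inp n R m lo hi))
  AL : 𝒜.L = P.pL (inp n R m lo hi)
  ctr : IsCenter 𝒜.r₁ 𝒜.r₂ (𝒜.PH 0) (cC n) 𝒜.x₀

theorem vecL_ofFn' {n : ℕ} (x : Fin n → ℤ) : vecL n (List.ofFn x) = x := CenL.vecL_ofFn x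

/-- the common bases of the instance -/
theorem IsInst.mem_PH {P : Prg Ω} {n R m : ℕ} {r₁ r₂ : Finset (Fin n) → ℕ} {lo hi : Fin n → ℤ}
    {𝒜 : AnnData n} (h : IsInst P n R m r₁ r₂ lo hi 𝒜) (x : Fin n → ℤ) :
    x ∈ 𝒜.PH 0 ↔ x ∈ PB r₁ r₂ R lo hi := by
  rw [𝒜.mem_P, h.A₁, h.A₂, h.AR, memJ_boxR (zr_subM h.pr₁ h.e₁), memJ_boxR (zr_subM h.pr₂ h.e₂),
    mem_PB]
  tauto

theorem IsInst.PH_eq {P : Prg Ω} {n R m : ℕ} {r₁ r₂ : Finset (Fin n) → ℕ} {lo hi : Fin n → ℤ}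
    {𝒜 : AnnData n} (h : IsInst P n R m r₁ r₂ lo hi 𝒜) : 𝒜.PH 0 = PB r₁ r₂ R lo hi :=
  Finset.ext h.mem_PH

/-- every instance has annealing data -/
theorem exists_inst (P : Prg Ω) {n R m : ℕ} {r₁ r₂ : Finset (Fin n) → ℕ} {lo hi : Fin n → ℤ}
    (n0 : 0 < n) (m1 : 1 ≤ m) (pr₁ : IsPolymatroidRank r₁) (pr₂ : IsPolymatroidRank r₂)
    (e₁ : r₁ Finset.univ = R) (e₂ : r₂ Finset.univ = R)
    (box : ∀ i, 0 ≤ lo i ∧ lo i ≤ hi i ∧ hi i ≤ R) (hne : (PB r₁ r₂ R lo hi).Nonempty)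
    (hL : 1 ≤ P.pL (inp n R m lo hi))
    (hL2 : 8 * (n : ℝ) * (1 / 2) ^ P.pL (inp n R m lo hi) ≤ 1) :
    ∃ 𝒜 : AnnData n, IsInst P n R m r₁ r₂ lo hi 𝒜 := by
  have hr1 := repL r₁ r₂ false
  have hr2 := repL r₁ r₂ true
  simp only [Bool.false_eq_true, if_false, if_true] at hr1 hr2
  have s1 := zr_subM pr₁ e₁
  have s2 := zr_subM pr₂ e₂
  have hR : ∀ i, vecL n (List.ofFn hi) i - vecL n (List.ofFn lo) i ≤ R := by
    intro i
    rw [vecL_ofFn', vecL_ofFn']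
    have := box i
    omega
  have hne' : ∃ x : Fin n → ℤ, (∀ i, vecL n (List.ofFn lo) i ≤ x i ∧ x i ≤ vecL n (List.ofFn hi) i) ∧
      MemJ (zr r₁) R x ∧ MemJ (zr r₂) R x := by
    obtain ⟨x, hx⟩ := hne
    rw [mem_PB] at hx
    exact ⟨x, by rw [vecL_ofFn', vecL_ofFn']; exact hx⟩
  obtain ⟨c1, c2, c3, c4⟩ := cenBL_spec hr1 hr2 (K := R) (R := R) s1 s2 (zr_abs pr₁ e₁) (zr_abs pr₂ e₂)
    hR hne' (PB r₁ r₂ R lo hi) (by
      intro x hx
      rw [mem_PB] at hx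
      rw [vecL_ofFn', vecL_ofFn']; exact hx)
  set c := vecL n (cenBL n R (fun l => (rq r₁ r₂ false l : ℤ)) (fun l => (rq r₁ r₂ true l : ℤ)) R
    (List.ofFn lo) (List.ofFn hi)) with hc
  rw [vecL_ofFn', vecL_ofFn'] at c1 c4
  let 𝒜 : AnnData n :=
    { r₁ := boxR lo hi (zr r₁)
      r₂ := boxR lo hi (zr r₂)
      R := R
      sub₁ := subM_boxR s1 c2 c1
      sub₂ := subM_boxR s2 c3 c1
      x₀ := c
      mem₁ := (memJ_boxR s1 _ _ _).2 ⟨c2, c1⟩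
      mem₂ := (memJ_boxR s2 _ _ _).2 ⟨c3, c1⟩
      L := P.pL (inp n R m lo hi)
      hL := hL
      hL2 := hL2 }
  have hPH : 𝒜.PH 0 = PB r₁ r₂ R lo hi := by
    ext x
    rw [𝒜.mem_P]
    show MemJ (boxR lo hi (zr r₁)) R x ∧ MemJ (boxR lo hi (zr r₂)) R x ↔ _
    rw [memJ_boxR s1, memJ_boxR s2, mem_PB]
    tauto
  exact ⟨𝒜, n0, m1, pr₁, pr₂, e₁, e₂, box, rfl, rfl, rfl, rfl, rfl, by rw [hPH]; exact c4⟩

theorem NN_nonneg {n : ℕ} (𝒜 : AnnData n) (t u v : ℕ) : 0 ≤ NN 𝒜 t u v := by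
  unfold NN; split_ifs
  · exact 𝒜.Nst_nonneg _ _ _
  · exact le_rfl

/-- `ChainOK` of a stage from the six fields which are not automatic for annealing data -/
theorem chainOK_ann {n : ℕ} {𝒜 : AnnData n} {C : Chain (List ℤ) Ω} {t : ℕ} {π : List ℤ → Law Ω}
    {eE eM : ℝ} (rep_lt : ∀ u < n, C.rep t u < n)
    (conv : ∀ g : List ℤ, GoodR n (C.rep t) (NN 𝒜 (t + 1)) (𝒜.Z (t + 1)) 64 g →
      ∀ φ : Ω → ℝ, (∀ y, 0 ≤ φ y ∧ φ y ≤ 1) →
        |(𝒜.stLaw t).E (fun x => avg C.ρE (fun l => φ (C.runE t g x l))) - (π g).E φ| ≤ eE)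
    (rat : ∀ g : List ℤ, GoodR n (C.rep t) (NN 𝒜 (t + 1)) (𝒜.Z (t + 1)) 64 g →
      ∀ u < n, ∀ v < n,
        |2 ^ C.m * (π g).E (fun y => Crest.Agent.R309.Tape.ind (C.ev t (C.rep t u) (C.rep t v) y = true)) -
          NN 𝒜 (t + 1) (C.rep t u) (C.rep t v) * (2 : ℝ) ^ (g.getD (C.rep t u) 0) /
            (𝒜.Z (t + 1) * (2 : ℝ) ^ (g.getD (C.rep t v) 0))| ≤
          (1 / 4) * (NN 𝒜 (t + 1) (C.rep t u) (C.rep t v) * (2 : ℝ) ^ (g.getD (C.rep t u) 0) /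
            (𝒜.Z (t + 1) * (2 : ℝ) ^ (g.getD (C.rep t v) 0))))
    (move : ∀ g : List ℤ, GoodR n (C.rep t) (NN 𝒜 (t + 1)) (𝒜.Z (t + 1)) 64 g →
      ∀ φ : List ℤ → ℝ, (∀ y, 0 ≤ φ y ∧ φ y ≤ 1) → ∀ d : List ℤ, d ∈ (𝒜.stLaw t).supp →
        |(𝒜.stLaw t).E (fun x => avg C.ρM (fun l => φ ((C.out t (C.runM t g x l)).getD d))) -
          (𝒜.stLaw (t + 1)).E φ| ≤ eM)
    (tri : ∀ u v w : Fin n, 𝒜.Nst (t + 1) v u * 𝒜.Nst (t + 1) w v ≤
      2 * 𝒜.Z (t + 1) * 𝒜.Nst (t + 1) w u)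
    (blk : ∀ u < n, ∀ v < n, NN 𝒜 (t + 1) u v ≤ 2 * NN 𝒜 (t + 1) (C.rep t u) (C.rep t v)) :
    ChainOK C n t (𝒜.stLaw t) (𝒜.stLaw (t + 1)) π (NN 𝒜 t) (NN 𝒜 (t + 1)) (𝒜.Z t)
      (𝒜.Z (t + 1)) 2 2 eE eM where
  rep_lt := rep_lt
  conv := fun g hg => conv g (by convert hg using 1; norm_num)
  rat := fun g hg => rat g (by convert hg using 1; norm_num)
  move := fun g hg => move g (by convert hg using 1; norm_num)
  nonneg := fun u v => NN_nonneg 𝒜 _ u v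
  tri := fun u hu v hv w hw => by
    have := tri ⟨u, hu⟩ ⟨v, hv⟩ ⟨w, hw⟩
    rw [← NN_eq, ← NN_eq, ← NN_eq] at this
    exact this
  blk := blk
  monN := fun u hu v hv => by
    have := 𝒜.Nst_ratio t ⟨v, hv⟩ ⟨u, hu⟩
    rw [← NN_eq, ← NN_eq] at this
    exact this
  monZ := 𝒜.Z_mono t
  posZ := 𝒜.Z_pos t

/-! ### the theorem -/

/-- total error of the sampler -/
noncomputable def err (P : Prg Ω) (eE eM : SIn → ℝ) (s : SIn) : ℝ :=
  P.T s * ((P.K s : ℝ) * eE s + 16 * (sn s) ^ 2 * 2 ^ P.pm s / P.pD s + P.pop s * eM s) +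
    P.pop s * (8 * sn s * (1 / 2) ^ P.pL s)

/-- **`SmpSpec` from one `ChainOK` per stage.** -/
theorem smpSpec (P : Prg Ω) (eE eM : SIn → ℝ)
    (hL : ∀ s, 1 ≤ P.pL s ∧ 8 * (sn s : ℝ) * (1 / 2) ^ P.pL s ≤ 1) (hD : ∀ s, 0 < P.pD s)
    (heE : ∀ s, 0 ≤ eE s) (heM : ∀ s, 0 ≤ eM s)
    (herr : ∀ s, 0 < sn s → 1 ≤ sm s → err P eE eM s ≤ 1 / sm s)
    (H : ∀ (n R m : ℕ) (r₁ r₂ : Finset (Fin n) → ℕ) (lo hi : Fin n → ℤ) (𝒜 : AnnData n),
      IsInst P n R m r₁ r₂ lo hi 𝒜 → ∀ t < P.T (inp n R m lo hi), ∃ π : List ℤ → Law Ω,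
        ChainOK (P.ch (rq r₁ r₂) (inp n R m lo hi)) n t (𝒜.stLaw t) (𝒜.stLaw (t + 1)) π
          (NN 𝒜 t) (NN 𝒜 (t + 1)) (𝒜.Z t) (𝒜.Z (t + 1)) 2 2 (eE (inp n R m lo hi))
          (eM (inp n R m lo hi))) :
    SmpSpec (smp P) (slen P) := by
  classical
  intro n R r₁ r₂ m lo hi pr₁ pr₂ e₁ e₂ m1 box hne φ hφ
  show |avg (slen P (inp n R m lo hi)) (fun l => φ (smp P (rq r₁ r₂) (inp n R m lo hi) l)) -
    (∑ x ∈ PB r₁ r₂ R lo hi, φ (List.ofFn x)) / (PB r₁ r₂ R lo hi).card| ≤ 1 / m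
  rcases Nat.eq_zero_or_pos n with h0 | n0
  · -- no elements
    subst h0
    have e1 : ∀ l, smp P (rq r₁ r₂) (inp 0 R m lo hi) l = [] := fun l => by
      unfold smp; rw [if_pos (show sn (inp 0 R m lo hi) = 0 from rfl)]
    have e2 : ∀ x : Fin 0 → ℤ, List.ofFn x = [] := fun x => by simp
    simp only [e1, e2, avg_const, sum_const, nsmul_eq_mul]
    have h3 : ((PB r₁ r₂ R lo hi).card : ℝ) ≠ 0 := by
      have := Finset.card_pos.2 hne
      positivity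
    rw [mul_div_cancel_left₀ _ h3, sub_self, abs_zero]
    positivity
  · set s := inp n R m lo hi with hs
    have hsn : sn s = n := rfl
    have hsR : sR s = R := rfl
    have hsm : sm s = m := rfl
    obtain ⟨hL1, hL2⟩ := hL s
    rw [hsn] at hL2
    obtain ⟨𝒜, hA⟩ := exists_inst P n0 m1 pr₁ pr₂ e₁ e₂ box hne hL1 hL2
    have hAL : 𝒜.L = P.pL s := hA.AL
    choose π hπ using H n R m r₁ r₂ lo hi 𝒜 hA
    -- total law family
    let π' : ℕ → List ℤ → Law Ω := fun t => if h : t < P.T s then π t h else π 0 (by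
      rcases Nat.eq_zero_or_pos (P.T s) with h' | h'
      · exact absurd h' (by
          have : 0 < P.T s := by
            unfold Prg.T nStages AnnBox.T0
            have h1 : 0 < sn s * (P.pL s * cA (sn s)) := by
              rw [hsn]
              exact Nat.mul_pos n0 (Nat.mul_pos hL1 (cA_pos n))
            omega
          omega)
      · exact h')
    have hH : ∀ t < P.T s, ChainOK (P.ch (rq r₁ r₂) s) n t (𝒜.stLaw t) (𝒜.stLaw (t + 1)) (π' t)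
        (NN 𝒜 t) (NN 𝒜 (t + 1)) (𝒜.Z t) (𝒜.Z (t + 1)) 2 2 (eE s) (eM s) := by
      intro t ht
      have : π' t = π t ht := dif_pos ht
      rw [this]; exact hπ t ht
    have hcen : List.ofFn 𝒜.x₀ = cen (rq r₁ r₂) s := by
      rw [hA.Ax]
      exact ofFn_cenBL _ _ _ _ _ _
    have hg0 : GoodG n (NN 𝒜 0) (𝒜.Z 0) (16 * 2) (List.replicate n 0) := by
      intro u hu v hv
      have h1 : NN 𝒜 0 u v = 𝒜.Nst 0 ⟨v, hv⟩ ⟨u, hu⟩ := NN_eq 𝒜 0 ⟨u, hu⟩ ⟨v, hv⟩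
      rw [h1]
      have h2 := 𝒜.Nst_first ⟨v, hv⟩ ⟨u, hu⟩
      have h3 := 𝒜.Z_pos 0
      have g1 : (List.replicate n (0 : ℤ)).getD u 0 = 0 := by
        simp [List.getD_eq_getElem?_getD, hu]
      have g2 : (List.replicate n (0 : ℤ)).getD v 0 = 0 := by
        simp [List.getD_eq_getElem?_getD, hv]
      rw [g1, g2, zpow_zero, mul_one, mul_one]
      linarith
    have main := chain_sampler (C := P.ch (rq r₁ r₂) s) (n := n) (T := P.T s) n0
      (μ := fun t => 𝒜.stLaw t) (π := π') (N := fun t => NN 𝒜 t) (Z := fun t => 𝒜.Z t)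
      (kap := 2) (B := 2) (eE := eE s) (eM := eM s) (e0 := 8 * n * (1 / 2) ^ 𝒜.L)
      (by norm_num) (by norm_num) (heE s) (heM s) (hD s) hH (P.rb s)
      (by
        have := popSize_ch P (rq r₁ r₂) s
        rw [hsn] at this
        rw [this]; exact le_rfl)
      (cen (rq r₁ r₂) s) (cen (rq r₁ r₂) s) (List.replicate n 0) hg0
      (fun φ hφ => by
        rw [← hcen, abs_sub_comm]
        exact 𝒜.stLaw_start hφ) φ hφ
    have hpop := popSize_ch P (rq r₁ r₂) s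
    rw [hsn] at hpop
    -- the last law
    have hlast : (𝒜.stLaw (P.T s)).E φ =
        (∑ x ∈ PB r₁ r₂ R lo hi, φ (List.ofFn x)) / (PB r₁ r₂ R lo hi).card := by
      rw [𝒜.stLaw_last (K := R) (t := P.T s) (by rw [hAL]; exact le_rfl) ?_ φ, hA.PH_eq]
      intro x hx v
      have h1 := 𝒜.x₀_mem
      rw [hA.PH_eq, mem_PB] at hx h1
      have a1 := hx.1 v
      have a2 := h1.1 v
      have a3 := box v
      constructor <;> omega
    have hsmp : ∀ l, smp P (rq r₁ r₂) s l = (runSteps (stage ((P.ch (rq r₁ r₂) s).sys n)) (P.rb s) (P.T s)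
        (0, List.replicate n 0,
          List.replicate (popSize ((P.ch (rq r₁ r₂) s).sys n) 1 (P.T s)) (cen (rq r₁ r₂) s)) l).2.2.headD
            (cen (rq r₁ r₂) s) := by
      intro l
      unfold smp
      rw [if_neg (by rw [hsn]; omega)]
      rfl
    simp only [hsmp]
    rw [← hlast]
    refine main.trans ?_
    rw [hpop, hAL]
    exact herr s n0 m1

end Crest.Agent.R302.Smp
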