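/-
R302 (helper725): the matrices of the program are the matrices of the stage data.
-/
import Crest.Agent.R302.Conc725
import Crest.Agent.R302.Smp272

set_option autoImplicit false

namespace Crest.Agent.R302.Conc

open Finset Crest.Agent.R302.Inst Crest.Agent.R302.Stage Crest.Agent.R302.GeoProg
open Crest.Agent.R302.GeoSpec Crest.Agent.R302.TreeNN Crest.Agent.R302.StageL
open Crest.Agent.R302.Facet Crest.Agent.R302.AnnBox Crest.Agent.R302.EDM
open Crest.Agent.R302.Smp Crest.Agent.R302.Top Crest.Polymatroid Crest.Agent.R302.ORAM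

variable {n : ℕ}

/-! ### capacities depend only on the integer points -/

/-- the exchange `x + θ (e_a - e_b)` is possible iff `θ ≤ cap` -/
theorem le_cap_iff {r : Finset (Fin n) → ℤ} {R : ℤ} {x : Fin n → ℤ} (hx : MemJ r R x)
    {a b : Fin n} (hab : a ≠ b) {θ : ℤ} (hθ : 0 ≤ θ) :
    θ ≤ cap r x a b ↔ MemJ r R (fun v => x v + θ * hs a b v) := by
  have hsum : ∀ A : Finset (Fin n), ∑ v ∈ A, (x v + θ * hs a b v) =
      ∑ v ∈ A, x v + θ * ((if a ∈ A then 1 else 0) - if b ∈ A then 1 else 0) := by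
    intro A
    rw [sum_add_distrib, ← mul_sum, hs_sum]
  constructor
  · intro h
    refine ⟨fun A => ?_, ?_⟩
    · rw [hsum]
      have h1 := hx.1 A
      by_cases ha : a ∈ A
      · by_cases hb : b ∈ A
        · rw [if_pos ha, if_pos hb]; linarith
        · have h2 := cap_le (r := r) (x := x) ha hb
          unfold slk at h2
          rw [if_pos ha, if_neg hb]
          linarith
      · rw [if_neg ha]
        by_cases hb : b ∈ A
        · rw [if_pos hb]; linarith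
        · rw [if_neg hb]; linarith
    · have := hsum univ
      rw [this, hx.2]
      simp
  · intro h
    obtain ⟨A, ha, hb, hA⟩ := exists_cap (r := r) (x := x) hab
    rw [← hA]
    have h1 := h.1 A
    rw [hsum, if_pos ha, if_neg hb] at h1
    unfold slk
    linarith

theorem cap_nonneg' {r : Finset (Fin n) → ℤ} {R : ℤ} {x : Fin n → ℤ} (hx : MemJ r R x)
    {a b : Fin n} (hab : a ≠ b) : 0 ≤ cap r x a b := by
  obtain ⟨A, _, _, hA⟩ := exists_cap (r := r) (x := x) hab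
  rw [← hA]
  exact slk_nonneg hx A

theorem cap_congr {r r' : Finset (Fin n) → ℤ} {R : ℤ} (h : ∀ y, MemJ r R y ↔ MemJ r' R y)
    {x : Fin n → ℤ} (hx : MemJ r R x) (a b : Fin n) : cap r x a b = cap r' x a b := by
  by_cases hab : a = b
  · subst hab
    have : ¬ (sep a a).Nonempty := by
      rintro ⟨A, hA⟩
      rw [mem_sep] at hA
      exact hA.2 hA.1
    unfold cap
    rw [dif_neg this, dif_neg this]
  · have hx' := (h x).1 hx
    apply le_antisymm
    · rw [le_cap_iff hx' hab (cap_nonneg' hx hab), ← h, ← le_cap_iff hx hab (cap_nonneg' hx hab)]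
    · rw [le_cap_iff hx hab (cap_nonneg' hx' hab), h, ← le_cap_iff hx' hab (cap_nonneg' hx' hab)]

theorem mcap_congr {r r' : Finset (Fin n) → ℤ} {R : ℤ} (h : ∀ y, MemJ r R y ↔ MemJ r' R y)
    {x : Fin n → ℤ} (hx : MemJ r R x) : mcap r x = mcap r' x := by
  funext a b
  unfold mcap
  rw [cap_congr h hx, cap_congr h hx]

/-! ### the program matrix -/

theorem eq_ofMat {M : List (List ℤ)} {m : Fin n → Fin n → ℤ} (h0 : M.length = n)
    (h1 : ∀ a : Fin n, (M.getD a []).length = n)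
    (h : ∀ a b : Fin n, (M.getD a []).getD b 0 = m a b) : M = ofMat m := by
  unfold ofMat
  apply List.ext_getElem
  · simp [h0]
  · intro i hi1 hi2
    have hi : i < n := by rw [← h0]; exact hi1
    rw [List.getElem_ofFn]
    have e1 : M[i] = M.getD (⟨i, hi⟩ : Fin n) [] := (List.getD_eq_getElem _ _ hi1).symm
    rw [e1]
    apply List.ext_getElem
    · rw [h1]; simp
    · intro j hj1 hj2
      have hj : j < n := by rw [h1] at hj1; exact hj1
      rw [List.getElem_ofFn]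
      have e2 := h ⟨i, hi⟩ ⟨j, hj⟩
      rw [List.getD_eq_getElem _ _ hj1] at e2
      exact e2

theorem matBL_eq_ofMat {K : ℕ} {r : List Bool → ℤ} {ρ : Finset (Fin n) → ℤ} (h : RepL n r ρ)
    {R : ℤ} (hr : SubM ρ R) (hK : ∀ A, |ρ A| ≤ K) {lo hi x : List ℤ}
    (hx : MemJ ρ R (vecL n x))
    (hbox : ∀ i, vecL n lo i ≤ vecL n x i ∧ vecL n x i ≤ vecL n hi i) :
    matBL n K r lo hi x = ofMat (mcap (boxR (vecL n lo) (vecL n hi) ρ) (vecL n x)) := by
  refine eq_ofMat ?_ ?_ (matBL_getD h hr hK hx hbox)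
  · simp [matBL]
  · intro a
    unfold matBL
    rw [getD_map_range n _ _ a.2]
    simp

theorem vecL_eq_toV (l : List ℤ) : vecL n l = AnnData.toV n l := rfl

/-- one side of an instance: the matrix of the program at stage `t` -/
theorem matBL_stage {K : ℕ} {q : List Bool → ℤ} {ρ : Finset (Fin n) → ℤ} (h : RepL n q ρ)
    {R : ℤ} (hr : SubM ρ R) (hK : ∀ A, |ρ A| ≤ K) {lo hi : Fin n → ℤ} {x : List ℤ}
    (hx : MemJ ρ R (vecL n x)) (hbox : ∀ i, lo i ≤ vecL n x i ∧ vecL n x i ≤ hi i) (d : ℕ) :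
    matBL n K q (loL n d x (List.ofFn lo)) (hiL n d x (List.ofFn hi)) x =
      ofMat (mcap (boxR (fun v => vecL n x v - d) (fun v => vecL n x v + d) (boxR lo hi ρ))
        (vecL n x)) := by
  have e1 : vecL n (loL n d x (List.ofFn lo)) = fun v => max (lo v) (vecL n x v - d) := by
    rw [vecL_eq_toV, toV_loL, AnnData.toV_ofFn]; rfl
  have e2 : vecL n (hiL n d x (List.ofFn hi)) = fun v => min (hi v) (vecL n x v + d) := by
    rw [vecL_eq_toV, toV_hiL, AnnData.toV_ofFn]; rfl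
  have hb : ∀ i, vecL n (loL n d x (List.ofFn lo)) i ≤ vecL n x i ∧
      vecL n x i ≤ vecL n (hiL n d x (List.ofFn hi)) i := by
    intro i
    rw [e1, e2]
    have := hbox i
    constructor
    · exact max_le this.1 (by omega)
    · exact le_min this.2 (by omega)
  rw [matBL_eq_ofMat h hr hK hx hb]
  congr 1
  refine mcap_congr (R := R) (fun y => ?_) ?_
  · rw [memJ_boxR hr, memJ_stage_box hr hx hbox, e1, e2]
  · rw [memJ_boxR hr]
    exact ⟨hx, hb⟩

/-! ### instances -/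

section inst

variable {Ω : Type*} {P : Prg Ω} {R m : ℕ} {r₁ r₂ : Finset (Fin n) → ℕ} {lo hi : Fin n → ℤ}
  {𝒜 : AnnData n}

theorem IsInst.x₀_box (h : IsInst P n R m r₁ r₂ lo hi 𝒜) (v : Fin n) :
    lo v ≤ 𝒜.x₀ v ∧ 𝒜.x₀ v ≤ hi v := by
  have h1 := 𝒜.mem₁
  rw [h.A₁, h.AR, memJ_boxR (zr_subM h.pr₁ h.e₁)] at h1
  exact h1.2 v

theorem IsInst.x₀_mem₁ (h : IsInst P n R m r₁ r₂ lo hi 𝒜) : MemJ (zr r₁) R 𝒜.x₀ := by
  have h1 := 𝒜.mem₁
  rw [h.A₁, h.AR, memJ_boxR (zr_subM h.pr₁ h.e₁)] at h1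
  exact h1.1

theorem IsInst.x₀_mem₂ (h : IsInst P n R m r₁ r₂ lo hi 𝒜) : MemJ (zr r₂) R 𝒜.x₀ := by
  have h1 := 𝒜.mem₂
  rw [h.A₂, h.AR, memJ_boxR (zr_subM h.pr₂ h.e₂)] at h1
  exact h1.1

/-- **matrix of side 1 at stage `t`** -/
theorem IsInst.mat₁ (h : IsInst P n R m r₁ r₂ lo hi 𝒜) (t : ℕ) :
    matBL n R (fun l => (rq r₁ r₂ false l : ℤ))
      (loL n (stQ n 𝒜.L t) (cen (rq r₁ r₂) (inp n R m lo hi)) (List.ofFn lo))
      (hiL n (stQ n 𝒜.L t) (cen (rq r₁ r₂) (inp n R m lo hi)) (List.ofFn hi))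
      (cen (rq r₁ r₂) (inp n R m lo hi)) = ofMat (mA 𝒜 𝒜.r₁ t) := by
  have hr1 := repL r₁ r₂ false
  simp only [Bool.false_eq_true, if_false] at hr1
  have hx := IsInst.x₀_mem₁ h
  have hb := IsInst.x₀_box h
  rw [h.Ax] at hx hb
  rw [matBL_stage hr1 (zr_subM h.pr₁ h.e₁) (zr_abs h.pr₁ h.e₁) hx hb]
  unfold mA AnnData.stR
  rw [h.A₁, h.Ax]

/-- **matrix of side 2 at stage `t`** -/
theorem IsInst.mat₂ (h : IsInst P n R m r₁ r₂ lo hi 𝒜) (t : ℕ) :
    matBL n R (fun l => (rq r₁ r₂ true l : ℤ))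
      (loL n (stQ n 𝒜.L t) (cen (rq r₁ r₂) (inp n R m lo hi)) (List.ofFn lo))
      (hiL n (stQ n 𝒜.L t) (cen (rq r₁ r₂) (inp n R m lo hi)) (List.ofFn hi))
      (cen (rq r₁ r₂) (inp n R m lo hi)) = ofMat (mA 𝒜 𝒜.r₂ t) := by
  have hr2 := repL r₁ r₂ true
  simp only [if_true] at hr2
  have hx := IsInst.x₀_mem₂ h
  have hb := IsInst.x₀_box h
  rw [h.Ax] at hx hb
  rw [matBL_stage hr2 (zr_subM h.pr₂ h.e₂) (zr_abs h.pr₂ h.e₂) hx hb]
  unfold mA AnnData.stR
  rw [h.A₂, h.Ax]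

end inst

end Crest.Agent.R302.Conc
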