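import Mathlib
import Crest.Agent.R302.Loop272A

/-!
# R302, block LOOP, part B: the one-shot gauge update (helper272)

* `update_good`: from two-sided estimates of the large ratios `N(u,v) g_u / (Z g_v)` and the triangle inequality
  `N(u,v) N(v,w) ≤ 2 Z N(u,w)` one gets a gauge which is good with constant `16`.
* `inc`: the update in powers of two, from integer counts.
* `chebyshev_EN`, `counts_pr`: concentration of the counts of `K` moved particles.
* `gauge_step`: the update is good with probability at least `1 - (K e + 16 n² 4^m / K)`.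
-/

set_option autoImplicit false

namespace Crest.Agent.R302.Loop

open Finset Crest.Agent.R309.Tape

/-! ### deterministic part -/

section det

variable {V : Type*}

theorem update_good (N : V → V → ℝ) (Z : ℝ) (hZ : 0 < Z)
    (tri : ∀ u v w, N u v * N v w ≤ 2 * Z * N u w) (hN : ∀ u v, 0 ≤ N u v)
    (g g' : V → ℝ) (hg : ∀ v, 0 < g v) (rh : V → V → ℝ)
    (hbig : ∀ u v, Z * g v ≤ N u v * g u →
      N u v * g u ≤ 2 * (rh u v * (Z * g v)) ∧ rh u v * (Z * g v) ≤ 2 * (N u v * g u))
    (hsmall : ∀ u v, N u v * g u < Z * g v → rh u v ≤ 2)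
    (h1 : ∀ v, g v ≤ g' v) (h2 : ∀ u v, rh u v * g v ≤ 4 * g' v)
    (h3 : ∀ v, g' v ≤ 2 * g v ∨ ∃ u, g' v ≤ rh u v * g v / 2) (u v : V) :
    N u v * g' u ≤ 16 * Z * g' v := by
  -- the basic bound
  have base : ∀ d, N d v * g d ≤ 8 * Z * g' v := by
    intro d
    rcases le_or_gt (Z * g v) (N d v * g d) with h | h
    · have a := (hbig d v h).1
      have b := h2 d v
      have : rh d v * (Z * g v) ≤ 4 * g' v * Z := by
        have := mul_le_mul_of_nonneg_right b hZ.le
        linarith [this, show rh d v * g v * Z = rh d v * (Z * g v) by ring]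
      nlinarith
    · have a := mul_le_mul_of_nonneg_left (h1 v) hZ.le
      have b : 0 ≤ Z * g' v := mul_nonneg hZ.le ((hg v).le.trans (h1 v))
      nlinarith
  have caseA : g' u ≤ 2 * g u → N u v * g' u ≤ 16 * Z * g' v := by
    intro h
    have a := mul_le_mul_of_nonneg_left h (hN u v)
    have b := base u
    nlinarith
  rcases h3 u with h | ⟨d, hd⟩
  · exact caseA h
  · rcases le_or_gt (Z * g u) (N d u * g d) with hb | hb
    · have a := (hbig d u hb).2
      -- `g' u * Z ≤ N d u * g d`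
      have b : g' u * Z ≤ N d u * g d := by
        have := mul_le_mul_of_nonneg_right hd hZ.le
        linarith [this, show rh d u * g u / 2 * Z = rh d u * (Z * g u) / 2 by ring]
      have c := mul_le_mul_of_nonneg_left b (hN u v)
      have t := tri d u v
      have t' := mul_le_mul_of_nonneg_right t (hg d).le
      have bb := base d
      have c2 : N u v * g' u * Z ≤ 2 * Z * (8 * Z * g' v) := by
        calc N u v * g' u * Z = N u v * (g' u * Z) := by ring
          _ ≤ N u v * (N d u * g d) := c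
          _ = N d u * N u v * g d := by ring
          _ ≤ 2 * Z * N d v * g d := t'
          _ = 2 * Z * (N d v * g d) := by ring
          _ ≤ 2 * Z * (8 * Z * g' v) := by
            apply mul_le_mul_of_nonneg_left bb; linarith
      have c3 : N u v * g' u * Z ≤ 16 * Z * g' v * Z := by linarith [c2, show 2 * Z * (8 * Z * g' v) = 16 * Z * g' v * Z by ring]
      exact le_of_mul_le_mul_right c3 hZ
    · have a := hsmall d u hb
      refine caseA ?_
      have := mul_le_mul_of_nonneg_right a (hg u).le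
      have := (hg u).le
      linarith

variable [Fintype V]

/-- increment of the exponent of the gauge at `v`, from the counts `c u v` and the unit `D` -/
def inc (D : ℕ) (c : V → V → ℕ) (v : V) : ℕ :=
  Finset.univ.sup fun u => Nat.clog 2 ((c u v + (4 * D - 1)) / (4 * D))

theorem inc_ge {D : ℕ} (hD : 0 < D) (c : V → V → ℕ) (u v : V) : c u v ≤ 4 * D * 2 ^ inc D c v := by
  have h1 : Nat.clog 2 ((c u v + (4 * D - 1)) / (4 * D)) ≤ inc D c v :=
    Finset.le_sup (f := fun u => Nat.clog 2 ((c u v + (4 * D - 1)) / (4 * D))) (Finset.mem_univ u)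
  have h2 : (c u v + (4 * D - 1)) / (4 * D) ≤ 2 ^ inc D c v :=
    (Nat.le_pow_clog (by norm_num) _).trans (Nat.pow_le_pow_right (by norm_num) h1)
  have h3 : c u v + (4 * D - 1) < 4 * D * ((c u v + (4 * D - 1)) / (4 * D) + 1) := by
    have := Nat.lt_mul_div_succ (c u v + (4 * D - 1)) (show 0 < 4 * D by omega)
    simpa using this
  have h4 : 4 * D * ((c u v + (4 * D - 1)) / (4 * D) + 1) =
      4 * D * ((c u v + (4 * D - 1)) / (4 * D)) + 4 * D := by ring
  have h5 : 4 * D * ((c u v + (4 * D - 1)) / (4 * D)) ≤ 4 * D * 2 ^ inc D c v :=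
    Nat.mul_le_mul_left _ h2
  omega

theorem inc_le [Nonempty V] {D : ℕ} (hD : 0 < D) (c : V → V → ℕ) (v : V) (h : inc D c v ≠ 0) :
    ∃ u, 2 * D * 2 ^ inc D c v ≤ c u v := by
  obtain ⟨u, _, hu⟩ := Finset.exists_mem_eq_sup (Finset.univ : Finset V) Finset.univ_nonempty
    (fun u => Nat.clog 2 ((c u v + (4 * D - 1)) / (4 * D)))
  refine ⟨u, ?_⟩
  set k := inc D c v with hk
  have hu' : k = Nat.clog 2 ((c u v + (4 * D - 1)) / (4 * D)) := by rw [hk]; exact hu
  obtain ⟨j, hj⟩ : ∃ j, k = j + 1 := ⟨k - 1, by omega⟩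
  have h1 : 2 ^ j < (c u v + (4 * D - 1)) / (4 * D) := by
    by_contra hcon
    push Not at hcon
    have := Nat.clog_mono_right 2 hcon
    rw [Nat.clog_pow 2 j (by norm_num)] at this
    omega
  have h2 : (2 ^ j + 1) * (4 * D) ≤ c u v + (4 * D - 1) :=
    (Nat.le_div_iff_mul_le (by omega)).mp h1
  have h3 : (2 ^ j + 1) * (4 * D) = 2 * D * 2 ^ (j + 1) + 4 * D := by ring
  rw [hj]
  omega

/-- **the gauge update in powers of two**: `c u v / D` estimates `N u v * 2^(l u - l v) / Z` -/
theorem update_pow [Nonempty V] (N : V → V → ℝ) (Z : ℝ) (hZ : 0 < Z)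
    (tri : ∀ u v w, N u v * N v w ≤ 2 * Z * N u w) (hN : ∀ u v, 0 ≤ N u v)
    (l : V → ℤ) (D : ℕ) (hD : 0 < D) (c : V → V → ℕ)
    (hc : ∀ u v, |(c u v : ℝ) / D - N u v * 2 ^ l u / (Z * 2 ^ l v)| ≤
      1 / 8 + (1 / 4) * (N u v * 2 ^ l u / (Z * 2 ^ l v))) (u v : V) :
    N u v * (2 : ℝ) ^ (l u + inc D c u) ≤ 16 * Z * (2 : ℝ) ^ (l v + inc D c v) := by
  have hg : ∀ v, (0 : ℝ) < 2 ^ l v := fun v => by positivity
  have hDr : (0 : ℝ) < D := by exact_mod_cast hD
  have hadd : ∀ v, (2 : ℝ) ^ (l v + inc D c v) = 2 ^ l v * 2 ^ (inc D c v) := by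
    intro v
    rw [zpow_add₀ (by norm_num : (2 : ℝ) ≠ 0), zpow_natCast]
  refine update_good N Z hZ tri hN (fun v => 2 ^ l v) (fun v => (2 : ℝ) ^ (l v + inc D c v)) hg
    (fun u v => (c u v : ℝ) / D) ?_ ?_ ?_ ?_ ?_ u v
  · intro u v h
    have hZg : 0 < Z * 2 ^ l v := mul_pos hZ (hg v)
    have hr : 1 ≤ N u v * 2 ^ l u / (Z * 2 ^ l v) := by
      rw [le_div_iff₀ hZg]; linarith
    have h1 := abs_le.mp (hc u v)
    set r := N u v * 2 ^ l u / (Z * 2 ^ l v) with hrdef
    have hNr : N u v * 2 ^ l u = r * (Z * 2 ^ l v) := by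
      rw [hrdef]; field_simp
    rw [hNr]
    constructor
    · have : r ≤ 2 * ((c u v : ℝ) / D) := by linarith [h1.1]
      nlinarith
    · have : (c u v : ℝ) / D ≤ 2 * r := by linarith [h1.2]
      nlinarith
  · intro u v h
    have hZg : 0 < Z * 2 ^ l v := mul_pos hZ (hg v)
    have hr : N u v * 2 ^ l u / (Z * 2 ^ l v) ≤ 1 := by
      rw [div_le_iff₀ hZg]; linarith
    have h1 := abs_le.mp (hc u v)
    show (c u v : ℝ) / D ≤ 2
    linarith [h1.2]
  · intro v
    show (2 : ℝ) ^ l v ≤ 2 ^ (l v + inc D c v)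
    rw [hadd]
    have : (1 : ℝ) ≤ 2 ^ (inc D c v) := one_le_pow₀ (by norm_num)
    nlinarith [hg v]
  · intro u v
    show (c u v : ℝ) / D * 2 ^ l v ≤ 4 * 2 ^ (l v + inc D c v)
    rw [hadd]
    have h1 : (c u v : ℝ) ≤ 4 * D * 2 ^ inc D c v := by exact_mod_cast inc_ge hD c u v
    have h2 : (c u v : ℝ) / D ≤ 4 * 2 ^ inc D c v := by
      rw [div_le_iff₀ hDr]; linarith
    nlinarith [hg v]
  · intro v
    by_cases h : inc D c v = 0
    · left
      show (2 : ℝ) ^ (l v + inc D c v) ≤ 2 * 2 ^ l v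
      rw [hadd, h]
      have := hg v
      simp
      linarith
    · right
      obtain ⟨u, hu⟩ := inc_le hD c v h
      refine ⟨u, ?_⟩
      show (2 : ℝ) ^ (l v + inc D c v) ≤ (c u v : ℝ) / D * 2 ^ l v / 2
      rw [hadd]
      have h1 : 2 * (D : ℝ) * 2 ^ inc D c v ≤ c u v := by exact_mod_cast hu
      have h2 : 2 * 2 ^ inc D c v ≤ (c u v : ℝ) / D := by
        rw [le_div_iff₀ hDr]; linarith
      nlinarith [hg v]

end det

/-! ### concentration -/

section conc

variable {S Ω : Type*}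

/-- number of elements of a list in the event `P` -/
def cnt (P : Ω → Bool) (ys : List Ω) : ℕ := ys.countP P

@[simp] theorem cnt_nil (P : Ω → Bool) : cnt P [] = 0 := rfl

theorem cnt_cons (P : Ω → Bool) (y : Ω) (ys : List Ω) :
    (cnt P (y :: ys) : ℝ) = cnt P ys + ind (P y = true) := by
  unfold cnt
  rw [List.countP_cons]
  by_cases h : P y = true
  · simp [h, ind_of]
  · have h' : P y = false := by simpa using h
    simp [h', ind_of_not]

/-- second moment of the number of hits among `n` independent particles -/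
theorem EN_sq (π : Law Ω) (P : Ω → Bool) (n : ℕ) :
    π.EN n (fun ys => ((cnt P ys : ℝ) - n * π.E (fun y => ind (P y = true))) ^ 2) ≤ n / 4 := by
  set p := π.E (fun y => ind (P y = true)) with hp
  have hp01 : 0 ≤ p ∧ p ≤ 1 := π.E_mem01 fun y => ⟨ind_nonneg _, ind_le_one _⟩
  have mean : ∀ n, π.EN n (fun ys => (cnt P ys : ℝ) - n * p) = 0 := by
    intro n
    induction n with
    | zero => simp
    | succ n ih =>
      rw [Law.EN_succ]
      have : ∀ y, π.EN n (fun xs => (cnt P (y :: xs) : ℝ) - ((n + 1 : ℕ) : ℝ) * p) =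
          ind (P y = true) - p := by
        intro y
        have h1 : (fun xs => (cnt P (y :: xs) : ℝ) - ((n + 1 : ℕ) : ℝ) * p) =
            fun xs => ((cnt P xs : ℝ) - n * p) + (ind (P y = true) - p) := by
          funext xs; rw [cnt_cons]; push_cast; ring
        rw [h1, Law.EN_add, ih, Law.EN_const]; ring
      simp only [this]
      rw [Law.E_sub, Law.E_const, ← hp]; ring
  induction n with
  | zero => simp
  | succ n ih =>
    rw [Law.EN_succ]
    have h1 : ∀ y, π.EN n (fun xs => ((cnt P (y :: xs) : ℝ) - ((n + 1 : ℕ) : ℝ) * p) ^ 2) =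
        π.EN n (fun xs => ((cnt P xs : ℝ) - n * p) ^ 2) + (ind (P y = true) - p) ^ 2 := by
      intro y
      have h2 : (fun xs => ((cnt P (y :: xs) : ℝ) - ((n + 1 : ℕ) : ℝ) * p) ^ 2) =
          fun xs => (((cnt P xs : ℝ) - n * p) ^ 2 + (2 * (ind (P y = true) - p)) * ((cnt P xs : ℝ) - n * p)) +
            (ind (P y = true) - p) ^ 2 := by
        funext xs; rw [cnt_cons]; push_cast; ring
      rw [h2, Law.EN_add, Law.EN_add, Law.EN_mul_left, mean, Law.EN_const]; ring
    simp only [h1]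
    rw [Law.E_add, Law.E_const]
    have h3 : π.E (fun y => (ind (P y = true) - p) ^ 2) = p * (1 - p) := by
      have h4 : ∀ y, (ind (P y = true) - p) ^ 2 = (1 - 2 * p) * ind (P y = true) + p ^ 2 := by
        intro y
        by_cases h : P y = true
        · rw [ind_of h]; ring
        · rw [ind_of_not h]; ring
      simp only [h4]
      rw [Law.E_add, Law.E_mul_left, Law.E_const, ← hp]; ring
    rw [h3]
    have h5 : p * (1 - p) ≤ 1 / 4 := by nlinarith [sq_nonneg (p - 1 / 2)]
    push_cast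
    linarith

/-- Chebyshev for the frequency -/
theorem EN_dev (π : Law Ω) (P : Ω → Bool) {n : ℕ} (hn : 0 < n) {η : ℝ} (hη : 0 < η) :
    π.EN n (fun ys => ind (η < |(cnt P ys : ℝ) / n - π.E (fun y => ind (P y = true))|)) ≤
      1 / (4 * n * η ^ 2) := by
  have hn' : (0 : ℝ) < n := by exact_mod_cast hn
  set p := π.E (fun y => ind (P y = true)) with hp
  have h1 : π.EN n (fun ys => ind (η < |(cnt P ys : ℝ) / n - p|)) ≤
      π.EN n (fun ys => (1 / (n * η) ^ 2) * ((cnt P ys : ℝ) - n * p) ^ 2) := by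
    refine π.EN_mono n fun ys _ _ => ?_
    by_cases h : η < |(cnt P ys : ℝ) / n - p|
    · rw [ind_of h]
      have h2 : (cnt P ys : ℝ) - n * p = n * ((cnt P ys : ℝ) / n - p) := by field_simp
      rw [h2, div_mul_eq_mul_div, one_mul, le_div_iff₀ (by positivity), one_mul]
      have h3 : η ^ 2 ≤ ((cnt P ys : ℝ) / n - p) ^ 2 := by
        rw [← sq_abs ((cnt P ys : ℝ) / n - p)]
        exact pow_le_pow_left₀ hη.le h.le 2
      nlinarith [sq_nonneg (n : ℝ)]
    · rw [ind_of_not h]; positivity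
  refine h1.trans ?_
  rw [Law.EN_mul_left]
  have h2 := EN_sq π P n
  rw [← hp] at h2
  have h3 : (1 / (n * η) ^ 2) * π.EN n (fun ys => ((cnt P ys : ℝ) - n * p) ^ 2) ≤
      (1 / (n * η) ^ 2) * (n / 4) := mul_le_mul_of_nonneg_left h2 (by positivity)
  refine h3.trans (le_of_eq ?_)
  field_simp

/-- all the frequencies of a finite family of events are close to their probabilities, for `K` moved
particles -/
theorem counts_pr {ι : Type*} (s : Finset ι) (μ : Law S) (π : Law Ω) (f : S → List Bool → Ω) (ρ : ℕ) (e : ℝ)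
    (h : ∀ φ : Ω → ℝ, (∀ x, 0 ≤ φ x ∧ φ x ≤ 1) → |μ.E (fun x => avg ρ (fun l => φ (f x l))) - π.E φ| ≤ e)
    (P : ι → Ω → Bool) {K : ℕ} (hK : 0 < K) {η : ℝ} (hη : 0 < η) :
    1 - (K * e + s.card / (4 * K * η ^ 2)) ≤
      μ.EN K (fun ys => avg (K * ρ) (fun l => ind (∀ i ∈ s,
        |(cnt (P i) (mapRun f ρ ys l) : ℝ) / K - π.E (fun y => ind (P i y = true))| ≤ η))) := by
  have h1 := hybrid μ π f ρ e h K (fun ys => ind (∀ i ∈ s,
    |(cnt (P i) ys : ℝ) / K - π.E (fun y => ind (P i y = true))| ≤ η))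
    (fun ys => ⟨ind_nonneg _, ind_le_one _⟩)
  have h2 : 1 - s.card / (4 * K * η ^ 2) ≤ π.EN K (fun ys => ind (∀ i ∈ s,
      |(cnt (P i) ys : ℝ) / K - π.E (fun y => ind (P i y = true))| ≤ η)) := by
    have h3 : π.EN K (fun ys => 1 - ∑ i ∈ s,
        ind (η < |(cnt (P i) ys : ℝ) / K - π.E (fun y => ind (P i y = true))|)) ≤
        π.EN K (fun ys => ind (∀ i ∈ s,
          |(cnt (P i) ys : ℝ) / K - π.E (fun y => ind (P i y = true))| ≤ η)) := by
      refine π.EN_mono K fun ys _ _ => ?_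
      by_cases hh : ∀ i ∈ s, |(cnt (P i) ys : ℝ) / K - π.E (fun y => ind (P i y = true))| ≤ η
      · rw [ind_of hh]
        have : 0 ≤ ∑ i ∈ s, ind (η < |(cnt (P i) ys : ℝ) / K - π.E (fun y => ind (P i y = true))|) :=
          Finset.sum_nonneg fun i _ => ind_nonneg _
        linarith
      · rw [ind_of_not hh]
        push Not at hh
        obtain ⟨i, hi, hi'⟩ := hh
        have : ind (η < |(cnt (P i) ys : ℝ) / K - π.E (fun y => ind (P i y = true))|) ≤
            ∑ i ∈ s, ind (η < |(cnt (P i) ys : ℝ) / K - π.E (fun y => ind (P i y = true))|) :=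
          Finset.single_le_sum (f := fun i =>
            ind (η < |(cnt (P i) ys : ℝ) / K - π.E (fun y => ind (P i y = true))|))
            (fun i _ => ind_nonneg _) hi
        rw [ind_of hi'] at this
        linarith
    refine le_trans ?_ h3
    rw [Law.EN_sub, Law.EN_const]
    have h4 : π.EN K (fun ys => ∑ i ∈ s,
        ind (η < |(cnt (P i) ys : ℝ) / K - π.E (fun y => ind (P i y = true))|)) =
        ∑ i ∈ s, π.EN K (fun ys =>
        ind (η < |(cnt (P i) ys : ℝ) / K - π.E (fun y => ind (P i y = true))|)) := by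
      classical
      induction s using Finset.induction_on with
      | empty => simp
      | insert i s hi ih =>
        simp only [Finset.sum_insert hi]
        rw [Law.EN_add]
        congr 1
        apply ih
        · exact hybrid μ π f ρ e h K (fun ys => ind (∀ i ∈ s,
            |(cnt (P i) ys : ℝ) / K - π.E (fun y => ind (P i y = true))| ≤ η))
            (fun ys => ⟨ind_nonneg _, ind_le_one _⟩)
        · refine π.EN_mono K fun ys _ _ => ?_
          by_cases hh : ∀ i ∈ s, |(cnt (P i) ys : ℝ) / K - π.E (fun y => ind (P i y = true))| ≤ η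
          · rw [ind_of hh]
            have : 0 ≤ ∑ i ∈ s, ind (η < |(cnt (P i) ys : ℝ) / K - π.E (fun y => ind (P i y = true))|) :=
              Finset.sum_nonneg fun i _ => ind_nonneg _
            linarith
          · rw [ind_of_not hh]
            push Not at hh
            obtain ⟨i, hi, hi'⟩ := hh
            have : ind (η < |(cnt (P i) ys : ℝ) / K - π.E (fun y => ind (P i y = true))|) ≤
                ∑ i ∈ s, ind (η < |(cnt (P i) ys : ℝ) / K - π.E (fun y => ind (P i y = true))|) :=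
              Finset.single_le_sum (f := fun i =>
                ind (η < |(cnt (P i) ys : ℝ) / K - π.E (fun y => ind (P i y = true))|))
                (fun i _ => ind_nonneg _) hi
            rw [ind_of hi'] at this
            linarith
    rw [h4]
    have h5 : ∑ i ∈ s, π.EN K (fun ys =>
        ind (η < |(cnt (P i) ys : ℝ) / K - π.E (fun y => ind (P i y = true))|)) ≤
        ∑ i ∈ s, 1 / (4 * (K : ℝ) * η ^ 2) :=
      Finset.sum_le_sum fun i _ => EN_dev π (P i) hK hη
    rw [Finset.sum_const, nsmul_eq_mul] at h5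
    have h6 : (s.card : ℝ) * (1 / (4 * K * η ^ 2)) = s.card / (4 * K * η ^ 2) := by ring
    linarith
  have h7 := (abs_le.mp h1).1
  linarith

/-- a list of outputs gives the new gauge -/
def newGauge {V : Type*} [Fintype V] (m K : ℕ) (ev : V → V → Ω → Bool) (l : V → ℤ) (ys : List Ω) : V → ℤ :=
  fun v => l v + inc (K / 2 ^ m) (fun u v => cnt (ev u v) ys) v

/-- **The gauge step**: with `K = D 2^m` estimator particles the new gauge is good with constant `16` with
probability at least `1 - (K e + 16 n² 4^m / K)`. -/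
theorem gauge_step {V : Type*} [Fintype V] [Nonempty V] (N : V → V → ℝ) (Z : ℝ) (hZ : 0 < Z)
    (tri : ∀ u v w, N u v * N v w ≤ 2 * Z * N u w) (hN : ∀ u v, 0 ≤ N u v) (l : V → ℤ)
    (μ : Law S) (π : Law Ω) (f : S → List Bool → Ω) (ρ : ℕ) (e : ℝ)
    (h : ∀ φ : Ω → ℝ, (∀ x, 0 ≤ φ x ∧ φ x ≤ 1) → |μ.E (fun x => avg ρ (fun l => φ (f x l))) - π.E φ| ≤ e)
    (ev : V → V → Ω → Bool) (m D : ℕ) (hD : 0 < D)
    (hev : ∀ u v, |2 ^ m * π.E (fun y => ind (ev u v y = true)) - N u v * 2 ^ l u / (Z * 2 ^ l v)| ≤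
      (1 / 4) * (N u v * 2 ^ l u / (Z * 2 ^ l v))) :
    1 - ((D * 2 ^ m : ℕ) * e + 16 * (Fintype.card V) ^ 2 * 2 ^ m / D) ≤
      μ.EN (D * 2 ^ m) (fun ys => avg ((D * 2 ^ m) * ρ) (fun t => ind (∀ u v,
        N u v * (2 : ℝ) ^ (newGauge m (D * 2 ^ m) ev l (mapRun f ρ ys t) u) ≤
          16 * Z * (2 : ℝ) ^ (newGauge m (D * 2 ^ m) ev l (mapRun f ρ ys t) v)))) := by
  have hK : 0 < D * 2 ^ m := by positivity
  have hη : (0 : ℝ) < 1 / (8 * 2 ^ m) := by positivity
  have hDr : (0 : ℝ) < D := by exact_mod_cast hD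
  have h2m : (0 : ℝ) < 2 ^ m := by positivity
  have h1 := counts_pr (Finset.univ : Finset (V × V)) μ π f ρ e h (fun i => ev i.1 i.2) hK hη
  have hcard : ((Finset.univ : Finset (V × V)).card : ℝ) = (Fintype.card V : ℝ) ^ 2 := by
    rw [Finset.card_univ, Fintype.card_prod]; push_cast; ring
  rw [hcard] at h1
  have h2 : (Fintype.card V : ℝ) ^ 2 / (4 * ((D * 2 ^ m : ℕ) : ℝ) * (1 / (8 * 2 ^ m)) ^ 2) =
      16 * (Fintype.card V) ^ 2 * 2 ^ m / D := by
    push_cast
    field_simp
    ring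
  rw [h2] at h1
  refine h1.trans ?_
  refine μ.EN_mono _ fun ys _ _ => avg_mono fun t _ => ind_mono fun H => ?_
  intro u v
  have hdiv : D * 2 ^ m / 2 ^ m = D := Nat.mul_div_cancel _ (by positivity)
  have hc : ∀ u v, |(cnt (ev u v) (mapRun f ρ ys t) : ℝ) / D - N u v * 2 ^ l u / (Z * 2 ^ l v)| ≤
      1 / 8 + (1 / 4) * (N u v * 2 ^ l u / (Z * 2 ^ l v)) := by
    intro u v
    have a := H (u, v) (Finset.mem_univ _)
    simp only at a
    have b := hev u v
    set p := π.E (fun y => ind (ev u v y = true)) with hp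
    set k : ℝ := (cnt (ev u v) (mapRun f ρ ys t) : ℝ) with hk
    have c1 : k / D = 2 ^ m * (k / ((D * 2 ^ m : ℕ) : ℝ)) := by
      push_cast; field_simp
    have c2 : |k / D - 2 ^ m * p| ≤ 1 / 8 := by
      rw [c1, ← mul_sub, abs_mul, abs_of_pos h2m]
      calc (2 : ℝ) ^ m * |k / ((D * 2 ^ m : ℕ) : ℝ) - p| ≤ 2 ^ m * (1 / (8 * 2 ^ m)) :=
            mul_le_mul_of_nonneg_left a h2m.le
        _ = 1 / 8 := by field_simp
    have c3 := abs_sub_le (k / D) (2 ^ m * p) (N u v * 2 ^ l u / (Z * 2 ^ l v))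
    linarith
  have := update_pow N Z hZ tri hN l D hD (fun u v => cnt (ev u v) (mapRun f ρ ys t)) hc u v
  simpa [newGauge, hdiv] using this

end conc

end Crest.Agent.R302.Loop
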