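import Crest.Agent.R302.OPTSolve
import Crest.Agent.R302.Loop272B

/-!
# R302: the outer loop as an `OPTF` function (helper675)

* `OPTF.runSteps`, `OPTF.runSteps_inv`, `OPTF.runSteps_add`, `OPTF.runSteps_guard`;
* `OPTF.mapRun`, `OPTF.stage`, `loop_optf` : helper272's loop is `OPTF` if the particle move and the
  gauge update are, with uniform size bounds;
* `newGaugeL`: the gauge update on lists.
-/

set_option autoImplicit false
set_option linter.dupNamespace false
set_option linter.unusedSectionVars false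

namespace Crest.Agent.R302.ORAM

open Crest.Agent.Lib.PT Crest.Agent.R309.Tape Crest.Agent.R309.PTX

variable {α β γ δ σ : Type} [PTCode α] [PTCode β] [PTCode γ] [PTCode δ] [PTCode σ]

/-- `runSteps` is `OPTF` if the sizes of all intermediate states are bounded -/
theorem OPTF.runSteps {f : Inst → γ → σ → List Bool → σ} {r k : Inst → γ → ℕ} {s : Inst → γ → σ}
    {t : Inst → γ → List Bool}
    (hf : OPTF (fun I (p : γ × σ × List Bool) => f I p.1 p.2.1 p.2.2)) (hr : OPTF r) (hk : OPTU k)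
    (hs : OPTF s) (ht : OPTF t) {B : Inst → γ → ℕ} (hB : OPB B)
    (hb : ∀ I c, ∀ i ≤ k I c, sz (R309.Tape.runSteps (f I c) (r I c) i (s I c) (t I c)) ≤ B I c) :
    OPTF (fun I c => R309.Tape.runSteps (f I c) (r I c) (k I c) (s I c) (t I c)) := by
  have hr1 : OPTF (fun I (q : γ × σ × List Bool) => r I q.1) :=
    OPTF.comp (g := r) hr (OPTF.fst OPTF.id)
  have hl1 : OPTF (fun (_ : Inst) (q : γ × σ × List Bool) => q.2.2) :=
    OPTF.snd (OPTF.snd OPTF.id)
  have hstep : OPTF (fun I (p : γ × σ × List Bool) =>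
      (f I p.1 p.2.1 (p.2.2.take (r I p.1)), p.2.2.drop (r I p.1))) := by
    refine OPTF.prodMk ?_ (OPTF.drop hr1 hl1)
    exact OPTF.comp (g := fun I (p : γ × σ × List Bool) => f I p.1 p.2.1 p.2.2)
      (f := fun I (q : γ × σ × List Bool) => (q.1, q.2.1, q.2.2.take (r I q.1))) hf
      (OPTF.prodMk (OPTF.fst OPTF.id) (OPTF.prodMk (OPTF.fst (OPTF.snd OPTF.id))
        (OPTF.take hr1 hl1)))
  have hBd : OPB (fun I c => 2 * B I c + 1 + sz (t I c)) :=
    (((OPB.const 2).mul hB).add (OPB.const 1)).add ht.bound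
  have h := OPTF.iterate (n := k)
    (f := fun I (c : γ) (p : σ × List Bool) => (f I c p.1 (p.2.take (r I c)), p.2.drop (r I c)))
    (a := fun I c => (s I c, t I c)) hk hstep (OPTF.prodMk hs ht)
    (B := fun I c => 2 * B I c + 1 + sz (t I c)) hBd (fun I c i hi => by
      have e := runSteps_eq_iterate (f I c) (r I c) i (s I c) (t I c)
      rw [e]
      simp only [sz_prod]
      have h1 := hb I c i hi
      have h2 := sz_drop_le (t I c) (i * r I c)
      omega)
  refine (OPTF.fst h).of_eq fun I c => ?_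
  have e := runSteps_eq_iterate (f I c) (r I c) (k I c) (s I c) (t I c)
  rw [e]

/-- version with an invariant -/
theorem OPTF.runSteps_inv {f : Inst → γ → σ → List Bool → σ} {r k : Inst → γ → ℕ}
    {s : Inst → γ → σ} {t : Inst → γ → List Bool}
    (hf : OPTF (fun I (p : γ × σ × List Bool) => f I p.1 p.2.1 p.2.2)) (hr : OPTF r) (hk : OPTU k)
    (hs : OPTF s) (ht : OPTF t) {B : Inst → γ → ℕ} (hB : OPB B) (Inv : Inst → γ → σ → Prop)
    (h0 : ∀ I c, Inv I c (s I c)) (h1 : ∀ I c x l, Inv I c x → Inv I c (f I c x l))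
    (h2 : ∀ I c x, Inv I c x → sz x ≤ B I c) :
    OPTF (fun I c => R309.Tape.runSteps (f I c) (r I c) (k I c) (s I c) (t I c)) := by
  refine OPTF.runSteps hf hr hk hs ht hB (fun I c i _ => h2 I c _ ?_)
  induction i with
  | zero => exact h0 I c
  | succ i ih =>
    rw [runSteps_succ']
    exact h1 I c _ _ (ih (by omega))

/-- version with additive growth -/
theorem OPTF.runSteps_add {f : Inst → γ → σ → List Bool → σ} {r k : Inst → γ → ℕ}
    {s : Inst → γ → σ} {t : Inst → γ → List Bool}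
    (hf : OPTF (fun I (p : γ × σ × List Bool) => f I p.1 p.2.1 p.2.2)) (hr : OPTF r) (hk : OPTU k)
    (hs : OPTF s) (ht : OPTF t) {G : Inst → γ → ℕ} (hG : OPB G)
    (h : ∀ I c x l, sz (f I c x l) ≤ sz x + G I c) :
    OPTF (fun I c => R309.Tape.runSteps (f I c) (r I c) (k I c) (s I c) (t I c)) := by
  refine OPTF.runSteps hf hr hk hs ht (B := fun I c => sz (s I c) + k I c * G I c)
    (hs.bound.add (hk.opb.mul hG)) (fun I c i hi => ?_)
  have key : ∀ i, sz (R309.Tape.runSteps (f I c) (r I c) i (s I c) (t I c)) ≤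
      sz (s I c) + i * G I c := by
    intro i
    induction i with
    | zero => simp [R309.Tape.runSteps]
    | succ i ih =>
      rw [runSteps_succ']
      have := h I c (R309.Tape.runSteps (f I c) (r I c) i (s I c) (t I c))
        (((t I c).drop (i * r I c)).take (r I c))
      have e : (i + 1) * G I c = i * G I c + G I c := by ring
      omega
  refine (key i).trans ?_
  have := Nat.mul_le_mul_right (G I c) hi
  omega

/-! ### `mapRun` -/

theorem mapRun_eq_zipWith {S Ω : Type*} (f : S → List Bool → Ω) (ρ : ℕ) (xs : List S)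
    (l : List Bool) :
    Loop.mapRun f ρ xs l = List.zipWith f xs
      ((List.range xs.length).map fun i => (l.drop (i * ρ)).take ρ) := by
  induction xs generalizing l with
  | nil => rfl
  | cons x xs ih =>
    rw [Loop.mapRun, ih, List.length_cons, List.range_succ_eq_map]
    simp only [List.map_cons, List.map_map, List.zipWith_cons_cons, zero_mul, List.drop_zero]
    congr 2
    refine List.map_congr_left fun i _ => ?_
    simp only [Function.comp_apply, List.drop_drop]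
    congr 2
    rw [Nat.succ_mul]
    omega

theorem OPTF.mapRun {f : Inst → γ → α → List Bool → β} {ρ : Inst → γ → ℕ}
    {xs : Inst → γ → List α} {l : Inst → γ → List Bool}
    (hf : OPTF (fun I (p : γ × α × List Bool) => f I p.1 p.2.1 p.2.2)) (hρ : OPTF ρ)
    (hxs : OPTF xs) (hl : OPTF l) :
    OPTF (fun I c => Loop.mapRun (f I c) (ρ I c) (xs I c) (l I c)) := by
  have h1 : OPTF (fun I c => (List.range (xs I c).length).map
      fun i => ((l I c).drop (i * ρ I c)).take (ρ I c)) := by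
    refine OPTF.map (OPTF.range (OPTU.length hxs)) ?_
    have hρ' : OPTF (fun I (p : γ × ℕ) => ρ I p.1) := OPTF.comp (g := ρ) hρ (OPTF.fst OPTF.id)
    have hl' : OPTF (fun I (p : γ × ℕ) => l I p.1) := OPTF.comp (g := l) hl (OPTF.fst OPTF.id)
    exact OPTF.take hρ' (OPTF.drop (OPTF.natMul (OPTF.snd OPTF.id) hρ') hl')
  exact (OPTF.zipWith hxs h1 hf).of_eq fun I c => (mapRun_eq_zipWith _ _ _ _).symm

/-! ### the stage and the loop -/

section loop

variable {S G : Type} [PTCode S] [PTCode G] {A : Inst → γ → Loop.Sys S G}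

/-- `stage` without pattern matching -/
theorem stage_eq {S G : Type*} (A : Loop.Sys S G) (s : ℕ × G × List S) (l : List Bool) :
    Loop.stage A s l = match s.2.2 with
      | [] => (s.1 + 1, s.2.1, [])
      | c :: rest =>
        (s.1 + 1, A.gup s.1 c s.2.1 (rest.take A.K) (l.take A.ρ1),
          Loop.mapRun (A.run s.1 c (A.gup s.1 c s.2.1 (rest.take A.K) (l.take A.ρ1))) A.ρ
            (rest.drop A.K) (l.drop A.ρ1)) := rfl

theorem OPTF.stage
    (hrun : OPTF (fun I (p : γ × ℕ × S × G × S × List Bool) =>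
      (A I p.1).run p.2.1 p.2.2.1 p.2.2.2.1 p.2.2.2.2.1 p.2.2.2.2.2))
    (hgup : OPTF (fun I (p : γ × ℕ × S × G × List S × List Bool) =>
      (A I p.1).gup p.2.1 p.2.2.1 p.2.2.2.1 p.2.2.2.2.1 p.2.2.2.2.2))
    (hρ : OPTF (fun I c => (A I c).ρ)) (hρ1 : OPTF (fun I c => (A I c).ρ1))
    (hK : OPTF (fun I c => (A I c).K)) :
    OPTF (fun I (p : γ × (ℕ × G × List S) × List Bool) => Loop.stage (A I p.1) p.2.1 p.2.2) := by
  let Γ := γ × (ℕ × G × List S) × List Bool
  -- parameters after splitting the population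
  have hc : ∀ {δ : Type} [PTCode δ] {f : Inst → γ → δ}, OPTF f →
      OPTF (fun I (q : Γ × S × List S) => f I q.1.1) := fun hf =>
    OPTF.comp hf (OPTF.fst (OPTF.fst OPTF.id))
  have ht : OPTF (fun (_ : Inst) (q : Γ × S × List S) => q.1.2.1.1) :=
    OPTF.fst (OPTF.fst (OPTF.snd (OPTF.fst OPTF.id)))
  have hg : OPTF (fun (_ : Inst) (q : Γ × S × List S) => q.1.2.1.2.1) :=
    OPTF.fst (OPTF.snd (OPTF.fst (OPTF.snd (OPTF.fst OPTF.id))))
  have hl : OPTF (fun (_ : Inst) (q : Γ × S × List S) => q.1.2.2) :=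
    OPTF.snd (OPTF.snd (OPTF.fst OPTF.id))
  have hx : OPTF (fun (_ : Inst) (q : Γ × S × List S) => q.2.1) := OPTF.fst (OPTF.snd OPTF.id)
  have hrest : OPTF (fun (_ : Inst) (q : Γ × S × List S) => q.2.2) :=
    OPTF.snd (OPTF.snd OPTF.id)
  have hcc : OPTF (fun (_ : Inst) (q : Γ × S × List S) => q.1.1) := hc OPTF.id
  have hgup' : OPTF (fun I (q : Γ × S × List S) =>
      (A I q.1.1).gup q.1.2.1.1 q.2.1 q.1.2.1.2.1 (q.2.2.take (A I q.1.1).K)
        (q.1.2.2.take (A I q.1.1).ρ1)) :=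
    OPTF.comp (g := fun I (p : γ × ℕ × S × G × List S × List Bool) =>
      (A I p.1).gup p.2.1 p.2.2.1 p.2.2.2.1 p.2.2.2.2.1 p.2.2.2.2.2)
      (f := fun I (q : Γ × S × List S) => (q.1.1, q.1.2.1.1, q.2.1, q.1.2.1.2.1,
        q.2.2.take (A I q.1.1).K, q.1.2.2.take (A I q.1.1).ρ1)) hgup
      (hcc.prodMk (ht.prodMk (hx.prodMk (hg.prodMk ((OPTF.take (hc hK) hrest).prodMk
        (OPTF.take (hc hρ1) hl))))))
  have hmap : OPTF (fun I (q : Γ × S × List S) =>
      Loop.mapRun ((A I q.1.1).run q.1.2.1.1 q.2.1 ((A I q.1.1).gup q.1.2.1.1 q.2.1 q.1.2.1.2.1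
        (q.2.2.take (A I q.1.1).K) (q.1.2.2.take (A I q.1.1).ρ1))) (A I q.1.1).ρ
        (q.2.2.drop (A I q.1.1).K) (q.1.2.2.drop (A I q.1.1).ρ1)) := by
    refine OPTF.mapRun (f := fun I (q : Γ × S × List S) => (A I q.1.1).run q.1.2.1.1 q.2.1
      ((A I q.1.1).gup q.1.2.1.1 q.2.1 q.1.2.1.2.1
        (q.2.2.take (A I q.1.1).K) (q.1.2.2.take (A I q.1.1).ρ1))) ?_ (hc hρ)
      (OPTF.drop (hc hK) hrest) (OPTF.drop (hc hρ1) hl)
    refine OPTF.comp (g := fun I (p : γ × ℕ × S × G × S × List Bool) =>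
      (A I p.1).run p.2.1 p.2.2.1 p.2.2.2.1 p.2.2.2.2.1 p.2.2.2.2.2)
      (f := fun I (q : (Γ × S × List S) × S × List Bool) =>
        (q.1.1.1, q.1.1.2.1.1, q.1.2.1, (A I q.1.1.1).gup q.1.1.2.1.1 q.1.2.1 q.1.1.2.1.2.1
          (q.1.2.2.take (A I q.1.1.1).K) (q.1.1.2.2.take (A I q.1.1.1).ρ1), q.2.1, q.2.2)) hrun ?_
    have h1 : ∀ {δ : Type} [PTCode δ] {f : Inst → Γ × S × List S → δ}, OPTF f →
        OPTF (fun I (q : (Γ × S × List S) × S × List Bool) => f I q.1) := fun hf =>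
      OPTF.comp hf (OPTF.fst OPTF.id)
    exact (h1 hcc).prodMk ((h1 ht).prodMk ((h1 hx).prodMk ((h1 hgup').prodMk
      ((OPTF.fst (OPTF.snd OPTF.id)).prodMk (OPTF.snd (OPTF.snd OPTF.id))))))
  have hst : OPTF (fun (_ : Inst) (p : Γ) => p.2.1.2.2) :=
    OPTF.snd (OPTF.snd (OPTF.fst (OPTF.snd OPTF.id)))
  have ht0 : OPTF (fun (_ : Inst) (q : Γ) => q.2.1.1) :=
    OPTF.fst (OPTF.fst (OPTF.snd OPTF.id))
  have hg0 : OPTF (fun (_ : Inst) (q : Γ) => q.2.1.2.1) :=
    OPTF.fst (OPTF.snd (OPTF.fst (OPTF.snd OPTF.id)))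
  have key := OPTF.listCasesOn (s := fun (_ : Inst) (p : Γ) => p.2.1.2.2)
    (f := fun (_ : Inst) (p : Γ) => (p.2.1.1 + 1, p.2.1.2.1, ([] : List S)))
    (g := fun I (p : Γ) (c : S) (rest : List S) =>
      (p.2.1.1 + 1, (A I p.1).gup p.2.1.1 c p.2.1.2.1 (rest.take (A I p.1).K)
        (p.2.2.take (A I p.1).ρ1),
        Loop.mapRun ((A I p.1).run p.2.1.1 c ((A I p.1).gup p.2.1.1 c p.2.1.2.1
          (rest.take (A I p.1).K) (p.2.2.take (A I p.1).ρ1))) (A I p.1).ρ
          (rest.drop (A I p.1).K) (p.2.2.drop (A I p.1).ρ1)))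
    hst
    ((OPTF.natAdd ht0 (OPTF.const 1)).prodMk (hg0.prodMk (OPTF.const [])))
    ((OPTF.natAdd ht (OPTF.const 1)).prodMk (hgup'.prodMk hmap))
  exact key.of_eq fun I p => by
    rw [stage_eq]
    rcases p.2.1.2.2 with _ | ⟨c, rest⟩ <;> rfl

theorem mem_mapRun {S Ω : Type*} {f : S → List Bool → Ω} {ρ : ℕ} {xs : List S} {l : List Bool}
    {y : Ω} (h : y ∈ Loop.mapRun f ρ xs l) : ∃ x ∈ xs, ∃ l', y = f x l' := by
  induction xs generalizing l with
  | nil => simp [Loop.mapRun] at h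
  | cons x xs ih =>
    rw [Loop.mapRun, List.mem_cons] at h
    rcases h with h | h
    · exact ⟨x, by simp, _, h⟩
    · obtain ⟨x', hx', l', h'⟩ := ih h
      exact ⟨x', by simp [hx'], l', h'⟩

/-- the state invariant used for the size bound -/
def StInv (M0 B N G0 BG : ℕ) (i : ℕ) (s : ℕ × G × List S) : Prop :=
  s.1 = i ∧ sz s.2.1 ≤ G0 + i * BG ∧ s.2.2.length ≤ N ∧ ∀ x ∈ s.2.2, sz x ≤ M0 + i * B

theorem StInv.stage {A : Loop.Sys S G} {M0 B N G0 BG i : ℕ} {s : ℕ × G × List S}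
    (h : StInv M0 B N G0 BG i s)
    (hrunB : ∀ t x g y l, sz (A.run t x g y l) ≤ sz y + B)
    (hgupB : ∀ t x g ys l, ys.length ≤ A.K → sz (A.gup t x g ys l) ≤ sz g + BG) (l : List Bool) :
    StInv M0 B N G0 BG (i + 1) (Loop.stage A s l) := by
  obtain ⟨h1, h2, h3, h4⟩ := h
  have e1 : (i + 1) * BG = i * BG + BG := by ring
  have e2 : (i + 1) * B = i * B + B := by ring
  rw [stage_eq]
  rcases hs : s.2.2 with _ | ⟨c, rest⟩
  · refine ⟨by simp [h1], ?_, by simp, by simp⟩
    simp only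
    omega
  · rw [hs] at h3 h4
    refine ⟨by simp [h1], ?_, ?_, ?_⟩
    · simp only
      have := hgupB s.1 c s.2.1 (rest.take A.K) (l.take A.ρ1) (List.length_take_le _ _)
      omega
    · simp only [Loop.length_mapRun, List.length_drop]
      simp only [List.length_cons] at h3
      omega
    · intro y hy
      simp only at hy
      obtain ⟨x, hx, l', rfl⟩ := mem_mapRun hy
      have h5 := h4 x (List.mem_cons_of_mem _ (List.mem_of_mem_drop hx))
      have h6 := hrunB s.1 c (A.gup s.1 c s.2.1 (rest.take A.K) (l.take A.ρ1)) x l'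
      omega

theorem StInv.runSteps {A : Loop.Sys S G} {M0 B N G0 BG i : ℕ} {s : ℕ × G × List S}
    (h : StInv M0 B N G0 BG i s)
    (hrunB : ∀ t x g y l, sz (A.run t x g y l) ≤ sz y + B)
    (hgupB : ∀ t x g ys l, ys.length ≤ A.K → sz (A.gup t x g ys l) ≤ sz g + BG)
    (r k : ℕ) (l : List Bool) :
    StInv M0 B N G0 BG (i + k) (R309.Tape.runSteps (Loop.stage A) r k s l) := by
  induction k with
  | zero => exact h
  | succ k ih =>
    rw [runSteps_succ']
    exact ih.stage hrunB hgupB _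

theorem StInv.sz_le {M0 B N G0 BG i T : ℕ} {s : ℕ × G × List S} (h : StInv M0 B N G0 BG i s)
    (hi : i ≤ T) :
    sz s ≤ 2 * T + 1 + (2 * (G0 + T * BG) + 1 + N * (2 * (M0 + T * B) + 1)) := by
  obtain ⟨h1, h2, h3, h4⟩ := h
  have e1 : sz s = 2 * sz s.1 + 1 + (2 * sz s.2.1 + 1 + sz s.2.2) := by
    rw [sz_prod, sz_prod]
  have h9 : i * B ≤ T * B := Nat.mul_le_mul_right _ hi
  have h5 := sz_list_le (m := M0 + T * B) (fun x hx => (h4 x hx).trans (by omega))
  have h6 : sz s.1 ≤ T := (sz_nat_le _).trans (by omega)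
  have h7 : i * BG ≤ T * BG := Nat.mul_le_mul_right _ hi
  have h8 : s.2.2.length * (2 * (M0 + T * B) + 1) ≤ N * (2 * (M0 + T * B) + 1) :=
    Nat.mul_le_mul_right _ h3
  omega

/-- the population size -/
theorem OPTU.popSize (hK : OPTU (fun I c => (A I c).K)) (m : ℕ) {T : Inst → γ → ℕ}
    (hT : OPTU T) : OPTU (fun I c => Loop.popSize (A I c) m (T I c)) :=
  (OPTU.add (OPTU.const m) (OPTU.mul hT (OPTU.add (OPTU.const 1) hK))).of_eq fun I c => by
    rw [Loop.popSize_eq]

/-- **the loop is `OPTF`** -/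
theorem OPTF.loop
    (hrun : OPTF (fun I (p : γ × ℕ × S × G × S × List Bool) =>
      (A I p.1).run p.2.1 p.2.2.1 p.2.2.2.1 p.2.2.2.2.1 p.2.2.2.2.2))
    (hgup : OPTF (fun I (p : γ × ℕ × S × G × List S × List Bool) =>
      (A I p.1).gup p.2.1 p.2.2.1 p.2.2.2.1 p.2.2.2.2.1 p.2.2.2.2.2))
    (hρ : OPTF (fun I c => (A I c).ρ)) (hρ1 : OPTF (fun I c => (A I c).ρ1))
    (hK : OPTU (fun I c => (A I c).K))
    {B BG : Inst → γ → ℕ} (hB : OPB B) (hBG : OPB BG)
    (hrunB : ∀ I c t x g y l, sz ((A I c).run t x g y l) ≤ sz y + B I c)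
    (hgupB : ∀ I c t x g ys l, ys.length ≤ (A I c).K →
      sz ((A I c).gup t x g ys l) ≤ sz g + BG I c)
    {T r : Inst → γ → ℕ} (hT : OPTU T) (hr : OPTF r) {x0 : Inst → γ → S} (hx0 : OPTF x0)
    {g0 : Inst → γ → G} (hg0 : OPTF g0) {N : Inst → γ → ℕ} (hN : OPTU N)
    {t : Inst → γ → List Bool} (ht : OPTF t) :
    OPTF (fun I c => R309.Tape.runSteps (Loop.stage (A I c)) (r I c) (T I c)
      (0, g0 I c, List.replicate (N I c) (x0 I c)) (t I c)) := by
  have h0 : OPTF (fun I c => ((0 : ℕ), g0 I c, List.replicate (N I c) (x0 I c))) :=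
    (OPTF.const 0).prodMk (hg0.prodMk (OPTF.replicate hN hx0))
  refine OPTF.runSteps (f := fun I c => Loop.stage (A I c))
    (OPTF.stage hrun hgup hρ hρ1 hK.toOPTF) hr hT h0 ht
    (B := fun I c => 2 * T I c + 1 + (2 * (sz (g0 I c) + T I c * BG I c) + 1
      + N I c * (2 * (sz (x0 I c) + T I c * B I c) + 1))) ?_ ?_
  · exact (((OPB.const 2).mul hT.opb).add (OPB.const 1)).add
      ((((OPB.const 2).mul (hg0.bound.add (hT.opb.mul hBG))).add (OPB.const 1)).add
        (hN.opb.mul (((OPB.const 2).mul (hx0.bound.add (hT.opb.mul hB))).add (OPB.const 1))))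
  · intro I c i hi
    have hinit : StInv (sz (x0 I c)) (B I c) (N I c) (sz (g0 I c)) (BG I c) 0
        ((0 : ℕ), g0 I c, List.replicate (N I c) (x0 I c)) := by
      refine ⟨rfl, by simp, by simp, ?_⟩
      intro x hx
      simp only at hx
      rw [List.eq_of_mem_replicate hx]
      omega
    have h := hinit.runSteps (A := A I c) (hrunB I c) (hgupB I c) (r I c) i (t I c)
    rw [zero_add] at h
    exact h.sz_le hi

/-- the sampler of `Loop.loop_sampler` is `OPTF` -/
theorem OPTF.loop_sampler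
    (hrun : OPTF (fun I (p : γ × ℕ × S × G × S × List Bool) =>
      (A I p.1).run p.2.1 p.2.2.1 p.2.2.2.1 p.2.2.2.2.1 p.2.2.2.2.2))
    (hgup : OPTF (fun I (p : γ × ℕ × S × G × List S × List Bool) =>
      (A I p.1).gup p.2.1 p.2.2.1 p.2.2.2.1 p.2.2.2.2.1 p.2.2.2.2.2))
    (hρ : OPTF (fun I c => (A I c).ρ)) (hρ1 : OPTF (fun I c => (A I c).ρ1))
    (hK : OPTU (fun I c => (A I c).K))
    {B BG : Inst → γ → ℕ} (hB : OPB B) (hBG : OPB BG)
    (hrunB : ∀ I c t x g y l, sz ((A I c).run t x g y l) ≤ sz y + B I c)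
    (hgupB : ∀ I c t x g ys l, ys.length ≤ (A I c).K →
      sz ((A I c).gup t x g ys l) ≤ sz g + BG I c)
    {T r : Inst → γ → ℕ} (hT : OPTU T) (hr : OPTF r) {x0 d : Inst → γ → S} (hx0 : OPTF x0)
    (hd : OPTF d) {g0 : Inst → γ → G} (hg0 : OPTF g0)
    {t : Inst → γ → List Bool} (ht : OPTF t) :
    OPTF (fun I c => (R309.Tape.runSteps (Loop.stage (A I c)) (r I c) (T I c)
      (0, g0 I c, List.replicate (Loop.popSize (A I c) 1 (T I c)) (x0 I c)) (t I c)).2.2.headD
        (d I c)) := by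
  have h := OPTF.loop hrun hgup hρ hρ1 hK hB hBG hrunB hgupB hT hr hx0 hg0
    (OPTU.popSize hK 1 hT) ht
  refine (OPTF.optionGetD (OPTF.head? (OPTF.snd (OPTF.snd h))) hd).of_eq fun I c => ?_
  rw [List.headD_eq_head?_getD]

end loop

/-! ### the gauge update on lists -/

/-- maximum of a list of naturals -/
def maxL (l : List ℕ) : ℕ := l.foldl max 0

theorem foldl_max_eq (l : List ℕ) (a : ℕ) : l.foldl max a = max a (maxL l) := by
  unfold maxL
  induction l generalizing a with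
  | nil => simp
  | cons b l ih => rw [List.foldl_cons, List.foldl_cons, ih, ih (max 0 b)]; simp [max_assoc]

@[simp] theorem maxL_nil : maxL [] = 0 := rfl

theorem maxL_cons (a : ℕ) (l : List ℕ) : maxL (a :: l) = max a (maxL l) := by
  rw [maxL, List.foldl_cons, foldl_max_eq]; simp

theorem le_maxL {l : List ℕ} {a : ℕ} (h : a ∈ l) : a ≤ maxL l := by
  induction l with
  | nil => simp at h
  | cons b l ih =>
    rw [maxL_cons]
    rcases List.mem_cons.1 h with h | h
    · exact h ▸ le_max_left _ _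
    · exact (ih h).trans (le_max_right _ _)

theorem maxL_le {l : List ℕ} {B : ℕ} (h : ∀ a ∈ l, a ≤ B) : maxL l ≤ B := by
  induction l with
  | nil => simp
  | cons b l ih =>
    rw [maxL_cons]
    exact max_le (h b (by simp)) (ih fun a ha => h a (by simp [ha]))

theorem ptf_maxL : PTF maxL := by
  refine PTF.foldl_bdd (γ := List ℕ) (l := fun l => l) (f := fun _ b a => max b a)
    (b := fun _ => 0) (by fun_prop) (by pt_solve) (by fun_prop) (G := fun l => sz l)
    (by fun_prop) ?_ ?_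
  · intro c b a ha hb
    rcases max_choice b a with h | h <;> rw [h]
    · exact hb
    · exact sz_mem_le ha
  · intro c; simp [sz_nat]

theorem OPTF.maxL {l : Inst → γ → List ℕ} (hl : OPTF l) : OPTF (fun I c => maxL (l I c)) :=
  OPTF.post ptf_maxL hl

theorem clog_two_eq (x : ℕ) : Nat.clog 2 x = (x - 1).size := by
  apply le_antisymm
  · rw [Nat.clog_le_iff_le_pow (by norm_num)]
    have := Nat.lt_size_self (x - 1)
    omega
  · rw [Nat.size_le]
    have := Nat.le_pow_clog (b := 2) (by norm_num) x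
    have h2 : 0 < 2 ^ Nat.clog 2 x := by positivity
    omega

theorem OPTU.clog {x : Inst → γ → ℕ} (hx : OPTF x) : OPTU (fun I c => Nat.clog 2 (x I c)) :=
  (OPTF.natSize (OPTF.natSub hx (OPTF.const 1))).of_eq fun I c => by
    rw [clog_two_eq]

theorem OPTU.countP {P : Inst → γ → α → Bool} {l : Inst → γ → List α}
    (hP : OPTF (fun I (p : γ × α) => P I p.1 p.2)) (hl : OPTF l) :
    OPTU (fun I c => (l I c).countP (P I c)) :=
  (OPTU.length (OPTF.filter hl hP)).of_eq fun I c => by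
    rw [List.countP_eq_length_filter]

/-- the increment of the gauge on lists -/
def incL (n D : ℕ) (c : ℕ → ℕ → ℕ) (v : ℕ) : ℕ :=
  maxL ((List.range n).map fun u => Nat.clog 2 ((c u v + (4 * D - 1)) / (4 * D)))

/-- the gauge update on lists; `ev u v y` is the event for the pair `(u, v)` -/
def newGaugeL {Ω : Type*} (n m K : ℕ) (ev : ℕ → ℕ → Ω → Bool) (g : List ℤ) (ys : List Ω) :
    List ℤ :=
  (List.range n).map fun v => g.getD v 0 + (incL n (K / 2 ^ m) (fun u v => ys.countP (ev u v)) v : ℕ)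

theorem incL_eq {n D : ℕ} (c : Fin n → Fin n → ℕ) (c' : ℕ → ℕ → ℕ)
    (h : ∀ u v : Fin n, c' u v = c u v) (v : Fin n) : incL n D c' v = Loop.inc D c v := by
  unfold incL Loop.inc
  apply le_antisymm
  · refine maxL_le fun a ha => ?_
    obtain ⟨u, hu, rfl⟩ := List.mem_map.1 ha
    have hu' := List.mem_range.1 hu
    rw [h ⟨u, hu'⟩ v]
    exact Finset.le_sup (f := fun u => Nat.clog 2 ((c u v + (4 * D - 1)) / (4 * D)))
      (Finset.mem_univ (⟨u, hu'⟩ : Fin n))
  · refine Finset.sup_le fun u _ => ?_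
    refine le_maxL ?_
    rw [List.mem_map]
    exact ⟨u, List.mem_range.2 u.2, by rw [h]⟩

theorem length_newGaugeL {Ω : Type*} (n m K : ℕ) (ev : ℕ → ℕ → Ω → Bool) (g : List ℤ)
    (ys : List Ω) : (newGaugeL n m K ev g ys).length = n := by
  simp [newGaugeL]

/-- the list version is helper272's gauge update -/
theorem newGaugeL_getD {Ω : Type*} {n : ℕ} (m K : ℕ) (ev : ℕ → ℕ → Ω → Bool)
    (ev' : Fin n → Fin n → Ω → Bool) (h : ∀ u v : Fin n, ∀ y, ev u v y = ev' u v y)
    (g : List ℤ) (ys : List Ω) (v : Fin n) :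
    (newGaugeL n m K ev g ys).getD v 0
      = Loop.newGauge m K ev' (fun v => g.getD v 0) ys v := by
  have hv : (v : ℕ) < ((List.range n).map fun v => g.getD v 0 +
      (incL n (K / 2 ^ m) (fun u v => ys.countP (ev u v)) v : ℕ)).length := by simp
  rw [newGaugeL, List.getD_eq_getElem _ _ hv, Loop.newGauge]
  simp only [List.getElem_map, List.getElem_range]
  rw [incL_eq (fun u v => Loop.cnt (ev' u v) ys)]
  intro u w
  have : ev u w = ev' u w := funext (h u w)
  rw [this]; rfl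

theorem incL_le {n D K : ℕ} {c : ℕ → ℕ → ℕ} (h : ∀ u v, c u v ≤ K) (v : ℕ) :
    incL n D c v ≤ K + 1 := by
  refine maxL_le fun a ha => ?_
  obtain ⟨u, _, rfl⟩ := List.mem_map.1 ha
  apply Nat.clog_le_of_le_pow
  have h1 : K + 1 ≤ 2 ^ (K + 1) := Nat.lt_two_pow_self.le
  rcases Nat.eq_zero_or_pos D with hD | hD
  · subst hD; simp
  · have h2 : (c u v + (4 * D - 1)) / (4 * D) ≤ K + 1 := by
      apply Nat.div_le_of_le_mul
      have h3 := h u v
      have h4 : K ≤ 4 * D * K := Nat.le_mul_of_pos_left _ (by omega)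
      have h5 : 4 * D * (K + 1) = 4 * D * K + 4 * D := by ring
      omega
    omega

theorem size_add_le (a b : ℕ) : (a + b).size ≤ a.size + b.size := by
  rcases Nat.eq_zero_or_pos a with rfl | ha
  · simp
  rcases Nat.eq_zero_or_pos b with rfl | hb
  · simp
  rw [Nat.size_le]
  have h1 := Nat.lt_size_self a
  have h2 := Nat.lt_size_self b
  have h3 : 1 ≤ a.size := Nat.size_pos.2 ha
  have h4 : 1 ≤ b.size := Nat.size_pos.2 hb
  have h5 : 2 ≤ 2 ^ a.size := by
    calc 2 = 2 ^ 1 := rfl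
      _ ≤ 2 ^ a.size := Nat.pow_le_pow_right (by norm_num) h3
  have h6 : 2 ≤ 2 ^ b.size := by
    calc 2 = 2 ^ 1 := rfl
      _ ≤ 2 ^ b.size := Nat.pow_le_pow_right (by norm_num) h4
  rw [pow_add]
  nlinarith

theorem sz_int_add_le (z : ℤ) (k : ℕ) : sz (z + k) ≤ sz z + k := by
  rw [sz_int, sz_int]
  have h1 : (z + k).natAbs ≤ z.natAbs + k := by
    have := Int.natAbs_add_le z k
    simpa using this
  have h2 := Nat.size_le_size h1
  have h3 := size_add_le z.natAbs k
  have h4 : k.size ≤ k := by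
    rw [Nat.size_le]; exact Nat.lt_two_pow_self
  omega

theorem sz_map_getD_le (g : List ℤ) (k n : ℕ) (f : ℕ → ℕ) (hf : ∀ v, f v ≤ k) :
    sz ((List.range n).map fun v => g.getD v 0 + (f v : ℕ)) ≤ sz g + n * (2 * k + 7) := by
  induction n generalizing g f with
  | zero => simp
  | succ n ih =>
    rw [List.range_succ_eq_map, List.map_cons, List.map_map, sz_cons]
    have e : (n + 1) * (2 * k + 7) = n * (2 * k + 7) + (2 * k + 7) := by ring
    have h0 := sz_int_add_le (g.getD 0 0) (f 0)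
    have h1 := hf 0
    rcases g with _ | ⟨a, g⟩
    · have h2 := ih [] (fun v => f (v + 1)) fun v => hf _
      have h3 : sz ((List.map ((fun v => ([] : List ℤ).getD v 0 + ((f v : ℕ) : ℤ)) ∘ Nat.succ)
          (List.range n))) = sz ((List.range n).map fun v => ([] : List ℤ).getD v 0 +
            ((f (v + 1) : ℕ) : ℤ)) := by
        congr 1
      rw [h3]
      have h4 : sz (([] : List ℤ).getD 0 0) = 3 := by
        simp [sz_int]
      rw [h4] at h0
      omega
    · have h2 := ih g (fun v => f (v + 1)) fun v => hf _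
      have h3 : sz ((List.map ((fun v => (a :: g).getD v 0 + ((f v : ℕ) : ℤ)) ∘ Nat.succ)
          (List.range n))) = sz ((List.range n).map fun v => g.getD v 0 +
            ((f (v + 1) : ℕ) : ℤ)) := by
        congr 1
      rw [h3, sz_cons]
      have h4 : (a :: g).getD 0 0 = a := rfl
      rw [h4] at h0 ⊢
      omega

/-- size bound of the new gauge -/
theorem sz_newGaugeL_le {Ω : Type*} (n m K : ℕ) (ev : ℕ → ℕ → Ω → Bool) (g : List ℤ)
    (ys : List Ω) (hys : ys.length ≤ K) :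
    sz (newGaugeL n m K ev g ys) ≤ sz g + n * (2 * (K + 1) + 7) :=
  sz_map_getD_le g (K + 1) n _ fun v =>
    incL_le (fun _ _ => (List.countP_le_length).trans hys) v

/-- the gauge update is `OPTF` -/
theorem OPTF.newGaugeL {n m K : Inst → γ → ℕ} {ev : Inst → γ → ℕ → ℕ → α → Bool}
    {g : Inst → γ → List ℤ} {ys : Inst → γ → List α} (hn : OPTU n) (hm : OPTU m) (hK : OPTF K)
    (hev : OPTF (fun I (p : γ × ℕ × ℕ × α) => ev I p.1 p.2.1 p.2.2.1 p.2.2.2)) (hg : OPTF g)
    (hys : OPTF ys) :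
    OPTF (fun I c => newGaugeL (n I c) (m I c) (K I c) (ev I c) (g I c) (ys I c)) := by
  have c1 : ∀ {δ : Type} [PTCode δ] {f : Inst → γ → δ}, OPTF f →
      OPTF (fun I (q : γ × ℕ) => f I q.1) := fun hf => OPTF.comp hf (OPTF.fst OPTF.id)
  have c2 : ∀ {δ : Type} [PTCode δ] {f : Inst → γ → δ}, OPTF f →
      OPTF (fun I (q : (γ × ℕ) × ℕ) => f I q.1.1) := fun hf =>
    OPTF.comp hf (OPTF.fst (OPTF.fst OPTF.id))
  have n1 : OPTU (fun I (q : γ × ℕ) => n I q.1) := OPTU.comp hn (OPTF.fst OPTF.id)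
  have hD : OPTF (fun I c => K I c / 2 ^ m I c) := OPTF.natDiv hK (OPTF.natTwoPow hm)
  have hcnt : OPTU (fun I (q : (γ × ℕ) × ℕ) => (ys I q.1.1).countP (ev I q.1.1 q.2 q.1.2)) := by
    refine OPTU.countP (P := fun I (q : (γ × ℕ) × ℕ) y => ev I q.1.1 q.2 q.1.2 y) ?_ (c2 hys)
    refine OPTF.comp (g := fun I (p : γ × ℕ × ℕ × α) => ev I p.1 p.2.1 p.2.2.1 p.2.2.2)
      (f := fun _ (q : ((γ × ℕ) × ℕ) × α) => (q.1.1.1, q.1.2, q.1.1.2, q.2)) hev ?_
    exact OPTF.of_ptf (by pt_solve)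
  have hinc : OPTF (fun I (q : γ × ℕ) =>
      incL (n I q.1) (K I q.1 / 2 ^ m I q.1) (fun u v => (ys I q.1).countP (ev I q.1 u v)) q.2) := by
    unfold incL
    refine OPTF.maxL (OPTF.map (OPTF.range n1) ?_)
    refine (OPTU.clog (OPTF.natDiv (OPTF.natAdd hcnt.toOPTF (OPTF.natSub
      (OPTF.natMul (OPTF.const 4) (c2 hD)) (OPTF.const 1))) (OPTF.natMul (OPTF.const 4) (c2 hD)))).toOPTF
  unfold ORAM.newGaugeL
  refine OPTF.map (OPTF.range hn) ?_
  exact OPTF.intAdd (OPTF.getD (c1 hg) (OPTF.snd OPTF.id) (OPTF.const 0)) (OPTF.intNatCast hinc)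

end Crest.Agent.R302.ORAM
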