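import Crest.Agent.R302.Slack166
import Crest.Agent.R302.OPTSolve

/-!
# R302, block O2 (helper166): the slack sampler is a polynomial-time function; dyadic coins
-/

set_option autoImplicit false

namespace Crest.Agent.R302.Slk

open Crest.Agent.R309.Tape Crest.Agent.R309.MC Crest.Agent.R309.PTX
open Crest.Agent.Lib.PT Crest.Agent.Lib.PT.Arith
open Crest.Agent.R302.ORAM

variable {γ : Type} [PTCode γ]

theorem ptf_cfix {M k i : γ → ℕ} (hM : PTU M) (hk : PTU k) (hi : PTU i) :
    PTF (fun c => cfix (M c) (k c) (i c)) := by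
  refine ptf_natRec (n := i) (r := fun a j => cfix (M a) (k a) j)
    (b := fun a => 2 ^ M a - 2 ^ (M a - k a)) (s := fun a _ t => t ^ 2 / 2 ^ M a) hi ?_ ?_
    (fun a => rfl) (fun a j _ => rfl) (B := fun a => M a + 1) ?_ (fun a j _ => ?_)
  · pt_solve
  · pt_solve
  · have := hM.pb
    fun_prop
  · rw [sz_nat]
    refine (Nat.size_le_size (cfix_le (M a) (k a) j)).trans ?_
    rw [Nat.size_pow]

theorem ptf_thr {M k i : γ → ℕ} (hM : PTU M) (hk : PTU k) (hi : PTU i) :
    PTF (fun c => thr (M c) (k c) (i c)) := by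
  have h := ptf_cfix hM hk hi
  unfold thr
  pt_solve

theorem ptf_msb {l : γ → List Bool} (hl : PTF l) : PTF (fun c => msb (l c)) :=
  PTF.comp (g := msb) Arith.ptf_msb hl

theorem ptf_geo {M k D : γ → ℕ} {l : γ → List Bool} (hM : PTU M) (hk : PTU k) (hD : PTU D)
    (hl : PTF l) : PTF (fun c => geo (M c) (k c) (D c) (l c)) := by
  have key : PTF (fun c => ((List.range (D c)).map fun i =>
      if msb (((l c).drop (i * M c)).take (M c)) < thr (M c) (k c) (min i (D c))
        then 2 ^ (min i (D c)) else 0).sum) := by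
    refine PTF.natSum (PTF.map (PTF.range hD) ?_)
    have hM' : PTU (fun p : γ × ℕ => M p.1) := PTU.comp hM PTF.fst
    have hk' : PTU (fun p : γ × ℕ => k p.1) := PTU.comp hk PTF.fst
    have hD' : PTU (fun p : γ × ℕ => D p.1) := PTU.comp hD PTF.fst
    have hi : PTU (fun p : γ × ℕ => min p.2 (D p.1)) := ptu_min PTF.snd hD'
    have h1 := ptf_thr hM' hk' hi
    have hl' : PTF (fun p : γ × ℕ => l p.1) := PTF.comp hl PTF.fst
    have hM'' : PTF (fun p : γ × ℕ => M p.1) := PTU.toPTF hM'
    have h2 : PTF (fun p : γ × ℕ => msb (((l p.1).drop (p.2 * M p.1)).take (M p.1))) :=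
      ptf_msb (ptf_take' hM'' (ptf_drop' (by pt_solve) hl'))
    show PTF (fun p : γ × ℕ => if msb (((l p.1).drop (p.2 * M p.1)).take (M p.1)) <
      thr (M p.1) (k p.1) (min p.2 (D p.1)) then 2 ^ (min p.2 (D p.1)) else 0)
    exact PTF.ite (PTPred.natLt h2 h1) (PTF.natTwoPow hi) (PTF.const 0)
  refine key.of_eq fun c => ?_
  unfold geo
  congr 1
  refine List.map_congr_left fun i hi => ?_
  rw [min_eq_left (List.mem_range.1 hi).le]

theorem ptu_dgt {k N : γ → ℕ} (hk : PTU k) (hN : PTU N) : PTU (fun c => dgt (k c) (N c)) := by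
  unfold dgt
  exact PTU.add hk (PTU.add hN (PTU.const 2))

theorem ptu_prc {k N : γ → ℕ} (hk : PTU k) (hN : PTU N) : PTU (fun c => prc (k c) (N c)) := by
  unfold prc
  exact PTU.add (PTU.add hk (PTU.add hN (PTU.const 2))) (PTU.add hN (PTU.const 3))

theorem ptu_geoLen {k N : γ → ℕ} (hk : PTU k) (hN : PTU N) :
    PTU (fun c => geoLen (k c) (N c)) := PTU.mul (ptu_dgt hk hN) (ptu_prc hk hN)

theorem ptu_slkLen {k N : γ → ℕ} (hk : PTU k) (hN : PTU N) :
    PTU (fun c => slkLen (k c) (N c)) := by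
  have h := ptu_geoLen hk (PTU.add hN (PTU.const 1))
  exact PTU.add (PTU.add h h) (PTU.add h h)

theorem ptf_bilD {k N : γ → ℕ} {l : γ → List Bool} (hk : PTU k) (hN : PTU N) (hl : PTF l) :
    PTF (fun c => bilD (k c) (N c) (l c)) := by
  have h1 := PTU.toPTF (ptu_geoLen hk hN)
  have h2 := ptf_geo (ptu_prc hk hN) hk (ptu_dgt hk hN) (ptf_take' h1 hl)
  have h3 := ptf_geo (ptu_prc hk hN) hk (ptu_dgt hk hN) (ptf_drop' h1 hl)
  unfold bilD
  exact PTF.intAdd (PTF.intNatCast h2) (PTF.intNeg (PTF.intNatCast h3))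

theorem ptf_slk {k N : γ → ℕ} {l : γ → List Bool} (hk : PTU k) (hN : PTU N) (hl : PTF l) :
    PTF (fun c => slk (k c) (N c) (l c)) := by
  have hN1 : PTU (fun c => N c + 1) := PTU.add hN (PTU.const 1)
  have h := ptu_geoLen hk hN1
  have h1 := PTU.toPTF (PTU.add h h)
  have h2 := ptf_take' (PTU.toPTF (ptu_slkLen hk hN)) hl
  unfold slk
  exact PTF.intAdd (ptf_bilD hk hN1 (ptf_take' h1 h2)) (ptf_bilD hk hN1 (ptf_drop' h1 h2))

theorem ptf_slks {N B : γ → ℕ} {ks : γ → List ℕ} {l : γ → List Bool} (hN : PTU N) (hB : PTU B)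
    (hks : PTF ks) (hl : PTF l) : PTF (fun c => slks (N c) (B c) (ks c) (l c)) := by
  unfold slks
  refine PTF.map (PTF.range (PTU.length hks)) ?_
  have hN' : PTU (fun p : γ × ℕ => N p.1) := PTU.comp hN PTF.fst
  have hB' : PTU (fun p : γ × ℕ => B p.1) := PTU.comp hB PTF.fst
  have hks' : PTF (fun p : γ × ℕ => ks p.1) := PTF.comp hks PTF.fst
  have hl' : PTF (fun p : γ × ℕ => l p.1) := PTF.comp hl PTF.fst
  have hB'' := PTU.toPTF hB'
  have hk : PTU (fun p : γ × ℕ => min ((ks p.1).getD p.2 0) (B p.1)) :=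
    ptu_min (f := fun p : γ × ℕ => (ks p.1).getD p.2 0)
      (ptf_getD' PTF.snd hks' (PTF.const 0)) hB'
  have hd : PTF (fun p : γ × ℕ => ((l p.1).drop (p.2 * B p.1)).take (B p.1)) :=
    ptf_take' hB'' (ptf_drop' (PTF.natMul PTF.snd hB'') hl')
  exact ptf_slk (k := fun p : γ × ℕ => min ((ks p.1).getD p.2 0) (B p.1)) (N := fun p => N p.1)
    (l := fun p => ((l p.1).drop (p.2 * B p.1)).take (B p.1)) hk hN' hd

/-! ### relative to the oracle -/

theorem optf_slk {k N : Inst → γ → ℕ} {l : Inst → γ → List Bool} (hk : OPTU k) (hN : OPTU N)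
    (hl : OPTF l) : OPTF (fun I c => slk (k I c) (N I c) (l I c)) := by
  have h1 : PTU (fun p : Un × Un × List Bool => p.1.val) := PTF.fst
  have h2 : PTU (fun p : Un × Un × List Bool => p.2.1.val) := by
    show PTF (fun p : Un × Un × List Bool => p.2.1)
    fun_prop
  have h3 : PTF (fun p : Un × Un × List Bool => p.2.2) := PTF.comp PTF.snd PTF.snd
  have h := ptf_slk h1 h2 h3
  exact OPTF.post (g := fun p : Un × Un × List Bool => slk p.1.val p.2.1.val p.2.2)
    (f := fun I c => (Un.mk (k I c), Un.mk (N I c), l I c)) h (OPTF.prodMk hk (OPTF.prodMk hN hl))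

theorem optf_slks {N B : Inst → γ → ℕ} {ks : Inst → γ → List ℕ} {l : Inst → γ → List Bool}
    (hN : OPTU N) (hB : OPTU B) (hks : OPTF ks) (hl : OPTF l) :
    OPTF (fun I c => slks (N I c) (B I c) (ks I c) (l I c)) := by
  have h1 : PTU (fun p : Un × Un × List ℕ × List Bool => p.1.val) := PTF.fst
  have h2 : PTU (fun p : Un × Un × List ℕ × List Bool => p.2.1.val) := by
    show PTF (fun p : Un × Un × List ℕ × List Bool => p.2.1)
    fun_prop
  have h3 : PTF (fun p : Un × Un × List ℕ × List Bool => p.2.2.1) :=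
    PTF.comp PTF.fst (PTF.comp PTF.snd PTF.snd)
  have h4 : PTF (fun p : Un × Un × List ℕ × List Bool => p.2.2.2) :=
    PTF.comp PTF.snd (PTF.comp PTF.snd PTF.snd)
  have h := ptf_slks h1 h2 h3 h4
  exact OPTF.post
    (g := fun p : Un × Un × List ℕ × List Bool => slks p.1.val p.2.1.val p.2.2.1 p.2.2.2)
    (f := fun I c => (Un.mk (N I c), Un.mk (B I c), ks I c, l I c)) h
    (OPTF.prodMk hN (OPTF.prodMk hB (OPTF.prodMk hks hl)))

/-! ### dyadic coins -/

/-- a coin of bias `2^-e` from a block of bits (`e` larger than the block: rejection) -/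
def coin (e : ℕ) (l : List Bool) : Bool := decide (e ≤ l.length) && (l.take e).all (fun b => !b)

theorem pr_all_take (e : ℕ) : pr e (fun l => l.all (fun b => !b) = true) = 1 / 2 ^ e := by
  induction e with
  | zero =>
    rw [pr_eq_one (fun l hl => by
      have : l = [] := List.length_eq_zero_iff.1 hl
      subst this; rfl)]
    simp
  | succ e ih =>
    unfold pr
    rw [avg_succ]
    have e1 : avg e (fun l => ind ((true :: l).all (fun b => !b) = true)) = 0 := by
      rw [avg_congr (h := fun _ => (0 : ℝ)) fun l _ => ind_of_not (by simp), avg_const]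
    have e2 : avg e (fun l => ind ((false :: l).all (fun b => !b) = true)) = 1 / 2 ^ e := by
      rw [← ih]
      refine avg_congr fun l _ => ?_
      simp
    rw [e1, e2, pow_succ]
    field_simp
    ring

theorem pr_coin {e B : ℕ} (h : e ≤ B) : pr B (fun l => coin e l = true) = 1 / 2 ^ e := by
  have : pr B (fun l => coin e l = true) =
      pr B (fun l => (l.take e).all (fun b => !b) = true) :=
    pr_congr fun l hl => by simp [coin, hl, h]
  rw [this, pr_take h (fun l => l.all (fun b => !b) = true), pr_all_take]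

theorem pr_coin_of_lt {e B : ℕ} (h : B < e) : pr B (fun l => coin e l = true) = 0 :=
  pr_eq_zero fun l hl => by simp [coin, hl, h]

theorem pr_coin_le (e B : ℕ) : |pr B (fun l => coin e l = true) - 1 / 2 ^ e| ≤ 1 / 2 ^ B := by
  rcases le_or_gt e B with h | h
  · rw [pr_coin h, sub_self, abs_zero]
    positivity
  · rw [pr_coin_of_lt h, zero_sub, abs_neg, abs_of_nonneg (by positivity)]
    exact one_div_le_one_div_of_le (by positivity) (pow_le_pow_right₀ (by norm_num) h.le)

theorem ptf_coin {e : γ → ℕ} {l : γ → List Bool} (he : PTF e) (hl : PTF l) :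
    PTF (fun c => coin (e c) (l c)) := by
  unfold coin
  have h1 : PTF (fun c => (l c).take (e c)) := ptf_take' he hl
  have h2 : PTF (fun c => ((l c).take (e c)).all (fun b => !b)) := by pt_solve
  have h3 : PTF (fun c => decide (e c ≤ (l c).length)) := by pt_solve
  pt_solve

end Crest.Agent.R302.Slk
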