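import Crest.Agent.R302.Step223C
import Crest.Agent.R302.Slack166B
import Crest.Agent.R302.LoopOPT675

/-!
# R302, block STEP (helper223), part D: closure of `stepL` and of the `T`-step run

* `PrmOPT P` : every field of the stage data is `OPTF` / `OPTU`.
* `stepL_optf`, `run_optf`, `pfL`, `pfL_enc`, `pfL_optf`.
* `sz_run_le`, `sz_run_fst_le` : sizes of the states of the run.
-/

set_option autoImplicit false
set_option maxHeartbeats 400000

namespace Crest.Agent.R302.Step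

open Crest.Agent.R302.EDM Crest.Agent.R302.Sfm646 Crest.Agent.R302.ORAM
open Crest.Agent.Lib.PT Crest.Agent.Lib.PT.Arith Crest.Agent.R302.LatChain
open Crest.Agent.R309.Tape Crest.Agent.R309.PTX Crest.Agent.R302.Slk Crest.Agent.R302.Stage
open Crest.Agent.R302.Inst

/-! ### the perfect state -/

/-- block contents of `x` at the roots, `0` elsewhere -/
def blkL (n : ℕ) (par : List ℕ) (sub : List (List Bool)) (x : List ℤ) : List ℤ :=
  (List.range n).map fun a => if par.getD a n = n then bsL n sub x a else 0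

/-- the perfect state over `x` -/
def pfL (n : ℕ) (par₁ par₂ : List ℕ) (sub₁ sub₂ : List (List Bool)) (x : List ℤ) : St :=
  (x, blkL n par₁ sub₁ x, blkL n par₂ sub₂ x)

theorem CodeS.blkL {n : ℕ} {S : Side (Fin n)} {par : List ℕ} {sub : List (List Bool)}
    {ks : List ℕ} {mem : List ℤ → Bool} (h : CodeS S par sub ks mem) (x : Fin n → ℤ) :
    blkL n par sub (List.ofFn x) = encB S (S.blk x) := by
  unfold Step.blkL encB
  refine map_range_eq_ofFn _ _ fun a => ?_
  by_cases hp : S.T.par a = none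
  · rw [if_pos ((h.par_iff a).2 hp), dif_pos hp, h.bsL]
    rfl
  · rw [if_neg (fun e => hp ((h.par_iff a).1 e)), dif_neg hp]

theorem Code.pfL {n : ℕ} {D : SD (Fin n)} {P : Prm} {w : List ℤ → ℤ} {mem₁ mem₂ : List ℤ → Bool}
    (h : Code D P w mem₁ mem₂) (x : Fin n → ℤ) :
    pfL n P.par₁ P.par₂ P.sub₁ P.sub₂ (List.ofFn x) = enc D (D.pf x) := by
  unfold Step.pfL
  rw [h.s₁.blkL, h.s₂.blkL]
  rfl

/-! ### closure -/

section optf

variable {γ : Type} [PTCode γ] {N kmax Ns B : Inst → γ → ℕ} {P : Inst → γ → Prm}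
  {w : Inst → γ → List ℤ → ℤ} {mem₁ mem₂ : Inst → γ → List ℤ → Bool} {s : Inst → γ → St}
  {l : Inst → γ → List Bool}

/-- every field of the stage data is relatively computable -/
structure PrmOPT (P : Inst → γ → Prm) : Prop where
  par₁ : OPTF (fun I c => (P I c).par₁)
  par₂ : OPTF (fun I c => (P I c).par₂)
  sub₁ : OPTF (fun I c => (P I c).sub₁)
  sub₂ : OPTF (fun I c => (P I c).sub₂)
  ks₁ : OPTF (fun I c => (P I c).ks₁)
  ks₂ : OPTF (fun I c => (P I c).ks₂)
  a : OPTF (fun I c => (P I c).a)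
  g : OPTF (fun I c => (P I c).g)
  c : OPTF (fun I c => (P I c).c)
  M : OPTF (fun I c => (P I c).M)
  Lb : OPTF (fun I c => (P I c).Lb)
  cs : OPTF (fun I c => (P I c).cs)
  qa : OPTU (fun I c => (P I c).qa)
  qb : OPTU (fun I c => (P I c).qb)

theorem uwL_optf (hn : OPTU N) (hP : PrmOPT P)
    (hw : OPTF (fun I (p : γ × List ℤ) => w I p.1 p.2)) (hs : OPTF s) :
    OPTF (fun I c => uwL (N I c) (P I c).par₁ (P I c).par₂ (P I c).sub₁ (P I c).sub₂ (P I c).a
      (P I c).g (w I c) (s I c)) := by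
  unfold uwL
  exact OPTF.intAdd (uL_optf hn hP.par₁ hP.par₂ hP.sub₁ hP.sub₂ hP.a hP.g hs)
    (OPTF.comp₂ hw OPTF.id hs.snd.fst)

theorem bxLo_optf (hn : OPTU N) (hP : PrmOPT P) :
    OPTF (fun I c => bxLo (N I c) (P I c).c (P I c).M (P I c).Lb) := by
  unfold bxLo
  have h1 : OPTF (fun I (p : γ × ℕ) => (P I p.1).c) := off hP.c
  have h2 : OPTF (fun I (p : γ × ℕ) => (P I p.1).M) := off hP.M
  have h3 : OPTF (fun I (p : γ × ℕ) => (P I p.1).Lb) := off hP.Lb
  opt_solve

theorem bxHi_optf (hn : OPTU N) (hP : PrmOPT P) :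
    OPTF (fun I c => bxHi (N I c) (P I c).c (P I c).M (P I c).Lb) := by
  unfold bxHi
  have h1 : OPTF (fun I (p : γ × ℕ) => (P I p.1).c) := off hP.c
  have h2 : OPTF (fun I (p : γ × ℕ) => (P I p.1).M) := off hP.M
  have h3 : OPTF (fun I (p : γ × ℕ) => (P I p.1).Lb) := off hP.Lb
  opt_solve

theorem coinM_optf {B₁ : Inst → γ → ℕ} {u : Inst → γ → St → ℤ}
    {z₁ z₂ : Inst → γ → St → List ℤ → List ℤ} {D₁ D₂ : Inst → γ → List Bool → List ℤ}
    {s' : Inst → γ → St} (hk : OPTF kmax) (hB₁ : OPTF B₁)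
    (hu : OPTF (fun I (p : γ × St) => u I p.1 p.2))
    (hz₁ : OPTF (fun I (p : γ × St × List ℤ) => z₁ I p.1 p.2.1 p.2.2))
    (hz₂ : OPTF (fun I (p : γ × St × List ℤ) => z₂ I p.1 p.2.1 p.2.2))
    (hD₁ : OPTF (fun I (p : γ × List Bool) => D₁ I p.1 p.2))
    (hD₂ : OPTF (fun I (p : γ × List Bool) => D₂ I p.1 p.2))
    (hm₁ : OPTF (fun I (p : γ × List ℤ) => mem₁ I p.1 p.2))
    (hm₂ : OPTF (fun I (p : γ × List ℤ) => mem₂ I p.1 p.2)) (hs : OPTF s) (hs' : OPTF s')
    (hl : OPTF l) :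
    OPTF (fun I c => coinM (kmax I c) (B₁ I c) (u I c) (z₁ I c) (z₂ I c)
      (D₁ I c) (D₂ I c) (mem₁ I c) (mem₂ I c) (s I c) (s' I c) (l I c)) := by
  unfold coinM
  have e1 : OPTF (fun I c => u I c (s' I c)) := OPTF.comp₂ hu OPTF.id hs'
  have e2 : OPTF (fun I c => u I c (s I c)) := OPTF.comp₂ hu OPTF.id hs
  have e3 : OPTF (fun I c => D₁ I c (((l I c).drop (kmax I c)).take (B₁ I c))) :=
    OPTF.comp₂ hD₁ OPTF.id (by opt_solve)
  have e4 : OPTF (fun I c => D₂ I c (((l I c).drop (kmax I c)).drop (B₁ I c))) :=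
    OPTF.comp₂ hD₂ OPTF.id (by opt_solve)
  have e5 : OPTF (fun I c => z₁ I c (s' I c)
      (D₁ I c (((l I c).drop (kmax I c)).take (B₁ I c)))) := OPTF.comp₃ hz₁ OPTF.id hs' e3
  have e6 : OPTF (fun I c => z₂ I c (s' I c)
      (D₂ I c (((l I c).drop (kmax I c)).drop (B₁ I c)))) :=
    OPTF.comp₃ hz₂ OPTF.id hs' e4
  have e7 := OPTF.comp₂ hm₁ OPTF.id e5
  have e8 := OPTF.comp₂ hm₂ OPTF.id e6
  have e9 : OPTF (fun I c => (u I c (s' I c) - u I c (s I c)).toNat) := by opt_solve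
  exact OPTF.and (coin2_optf hk e9 (OPTF.take hk hl)) (OPTF.and e7 e8)

/-- **the step relative to the oracle** -/
theorem stepL_optf (hn : OPTU N) (hP : PrmOPT P) (hw : OPTF (fun I (p : γ × List ℤ) => w I p.1 p.2))
    (hm₁ : OPTF (fun I (p : γ × List ℤ) => mem₁ I p.1 p.2))
    (hm₂ : OPTF (fun I (p : γ × List ℤ) => mem₂ I p.1 p.2)) (hk : OPTU kmax) (hNs : OPTU Ns)
    (hB : OPTU B) (hs : OPTF s) (hl : OPTF l) :
    OPTF (fun I c => stepL (N I c) (P I c) (w I c) (mem₁ I c) (mem₂ I c) (kmax I c) (Ns I c)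
      (B I c) (s I c) (l I c)) := by
  unfold stepL
  have hBox : OPTF (fun I (p : γ × St) => inBoxSt (N I p.1) (bxLo (N I p.1) (P I p.1).c (P I p.1).M
      (P I p.1).Lb) (bxHi (N I p.1) (P I p.1).c (P I p.1).M (P I p.1).Lb) p.2) :=
    inBoxSt_optf (ouf hn) (off (bxLo_optf hn hP)) (off (bxHi_optf hn hP)) (OPTF.snd OPTF.id)
  have hmv : OPTF (fun I (p : γ × St × ℕ) => mvL (N I p.1) (P I p.1).qa (P I p.1).qb (P I p.1).cs
      (inBoxSt (N I p.1) (bxLo (N I p.1) (P I p.1).c (P I p.1).M (P I p.1).Lb)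
        (bxHi (N I p.1) (P I p.1).c (P I p.1).M (P I p.1).Lb)) p.2.1 p.2.2) := by
    refine mvL_optf (γ := γ × St × ℕ) (ouf hn) (ouf hP.qa) (ouf hP.qb) (off hP.cs) ?_
      (OPTF.fst (OPTF.snd OPTF.id)) (OPTF.snd (OPTF.snd OPTF.id))
    exact OPTF.comp₂ (g := fun I (c : γ) (s : St) => inBoxSt (N I c) (bxLo (N I c) (P I c).c
      (P I c).M (P I c).Lb) (bxHi (N I c) (P I c).c (P I c).M (P I c).Lb) s)
      (f := fun _ (p : (γ × St × ℕ) × St) => p.1.1) (h := fun _ (p : (γ × St × ℕ) × St) => p.2)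
      hBox (by opt_solve) (by opt_solve)
  have hu : OPTF (fun I (p : γ × St) => uwL (N I p.1) (P I p.1).par₁ (P I p.1).par₂ (P I p.1).sub₁
      (P I p.1).sub₂ (P I p.1).a (P I p.1).g (w I p.1) p.2) := by
    unfold uwL
    refine OPTF.intAdd (uL_optf (ouf hn) (off hP.par₁) (off hP.par₂) (off hP.sub₁) (off hP.sub₂)
      (off hP.a) (off hP.g) (OPTF.snd OPTF.id)) ?_
    exact OPTF.comp₂ (g := w) (f := fun _ (p : γ × St) => p.1)
      (h := fun _ (p : γ × St) => p.2.2.1) hw (by opt_solve) (by opt_solve)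
  have hz₁ : OPTF (fun I (p : γ × St × List ℤ) => zL (N I p.1) (P I p.1).par₁ (P I p.1).sub₁
      p.2.1.1 p.2.1.2.1 p.2.2) :=
    zL_optf (ouf hn) (off hP.par₁) (off hP.sub₁) (by opt_solve) (by opt_solve) (by opt_solve)
  have hz₂ : OPTF (fun I (p : γ × St × List ℤ) => zL (N I p.1) (P I p.1).par₂ (P I p.1).sub₂
      p.2.1.1 p.2.1.2.2 p.2.2) :=
    zL_optf (ouf hn) (off hP.par₂) (off hP.sub₂) (by opt_solve) (by opt_solve) (by opt_solve)
  have hD₁ : OPTF (fun I (p : γ × List Bool) => slks (Ns I p.1) (B I p.1) (P I p.1).ks₁ p.2) :=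
    optf_slks (ouf hNs) (ouf hB) (off hP.ks₁) (OPTF.snd OPTF.id)
  have hD₂ : OPTF (fun I (p : γ × List Bool) => slks (Ns I p.1) (B I p.1) (P I p.1).ks₂ p.2) :=
    optf_slks (ouf hNs) (ouf hB) (off hP.ks₂) (OPTF.snd OPTF.id)
  have hkf : OPTF kmax := OPTU.toOPTF hk
  have hnB : OPTF (fun I c => N I c * B I c) := OPTF.natMul (OPTU.toOPTF hn) (OPTU.toOPTF hB)
  have hcoin : OPTF (fun I (p : γ × St × St × List Bool) => coinM (kmax I p.1) (N I p.1 * B I p.1)
      (uwL (N I p.1) (P I p.1).par₁ (P I p.1).par₂ (P I p.1).sub₁ (P I p.1).sub₂ (P I p.1).a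
        (P I p.1).g (w I p.1))
      (fun s t => zL (N I p.1) (P I p.1).par₁ (P I p.1).sub₁ s.1 s.2.1 t)
      (fun s t => zL (N I p.1) (P I p.1).par₂ (P I p.1).sub₂ s.1 s.2.2 t)
      (slks (Ns I p.1) (B I p.1) (P I p.1).ks₁) (slks (Ns I p.1) (B I p.1) (P I p.1).ks₂)
      (mem₁ I p.1) (mem₂ I p.1) p.2.1 p.2.2.1 p.2.2.2) := by
    refine coinM_optf (γ := γ × St × St × List Bool) (off hkf) (off hnB) ?_ ?_ ?_ ?_ ?_ ?_ ?_
      (by opt_solve) (by opt_solve) (by opt_solve)
    · exact OPTF.comp₂ (g := fun I (c : γ) (s : St) => uwL (N I c) (P I c).par₁ (P I c).par₂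
        (P I c).sub₁ (P I c).sub₂ (P I c).a (P I c).g (w I c) s)
        (f := fun _ (p : (γ × St × St × List Bool) × St) => p.1.1)
        (h := fun _ (p : (γ × St × St × List Bool) × St) => p.2) hu (by opt_solve) (by opt_solve)
    · exact OPTF.comp₃ (g := fun I (c : γ) (s : St) (t : List ℤ) => zL (N I c) (P I c).par₁
        (P I c).sub₁ s.1 s.2.1 t)
        (f := fun _ (p : (γ × St × St × List Bool) × St × List ℤ) => p.1.1)
        (h := fun _ (p : (γ × St × St × List Bool) × St × List ℤ) => p.2.1)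
        (k := fun _ (p : (γ × St × St × List Bool) × St × List ℤ) => p.2.2)
        hz₁ (by opt_solve) (by opt_solve) (by opt_solve)
    · exact OPTF.comp₃ (g := fun I (c : γ) (s : St) (t : List ℤ) => zL (N I c) (P I c).par₂
        (P I c).sub₂ s.1 s.2.2 t)
        (f := fun _ (p : (γ × St × St × List Bool) × St × List ℤ) => p.1.1)
        (h := fun _ (p : (γ × St × St × List Bool) × St × List ℤ) => p.2.1)
        (k := fun _ (p : (γ × St × St × List Bool) × St × List ℤ) => p.2.2)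
        hz₂ (by opt_solve) (by opt_solve) (by opt_solve)
    · exact OPTF.comp₂ (g := fun I (c : γ) (l : List Bool) => slks (Ns I c) (B I c) (P I c).ks₁ l)
        (f := fun _ (p : (γ × St × St × List Bool) × List Bool) => p.1.1)
        (h := fun _ (p : (γ × St × St × List Bool) × List Bool) => p.2) hD₁ (by opt_solve)
        (by opt_solve)
    · exact OPTF.comp₂ (g := fun I (c : γ) (l : List Bool) => slks (Ns I c) (B I c) (P I c).ks₂ l)
        (f := fun _ (p : (γ × St × St × List Bool) × List Bool) => p.1.1)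
        (h := fun _ (p : (γ × St × St × List Bool) × List Bool) => p.2) hD₂ (by opt_solve)
        (by opt_solve)
    · exact OPTF.comp₂ (g := mem₁)
        (f := fun _ (p : (γ × St × St × List Bool) × List ℤ) => p.1.1)
        (h := fun _ (p : (γ × St × St × List Bool) × List ℤ) => p.2) hm₁ (by opt_solve)
        (by opt_solve)
    · exact OPTF.comp₂ (g := mem₂)
        (f := fun _ (p : (γ × St × St × List Bool) × List ℤ) => p.1.1)
        (h := fun _ (p : (γ × St × St × List Bool) × List ℤ) => p.2) hm₂ (by opt_solve)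
        (by opt_solve)
  have hq : OPTF (fun I c => (P I c).qa + (P I c).qb + 2) :=
    OPTU.toOPTF (OPTU.add (OPTU.add hP.qa hP.qb) (OPTU.const 2))
  exact cstep_optf hq hmv hcoin hs hl

theorem stepBits_optu (hn : OPTU N) (hP : PrmOPT P) (hk : OPTU kmax) (hB : OPTU B) :
    OPTU (fun I c => stepBits (N I c) (P I c) (kmax I c) (B I c)) := by
  unfold stepBits
  exact OPTU.add (OPTU.add (OPTU.add hP.qa hP.qb) (OPTU.const 2))
    (OPTU.add hk (OPTU.add (OPTU.mul hn hB) (OPTU.mul hn hB)))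

end optf

/-! ### sizes and the run -/

/-- size bound for the first component in the domain -/
def szBx (n : ℕ) (lo hi : List ℤ) : ℕ := n * (2 * (3 + (sz lo + sz hi)) + 1)

theorem sz_stepL_le (n : ℕ) (P : Prm) (w : List ℤ → ℤ) (mem₁ mem₂ : List ℤ → Bool)
    (kmax N B : ℕ) (s : St) (l : List Bool) :
    sz (stepL n P w mem₁ mem₂ kmax N B s l) ≤
      max (sz s) (szBd n (bxLo n P.c P.M P.Lb) (bxHi n P.c P.M P.Lb)) := by
  unfold stepL
  exact sz_cstep_le l

theorem stepL_cases (n : ℕ) (P : Prm) (w : List ℤ → ℤ) (mem₁ mem₂ : List ℤ → Bool)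
    (kmax N B : ℕ) (s : St) (l : List Bool) :
    stepL n P w mem₁ mem₂ kmax N B s l = s ∨
      (inBoxSt n (bxLo n P.c P.M P.Lb) (bxHi n P.c P.M P.Lb)
        (stepL n P w mem₁ mem₂ kmax N B s l) = true ∧
        (stepL n P w mem₁ mem₂ kmax N B s l).1.length = n) := by
  unfold stepL cstep
  cases h : mvL n P.qa P.qb P.cs (inBoxSt n (bxLo n P.c P.M P.Lb) (bxHi n P.c P.M P.Lb)) s
      (msb (l.take (P.qa + P.qb + 2))) with
  | none => exact Or.inl rfl
  | some s' =>
    simp only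
    split_ifs
    · right
      unfold mvL at h
      split_ifs at h
      revert h
      cases (P.cs.drop (msb (l.take (P.qa + P.qb + 2)) / 2 / 2 ^ P.qb)).head? with
      | none => intro h; exact absurd h (by simp)
      | some p =>
        intro h
        simp only [guardSt] at h
        split_ifs at h with h1
        rw [← Option.some.inj h]
        exact ⟨h1, by simp [axSt, axL]⟩
    · exact Or.inl rfl

/-- every state of a run is the start or lies in the window -/
theorem runSteps_cases (n : ℕ) (P : Prm) (w : List ℤ → ℤ) (mem₁ mem₂ : List ℤ → Bool)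
    (kmax N B : ℕ) (r T : ℕ) (s : St) (l : List Bool) :
    runSteps (stepL n P w mem₁ mem₂ kmax N B) r T s l = s ∨
      (inBoxSt n (bxLo n P.c P.M P.Lb) (bxHi n P.c P.M P.Lb)
        (runSteps (stepL n P w mem₁ mem₂ kmax N B) r T s l) = true ∧
        (runSteps (stepL n P w mem₁ mem₂ kmax N B) r T s l).1.length = n) := by
  induction T with
  | zero => exact Or.inl rfl
  | succ T ih =>
    rw [runSteps_succ']
    rcases stepL_cases n P w mem₁ mem₂ kmax N B
      (runSteps (stepL n P w mem₁ mem₂ kmax N B) r T s l) ((l.drop (T * r)).take r) with h | h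
    · rw [h]; exact ih
    · exact Or.inr h

theorem sz_run_le (n : ℕ) (P : Prm) (w : List ℤ → ℤ) (mem₁ mem₂ : List ℤ → Bool)
    (kmax N B : ℕ) (r T : ℕ) (s : St) (l : List Bool) :
    sz (runSteps (stepL n P w mem₁ mem₂ kmax N B) r T s l) ≤
      max (sz s) (szBd n (bxLo n P.c P.M P.Lb) (bxHi n P.c P.M P.Lb)) := by
  induction T with
  | zero => exact le_max_left _ _
  | succ T ih =>
    rw [runSteps_succ']
    refine (sz_stepL_le _ _ _ _ _ _ _ _ _ _).trans ?_
    exact max_le ih (le_max_right _ _)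

/-- size of the point of a state of the run -/
theorem sz_run_fst_le (n : ℕ) (P : Prm) (w : List ℤ → ℤ) (mem₁ mem₂ : List ℤ → Bool)
    (kmax N B : ℕ) (r T : ℕ) (s : St) (l : List Bool) :
    sz (runSteps (stepL n P w mem₁ mem₂ kmax N B) r T s l).1 ≤
      max (sz s.1) (szBx n (bxLo n P.c P.M P.Lb).1 (bxHi n P.c P.M P.Lb).1) := by
  rcases runSteps_cases n P w mem₁ mem₂ kmax N B r T s l with h | ⟨h, hl⟩
  · rw [h]; exact le_max_left _ _
  · refine le_trans ?_ (le_max_right _ _)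
    unfold inBoxSt at h
    rw [Bool.and_eq_true] at h
    exact sz_axL_le hl h.1

section optf2

variable {γ : Type} [PTCode γ] {N kmax Ns B T : Inst → γ → ℕ} {P : Inst → γ → Prm}
  {w : Inst → γ → List ℤ → ℤ} {mem₁ mem₂ : Inst → γ → List ℤ → Bool} {s : Inst → γ → St}
  {l : Inst → γ → List Bool}

/-- **the run relative to the oracle** -/
theorem run_optf (hn : OPTU N) (hP : PrmOPT P) (hw : OPTF (fun I (p : γ × List ℤ) => w I p.1 p.2))
    (hm₁ : OPTF (fun I (p : γ × List ℤ) => mem₁ I p.1 p.2))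
    (hm₂ : OPTF (fun I (p : γ × List ℤ) => mem₂ I p.1 p.2)) (hk : OPTU kmax) (hNs : OPTU Ns)
    (hB : OPTU B) (hT : OPTU T) (hs : OPTF s) (hl : OPTF l) :
    OPTF (fun I c => runSteps (stepL (N I c) (P I c) (w I c) (mem₁ I c) (mem₂ I c) (kmax I c)
      (Ns I c) (B I c)) (stepBits (N I c) (P I c) (kmax I c) (B I c)) (T I c) (s I c) (l I c)) := by
  have hstep : OPTF (fun I (p : γ × St × List Bool) => stepL (N I p.1) (P I p.1) (w I p.1)
      (mem₁ I p.1) (mem₂ I p.1) (kmax I p.1) (Ns I p.1) (B I p.1) p.2.1 p.2.2) := by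
    refine stepL_optf (γ := γ × St × List Bool) (N := fun I p => N I p.1) (P := fun I p => P I p.1)
      (w := fun I p => w I p.1) (mem₁ := fun I p => mem₁ I p.1) (mem₂ := fun I p => mem₂ I p.1)
      (kmax := fun I p => kmax I p.1) (Ns := fun I p => Ns I p.1) (B := fun I p => B I p.1)
      (ouf hn) ?_ ?_ ?_ ?_ (ouf hk) (ouf hNs) (ouf hB) (by opt_solve) (by opt_solve)
    · exact ⟨off hP.par₁, off hP.par₂, off hP.sub₁, off hP.sub₂, off hP.ks₁, off hP.ks₂, off hP.a,
        off hP.g, off hP.c, off hP.M, off hP.Lb, off hP.cs, ouf hP.qa, ouf hP.qb⟩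
    · exact OPTF.comp₂ (g := w) (f := fun _ (p : (γ × St × List Bool) × List ℤ) => p.1.1)
        (h := fun _ (p : (γ × St × List Bool) × List ℤ) => p.2) hw (by opt_solve) (by opt_solve)
    · exact OPTF.comp₂ (g := mem₁) (f := fun _ (p : (γ × St × List Bool) × List ℤ) => p.1.1)
        (h := fun _ (p : (γ × St × List Bool) × List ℤ) => p.2) hm₁ (by opt_solve) (by opt_solve)
    · exact OPTF.comp₂ (g := mem₂) (f := fun _ (p : (γ × St × List Bool) × List ℤ) => p.1.1)
        (h := fun _ (p : (γ × St × List Bool) × List ℤ) => p.2) hm₂ (by opt_solve) (by opt_solve)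
  have hlo := bxLo_optf hn hP
  have hhi := bxHi_optf hn hP
  have hb : ∀ {u v : Inst → γ → List ℤ}, OPTF u → OPTF v →
      OPB (fun I c => N I c * (2 * (3 + (sz (u I c) + sz (v I c))) + 1)) := by
    intro u v hu hv
    exact hn.opb.mul (((OPB.const 2).mul ((OPB.const 3).add (hu.bound.add hv.bound))).add
      (OPB.const 1))
  have hBd : OPB (fun I c => szBd (N I c) (bxLo (N I c) (P I c).c (P I c).M (P I c).Lb)
      (bxHi (N I c) (P I c).c (P I c).M (P I c).Lb)) := by
    unfold szBd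
    exact (((OPB.const 2).mul (hb hlo.fst hhi.fst)).add (OPB.const 1)).add
      ((((OPB.const 2).mul (hb hlo.snd.fst hhi.snd.fst)).add (OPB.const 1)).add
        (hb hlo.snd.snd hhi.snd.snd))
  refine OPTF.runSteps hstep (OPTU.toOPTF (stepBits_optu hn hP hk hB)) hT hs hl
    (hs.bound.add hBd) (fun I c i _ => ?_)
  refine (sz_run_le _ _ _ _ _ _ _ _ _ _ _ _).trans ?_
  exact max_le (Nat.le_add_right _ _) (Nat.le_add_left _ _)

theorem blkL_optf {par : Inst → γ → List ℕ} {sub : Inst → γ → List (List Bool)}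
    {x : Inst → γ → List ℤ} (hn : OPTU N) (hp : OPTF par) (hs : OPTF sub) (hx : OPTF x) :
    OPTF (fun I c => blkL (N I c) (par I c) (sub I c) (x I c)) := by
  unfold blkL
  have h2 : OPTF (fun I (p : γ × ℕ) => par I p.1) := off hp
  have h4 : OPTF (fun I (p : γ × ℕ) => bsL (N I p.1) (sub I p.1) (x I p.1) p.2) :=
    bsL_optf (ouf hn) (off hs) (off hx) (OPTF.snd OPTF.id)
  have h5 : OPTU (fun I (p : γ × ℕ) => N I p.1) := ouf hn
  opt_solve

theorem pfL_optf {par₁ par₂ : Inst → γ → List ℕ} {sub₁ sub₂ : Inst → γ → List (List Bool)}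
    {x : Inst → γ → List ℤ} (hn : OPTU N) (hp₁ : OPTF par₁) (hp₂ : OPTF par₂) (hs₁ : OPTF sub₁)
    (hs₂ : OPTF sub₂) (hx : OPTF x) :
    OPTF (fun I c => pfL (N I c) (par₁ I c) (par₂ I c) (sub₁ I c) (sub₂ I c) (x I c)) := by
  unfold pfL
  exact OPTF.prodMk hx (OPTF.prodMk (blkL_optf hn hp₁ hs₁ hx) (blkL_optf hn hp₂ hs₂ hx))

end optf2

end Crest.Agent.R302.Step
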