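import Crest.Agent.R302.RelSmp166
import Crest.Agent.R302.Step223D
import Crest.Agent.R302.StageL725B
import Crest.Agent.R302.EDM6

/-!
# R302 (helper166): THE CONCRETE PROGRAM of the sampler

`Par` : the numerical parameters (functions of the input of the sampler);
`Prog.prg P : Smp.Prg Step.St` : the program data of `Smp272`.
All the data of the stage with index `t` are those of the target stage `t + 1`.
-/

set_option autoImplicit false
set_option linter.dupNamespace false

namespace Crest.Agent.R302.Prog

open Crest.Agent.R302.ORAM Crest.Agent.R302.Loop Crest.Agent.R302.CenL Crest.Agent.R302.AnnBox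
open Crest.Agent.R302.Top Crest.Agent.R302.Smp Crest.Agent.R302.Step Crest.Agent.R302.EDM
open Crest.Agent.R302.StageL Crest.Agent.R302.GeoSpec
open Crest.Agent.R309.Tape Crest.Agent.Lib.PT

/-- the parameters of the program -/
structure Par where
  /-- precision exponent of the start -/
  L : SIn → ℕ
  /-- cost exponent of a link, estimators -/
  aE : SIn → ℕ
  /-- cost exponent of a link, movers -/
  aM : SIn → ℕ
  /-- accuracy of the gauge estimates -/
  D : SIn → ℕ
  /-- threshold of the fat links -/
  w₁ : SIn → ℕ
  /-- divisor of the slack exponents -/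
  dk : SIn → ℕ
  /-- divisor of the length exponents -/
  dl : SIn → ℕ
  /-- bits for the direction -/
  qa : SIn → ℕ
  /-- bits for the length -/
  qb : SIn → ℕ
  /-- window of `x` -/
  M : SIn → ℕ
  /-- window of the block contents -/
  Lb : SIn → ℕ
  /-- precision of the slacks -/
  N : SIn → ℕ
  /-- bits of one slack -/
  B : SIn → ℕ
  /-- bits of the ratio coin -/
  kmax : SIn → ℕ
  /-- steps of an estimator run -/
  TE : SIn → ℕ
  /-- steps of a mover run -/
  TM : SIn → ℕ
  /-- representatives of the components, from `n`, the threshold and the two matrices -/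
  rp : ℕ → ℤ → List (List ℤ) → List (List ℤ) → List ℕ

/-! ### output and events on lists -/

/-- `x + e_u` -/
def addE (n : ℕ) (x : List ℤ) (u : ℕ) : List ℤ :=
  (List.range n).map fun j => x.getD j 0 + if j = u then 1 else 0

/-- output of a state -/
def outL (n : ℕ) (par₁ par₂ : List ℕ) (sub₁ sub₂ : List (List Bool)) (mem₁ mem₂ : List ℤ → Bool)
    (y : St) : Option (List ℤ) :=
  if (decide (pfL n par₁ par₂ sub₁ sub₂ y.1 = y) && (mem₁ y.1 && mem₂ y.1)) = true
    then some y.1 else none

/-- the one-link event of the pair `(u, v)` -/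
def evL (n : ℕ) (par₁ par₂ : List ℕ) (sub₁ sub₂ : List (List Bool)) (u v : ℕ) (y : St) : Bool :=
  decide (blkL n par₁ sub₁ (addE n y.1 u) = y.2.1) &&
    decide (blkL n par₂ sub₂ (addE n y.1 v) = y.2.2)

/-! ### the data of a stage -/

section stage

variable (P : Par) (Q : Qf) (s : SIn) (t : ℕ)

/-- the rank functions on lists -/
def rk (b : Bool) : List Bool → ℤ := fun l => (Q b l : ℤ)

/-- number of stages -/
def nT : ℕ := nStages (sn s) (P.L s) (sR s)

/-- index of the target stage -/
def tt : ℕ := min (t + 1) (nT P s)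

/-- lower corner of the target stage -/
def loT : List ℤ := loL (sn s) (stQ (sn s) (P.L s) (tt P s t)) (cen Q s) (slo s)

/-- upper corner of the target stage -/
def hiT : List ℤ := hiL (sn s) (stQ (sn s) (P.L s) (tt P s t)) (cen Q s) (shi s)

/-- the matrix of the capacities of side `b` at the centre -/
def matT (b : Bool) : List (List ℤ) :=
  matBL (sn s) (sR s) (rk Q b) (loT P Q s t) (hiT P Q s t) (cen Q s)

/-- parents, descendants, slack exponents, directions -/
def envT : Env :=
  envL (sn s) (P.w₁ s) (P.dk s) (P.dl s) (matT P Q s t false) (matT P Q s t true)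

/-- the representatives of the components -/
def repT (u : ℕ) : ℕ :=
  (P.rp (sn s) (P.w₁ s) (matT P Q s t false) (matT P Q s t true)).getD u 0

/-- the gauge on the elements -/
def gaT (g : List ℤ) : List ℤ := (List.range (sn s)).map fun v => g.getD (repT P Q s t v) 0

/-- the stage record of `Step223C`; link cost `a`, gauge `g` -/
def prm (a : ℕ) (g : List ℤ) : Prm where
  par₁ := (envT P Q s t).1.1
  par₂ := (envT P Q s t).1.2
  sub₁ := (envT P Q s t).2.1.1
  sub₂ := (envT P Q s t).2.1.2
  ks₁ := (envT P Q s t).2.2.1.1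
  ks₂ := (envT P Q s t).2.2.1.2
  a := a
  g := gaT P Q s t g
  c := cen Q s
  M := P.M s
  Lb := P.Lb s
  cs := (envT P Q s t).2.2.2
  qa := P.qa s
  qb := P.qb s

/-- exponent of the stage weight -/
def wT (β : List ℤ) : ℤ := (stHL (sn s) (P.L s) (tt P s t) (cen Q s) β : ℤ)

/-- membership in side `b` of the stage -/
def memT (b : Bool) (z : List ℤ) : Bool :=
  memBL (sn s) (sR s) (rk Q b) (sR s) (loT P Q s t) (hiT P Q s t) z

/-- one step -/
def stp (a : ℕ) (g : List ℤ) : St → List Bool → St :=
  stepL (sn s) (prm P Q s t a g) (wT P Q s t) (memT P Q s t false) (memT P Q s t true)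
    (P.kmax s) (P.N s) (P.B s)

/-- bits of one step -/
def bitsS : ℕ := (P.qa s + P.qb s + 2) + (P.kmax s + (sn s * P.B s + sn s * P.B s))

theorem stepBits_prm (a : ℕ) (g : List ℤ) :
    stepBits (sn s) (prm P Q s t a g) (P.kmax s) (P.B s) = bitsS P s := rfl

/-- the perfect start state -/
def pfT (x : List ℤ) : St :=
  pfL (sn s) (envT P Q s t).1.1 (envT P Q s t).1.2 (envT P Q s t).2.1.1 (envT P Q s t).2.1.2 x

/-- `T` steps from the perfect state over `x` -/
def runT (a T : ℕ) (g x : List ℤ) (l : List Bool) : St :=
  runSteps (stp P Q s t a g) (bitsS P s) T (pfT P Q s t x) l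

/-- output -/
def outT (y : St) : Option (List ℤ) :=
  outL (sn s) (envT P Q s t).1.1 (envT P Q s t).1.2 (envT P Q s t).2.1.1 (envT P Q s t).2.1.2
    (memT P Q s t false) (memT P Q s t true) y

/-- one-link event -/
def evT (u v : ℕ) (y : St) : Bool :=
  evL (sn s) (envT P Q s t).1.1 (envT P Q s t).1.2 (envT P Q s t).2.1.1 (envT P Q s t).2.1.2 u v y

end stage

/-- **the program** -/
def prg (P : Par) : Prg St where
  pL := P.L
  pm := fun s => 2 * P.aE s
  pD := P.D
  pE := fun s => P.TE s * bitsS P s
  pM := fun s => P.TM s * bitsS P s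
  runE := fun Q s t g x l => runT P Q s t (P.aE s) (P.TE s) g x l
  runM := fun Q s t g x l => runT P Q s t (P.aM s) (P.TM s) g x l
  out := fun Q s t y => outT P Q s t y
  ev := fun Q s t u v y => evT P Q s t u v y
  rep := fun Q s t u => repT P Q s t u

end Crest.Agent.R302.Prog
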