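/-
R302 (helper725): the concrete program `Prog.prg` is the list code of the stage data `sdA`.
-/
import Crest.Agent.R302.Conc725B
import Crest.Agent.R302.Prog166

set_option autoImplicit false

namespace Crest.Agent.R302.Conc

open Finset Crest.Agent.R302.Inst Crest.Agent.R302.Stage Crest.Agent.R302.GeoProg
open Crest.Agent.R302.GeoSpec Crest.Agent.R302.TreeNN Crest.Agent.R302.StageL
open Crest.Agent.R302.Facet Crest.Agent.R302.AnnBox Crest.Agent.R302.EDM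
open Crest.Agent.R302.Smp Crest.Agent.R302.Top Crest.Polymatroid Crest.Agent.R302.ORAM
open Crest.Agent.R302.Step (CodeS Code encB)

variable {n : ℕ}

/-! ### the two codings agree -/

theorem enc_eq (D : SD (Fin n)) (σ : Stage.St D) : StageL.enc D σ = Step.enc D σ := rfl

theorem ocode_eq_elim (o : Option (Fin n)) : ocode o = o.elim n (fun b => (b : ℕ)) := by
  cases o <;> rfl

/-- one side of the code of `sideOf` -/
theorem codeS_sideOf {m : Fin n → Fin n → ℤ} {w₁ : ℤ} {dk : ℕ} {J : Finset (Fin n → ℤ)}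
    {M : List (List ℤ)} (hM : ∀ a b : Fin n, (M.getD a []).getD b 0 = m a b)
    {mem : List ℤ → Bool} (hmem : ∀ z : Fin n → ℤ, mem (List.ofFn z) = true ↔ z ∈ J) :
    CodeS (sideOf m w₁ dk J) (parL n w₁ M) (subL n (parL n w₁ M)) (ksL n dk M (parL n w₁ M))
      mem := by
  have hp := cPar_parL hM w₁
  have hk := ksL_eq (dk := dk) hM hp
  refine ⟨fun a => ?_, fun a b => ?_, ?_, fun a ha => ?_, fun a ha t => ?_, fun z => rfl, hmem⟩
  · rw [hp a, ocode_eq_elim]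
    rfl
  · exact cSub_nn hM w₁ a b
  · simp [ksL]
  · rw [hk, StageL.getD_ofFn]
    have ha' : (nnForest m w₁).par a = none := ha
    unfold kV
    rw [ha']
  · rw [hk, StageL.getD_ofFn]
    rfl

/-- the code of `sdOf` -/
theorem code_sdOf {m₁ m₂ : Fin n → Fin n → ℤ} {J₁ J₂ : Finset (Fin n → ℤ)}
    {w : (Fin n → ℤ) → ℤ} {P : Par} {ell c : Fin n → ℤ} {wL : List ℤ → ℤ}
    (hw : ∀ z : Fin n → ℤ, wL (List.ofFn z) = w z) {mem₁ mem₂ : List ℤ → Bool}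
    (h₁ : ∀ z : Fin n → ℤ, mem₁ (List.ofFn z) = true ↔ z ∈ J₁)
    (h₂ : ∀ z : Fin n → ℤ, mem₂ (List.ofFn z) = true ↔ z ∈ J₂) {gL cL : List ℤ}
    (hg : ∀ e : Fin n, gL.getD e 0 = ell e) (hc : ∀ e : Fin n, cL.getD e 0 = c e) :
    Code (sdOf m₁ m₂ J₁ J₂ w P ell c) (prmL n P (ofMat m₁) (ofMat m₂) gL cL) wL mem₁ mem₂ where
  s₁ := codeS_sideOf (ofMat_getD m₁) h₁
  s₂ := codeS_sideOf (ofMat_getD m₂) h₂
  w := fun β => hw _
  a := rfl
  ell₁ := fun e _ => (hg e).symm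
  ell₂ := fun e _ => (hg e).symm
  c := hc
  M := rfl
  Lb := rfl
  cs := envL_cs (D := sdOf m₁ m₂ J₁ J₂ w P ell c) P.w₁ P.dk P.dl (ofMat_getD m₁) (ofMat_getD m₂)
    rfl rfl rfl rfl rfl
  qa := rfl
  qb := rfl

/-! ### the program -/

/-- the numerical parameters of the stage data of the program, link cost `a` -/
def parOf (P : Prog.Par) (s : SIn) (a : ℕ) : Par where
  w₁ := P.w₁ s
  dk := P.dk s
  dl := P.dl s
  a := a
  M := P.M s
  Lb := P.Lb s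
  qa := P.qa s
  qb := P.qb s

section inst

variable {P : Prog.Par} {R m : ℕ} {r₁ r₂ : Finset (Fin n) → ℕ} {lo hi : Fin n → ℤ}
  {𝒜 : AnnData n}

theorem ofFn_x₀ (h : IsInst (Prog.prg P) n R m r₁ r₂ lo hi 𝒜) :
    List.ofFn 𝒜.x₀ = cen (rq r₁ r₂) (inp n R m lo hi) := by
  rw [h.Ax]
  exact CenL.ofFn_cenBL _ _ _ _ _ _

theorem tt_eq (P : Prog.Par) {s : SIn} {t : ℕ} (ht : t < (Prog.prg P).T s) :
    Prog.tt P s t = t + 1 := by
  unfold Prog.tt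
  exact min_eq_left (show t + 1 ≤ nStages (sn s) (P.L s) (sR s) from ht)

theorem matT₁ (h : IsInst (Prog.prg P) n R m r₁ r₂ lo hi 𝒜) {t : ℕ}
    (ht : t < (Prog.prg P).T (inp n R m lo hi)) :
    Prog.matT P (rq r₁ r₂) (inp n R m lo hi) t false = ofMat (mA 𝒜 𝒜.r₁ (t + 1)) := by
  have e := IsInst.mat₁ h (t + 1)
  rw [← e]
  unfold Prog.matT Prog.loT Prog.hiT
  rw [tt_eq P ht, h.AL]
  rfl

theorem matT₂ (h : IsInst (Prog.prg P) n R m r₁ r₂ lo hi 𝒜) {t : ℕ}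
    (ht : t < (Prog.prg P).T (inp n R m lo hi)) :
    Prog.matT P (rq r₁ r₂) (inp n R m lo hi) t true = ofMat (mA 𝒜 𝒜.r₂ (t + 1)) := by
  have e := IsInst.mat₂ h (t + 1)
  rw [← e]
  unfold Prog.matT Prog.loT Prog.hiT
  rw [tt_eq P ht, h.AL]
  rfl

/-- the stage box of the program is the polytope of the stage -/
theorem memT_aux {q : List Bool → ℤ} {ρ : Finset (Fin n) → ℤ} (hq : RepL n q ρ)
    (hr : SubM ρ R) (hK : ∀ A, |ρ A| ≤ R) {x₀ : Fin n → ℤ} (hx : MemJ ρ R x₀)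
    (hb : ∀ v, lo v ≤ x₀ v ∧ x₀ v ≤ hi v) (d : ℕ) (z : Fin n → ℤ) :
    memBL n R q R (loL n d (List.ofFn x₀) (List.ofFn lo)) (hiL n d (List.ofFn x₀) (List.ofFn hi))
      (List.ofFn z) = true ↔
      MemJ (boxR (fun v => x₀ v - d) (fun v => x₀ v + d) (boxR lo hi ρ)) R z := by
  rw [memBL_iff hq hr hK, memJ_stage_box hr hx hb, vecL_eq_toV, vecL_eq_toV, vecL_eq_toV,
    toV_loL, toV_hiL]
  simp only [AnnData.toV_ofFn]
  exact and_comm

theorem memT₁ (h : IsInst (Prog.prg P) n R m r₁ r₂ lo hi 𝒜) {t : ℕ}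
    (ht : t < (Prog.prg P).T (inp n R m lo hi)) (z : Fin n → ℤ) :
    Prog.memT P (rq r₁ r₂) (inp n R m lo hi) t false (List.ofFn z) = true ↔
      z ∈ jF 𝒜 𝒜.r₁ (t + 1) := by
  rw [mem_jF 𝒜 𝒜.sub₁]
  have hr1 := repL r₁ r₂ false
  simp only [Bool.false_eq_true, if_false] at hr1
  have e := memT_aux (lo := lo) (hi := hi) hr1 (zr_subM h.pr₁ h.e₁) (zr_abs h.pr₁ h.e₁)
    (IsInst.x₀_mem₁ h) (IsInst.x₀_box h) (stQ n 𝒜.L (t + 1)) z
  unfold AnnData.stR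
  rw [h.A₁, h.AR, ← e, ofFn_x₀ h]
  unfold Prog.memT Prog.loT Prog.hiT
  rw [tt_eq P ht, h.AL]
  rfl

theorem memT₂ (h : IsInst (Prog.prg P) n R m r₁ r₂ lo hi 𝒜) {t : ℕ}
    (ht : t < (Prog.prg P).T (inp n R m lo hi)) (z : Fin n → ℤ) :
    Prog.memT P (rq r₁ r₂) (inp n R m lo hi) t true (List.ofFn z) = true ↔
      z ∈ jF 𝒜 𝒜.r₂ (t + 1) := by
  rw [mem_jF 𝒜 𝒜.sub₂]
  have hr2 := repL r₁ r₂ true
  simp only [if_true] at hr2
  have e := memT_aux (lo := lo) (hi := hi) hr2 (zr_subM h.pr₂ h.e₂) (zr_abs h.pr₂ h.e₂)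
    (IsInst.x₀_mem₂ h) (IsInst.x₀_box h) (stQ n 𝒜.L (t + 1)) z
  unfold AnnData.stR
  rw [h.A₂, h.AR, ← e, ofFn_x₀ h]
  unfold Prog.memT Prog.loT Prog.hiT
  rw [tt_eq P ht, h.AL]
  rfl

/-- the gauge of the elements: the gauge of the representative -/
def ellOf (P : Prog.Par) (Q : Qf) (s : SIn) (t : ℕ) (g : List ℤ) (e : Fin n) : ℤ :=
  g.getD (Prog.repT P Q s t e) 0

/-- **the program at stage `t` is the list code of the stage data `sdA 𝒜 (t + 1)`** -/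
theorem code_prg (h : IsInst (Prog.prg P) n R m r₁ r₂ lo hi 𝒜) {t : ℕ}
    (ht : t < (Prog.prg P).T (inp n R m lo hi)) (a : ℕ) (g : List ℤ) :
    Code (sdA 𝒜 (t + 1) (parOf P (inp n R m lo hi) a)
        (ellOf P (rq r₁ r₂) (inp n R m lo hi) t g))
      (Prog.prm P (rq r₁ r₂) (inp n R m lo hi) t a g)
      (Prog.wT P (rq r₁ r₂) (inp n R m lo hi) t)
      (Prog.memT P (rq r₁ r₂) (inp n R m lo hi) t false)
      (Prog.memT P (rq r₁ r₂) (inp n R m lo hi) t true) := by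
  have e : Prog.prm P (rq r₁ r₂) (inp n R m lo hi) t a g =
      prmL n (parOf P (inp n R m lo hi) a) (ofMat (mA 𝒜 𝒜.r₁ (t + 1)))
        (ofMat (mA 𝒜 𝒜.r₂ (t + 1))) (Prog.gaT P (rq r₁ r₂) (inp n R m lo hi) t g)
        (cen (rq r₁ r₂) (inp n R m lo hi)) := by
    rw [← matT₁ h ht, ← matT₂ h ht]
    rfl
  rw [e]
  unfold sdA
  refine code_sdOf (fun z => ?_) (memT₁ h ht) (memT₂ h ht) (fun e => ?_) (fun e => ?_)
  · unfold Prog.wT
    rw [tt_eq P ht, stHL_eq, h.AL, h.Ax]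
    show ((stH n (P.L (inp n R m lo hi)) (t + 1)
      (AnnData.toV n (cen (rq r₁ r₂) (inp n R m lo hi))) (AnnData.toV n (List.ofFn z)) : ℕ) : ℤ) = _
    rw [AnnData.toV_ofFn]
    rfl
  · unfold Prog.gaT ellOf
    rw [getD_map_range (sn (inp n R m lo hi)) _ _ e.2]
  · rw [← ofFn_x₀ h, StageL.getD_ofFn]

end inst

end Crest.Agent.R302.Conc
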