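/-
R302 (helper725): the runs of the concrete program are the runs of the chain `Kch` of `sdA`.
-/
import Crest.Agent.R302.Code725

set_option autoImplicit false

namespace Crest.Agent.R302.Conc

open Finset Crest.Agent.R302.Inst Crest.Agent.R302.Stage Crest.Agent.R302.GeoProg
open Crest.Agent.R302.GeoSpec Crest.Agent.R302.TreeNN Crest.Agent.R302.StageL
open Crest.Agent.R302.Facet Crest.Agent.R302.AnnBox Crest.Agent.R302.EDM
open Crest.Agent.R302.Smp Crest.Agent.R302.Top Crest.Polymatroid Crest.Agent.R302.ORAM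
open Crest.Agent.R302.Step (CodeS Code encB)
open Crest.Agent.R302.Slk Crest.Agent.R309.MC Crest.Agent.R309.Tape

variable {n : ℕ} {P : Prog.Par} {R m : ℕ} {r₁ r₂ : Finset (Fin n) → ℕ} {lo hi : Fin n → ℤ}
  {𝒜 : AnnData n}

/-- the slack exponents of the program -/
theorem mem_ks₁ (h : IsInst (Prog.prg P) n R m r₁ r₂ lo hi 𝒜) {t : ℕ}
    (ht : t < (Prog.prg P).T (inp n R m lo hi)) (a : ℕ) (g : List ℤ) {k : ℕ}
    (hk : k ∈ (Prog.prm P (rq r₁ r₂) (inp n R m lo hi) t a g).ks₁) :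
    ∃ e : Fin n, k = kV (P.dk (inp n R m lo hi))
      (nnForest (mA 𝒜 𝒜.r₁ (t + 1)) (P.w₁ (inp n R m lo hi))) (mA 𝒜 𝒜.r₁ (t + 1)) e := by
  have e : (Prog.prm P (rq r₁ r₂) (inp n R m lo hi) t a g).ks₁ =
      (envL n (P.w₁ (inp n R m lo hi)) (P.dk (inp n R m lo hi)) (P.dl (inp n R m lo hi))
        (ofMat (mA 𝒜 𝒜.r₁ (t + 1))) (ofMat (mA 𝒜 𝒜.r₂ (t + 1)))).2.2.1.1 := by
    rw [← matT₁ h ht, ← matT₂ h ht]
    rfl
  rw [e, envL_ks₁ _ _ _ (ofMat_getD _), List.mem_ofFn'] at hk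
  obtain ⟨i, hi⟩ := hk
  exact ⟨i, hi.symm⟩

/-- the slack exponents of the program -/
theorem mem_ks₂ (h : IsInst (Prog.prg P) n R m r₁ r₂ lo hi 𝒜) {t : ℕ}
    (ht : t < (Prog.prg P).T (inp n R m lo hi)) (a : ℕ) (g : List ℤ) {k : ℕ}
    (hk : k ∈ (Prog.prm P (rq r₁ r₂) (inp n R m lo hi) t a g).ks₂) :
    ∃ e : Fin n, k = kV (P.dk (inp n R m lo hi))
      (nnForest (mA 𝒜 𝒜.r₂ (t + 1)) (P.w₁ (inp n R m lo hi))) (mA 𝒜 𝒜.r₂ (t + 1)) e := by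
  have e : (Prog.prm P (rq r₁ r₂) (inp n R m lo hi) t a g).ks₂ =
      (envL n (P.w₁ (inp n R m lo hi)) (P.dk (inp n R m lo hi)) (P.dl (inp n R m lo hi))
        (ofMat (mA 𝒜 𝒜.r₁ (t + 1))) (ofMat (mA 𝒜 𝒜.r₂ (t + 1)))).2.2.1.2 := by
    rw [← matT₁ h ht, ← matT₂ h ht]
    rfl
  rw [e, envL_ks₂ _ _ _ (ofMat_getD _), List.mem_ofFn'] at hk
  obtain ⟨i, hi⟩ := hk
  exact ⟨i, hi.symm⟩

/-- the perfect start state of the program -/
theorem pfT_eq (h : IsInst (Prog.prg P) n R m r₁ r₂ lo hi 𝒜) {t : ℕ}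
    (ht : t < (Prog.prg P).T (inp n R m lo hi)) (a : ℕ) (g : List ℤ) (x : Fin n → ℤ) :
    Prog.pfT P (rq r₁ r₂) (inp n R m lo hi) t (List.ofFn x) =
      Step.enc (sdA 𝒜 (t + 1) (parOf P (inp n R m lo hi) a)
        (ellOf P (rq r₁ r₂) (inp n R m lo hi) t g))
        ((sdA 𝒜 (t + 1) (parOf P (inp n R m lo hi) a)
        (ellOf P (rq r₁ r₂) (inp n R m lo hi) t g)).pf x) :=
  (code_prg h ht a g).pfL x

/-- **the `T`-step run of the program** -/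
theorem run_prg (h : IsInst (Prog.prg P) n R m r₁ r₂ lo hi 𝒜) {t : ℕ}
    (ht : t < (Prog.prg P).T (inp n R m lo hi)) (a : ℕ) (g : List ℤ)
    (hOK : (sdA 𝒜 (t + 1) (parOf P (inp n R m lo hi) a)
      (ellOf P (rq r₁ r₂) (inp n R m lo hi) t g)).OK)
    (hB₁ : ∀ e : Fin n, slkLen (kV (P.dk (inp n R m lo hi))
      (nnForest (mA 𝒜 𝒜.r₁ (t + 1)) (P.w₁ (inp n R m lo hi))) (mA 𝒜 𝒜.r₁ (t + 1)) e)
      (P.N (inp n R m lo hi)) ≤ P.B (inp n R m lo hi))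
    (hB₂ : ∀ e : Fin n, slkLen (kV (P.dk (inp n R m lo hi))
      (nnForest (mA 𝒜 𝒜.r₂ (t + 1)) (P.w₁ (inp n R m lo hi))) (mA 𝒜 𝒜.r₂ (t + 1)) e)
      (P.N (inp n R m lo hi)) ≤ P.B (inp n R m lo hi))
    (T : ℕ) (x : Fin n → ℤ)
    (hx : (sdA 𝒜 (t + 1) (parOf P (inp n R m lo hi) a)
        (ellOf P (rq r₁ r₂) (inp n R m lo hi) t g)).pf x ∈ (sdA 𝒜 (t + 1)
        (parOf P (inp n R m lo hi) a) (ellOf P (rq r₁ r₂) (inp n R m lo hi) t g)).bx)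
    (φ : Step.St → ℝ) (hφ : ∀ s, 0 ≤ φ s ∧ φ s ≤ 1) :
    |avg (T * Prog.bitsS P (inp n R m lo hi))
        (fun l => φ (Prog.runT P (rq r₁ r₂) (inp n R m lo hi) t a T g (List.ofFn x) l)) -
      ∑ y : (sdA 𝒜 (t + 1) (parOf P (inp n R m lo hi) a)
        (ellOf P (rq r₁ r₂) (inp n R m lo hi) t g)).bx,
        law (sdA 𝒜 (t + 1) (parOf P (inp n R m lo hi) a)
          (ellOf P (rq r₁ r₂) (inp n R m lo hi) t g)).Kch (pt ⟨_, hx⟩) T y *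
          φ (Step.enc (sdA 𝒜 (t + 1) (parOf P (inp n R m lo hi) a)
            (ellOf P (rq r₁ r₂) (inp n R m lo hi) t g)) y.1)| ≤
      T * ((1 / 2) ^ P.kmax (inp n R m lo hi) +
        (n * (1 / 2 ^ P.N (inp n R m lo hi)) + n * (1 / 2 ^ P.N (inp n R m lo hi)))) := by
  have hc := code_prg h ht a g
  have key := hc.run hOK (kmax := P.kmax (inp n R m lo hi)) (N := P.N (inp n R m lo hi))
    (B := P.B (inp n R m lo hi))
    (fun k hk => by obtain ⟨e, rfl⟩ := mem_ks₁ h ht a g hk; exact hB₁ e)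
    (fun k hk => by obtain ⟨e, rfl⟩ := mem_ks₂ h ht a g hk; exact hB₂ e) T ⟨_, hx⟩ φ hφ
  have e1 : Step.stepBits n (Prog.prm P (rq r₁ r₂) (inp n R m lo hi) t a g)
      (P.kmax (inp n R m lo hi)) (P.B (inp n R m lo hi)) = Prog.bitsS P (inp n R m lo hi) := rfl
  rw [e1] at key
  unfold Prog.runT
  rw [pfT_eq h ht a g x]
  exact key

end Crest.Agent.R302.Conc
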