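import Crest.Agent.R302.Lor151
import Crest.Agent.R302.Tree550

/-!
R302 (helper550): the CUT LEMMA (step (5) of helper893's proof of the multi-scale Poincare
inequality).  One lattice point: `A` symmetric with the Alexandrov-Fenchel property, `F q = A p q`.
-/

set_option autoImplicit false

namespace Crest.Agent.R302.Cut

open Finset Crest.Agent.R302.Lor Crest.Agent.R302.Tree

variable {V : Type*} [Fintype V]

theorem Q_add_right (A : V → V → ℝ) (x y y' : V → ℝ) : Q A x (y + y') = Q A x y + Q A x y' := by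
  unfold Q
  simp only [Pi.add_apply, mul_add, add_mul, Finset.sum_add_distrib]

theorem Q_smul_right (A : V → V → ℝ) (t : ℝ) (x y : V → ℝ) : Q A x (t • y) = t * Q A x y := by
  unfold Q
  simp only [Pi.smul_apply, smul_eq_mul, Finset.mul_sum]
  exact Finset.sum_congr rfl fun a _ => Finset.sum_congr rfl fun b _ => by ring

theorem Q_sub_left (A : V → V → ℝ) (x x' y : V → ℝ) : Q A (x - x') y = Q A x y - Q A x' y := by
  unfold Q
  simp only [Pi.sub_apply, sub_mul, Finset.sum_sub_distrib]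

theorem Q_sub_right (A : V → V → ℝ) (x y y' : V → ℝ) : Q A x (y - y') = Q A x y - Q A x y' := by
  unfold Q
  simp only [Pi.sub_apply, mul_sub, sub_mul, Finset.sum_sub_distrib]

theorem Q_sum_left {ι : Type*} (A : V → V → ℝ) (s : Finset ι) (x : ι → V → ℝ) (y : V → ℝ) :
    Q A (∑ i ∈ s, x i) y = ∑ i ∈ s, Q A (x i) y := by
  classical
  induction s using Finset.induction_on with
  | empty => simp [Q]
  | insert i s hi ih => rw [sum_insert hi, sum_insert hi, Q_add_left, ih]

theorem Q_sum_right {ι : Type*} (A : V → V → ℝ) (s : Finset ι) (x : V → ℝ) (y : ι → V → ℝ) :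
    Q A x (∑ i ∈ s, y i) = ∑ i ∈ s, Q A x (y i) := by
  classical
  induction s using Finset.induction_on with
  | empty => simp [Q]
  | insert i s hi ih => rw [sum_insert hi, sum_insert hi, Q_add_right, ih]

theorem Q_single [DecidableEq V] (A : V → V → ℝ) (a b : V) (s t : ℝ) :
    Q A (Pi.single a s) (Pi.single b t) = s * t * A a b := by
  unfold Q
  rw [Finset.sum_eq_single a]
  · rw [Finset.sum_eq_single b]
    · simp
    · intro c _ hc; simp [hc]
    · intro h; exact absurd (mem_univ b) h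
  · intro c _ hc; simp [hc]
  · intro h; exact absurd (mem_univ a) h

theorem Q_single_left' [DecidableEq V] (A : V → V → ℝ) (a : V) (s : ℝ) (y : V → ℝ) :
    Q A (Pi.single a s) y = s * ∑ b, y b * A a b := by
  unfold Q
  rw [Finset.sum_eq_single a]
  · rw [mul_sum]; exact sum_congr rfl fun b _ => by simp; ring
  · intro c _ hc; simp [hc]
  · intro h; exact absurd (mem_univ a) h

/-- `|∑_{i ∈ s} x_i|² ≤ |s| ∑ |x_i|²` for a form that is nonnegative on differences -/
theorem neg_Q_sum_le {ι : Type*} {A : V → V → ℝ} (hA : ∀ a b, A a b = A b a) (s : Finset ι)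
    (x : ι → V → ℝ) (h : ∀ i ∈ s, ∀ j ∈ s, Q A (x i - x j) (x i - x j) ≤ 0) :
    -Q A (∑ i ∈ s, x i) (∑ i ∈ s, x i) ≤ (s.card : ℝ) * ∑ i ∈ s, (-Q A (x i) (x i)) := by
  have h1 : ∀ i ∈ s, ∀ j ∈ s, -Q A (x i) (x j) ≤ (1 / 2) * (-Q A (x i) (x i))
      + (1 / 2) * (-Q A (x j) (x j)) := by
    intro i hi j hj
    have h2 := h i hi j hj
    rw [Q_sub_left, Q_sub_right, Q_sub_right, Q_comm hA (x j) (x i)] at h2
    linarith
  calc -Q A (∑ i ∈ s, x i) (∑ i ∈ s, x i) = ∑ i ∈ s, ∑ j ∈ s, -Q A (x i) (x j) := by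
        rw [Q_sum_left, ← sum_neg_distrib]
        exact sum_congr rfl fun i _ => by rw [Q_sum_right, ← sum_neg_distrib]
    _ ≤ ∑ i ∈ s, ∑ j ∈ s, ((1 / 2) * (-Q A (x i) (x i)) + (1 / 2) * (-Q A (x j) (x j))) :=
        sum_le_sum fun i hi => sum_le_sum fun j hj => h1 i hi j hj
    _ = (s.card : ℝ) * ∑ i ∈ s, (-Q A (x i) (x i)) := by
        simp only [sum_add_distrib, sum_const, ← mul_sum, nsmul_eq_mul]
        ring

open Classical in
/-- indicator restriction of `v` to `C` -/
noncomputable def restr (C : Finset V) (v : V → ℝ) : V → ℝ := fun q => if q ∈ C then v q else 0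

theorem sum_restr_mul (C : Finset V) (v f : V → ℝ) :
    ∑ q, restr C v q * f q = ∑ q ∈ C, v q * f q := by
  classical
  unfold restr
  rw [← sum_filter_add_sum_filter_not univ (· ∈ C)]
  rw [sum_congr rfl (g := fun q => v q * f q)
    (fun q hq => by rw [if_pos (mem_filter.1 hq).2]),
    sum_eq_zero (s := univ.filter (fun q => ¬ q ∈ C))
      (fun q hq => by rw [if_neg (mem_filter.1 hq).2, zero_mul]), add_zero]
  congr 1
  ext q; simp

/-- the two-step weight -/
noncomputable def wt (C : Finset V) (w0 w1 w2 : ℝ) (q q' : V) : ℝ :=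
  open Classical in
  if q ∈ C then (if q' ∈ C then w2 else w1) else (if q' ∈ C then w1 else w0)

theorem Q_wt (A : V → V → ℝ) (hA : ∀ a b, A a b = A b a) (C : Finset V) (w0 w1 w2 : ℝ)
    (v : V → ℝ) :
    Q (fun q q' => wt C w0 w1 w2 q q' * A q q') v v
      = w0 * Q A v v + 2 * (w1 - w0) * Q A v (restr C v)
        + (w2 - 2 * w1 + w0) * Q A (restr C v) (restr C v) := by
  classical
  have h1 : 2 * (w1 - w0) * Q A v (restr C v)
      = (w1 - w0) * Q A v (restr C v) + (w1 - w0) * Q A (restr C v) v := by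
    rw [Q_comm hA (restr C v) v]; ring
  rw [h1]
  unfold Q
  simp only [mul_sum, ← sum_add_distrib]
  refine sum_congr rfl fun a _ => sum_congr rfl fun b _ => ?_
  unfold wt restr
  by_cases ha : a ∈ C <;> by_cases hb : b ∈ C <;> simp [ha, hb] <;> ring

/-- CUT LEMMA, core inequality (completing the square). -/
theorem cut_core [DecidableEq V] {A : V → V → ℝ} (hA : ∀ a b, A a b = A b a) (hAF : AF A)
    (p : V) (hp : 0 < A p p) (v : V → ℝ) (hv : ∑ q, v q * A p q = 0) (C : Finset V)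
    (w0 w1 w2 : ℝ) (hw0 : 0 < w0) :
    -(w2 - 2 * w1 + w0) * ((∑ q ∈ C, v q * A p q) ^ 2 / A p p)
      ≤ -Q (fun q q' => wt C w0 w1 w2 q q' * A q q') v v
        + (max (-(w2 - 2 * w1 + w0)) 0 + (w0 - w1) ^ 2 / w0)
          * (-Q A (restr C v - Pi.single p ((∑ q ∈ C, v q * A p q) / A p p))
              (restr C v - Pi.single p ((∑ q ∈ C, v q * A p q) / A p p))) := by
  set K := ∑ q ∈ C, v q * A p q with hK
  set e : V → ℝ := Pi.single p (1 : ℝ) with he
  set ξ : V → ℝ := restr C v - Pi.single p (K / A p p) with hξ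
  have hpe : Q A e e = A p p := by rw [he, Q_single]; ring
  have hev : Q A v e = 0 := by
    rw [Q_comm hA, he, Q_single_left', one_mul]; exact hv
  have heC : Q A (restr C v) e = K := by
    rw [Q_comm hA, he, Q_single_left', one_mul, sum_restr_mul C v (fun b => A p b)]
  have hse : (Pi.single p (K / A p p) : V → ℝ) = (K / A p p) • e := by
    rw [he]; ext q; by_cases hq : q = p
    · subst hq; simp
    · simp [hq]
  have hξe : Q A ξ e = 0 := by
    rw [hξ, Q_sub_left, heC, hse, Q_smul_left, hpe]; field_simp; ring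
  have hC : restr C v = ξ + (K / A p p) • e := by rw [hξ, hse]; ext; simp
  have hvC : Q A v (restr C v) = Q A v ξ := by
    rw [hC, Q_add_right, Q_smul_right, hev, mul_zero, add_zero]
  have hCC : Q A (restr C v) (restr C v) = Q A ξ ξ + K ^ 2 / A p p := by
    rw [hC, Q_add_left, Q_add_right, Q_add_right, Q_smul_left, Q_smul_left, Q_smul_right,
      Q_smul_right, hξe, Q_comm hA e ξ, hξe, hpe]
    field_simp; ring
  have hneg : ∀ x : V → ℝ, Q A x e = 0 → Q A x x ≤ 0 := fun x hx =>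
    hAF.neg (by rw [hpe]; exact hp) hx
  have hξneg : Q A ξ ξ ≤ 0 := hneg ξ hξe
  have hsq : 0 ≤ w0 * (-Q A v v) + 2 * (w0 - w1) * Q A v ξ
      + (w0 - w1) ^ 2 / w0 * (-Q A ξ ξ) := by
    have h1 := hneg (v - ((w0 - w1) / w0) • ξ) (by
      rw [Q_sub_left, Q_smul_left, hev, hξe]; ring)
    rw [Q_sub_smul hA] at h1
    have h2 : 0 ≤ w0 * -(Q A v v - 2 * ((w0 - w1) / w0) * Q A v ξ
      + ((w0 - w1) / w0) ^ 2 * Q A ξ ξ) := mul_nonneg hw0.le (by linarith)
    have h3 : w0 * -(Q A v v - 2 * ((w0 - w1) / w0) * Q A v ξ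
      + ((w0 - w1) / w0) ^ 2 * Q A ξ ξ) = w0 * (-Q A v v) + 2 * (w0 - w1) * Q A v ξ
      + (w0 - w1) ^ 2 / w0 * (-Q A ξ ξ) := by
      field_simp; ring
    linarith
  rw [Q_wt A hA, hvC, hCC]
  set δ := w2 - 2 * w1 + w0
  have hmax : -δ * (-Q A ξ ξ) ≤ max (-δ) 0 * (-Q A ξ ξ) :=
    mul_le_mul_of_nonneg_right (le_max_left _ _) (by linarith)
  nlinarith [hmax, hsq]

/-- `d_q = e_q/F_q - e_{r}/F_r` -/
noncomputable def dvec [DecidableEq V] (F : V → ℝ) (q r : V) : V → ℝ :=
  Pi.single q (1 / F q) - Pi.single r (1 / F r)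

theorem neg_Q_dvec [DecidableEq V] {A : V → V → ℝ} (hA : ∀ a b, A a b = A b a) (F : V → ℝ)
    (q r : V) :
    -Q A (dvec F q r) (dvec F q r)
      = -(A q q / F q ^ 2 - 2 * (A q r / (F q * F r)) + A r r / F r ^ 2) := by
  unfold dvec
  rw [Q_sub_left, Q_sub_right, Q_sub_right, Q_single, Q_single, Q_single, Q_single, hA r q]
  ring

/-- second-order smoothness along one edge bounds `|d_q|²` -/
theorem neg_Q_dvec_le [DecidableEq V] {A : V → V → ℝ} (hA : ∀ a b, A a b = A b a) {F : V → ℝ}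
    {q r : V} (hq : 0 < F q) (hr : 0 < F r) (hrr : 0 ≤ A r r) {c1 c2 M b : ℝ}
    (hM : A q q ≤ M * F q)
    (h2 : |A q q - 2 * A q r + A r r| ≤ c1 * b ^ 2 * A q q)
    (h1 : |A r r - A q r| ≤ c2 * b * A q q)
    (h0 : |F q - F r| ≤ c2 * b * F r) (hc1 : 0 ≤ c1) (hc2 : 0 ≤ c2) (hb : 0 ≤ b)
    (hqq : 0 ≤ A q q) :
    -Q A (dvec F q r) (dvec F q r) ≤ (c1 + 2 * c2 ^ 2) * M * b ^ 2 / F q := by
  rw [neg_Q_dvec hA]
  set ε := (F q - F r) / F r with hε
  have hεle : |ε| ≤ c2 * b := by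
    rw [hε, abs_div, abs_of_pos hr, div_le_iff₀ hr]; exact h0
  have hFr : F q = F r * (1 + ε) := by rw [hε]; field_simp; ring
  have e1 : -(A q q / F q ^ 2 - 2 * (A q r / (F q * F r)) + A r r / F r ^ 2)
      = (-(A q q - 2 * A q r + A r r) - 2 * (A r r - A q r) * ε - A r r * ε ^ 2) / F q ^ 2 := by
    have h3 : (1 / F r : ℝ) = (1 + ε) / F q := by
      rw [hFr]; have : (1 + ε) ≠ 0 := by
        intro h; rw [h, mul_zero] at hFr; exact hq.ne' hFr
      field_simp
    have h4 : A q r / (F q * F r) = A q r * (1 + ε) / F q ^ 2 := by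
      rw [← div_div, div_eq_mul_one_div _ (F r), h3]; field_simp
    have h5 : A r r / F r ^ 2 = A r r * (1 + ε) ^ 2 / F q ^ 2 := by
      have : (1 / F r) ^ 2 = ((1 + ε) / F q) ^ 2 := by rw [h3]
      rw [div_pow, div_pow, one_pow] at this
      rw [div_eq_mul_one_div, this]; ring
    rw [h4, h5]; ring
  rw [e1, div_le_div_iff₀ (by positivity) hq]
  have h6 : -(A q q - 2 * A q r + A r r) ≤ c1 * b ^ 2 * A q q := (neg_le_abs _).trans h2
  have h7 : -2 * (A r r - A q r) * ε ≤ 2 * c2 ^ 2 * b ^ 2 * A q q := by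
    have : |(A r r - A q r) * ε| ≤ (c2 * b * A q q) * (c2 * b) := by
      rw [abs_mul]
      exact mul_le_mul h1 hεle (abs_nonneg _) (by positivity)
    have h8 := neg_le_abs ((A r r - A q r) * ε)
    nlinarith
  have h9 : 0 ≤ A r r * ε ^ 2 := by positivity
  have h10 : -(A q q - 2 * A q r + A r r) - 2 * (A r r - A q r) * ε - A r r * ε ^ 2
      ≤ (c1 + 2 * c2 ^ 2) * b ^ 2 * A q q := by linarith
  calc (-(A q q - 2 * A q r + A r r) - 2 * (A r r - A q r) * ε - A r r * ε ^ 2) * F q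
      ≤ ((c1 + 2 * c2 ^ 2) * b ^ 2 * A q q) * F q := mul_le_mul_of_nonneg_right h10 hq.le
    _ ≤ ((c1 + 2 * c2 ^ 2) * b ^ 2 * (M * F q)) * F q := by
        refine mul_le_mul_of_nonneg_right ?_ hq.le
        exact mul_le_mul_of_nonneg_left hM (by positivity)
    _ = (c1 + 2 * c2 ^ 2) * M * b ^ 2 * F q ^ 2 := by ring

/-- the formula for `ξ` -/
theorem xi_eq [DecidableEq V] (T : RTree V) (F v : V → ℝ) (hF : ∀ q, F q ≠ 0) (p : V) :
    restr (T.desc p) v - Pi.single p ((∑ q ∈ T.desc p, v q * F q) / F p)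
      = ∑ q ∈ (T.desc p).erase p, T.cut (fun q => v q * F q) q • dvec F q (T.par q) := by
  ext z
  have h := RTree.sum_desc_mul (T := T) p (fun q => v q * F q)
    (fun q => (Pi.single q (1 / F q) : V → ℝ) z)
  have h1 : ∑ q ∈ T.desc p, v q * F q * (Pi.single q (1 / F q) : V → ℝ) z
      = restr (T.desc p) v z := by
    unfold restr
    by_cases hz : z ∈ T.desc p
    · rw [if_pos hz, Finset.sum_eq_single z]
      · rw [Pi.single_eq_same]; field_simp [hF z]
      · intro b _ hb; rw [Pi.single_eq_of_ne (Ne.symm hb), mul_zero]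
      · intro h; exact absurd hz h
    · rw [if_neg hz]
      refine sum_eq_zero fun q hq => ?_
      rw [Pi.single_eq_of_ne, mul_zero]
      rintro rfl; exact hz hq
  rw [h1] at h
  rw [Pi.sub_apply, h, Finset.sum_apply]
  have h2 : T.cut (fun q => v q * F q) p * (Pi.single p (1 / F p) : V → ℝ) z
      = (Pi.single p ((∑ q ∈ T.desc p, v q * F q) / F p) : V → ℝ) z := by
    by_cases hz : z = p
    · subst hz; rw [Pi.single_eq_same, Pi.single_eq_same]; unfold RTree.cut; ring
    · rw [Pi.single_eq_of_ne hz, Pi.single_eq_of_ne hz, mul_zero]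
  rw [h2, add_sub_cancel_left]
  rfl

/-- **CUT LEMMA.** -/
theorem cut_lemma [DecidableEq V] (T : RTree V) {A : V → V → ℝ} (hA : ∀ a b, A a b = A b a)
    (hAF : AF A) (p : V) (hpos : ∀ q, 0 < A p q) (v : V → ℝ) (hv : ∑ q, v q * A p q = 0)
    (w0 w1 w2 : ℝ) (hw0 : 0 < w0) (s : V → ℝ)
    (hs : ∀ q ∈ T.desc p, q ≠ p →
      -Q A (dvec (A p) q (T.par q)) (dvec (A p) q (T.par q)) ≤ s q / A p q) :
    -(w2 - 2 * w1 + w0) * (T.cut (fun q => v q * A p q) p ^ 2 / A p p)
      ≤ -Q (fun q q' => wt (T.desc p) w0 w1 w2 q q' * A q q') v v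
        + (max (-(w2 - 2 * w1 + w0)) 0 + (w0 - w1) ^ 2 / w0)
          * (Fintype.card V * ∑ q ∈ (T.desc p).erase p,
              s q * (T.cut (fun q => v q * A p q) q ^ 2 / A p q)) := by
  have h0 := cut_core hA hAF p (hpos p) v hv (T.desc p) w0 w1 w2 hw0
  have hdperp : ∀ q, Q A (dvec (A p) q (T.par q)) (Pi.single p (1 : ℝ)) = 0 := by
    intro q
    unfold dvec
    rw [Q_sub_left, Q_single, Q_single, hA q p, hA (T.par q) p]
    have h1 := (hpos q).ne'
    have h2 := (hpos (T.par q)).ne'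
    field_simp; ring
  have hneg : ∀ x : V → ℝ, Q A x (Pi.single p (1 : ℝ)) = 0 → Q A x x ≤ 0 := fun x hx =>
    hAF.neg (y := Pi.single p (1 : ℝ)) (by rw [Q_single]; simpa using hpos p) hx
  have h1 : -Q A (restr (T.desc p) v - Pi.single p ((∑ q ∈ T.desc p, v q * A p q) / A p p))
      (restr (T.desc p) v - Pi.single p ((∑ q ∈ T.desc p, v q * A p q) / A p p))
      ≤ Fintype.card V * ∑ q ∈ (T.desc p).erase p,
          s q * (T.cut (fun q => v q * A p q) q ^ 2 / A p q) := by
    rw [xi_eq T (A p) v (fun q => (hpos q).ne') p]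
    refine (neg_Q_sum_le hA _ _ ?_).trans ?_
    · intro i _ j _
      refine hneg _ ?_
      rw [Q_sub_left, Q_smul_left, Q_smul_left, hdperp, hdperp]; ring
    · have hcard : (((T.desc p).erase p).card : ℝ) ≤ Fintype.card V := by
        exact_mod_cast card_le_univ _
      have hterm : ∀ q ∈ (T.desc p).erase p,
          -Q A (T.cut (fun q => v q * A p q) q • dvec (A p) q (T.par q))
            (T.cut (fun q => v q * A p q) q • dvec (A p) q (T.par q))
          ≤ s q * (T.cut (fun q => v q * A p q) q ^ 2 / A p q) := by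
        intro q hq
        obtain ⟨hq1, hq2⟩ := mem_erase.1 hq
        rw [Q_smul_left, Q_smul_right]
        have := mul_le_mul_of_nonneg_left (hs q hq2 hq1)
          (sq_nonneg (T.cut (fun q => v q * A p q) q))
        calc _ = T.cut (fun q => v q * A p q) q ^ 2
              * -Q A (dvec (A p) q (T.par q)) (dvec (A p) q (T.par q)) := by ring
          _ ≤ _ := this
          _ = _ := by ring
      have hnn : ∀ q ∈ (T.desc p).erase p,
          0 ≤ -Q A (T.cut (fun q => v q * A p q) q • dvec (A p) q (T.par q))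
            (T.cut (fun q => v q * A p q) q • dvec (A p) q (T.par q)) := by
        intro q _
        have := hneg (T.cut (fun q => v q * A p q) q • dvec (A p) q (T.par q)) (by
          rw [Q_smul_left, hdperp, mul_zero])
        linarith
      exact mul_le_mul hcard (sum_le_sum hterm) (sum_nonneg hnn) (by positivity)
  refine h0.trans ?_
  have h2 : 0 ≤ max (-(w2 - 2 * w1 + w0)) 0 + (w0 - w1) ^ 2 / w0 := by positivity
  have := mul_le_mul_of_nonneg_left h1 h2
  linarith

/-! ### The cut weight `w_p(y) = L² + max(L² - (y-c)², 0)` -/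

/-- the cut weight -/
noncomputable def cw (L c y : ℝ) : ℝ := L ^ 2 + max (L ^ 2 - (y - c) ^ 2) 0

theorem cw_ge (L c y : ℝ) : L ^ 2 ≤ cw L c y := by
  unfold cw; linarith [le_max_right (L ^ 2 - (y - c) ^ 2) 0]

theorem cw_le (L c y : ℝ) : cw L c y ≤ 2 * L ^ 2 := by
  unfold cw
  have : max (L ^ 2 - (y - c) ^ 2) 0 ≤ L ^ 2 := max_le (by nlinarith [sq_nonneg (y - c)]) (by positivity)
  linarith

theorem cw_pos {L : ℝ} (hL : 0 < L) (c y : ℝ) : 0 < cw L c y :=
  lt_of_lt_of_le (by positivity) (cw_ge L c y)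

/-- the negative second difference is `≤ 2` everywhere -/
theorem cw_dd_le (L c y : ℝ) : -(cw L c (y + 2) - 2 * cw L c (y + 1) + cw L c y) ≤ 2 := by
  unfold cw
  rcases le_total (L ^ 2 - (y + 1 - c) ^ 2) 0 with h | h
  · rw [max_eq_right h]
    nlinarith [le_max_right (L ^ 2 - (y + 2 - c) ^ 2) 0, le_max_right (L ^ 2 - (y - c) ^ 2) 0]
  · rw [max_eq_left h]
    nlinarith [le_max_left (L ^ 2 - (y + 2 - c) ^ 2) 0, le_max_left (L ^ 2 - (y - c) ^ 2) 0]

/-- inside the window the negative second difference is `2` -/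
theorem cw_dd_eq {L c y : ℝ} (hL : 0 ≤ L) (h1 : |y - c| ≤ L) (h2 : |y + 2 - c| ≤ L) :
    -(cw L c (y + 2) - 2 * cw L c (y + 1) + cw L c y) = 2 := by
  unfold cw
  have h1' := abs_le.1 h1
  have h2' := abs_le.1 h2
  rw [max_eq_left, max_eq_left, max_eq_left]
  · ring
  · nlinarith
  · nlinarith
  · nlinarith

/-- the negative second difference is `≥ -2L` everywhere (`L ≥ 1`) -/
theorem cw_dd_ge {L : ℝ} (hL : 1 ≤ L) (c y : ℝ) :
    -(2 * L) ≤ -(cw L c (y + 2) - 2 * cw L c (y + 1) + cw L c y) := by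
  unfold cw
  set t := y + 1 - c with ht
  have e1 : y + 2 - c = t + 1 := by rw [ht]; ring
  have e2 : y - c = t - 1 := by rw [ht]; ring
  rw [e1, e2]
  rcases le_total (L ^ 2 - t ^ 2) 0 with h | h
  · rw [max_eq_right h]
    rcases le_total (L ^ 2 - (t + 1) ^ 2) 0 with h3 | h3 <;>
      rcases le_total (L ^ 2 - (t - 1) ^ 2) 0 with h4 | h4
    · rw [max_eq_right h3, max_eq_right h4]; nlinarith
    · rw [max_eq_right h3, max_eq_left h4]
      -- `t ≥ L`
      have : L ≤ t := by
        by_contra hc; push Not at hc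
        nlinarith [abs_le_of_sq_le_sq' (by nlinarith : (t - 1) ^ 2 ≤ L ^ 2) (by linarith)]
      nlinarith
    · rw [max_eq_left h3, max_eq_right h4]
      have : t ≤ -L := by
        by_contra hc; push Not at hc
        nlinarith [abs_le_of_sq_le_sq' (by nlinarith : (t + 1) ^ 2 ≤ L ^ 2) (by linarith)]
      nlinarith
    · exfalso
      nlinarith
  · rw [max_eq_left h]
    have ht1 := abs_le_of_sq_le_sq' (by nlinarith : t ^ 2 ≤ L ^ 2) (by linarith)
    rcases le_total (L ^ 2 - (t + 1) ^ 2) 0 with h3 | h3 <;>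
      rcases le_total (L ^ 2 - (t - 1) ^ 2) 0 with h4 | h4
    · rw [max_eq_right h3, max_eq_right h4]; nlinarith
    · rw [max_eq_right h3, max_eq_left h4]; nlinarith
    · rw [max_eq_left h3, max_eq_right h4]; nlinarith
    · rw [max_eq_left h3, max_eq_left h4]; nlinarith

theorem cw_diff {L : ℝ} (hL : 1 ≤ L) (c y : ℝ) : |cw L c (y + 1) - cw L c y| ≤ 2 * L := by
  unfold cw
  set t := y - c with ht
  have e1 : y + 1 - c = t + 1 := by rw [ht]; ring
  rw [e1, abs_le]
  rcases le_total (L ^ 2 - (t + 1) ^ 2) 0 with h3 | h3 <;>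
    rcases le_total (L ^ 2 - t ^ 2) 0 with h4 | h4
  · rw [max_eq_right h3, max_eq_right h4]; constructor <;> nlinarith
  · rw [max_eq_right h3, max_eq_left h4]
    have ht1 := abs_le_of_sq_le_sq' (by nlinarith : t ^ 2 ≤ L ^ 2) (by linarith)
    have ht2 : L ≤ t + 1 := by
      by_contra hc
      push Not at hc
      nlinarith
    constructor <;> nlinarith
  · rw [max_eq_left h3, max_eq_right h4]
    have ht1 := abs_le_of_sq_le_sq' (by nlinarith : (t + 1) ^ 2 ≤ L ^ 2) (by linarith)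
    have ht2 : t ≤ -L := by
      by_contra hc
      push Not at hc
      nlinarith
    constructor <;> nlinarith
  · rw [max_eq_left h3, max_eq_left h4]
    have ht1 := abs_le_of_sq_le_sq' (by nlinarith : t ^ 2 ≤ L ^ 2) (by linarith)
    have ht2 := abs_le_of_sq_le_sq' (by nlinarith : (t + 1) ^ 2 ≤ L ^ 2) (by linarith)
    constructor <;> nlinarith

theorem cw_coef {L : ℝ} (hL : 1 ≤ L) (c y : ℝ) :
    max (-(cw L c (y + 2) - 2 * cw L c (y + 1) + cw L c y)) 0
      + (cw L c y - cw L c (y + 1)) ^ 2 / cw L c y ≤ 6 := by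
  have h1 : max (-(cw L c (y + 2) - 2 * cw L c (y + 1) + cw L c y)) 0 ≤ 2 :=
    max_le (cw_dd_le L c y) (by norm_num)
  have h2 : (cw L c y - cw L c (y + 1)) ^ 2 ≤ 4 * L ^ 2 := by
    have := cw_diff hL c y
    rw [abs_sub_comm] at this
    have h3 := abs_le.1 this
    nlinarith
  have h3 : (cw L c y - cw L c (y + 1)) ^ 2 / cw L c y ≤ 4 := by
    rw [div_le_iff₀ (cw_pos (by linarith) c y)]
    have := cw_ge L c y
    nlinarith
  linarith

open Classical in
/-- `[q ∈ C]` as a real number -/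
noncomputable def ind (C : Finset V) (q : V) : ℝ := if q ∈ C then 1 else 0

/-- **CUT LEMMA** with the weight `cw`. -/
theorem cut_lemma_cw [DecidableEq V] (T : RTree V) {A : V → V → ℝ} (hA : ∀ a b, A a b = A b a)
    (hAF : AF A) (p : V) (hpos : ∀ q, 0 < A p q) (v : V → ℝ) (hv : ∑ q, v q * A p q = 0)
    {L : ℝ} (hL : 1 ≤ L) (c y : ℝ) (s : V → ℝ) (hs0 : ∀ q, 0 ≤ s q)
    (hs : ∀ q ∈ T.desc p, q ≠ p →
      -Q A (dvec (A p) q (T.par q)) (dvec (A p) q (T.par q)) ≤ s q / A p q)
    (G : V → V → ℝ)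
    (hG : ∀ q q', G q q' = cw L c (y + ind (T.desc p) q + ind (T.desc p) q') * A q q') :
    2 * (T.cut (fun q => v q * A p q) p ^ 2 / A p p)
      ≤ -Q G v v
        + 6 * (Fintype.card V * ∑ q ∈ (T.desc p).erase p,
              s q * (T.cut (fun q => v q * A p q) q ^ 2 / A p q))
        + (if |y + 1 - c| ≤ L - 1 then 0 else
            (2 * L + 2) * (T.cut (fun q => v q * A p q) p ^ 2 / A p p)) := by
  have hGe : G = fun q q' => wt (T.desc p) (cw L c y) (cw L c (y + 1)) (cw L c (y + 2)) q q'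
      * A q q' := by
    funext q q'
    rw [hG]
    congr 1
    unfold wt ind
    by_cases h1 : q ∈ T.desc p <;> by_cases h2 : q' ∈ T.desc p <;> simp [h1, h2]
    congr 1; ring
  have h0 := cut_lemma T hA hAF p hpos v hv (cw L c y) (cw L c (y + 1)) (cw L c (y + 2))
    (cw_pos (by linarith) c y) s hs
  rw [← hGe] at h0
  have hS : 0 ≤ Fintype.card V * ∑ q ∈ (T.desc p).erase p,
      s q * (T.cut (fun q => v q * A p q) q ^ 2 / A p q) := by
    refine mul_nonneg (by positivity) (sum_nonneg fun q _ => mul_nonneg (hs0 q) ?_)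
    exact div_nonneg (sq_nonneg _) (hpos q).le
  have h1 := mul_le_mul_of_nonneg_right (cw_coef hL c y) hS
  set X := T.cut (fun q => v q * A p q) p ^ 2 / A p p with hX
  have hX0 : 0 ≤ X := div_nonneg (sq_nonneg _) (hpos p).le
  by_cases hin : |y + 1 - c| ≤ L - 1
  · rw [if_pos hin, add_zero]
    have h2 := abs_le.1 hin
    have h3 := cw_dd_eq (L := L) (c := c) (y := y) (by linarith)
      (abs_le.2 ⟨by linarith, by linarith⟩) (abs_le.2 ⟨by linarith, by linarith⟩)
    rw [h3] at h0 h1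
    linarith
  · rw [if_neg hin]
    have h3 := cw_dd_ge hL c y
    have h4 := mul_le_mul_of_nonneg_right h3 hX0
    nlinarith

end Crest.Agent.R302.Cut
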