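import Crest.Agent.R302.StageFacts342
import Crest.Agent.R302.KerR342
import Crest.Agent.R302.StageL725B
import Crest.Agent.R302.Ann425D

/-!
R302 (helper342): `LInst.Facts` for the concrete stages (`Spec`: what the concrete record satisfies).

* `Spec.shape₁`, `Spec.shape₂` : helper532's `Shape`;
* `Spec.pair` : `Pair D.S₁w D.S₂` with slopes `2 * 2^(-k)`, second differences `16 * 4^(-k)`;
* `Spec.gauge₁`, `Spec.gauge₂`; `Spec.facts`.
-/

set_option autoImplicit false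
set_option linter.unusedSectionVars false

namespace Crest.Agent.R302.ConcF

open Finset Crest.Agent.R302.Lor Crest.Agent.R302.Inst Crest.Agent.R302.Stage
open Crest.Agent.R302.GeoSpec Crest.Agent.R302.StageL Crest.Agent.R302.AnnBox
open Crest.Agent.R302.Inst.Side (Gauge)
open Crest.Agent.R302.Facet (MemJ SubM)

variable {n : ℕ}

/-- what the concrete stage satisfies -/
structure Spec (D : SD (Fin n)) (m₁ m₂ : Fin n → Fin n → ℤ) (w₁ : ℤ) (dk L t : ℕ)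
    (x₀ : Fin n → ℤ) (r₁ r₂ : Finset (Fin n) → ℤ) (R : ℤ) (rep : Fin n → Fin n) : Prop where
  T₁ : D.S₁.T = nnForest m₁ w₁
  T₂ : D.S₂.T = nnForest m₂ w₁
  sub₁ : SubM r₁ R
  sub₂ : SubM r₂ R
  J₁ : ∀ z, z ∈ D.S₁.J ↔ MemJ r₁ R z
  J₂ : ∀ z, z ∈ D.S₂.J ↔ MemJ r₂ R z
  g₁ : ∀ z, D.S₁.g z = 1
  g₂ : ∀ z, D.S₂.g z = 1
  κ₁ : ∀ a, D.S₁.T.par a ≠ none → D.S₁.κ a = kapR (kV dk D.S₁.T m₁ a)
  κ₂ : ∀ a, D.S₂.T.par a ≠ none → D.S₂.κ a = kapR (kV dk D.S₂.T m₂ a)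
  w : ∀ β, D.w β = stH n L t x₀ (StageL.ext D.S₁.T β)
  thin : t < T0 n L → ∀ a, D.S₁.T.par a = none
  x0₁ : MemJ r₁ R x₀
  x0₂ : MemJ r₂ R x₀
  rep₁ : ∀ a b, (nnForest m₁ w₁).par a = some b → rep a = rep b
  rep₂ : ∀ a b, (nnForest m₂ w₁).par a = some b → rep a = rep b
  ell : ∃ f : Fin n → ℤ, ∀ e, D.ell e = f (rep e)
  lb₁ : ∀ z, MemJ r₁ R z → ∀ a, |bs D.S₁.T z a| ≤ D.Lb
  lb₂ : ∀ z, MemJ r₂ R z → ∀ a, |bs D.S₂.T z a| ≤ D.Lb
  dk0 : 0 < dk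
  big : 4 * n * (dk : ℤ) ≤ w₁

variable {D : SD (Fin n)} {m₁ m₂ : Fin n → Fin n → ℤ} {w₁ : ℤ} {dk L t : ℕ}
  {x₀ : Fin n → ℤ} {r₁ r₂ : Finset (Fin n) → ℤ} {R : ℤ} {rep : Fin n → Fin n}

/-! ### exponents -/

theorem kV_some {T : MP3.Forest (Fin n)} {m : Fin n → Fin n → ℤ} {a b : Fin n}
    (h : T.par a = some b) : kV dk T m a = lgE dk (m a b) := by
  unfold kV; rw [h]

theorem lgE_ge_one {d : ℕ} (hd : 0 < d) {key : ℤ} (h : 2 * (d : ℤ) ≤ key) : 1 ≤ lgE d key := by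
  by_contra h0
  have h1 : lgE d key = 0 := by omega
  have h2 := lt_lgE hd (key := key) (by have : (0 : ℤ) < d := by exact_mod_cast hd
                                        linarith)
  rw [h1] at h2
  simp only [zero_add, pow_one] at h2
  linarith

/-- the weight of a fat link is bounded below -/
theorem fat_ge {m : Fin n → Fin n → ℤ} {a b : Fin n} (h : (nnForest m w₁).par a = some b) :
    w₁ ≤ m a b := (nn_nnForest m w₁).ge a b h

theorem n_pos (a : Fin n) : 1 ≤ n := Nat.lt_of_le_of_lt (Nat.zero_le _) a.2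

theorem kV_ge_one (hdk : 0 < dk) (hbig : 4 * n * (dk : ℤ) ≤ w₁) {m : Fin n → Fin n → ℤ}
    {a b : Fin n} (h : (nnForest m w₁).par a = some b) : 1 ≤ kV dk (nnForest m w₁) m a := by
  rw [kV_some h]
  apply lgE_ge_one hdk
  have h1 := fat_ge h
  have h2 : (1 : ℤ) ≤ n := by exact_mod_cast n_pos a
  have h3 : (0 : ℤ) < dk := by exact_mod_cast hdk
  nlinarith

/-- `2^(-k) ≤ 2 dk / w₁` -/
theorem half_pow_le (hdk : 0 < dk) (hw : 0 < w₁) (hbig : 4 * n * (dk : ℤ) ≤ w₁)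
    {m : Fin n → Fin n → ℤ} {a b : Fin n} (h : (nnForest m w₁).par a = some b) :
    (1 / 2 : ℝ) ^ kV dk (nnForest m w₁) m a * w₁ ≤ 2 * dk := by
  rw [kV_some h]
  have h1 := fat_ge h
  have h2 : (1 : ℤ) ≤ n := by exact_mod_cast n_pos a
  have h3 : (0 : ℤ) < dk := by exact_mod_cast hdk
  have h4 := lt_lgE hdk (key := m a b) (by nlinarith)
  have h5 : (w₁ : ℝ) < 2 ^ (lgE dk (m a b) + 1) * (dk : ℝ) := by
    have : (w₁ : ℤ) < 2 ^ (lgE dk (m a b) + 1) * (dk : ℤ) := lt_of_le_of_lt h1 h4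
    exact_mod_cast this
  have h6 : (0 : ℝ) < (1 / 2) ^ lgE dk (m a b) := by positivity
  have h7 : (1 / 2 : ℝ) ^ lgE dk (m a b) * 2 ^ (lgE dk (m a b) + 1) = 2 := by
    rw [pow_succ, ← mul_assoc, ← mul_pow]; norm_num
  calc (1 / 2 : ℝ) ^ lgE dk (m a b) * w₁
      ≤ (1 / 2 : ℝ) ^ lgE dk (m a b) * (2 ^ (lgE dk (m a b) + 1) * (dk : ℝ)) :=
        mul_le_mul_of_nonneg_left h5.le h6.le
    _ = 2 * dk := by rw [← mul_assoc, h7]

/-! ### shapes -/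

theorem ext_blk_thin {S : Side (Fin n)} (h : ∀ a, S.T.par a = none) (z : Fin n → ℤ) :
    StageL.ext S.T (S.blk z) = z := by
  funext a
  unfold StageL.ext
  rw [dif_pos (h a)]
  show bs S.T z a = z a
  unfold bs
  have : S.T.sub a = {a} := by
    ext c
    rw [MP3.Forest.mem_sub, mem_singleton, MP3.Forest.le_iff]
    constructor
    · rintro (h1 | ⟨b, hb, _⟩)
      · exact h1
      · rw [h c] at hb; exact absurd hb (by simp)
    · intro h1; exact Or.inl h1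
  rw [this, sum_singleton]

theorem Spec.S₁w_g (h : Spec D m₁ m₂ w₁ dk L t x₀ r₁ r₂ R rep) (z : Fin n → ℤ) :
    D.S₁w.g z = ∏ v, stOm1 n L t v (x₀ v) (z v) := by
  show D.S₁.g z * 2 ^ (-D.w (D.S₁.blk z)) = _
  rw [h.g₁, one_mul, h.w]
  have e : ∏ v, stOm1 n L t v (x₀ v) (z v) = stOm n L t x₀ z := rfl
  rw [e, stOm_eq]
  by_cases ht : t < T0 n L
  · rw [ext_blk_thin (h.thin ht), zpow_neg, zpow_natCast, one_div, inv_pow]
  · have h0 : ∀ y, stH n L t x₀ y = 0 := fun y => by unfold stH; rw [if_neg ht]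
    rw [h0, h0]
    simp

theorem Spec.par_some₁ (h : Spec D m₁ m₂ w₁ dk L t x₀ r₁ r₂ R rep) {a : Fin n}
    (ha : D.S₁.T.par a ≠ none) : ∃ b, (nnForest m₁ w₁).par a = some b := by
  rw [← h.T₁]; exact Option.ne_none_iff_exists'.1 ha

theorem Spec.par_some₂ (h : Spec D m₁ m₂ w₁ dk L t x₀ r₁ r₂ R rep) {a : Fin n}
    (ha : D.S₂.T.par a ≠ none) : ∃ b, (nnForest m₂ w₁).par a = some b := by
  rw [← h.T₂]; exact Option.ne_none_iff_exists'.1 ha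

theorem Spec.k₁ (h : Spec D m₁ m₂ w₁ dk L t x₀ r₁ r₂ R rep) {a : Fin n}
    (ha : D.S₁.T.par a ≠ none) : 1 ≤ kV dk D.S₁.T m₁ a := by
  obtain ⟨b, hb⟩ := h.par_some₁ ha
  rw [h.T₁]
  exact kV_ge_one h.dk0 h.big hb

theorem Spec.k₂ (h : Spec D m₁ m₂ w₁ dk L t x₀ r₁ r₂ R rep) {a : Fin n}
    (ha : D.S₂.T.par a ≠ none) : 1 ≤ kV dk D.S₂.T m₂ a := by
  obtain ⟨b, hb⟩ := h.par_some₂ ha
  rw [h.T₂]
  exact kV_ge_one h.dk0 h.big hb

theorem Spec.shape₁ (h : Spec D m₁ m₂ w₁ dk L t x₀ r₁ r₂ R rep) :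
    Shape D.S₁w r₁ R (fun v k => stOm1 n L t v (x₀ v) k) where
  sub := h.sub₁
  mem := h.J₁
  wt := fun z _ => h.S₁w_g z
  ωlc := fun v => ⟨fun k => stOm1_pos _ _ _ _ _ _, fun k => stOm1_lc _ _ _ _ _ _⟩
  κlc := fun a ha => by
    show LogC (D.S₁.κ a)
    rw [h.κ₁ a ha]; exact KerR.logC_kapR (h.k₁ ha)

theorem Spec.shape₂ (h : Spec D m₁ m₂ w₁ dk L t x₀ r₁ r₂ R rep) :
    Shape D.S₂ r₂ R (fun _ _ => 1) where
  sub := h.sub₂
  mem := h.J₂
  wt := fun z _ => by rw [h.g₂]; simp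
  ωlc := fun v => ⟨fun k => one_pos, fun k => by norm_num⟩
  κlc := fun a ha => by rw [h.κ₂ a ha]; exact KerR.logC_kapR (h.k₂ ha)

/-! ### the pair -/

/-- slopes -/
noncomputable def bK (dk : ℕ) (T : MP3.Forest (Fin n)) (m : Fin n → Fin n → ℤ) (a : Fin n) : ℝ :=
  2 * (1 / 2) ^ kV dk T m a

/-- second differences -/
noncomputable def dK (dk : ℕ) (T : MP3.Forest (Fin n)) (m : Fin n → Fin n → ℤ) (a : Fin n) : ℝ :=
  16 * (1 / 4) ^ kV dk T m a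

theorem sum_bK_le (hdk : 0 < dk) (hbig : 4 * n * (dk : ℤ) ≤ w₁) (m : Fin n → Fin n → ℤ) :
    ∑ a, (open Classical in if (nnForest m w₁).par a ≠ none then bK dk (nnForest m w₁) m a else 0)
      ≤ 1 := by
  classical
  rcases Nat.eq_zero_or_pos n with hn | hn
  · subst hn; simp
  · have hn' : (1 : ℝ) ≤ n := by exact_mod_cast hn
    have hd' : (0 : ℝ) < dk := by exact_mod_cast hdk
    have hw' : (4 : ℝ) * n * dk ≤ w₁ := by exact_mod_cast hbig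
    have hw0 : (0 : ℝ) < w₁ := lt_of_lt_of_le (by positivity) hw'
    have hw0' : 0 < w₁ := by exact_mod_cast hw0
    have h1 : ∀ a ∈ (univ : Finset (Fin n)),
        (if (nnForest m w₁).par a ≠ none then bK dk (nnForest m w₁) m a else 0) ≤ 1 / n := by
      intro a _
      split_ifs with ha
      · obtain ⟨b, hb⟩ := Option.ne_none_iff_exists'.1 ha
        have h2 := half_pow_le hdk hw0' hbig hb
        unfold bK
        rw [le_div_iff₀ (by positivity)]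
        have h3 : (0 : ℝ) ≤ (1 / 2) ^ kV dk (nnForest m w₁) m a := by positivity
        have h4 : (1 / 2 : ℝ) ^ kV dk (nnForest m w₁) m a * (4 * n * dk) ≤ 2 * dk :=
          (mul_le_mul_of_nonneg_left hw' h3).trans h2
        nlinarith
      · positivity
    refine (Finset.sum_le_sum h1).trans ?_
    rw [Finset.sum_const, card_univ, Fintype.card_fin, nsmul_eq_mul]
    rw [mul_one_div, div_self (by positivity)]

theorem Spec.pair (h : Spec D m₁ m₂ w₁ dk L t x₀ r₁ r₂ R rep) :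
    Pair D.S₁w D.S₂ (bK dk D.S₁.T m₁) (dK dk D.S₁.T m₁) (bK dk D.S₂.T m₂) (dK dk D.S₂.T m₂)
      D.θ D.μ 1 where
  ok₁ := by
    refine ⟨fun z => ?_, fun a ha => ?_, ⟨x₀, (h.J₁ x₀).2 h.x0₁, ?_⟩⟩
    · rw [h.S₁w_g]; exact Finset.prod_nonneg fun v _ => (stOm1_pos _ _ _ _ _ _).le
    · show Ker (D.S₁.κ a) _ _
      rw [h.κ₁ a ha]; exact KerR.ker_kapR (h.k₁ ha)
    · rw [h.S₁w_g]; exact Finset.prod_pos fun v _ => stOm1_pos _ _ _ _ _ _
  ok₂ := by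
    refine ⟨fun z => ?_, fun a ha => ?_, ⟨x₀, (h.J₂ x₀).2 h.x0₂, ?_⟩⟩
    · rw [h.g₂]; exact zero_le_one
    · rw [h.κ₂ a ha]; exact KerR.ker_kapR (h.k₂ ha)
    · rw [h.g₂]; exact zero_lt_one
  θ0 := by unfold SD.θ; positivity
  θ1 := by unfold SD.θ; exact pow_le_one₀ (by norm_num) (by norm_num)
  μ0 := fun a => by unfold SD.μ; positivity
  hβ₁ := by
    have := sum_bK_le h.dk0 h.big m₁
    rw [← h.T₁] at this
    exact this
  hβ₂ := by
    have := sum_bK_le h.dk0 h.big m₂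
    rw [← h.T₂] at this
    exact this

/-! ### gauges -/

theorem Spec.gauge₁ (h : Spec D m₁ m₂ w₁ dk L t x₀ r₁ r₂ R rep) : Gauge D.S₁w D.μ := by
  obtain ⟨f, hf⟩ := h.ell
  refine ⟨fun a => by unfold SD.μ; positivity, fun a b hab => ?_⟩
  have hab' : D.S₁.T.par a = some b := hab
  rw [h.T₁] at hab'
  unfold SD.μ
  rw [hf, hf, h.rep₁ a b hab']

theorem Spec.gauge₂ (h : Spec D m₁ m₂ w₁ dk L t x₀ r₁ r₂ R rep) : Gauge D.S₂ D.μ := by
  obtain ⟨f, hf⟩ := h.ell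
  refine ⟨fun a => by unfold SD.μ; positivity, fun a b hab => ?_⟩
  rw [h.T₂] at hab
  unfold SD.μ
  rw [hf, hf, h.rep₂ a b hab]

/-- **the official facts for the concrete stage** -/
theorem Spec.facts (h : Spec D m₁ m₂ w₁ dk L t x₀ r₁ r₂ R rep) :
    LInst.Facts D (bK dk D.S₁.T m₁) (dK dk D.S₁.T m₁) (bK dk D.S₂.T m₂) (dK dk D.S₂.T m₂) 1
      r₁ r₂ R R (fun v k => stOm1 n L t v (x₀ v) k) (fun _ _ => 1) where
  pair := h.pair
  sh₁ := h.shape₁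
  sh₂ := h.shape₂
  ga₁ := h.gauge₁
  ga₂ := h.gauge₂
  lb₁ := fun z hz r => h.lb₁ z ((h.J₁ z).1 hz) r
  lb₂ := fun z hz r => h.lb₂ z ((h.J₂ z).1 hz) r

end Crest.Agent.R302.ConcF
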