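/-
R302 (helper646), block T3, part B: the field `blk` of `chainOK_ann` for the representatives of
`Rep646`, and the stage capacities of the box instance.
-/
import Crest.Agent.R302.Rep646
import Crest.Agent.R302.Smp272

set_option autoImplicit false

namespace Crest.Agent.R302.Rep646

open Finset Crest.Agent.R302.Facet Crest.Agent.R302.EDM Crest.Agent.R302.AnnBox
open Crest.Agent.R302.TreeNN

variable {n : ℕ}

/-! ### Stage capacities -/

theorem cap_self (r : Finset (Fin n) → ℤ) (x : Fin n → ℤ) (a : Fin n) : cap r x a a = 0 := by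
  unfold cap
  rw [dif_neg]
  rintro ⟨A, hA⟩
  rw [mem_sep] at hA
  exact hA.2 hA.1

theorem mcap_self (r : Finset (Fin n) → ℤ) (x : Fin n → ℤ) (a : Fin n) : mcap r x a a = 0 := by
  unfold mcap
  rw [cap_self, min_self]

/-- in a cube of radius `q` all capacities at the midpoint are at most `q` -/
theorem mcap_cube_le {r : Finset (Fin n) → ℤ} {R : ℤ} (hr : SubM r R) {x : Fin n → ℤ}
    (hx : MemJ r R x) (q : ℕ) {a b : Fin n} (hab : a ≠ b) :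
    mcap (boxR (fun v => x v - q) (fun v => x v + q) r) x a b ≤ q := by
  unfold mcap
  refine (min_le_left _ _).trans ?_
  rw [cap_boxR hr hx (fun v => by constructor <;> simp) hab]
  refine (min_le_right _ _).trans ((min_le_left _ _).trans ?_)
  simp

/-- the capacities of the box instance in a cube -/
theorem cap_stage {r : Finset (Fin n) → ℤ} {R : ℤ} (hr : SubM r R) {lo hi x : Fin n → ℤ}
    (hx : MemJ r R x) (hb : ∀ v, lo v ≤ x v ∧ x v ≤ hi v) (q : ℕ) (a b : Fin n) :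
    cap (boxR (fun v => max (lo v) (x v - q)) (fun v => min (hi v) (x v + q)) r) x a b =
      cap (boxR (fun v => x v - q) (fun v => x v + q) (boxR lo hi r)) x a b := by
  by_cases hab : a = b
  · subst hab
    rw [cap_self, cap_self]
  · have hx' : MemJ (boxR lo hi r) R x := (memJ_boxR hr _ _ _).2 ⟨hx, hb⟩
    rw [cap_boxR (subM_boxR hr hx hb) hx' (fun v => by constructor <;> simp) hab,
      cap_boxR hr hx hb hab, cap_boxR hr hx (fun v => by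
        have := hb v
        constructor
        · exact max_le this.1 (by simp)
        · exact le_min this.2 (by simp)) hab]
    have h1 := (hb a).2
    have h2 := (hb b).1
    omega

theorem mcap_stage {r : Finset (Fin n) → ℤ} {R : ℤ} (hr : SubM r R) {lo hi x : Fin n → ℤ}
    (hx : MemJ r R x) (hb : ∀ v, lo v ≤ x v ∧ x v ≤ hi v) (q : ℕ) (a b : Fin n) :
    mcap (boxR (fun v => max (lo v) (x v - q)) (fun v => min (hi v) (x v + q)) r) x a b =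
      mcap (boxR (fun v => x v - q) (fun v => x v + q) (boxR lo hi r)) x a b := by
  unfold mcap
  rw [cap_stage hr hx hb, cap_stage hr hx hb]

/-- **the matrix of the stage box is the matrix of the stage rank function** -/
theorem matBL_stage {r : List Bool → ℤ} {ρ : Finset (Fin n) → ℤ} (h : RepL n r ρ) {K : ℕ}
    {R : ℤ} (hr : SubM ρ R) (hK : ∀ A, |ρ A| ≤ K) {lo hi x : List ℤ} (q : ℕ)
    (hx : MemJ ρ R (vecL n x))
    (hb : ∀ i, vecL n lo i ≤ vecL n x i ∧ vecL n x i ≤ vecL n hi i) (a b : Fin n) :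
    ((GeoSpec.matBL n K r (loL n q x lo) (hiL n q x hi) x).getD a []).getD b 0 =
      mcap (boxR (fun v => vecL n x v - q) (fun v => vecL n x v + q)
        (boxR (vecL n lo) (vecL n hi) ρ)) (vecL n x) a b := by
  have e1 : vecL n (loL n q x lo) = fun v => max (vecL n lo v) (vecL n x v - q) := by
    have := toV_loL n q x lo
    exact this
  have e2 : vecL n (hiL n q x hi) = fun v => min (vecL n hi v) (vecL n x v + q) := by
    have := toV_hiL n q x hi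
    exact this
  rw [GeoSpec.matBL_getD h hr hK hx (fun i => by
    rw [e1, e2]
    have := hb i
    constructor
    · exact max_le this.1 (by simp)
    · exact le_min this.2 (by simp)), e1, e2]
  exact mcap_stage hr hx hb q a b

/-! ### The field `blk` -/

/-- symmetric stage capacities of side 1 / side 2 of annealing data -/
noncomputable def stM (𝒜 : AnnData n) (r : Finset (Fin n) → ℤ) (t : ℕ) (a b : Fin n) : ℤ :=
  mcap (𝒜.stR r t) 𝒜.x₀ a b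

theorem stM_symm (𝒜 : AnnData n) (r : Finset (Fin n) → ℤ) (t : ℕ) (a b : Fin n) :
    stM 𝒜 r t a b = stM 𝒜 r t b a := mcap_symm _ _ _ _

theorem stM_le (𝒜 : AnnData n) {r : Finset (Fin n) → ℤ} (hr : SubM r 𝒜.R)
    (hx : MemJ r 𝒜.R 𝒜.x₀) (t : ℕ) {a b : Fin n} (hab : a ≠ b) :
    stM 𝒜 r t a b ≤ stQ n 𝒜.L t := mcap_cube_le hr hx _ hab

/-- in the fat stages the one-link masses are one-link counts -/
theorem Nst_fat (𝒜 : AnnData n) {t : ℕ} (ht : T0 n 𝒜.L ≤ t) (u v : Fin n) :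
    𝒜.Nst t u v = Blk.NN (𝒜.stR 𝒜.r₁ t) (𝒜.stR 𝒜.r₂ t) 𝒜.R u v := by
  classical
  have hs₁ : SubM (𝒜.stR 𝒜.r₁ t) 𝒜.R := 𝒜.stR_sub 𝒜.sub₁ 𝒜.mem₁ t
  have hfin := Blk.hol_finite (r₂ := 𝒜.stR 𝒜.r₂ t) hs₁ u v
  unfold AnnData.Nst
  rw [𝒜.Ns_eq (hs u v) t hfin.toFinset (fun x => by
    rw [Set.Finite.mem_toFinset]; exact Iff.rfl)]
  rw [sum_congr rfl fun x _ => stOm_fat ht _ _]
  unfold Blk.NN
  rw [Set.ncard_eq_toFinset_card _ hfin]
  simp

/-- comparison of the one-link masses inside the components of the graph of large stage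
capacities -/
theorem Nst_reach (𝒜 : AnnData n) {w₁ : ℤ} (hw : 16 * n * kap n + (4 * n + 2) ≤ w₁)
    (hw' : (cA n : ℤ) < w₁) {t : ℕ} {u u' v v' : Fin n}
    (hu : (relG (stM 𝒜 𝒜.r₁ t) (stM 𝒜 𝒜.r₂ t) w₁).Reachable u u')
    (hv : (relG (stM 𝒜 𝒜.r₁ t) (stM 𝒜 𝒜.r₂ t) w₁).Reachable v v') :
    𝒜.Nst t u v ≤ 2 * 𝒜.Nst t u' v' := by
  rcases Nat.lt_or_ge t (T0 n 𝒜.L) with h | h
  · -- thin stage: no large capacity
    have hbot : relG (stM 𝒜 𝒜.r₁ t) (stM 𝒜 𝒜.r₂ t) w₁ = ⊥ := by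
      ext a b
      rw [SimpleGraph.bot_adj, iff_false]
      intro hab
      have hne := hab.ne
      have h1 := relG_ge (stM_symm 𝒜 _ t) (stM_symm 𝒜 _ t) hab
      have e1 := stM_le 𝒜 𝒜.sub₁ 𝒜.mem₁ t hne
      have e2 := stM_le 𝒜 𝒜.sub₂ 𝒜.mem₂ t hne
      rw [stQ_thin h.le] at e1 e2
      omega
    rw [hbot, SimpleGraph.reachable_bot] at hu hv
    subst hu hv
    have := 𝒜.Nst_nonneg t u v
    linarith
  · rw [Nst_fat 𝒜 h, Nst_fat 𝒜 h]
    refine Blk.blk_le (𝒜.stR_sub 𝒜.sub₁ 𝒜.mem₁ t) (𝒜.stR_sub 𝒜.sub₂ 𝒜.mem₂ t)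
      ((𝒜.mem_stR 𝒜.sub₁ t _).2 ⟨𝒜.mem₁, fun v => by constructor <;> simp⟩)
      ((𝒜.mem_stR 𝒜.sub₂ t _).2 ⟨𝒜.mem₂, fun v => by constructor <;> simp⟩)
      (w1 := w₁) ?_ (fun a b hab => ?_) hu hv
    · rw [Fintype.card_fin]; exact hw
    · exact relG_ge (stM_symm 𝒜 _ t) (stM_symm 𝒜 _ t) hab

/-- **the field `blk` of `chainOK_ann`** (and `rep_lt`) for `rep u = (repL n w₁ M₁ M₂)[u]`,
`M_i` the matrices of the stage capacities -/
theorem blk_ann (𝒜 : AnnData n) {w₁ : ℤ} (hw : 16 * n * kap n + (4 * n + 2) ≤ w₁)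
    (hw' : (cA n : ℤ) < w₁) (t : ℕ) {M₁ M₂ : List (List ℤ)}
    (hM₁ : ∀ a b : Fin n, (M₁.getD a []).getD b 0 = stM 𝒜 𝒜.r₁ t a b)
    (hM₂ : ∀ a b : Fin n, (M₂.getD a []).getD b 0 = stM 𝒜 𝒜.r₂ t a b) :
    (∀ u < n, (repL n w₁ M₁ M₂).getD u 0 < n) ∧
    ∀ u < n, ∀ v < n, Smp.NN 𝒜 t u v ≤
      2 * Smp.NN 𝒜 t ((repL n w₁ M₁ M₂).getD u 0) ((repL n w₁ M₁ M₂).getD v 0) := by
  refine ⟨fun u hu => repL_lt hM₁ hM₂ hu, fun u hu v hv => ?_⟩
  have e1 := Smp.NN_eq 𝒜 t ⟨u, hu⟩ ⟨v, hv⟩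
  have e2 := Smp.NN_eq 𝒜 t (rep hM₁ hM₂ w₁ ⟨u, hu⟩) (rep hM₁ hM₂ w₁ ⟨v, hv⟩)
  have h := Nst_reach 𝒜 hw hw' (rep_reach hM₁ hM₂ (w₁ := w₁) ⟨v, hv⟩)
    (rep_reach hM₁ hM₂ (w₁ := w₁) ⟨u, hu⟩)
  rw [← e1, ← e2] at h
  exact h

/-! ### The representatives at a thin stage -/

/-- at the thin stages the representatives are trivial -/
theorem rep_thin (𝒜 : AnnData n) {w₁ : ℤ} (hw' : (cA n : ℤ) < w₁) {t : ℕ}
    (ht : t ≤ T0 n 𝒜.L) {M₁ M₂ : List (List ℤ)}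
    (hM₁ : ∀ a b : Fin n, (M₁.getD a []).getD b 0 = stM 𝒜 𝒜.r₁ t a b)
    (hM₂ : ∀ a b : Fin n, (M₂.getD a []).getD b 0 = stM 𝒜 𝒜.r₂ t a b) {u : ℕ} (hu : u < n) :
    (repL n w₁ M₁ M₂).getD u 0 = u := by
  have h := rep_eq_self hM₁ hM₂ (w₁ := w₁) (fun a b hab => by
    have e1 := stM_le 𝒜 𝒜.sub₁ 𝒜.mem₁ t hab
    have e2 := stM_le 𝒜 𝒜.sub₂ 𝒜.mem₂ t hab
    rw [stQ_thin ht] at e1 e2
    omega) ⟨u, hu⟩
  exact congrArg Fin.val h

/-- at the thin stages the forests have no edge -/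
theorem nnForest_thin (𝒜 : AnnData n) {w₁ : ℤ} (hw' : (cA n : ℤ) < w₁) {t : ℕ}
    (ht : t ≤ T0 n 𝒜.L) (a : Fin n) :
    (GeoSpec.nnForest (stM 𝒜 𝒜.r₁ t) w₁).par a = none ∧
      (GeoSpec.nnForest (stM 𝒜 𝒜.r₂ t) w₁).par a = none := by
  constructor
  · rcases h : (GeoSpec.nnForest (stM 𝒜 𝒜.r₁ t) w₁).par a with _ | b
    · rfl
    · exfalso
      have h1 := (GeoSpec.nn_nnForest (stM 𝒜 𝒜.r₁ t) w₁).ge a b h
      have h2 := (GeoSpec.nn_nnForest (stM 𝒜 𝒜.r₁ t) w₁).lt a b h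
      have e1 := stM_le 𝒜 𝒜.sub₁ 𝒜.mem₁ t (ne_of_gt h2)
      rw [stQ_thin ht] at e1
      omega
  · rcases h : (GeoSpec.nnForest (stM 𝒜 𝒜.r₂ t) w₁).par a with _ | b
    · rfl
    · exfalso
      have h1 := (GeoSpec.nn_nnForest (stM 𝒜 𝒜.r₂ t) w₁).ge a b h
      have h2 := (GeoSpec.nn_nnForest (stM 𝒜 𝒜.r₂ t) w₁).lt a b h
      have e1 := stM_le 𝒜 𝒜.sub₂ 𝒜.mem₂ t (ne_of_gt h2)
      rw [stQ_thin ht] at e1
      omega

/-! ### The instances of `Smp272` -/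

section inst

open Crest.Polymatroid Crest.Agent.R302.Smp Crest.Agent.R302.Top Crest.Agent.R302.ORAM

variable {Ω : Type*} {P : Prg Ω} {R m : ℕ} {r₁ r₂ : Finset (Fin n) → ℕ} {lo hi : Fin n → ℤ}
  {𝒜 : AnnData n}

/-- the stage matrix of the program: side `b`, stage `t` -/
def stMat (Q : Qf) (s : SIn) (L : ℕ) (b : Bool) (t : ℕ) : List (List ℤ) :=
  GeoSpec.matBL (sn s) (sR s) (fun l => (Q b l : ℤ))
    (loL (sn s) (stQ (sn s) L t) (cen Q s) (slo s))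
    (hiL (sn s) (stQ (sn s) L t) (cen Q s) (shi s)) (cen Q s)

theorem IsInst.cen_mem (h : IsInst P n R m r₁ r₂ lo hi 𝒜) :
    MemJ (zr r₁) R 𝒜.x₀ ∧ MemJ (zr r₂) R 𝒜.x₀ ∧ ∀ i, lo i ≤ 𝒜.x₀ i ∧ 𝒜.x₀ i ≤ hi i := by
  have h1 := 𝒜.mem₁
  have h2 := 𝒜.mem₂
  rw [h.A₁, h.AR, memJ_boxR (zr_subM h.pr₁ h.e₁)] at h1
  rw [h.A₂, h.AR, memJ_boxR (zr_subM h.pr₂ h.e₂)] at h2
  exact ⟨h1.1, h2.1, h1.2⟩

theorem stMat_getD (h : IsInst P n R m r₁ r₂ lo hi 𝒜) (b : Bool) (t : ℕ) (a c : Fin n) :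
    ((stMat (rq r₁ r₂) (inp n R m lo hi) 𝒜.L b t).getD a []).getD c 0 =
      stM 𝒜 (if b then 𝒜.r₂ else 𝒜.r₁) t a c := by
  obtain ⟨m1, m2, hb⟩ := IsInst.cen_mem h
  have hx : vecL n (cen (rq r₁ r₂) (inp n R m lo hi)) = 𝒜.x₀ := h.Ax.symm
  have hlo : vecL n (slo (inp n R m lo hi)) = lo := vecL_ofFn' lo
  have hhi : vecL n (shi (inp n R m lo hi)) = hi := vecL_ofFn' hi
  have hrep := Top.repL r₁ r₂ b
  have key : ∀ (r : Finset (Fin n) → ℕ), IsPolymatroidRank r → r univ = R → MemJ (zr r) R 𝒜.x₀ →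
      RepL n (fun l => (rq r₁ r₂ b l : ℤ)) (zr r) → ∀ r' : Finset (Fin n) → ℤ,
      r' = boxR lo hi (zr r) →
      ((stMat (rq r₁ r₂) (inp n R m lo hi) 𝒜.L b t).getD a []).getD c 0 = stM 𝒜 r' t a c := by
    intro r pr e hm hr r' hr'
    have h1 := matBL_stage (n := n) hr (K := R) (R := R) (zr_subM pr e) (zr_abs pr e)
      (lo := slo (inp n R m lo hi)) (hi := shi (inp n R m lo hi))
      (x := cen (rq r₁ r₂) (inp n R m lo hi)) (stQ n 𝒜.L t) (by rw [hx]; exact hm)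
      (by rw [hx, hlo, hhi]; exact hb) a c
    rw [hx, hlo, hhi] at h1
    refine Eq.trans ?_ (h1.trans ?_)
    · rfl
    · rw [hr']
      rfl
  cases b with
  | false => exact key r₁ h.pr₁ h.e₁ m1 hrep 𝒜.r₁ h.A₁
  | true => exact key r₂ h.pr₂ h.e₂ m2 hrep 𝒜.r₂ h.A₂

/-- **fields `rep_lt` and `blk` of `chainOK_ann`** for the instances of `Smp272` and the
representatives of the stage matrices -/
theorem blk_inst (h : IsInst P n R m r₁ r₂ lo hi 𝒜) {w₁ : ℤ}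
    (hw : 16 * n * kap n + (4 * n + 2) ≤ w₁) (hw' : (cA n : ℤ) < w₁) (t : ℕ) :
    (∀ u < n, (repL n w₁ (stMat (rq r₁ r₂) (inp n R m lo hi) 𝒜.L false t)
      (stMat (rq r₁ r₂) (inp n R m lo hi) 𝒜.L true t)).getD u 0 < n) ∧
    ∀ u < n, ∀ v < n, Smp.NN 𝒜 t u v ≤
      2 * Smp.NN 𝒜 t
        ((repL n w₁ (stMat (rq r₁ r₂) (inp n R m lo hi) 𝒜.L false t)
          (stMat (rq r₁ r₂) (inp n R m lo hi) 𝒜.L true t)).getD u 0)
        ((repL n w₁ (stMat (rq r₁ r₂) (inp n R m lo hi) 𝒜.L false t)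
          (stMat (rq r₁ r₂) (inp n R m lo hi) 𝒜.L true t)).getD v 0) :=
  blk_ann 𝒜 hw hw' t (fun a b => by
      have := stMat_getD h false t a b
      simpa using this)
    (fun a b => by
      have := stMat_getD h true t a b
      simpa using this)

end inst

end Crest.Agent.R302.Rep646
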