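import Crest.Agent.R302.ConcFacts342
import Crest.Agent.R302.Conc725
import Crest.Agent.R302.Rep646B

/-!
R302 (helper342): `Spec`, hence `LInst.Facts`, for the stage data `sdA 𝒜 t P ell` of annealing data.

* `Lam 𝒜 P t ell` : what is used of the gauge (`ell` constant on the fat links);
* `lam_sprL` : the spread list of the program;
* `spec_sdA`, `facts_sdA`.
-/

set_option autoImplicit false
set_option linter.unusedSectionVars false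

namespace Crest.Agent.R302.ConcF

open Finset Crest.Agent.R302.Lor Crest.Agent.R302.Inst Crest.Agent.R302.Stage
open Crest.Agent.R302.GeoSpec Crest.Agent.R302.StageL Crest.Agent.R302.AnnBox
open Crest.Agent.R302.Facet Crest.Agent.R302.Conc Crest.Agent.R302.EDM

variable {n : ℕ}

/-- block sums of a nonnegative point of total mass `R` -/
theorem bs_abs_le {T : MP3.Forest (Fin n)} {z : Fin n → ℤ} {R : ℤ} (h0 : ∀ v, 0 ≤ z v)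
    (hR : ∑ v, z v = R) (a : Fin n) : |bs T z a| ≤ R := by
  have h1 : 0 ≤ bs T z a := Finset.sum_nonneg fun v _ => h0 v
  have h2 : bs T z a ≤ R := by
    rw [← hR]
    exact Finset.sum_le_sum_of_subset_of_nonneg (Finset.subset_univ _) fun v _ _ => h0 v
  rw [abs_of_nonneg h1]
  exact h2

/-- the gauge is a function of the representatives -/
def RepC (𝒜 : AnnData n) (P : Conc.Par) (t : ℕ) (rep : Fin n → Fin n) : Prop :=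
  (∀ a b, (nnForest (mA 𝒜 𝒜.r₁ t) P.w₁).par a = some b → rep a = rep b) ∧
  (∀ a b, (nnForest (mA 𝒜 𝒜.r₂ t) P.w₁).par a = some b → rep a = rep b)

/-- what the numerical parameters of the stage satisfy -/
structure ParOK (𝒜 : AnnData n) (P : Conc.Par) : Prop where
  w : (cA n : ℤ) < P.w₁
  dk0 : 0 < P.dk
  big : 4 * n * (P.dk : ℤ) ≤ P.w₁
  Lb : 𝒜.R ≤ P.Lb
  pos₁ : ∀ z, MemJ 𝒜.r₁ 𝒜.R z → ∀ v, 0 ≤ z v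
  pos₂ : ∀ z, MemJ 𝒜.r₂ 𝒜.R z → ∀ v, 0 ≤ z v

variable {𝒜 : AnnData n} {P : Conc.Par} {t : ℕ} {ell : Fin n → ℤ} {rep : Fin n → Fin n}

theorem x₀_stR₁ (𝒜 : AnnData n) (t : ℕ) : MemJ (𝒜.stR 𝒜.r₁ t) 𝒜.R 𝒜.x₀ :=
  (𝒜.mem_stR 𝒜.sub₁ t _).2 ⟨𝒜.mem₁, fun v => by constructor <;> simp⟩

theorem x₀_stR₂ (𝒜 : AnnData n) (t : ℕ) : MemJ (𝒜.stR 𝒜.r₂ t) 𝒜.R 𝒜.x₀ :=
  (𝒜.mem_stR 𝒜.sub₂ t _).2 ⟨𝒜.mem₂, fun v => by constructor <;> simp⟩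

/-- **the concrete stage satisfies `Spec`** -/
theorem spec_sdA (hP : ParOK 𝒜 P) (hr : RepC 𝒜 P t rep) (hl : ∃ f : Fin n → ℤ, ∀ e, ell e = f (rep e)) :
    Spec (sdA 𝒜 t P ell) (mA 𝒜 𝒜.r₁ t) (mA 𝒜 𝒜.r₂ t) P.w₁ P.dk 𝒜.L t 𝒜.x₀
      (𝒜.stR 𝒜.r₁ t) (𝒜.stR 𝒜.r₂ t) 𝒜.R rep where
  T₁ := rfl
  T₂ := rfl
  sub₁ := 𝒜.stR_sub 𝒜.sub₁ 𝒜.mem₁ t
  sub₂ := 𝒜.stR_sub 𝒜.sub₂ 𝒜.mem₂ t
  J₁ := fun z => mem_jF 𝒜 𝒜.sub₁ t z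
  J₂ := fun z => mem_jF 𝒜 𝒜.sub₂ t z
  g₁ := fun _ => rfl
  g₂ := fun _ => rfl
  κ₁ := fun _ _ => rfl
  κ₂ := fun _ _ => rfl
  w := fun _ => rfl
  thin := fun ht a => (Rep646.nnForest_thin 𝒜 hP.w ht.le a).1
  x0₁ := x₀_stR₁ 𝒜 t
  x0₂ := x₀_stR₂ 𝒜 t
  rep₁ := hr.1
  rep₂ := hr.2
  ell := hl
  lb₁ := fun z hz a => (bs_abs_le (hP.pos₁ z ((𝒜.mem_stR 𝒜.sub₁ t z).1 hz).1) hz.2 a).trans hP.Lb
  lb₂ := fun z hz a => (bs_abs_le (hP.pos₂ z ((𝒜.mem_stR 𝒜.sub₂ t z).1 hz).1) hz.2 a).trans hP.Lb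
  dk0 := hP.dk0
  big := hP.big

/-- the slopes of side 1 -/
noncomputable def bA (𝒜 : AnnData n) (P : Conc.Par) (t : ℕ) (r : Finset (Fin n) → ℤ) : Fin n → ℝ :=
  bK P.dk (nnForest (mA 𝒜 r t) P.w₁) (mA 𝒜 r t)

/-- the second differences -/
noncomputable def dA (𝒜 : AnnData n) (P : Conc.Par) (t : ℕ) (r : Finset (Fin n) → ℤ) : Fin n → ℝ :=
  dK P.dk (nnForest (mA 𝒜 r t) P.w₁) (mA 𝒜 r t)

/-- **the official facts for `sdA`** -/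
theorem facts_sdA (hP : ParOK 𝒜 P) (hr : RepC 𝒜 P t rep)
    (hl : ∃ f : Fin n → ℤ, ∀ e, ell e = f (rep e)) :
    LInst.Facts (sdA 𝒜 t P ell) (bA 𝒜 P t 𝒜.r₁) (dA 𝒜 P t 𝒜.r₁) (bA 𝒜 P t 𝒜.r₂)
      (dA 𝒜 P t 𝒜.r₂) 1 (𝒜.stR 𝒜.r₁ t) (𝒜.stR 𝒜.r₂ t) 𝒜.R 𝒜.R
      (fun v k => stOm1 n 𝒜.L t v (𝒜.x₀ v) k) (fun _ _ => 1) :=
  (spec_sdA hP hr hl).facts

theorem bA_some {r : Finset (Fin n) → ℤ} {a b : Fin n}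
    (h : (nnForest (mA 𝒜 r t) P.w₁).par a = some b) :
    bA 𝒜 P t r a = 2 * (1 / 2) ^ lgE P.dk (mA 𝒜 r t a b) := by
  unfold bA bK; rw [kV_some h]

theorem dA_some {r : Finset (Fin n) → ℤ} {a b : Fin n}
    (h : (nnForest (mA 𝒜 r t) P.w₁).par a = some b) :
    dA 𝒜 P t r a = 16 * (1 / 4) ^ lgE P.dk (mA 𝒜 r t a b) := by
  unfold dA dK; rw [kV_some h]

/-! ### the gauge of the program -/

section gauge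

variable {M₁ M₂ : List (List ℤ)} (hM₁ : ∀ a b : Fin n, (M₁.getD a []).getD b 0 = mA 𝒜 𝒜.r₁ t a b)
    (hM₂ : ∀ a b : Fin n, (M₂.getD a []).getD b 0 = mA 𝒜 𝒜.r₂ t a b)

theorem repC_rep (P : Conc.Par) : RepC 𝒜 P t (Rep646.rep hM₁ hM₂ P.w₁) :=
  ⟨fun _ _ h => Rep646.rep_par₁ hM₁ hM₂ h, fun _ _ h => Rep646.rep_par₂ hM₁ hM₂ h⟩

theorem ell_rep (P : Conc.Par) (g : List ℤ) :
    ∃ f : Fin n → ℤ, ∀ e : Fin n, (Rep646.sprL n (Rep646.repL n P.w₁ M₁ M₂) g).getD e 0 =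
      f (Rep646.rep hM₁ hM₂ P.w₁ e) :=
  ⟨fun i => g.getD i 0, fun e => by rw [Rep646.sprL_getD]; rfl⟩

include hM₁ hM₂ in
/-- **the official facts with the spread gauge list of the program** -/
theorem facts_sprL (hP : ParOK 𝒜 P) (g : List ℤ) :
    LInst.Facts (sdA 𝒜 t P fun e => (Rep646.sprL n (Rep646.repL n P.w₁ M₁ M₂) g).getD e 0)
      (bA 𝒜 P t 𝒜.r₁) (dA 𝒜 P t 𝒜.r₁) (bA 𝒜 P t 𝒜.r₂) (dA 𝒜 P t 𝒜.r₂) 1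
      (𝒜.stR 𝒜.r₁ t) (𝒜.stR 𝒜.r₂ t) 𝒜.R 𝒜.R
      (fun v k => stOm1 n 𝒜.L t v (𝒜.x₀ v) k) (fun _ _ => 1) :=
  facts_sdA hP (repC_rep hM₁ hM₂ P) (ell_rep hM₁ hM₂ P g)

end gauge

/-- trivial gauge -/
theorem facts_of_const (hP : ParOK 𝒜 P) (M₁ M₂ : List (List ℤ))
    (hM₁ : ∀ a b : Fin n, (M₁.getD a []).getD b 0 = mA 𝒜 𝒜.r₁ t a b)
    (hM₂ : ∀ a b : Fin n, (M₂.getD a []).getD b 0 = mA 𝒜 𝒜.r₂ t a b)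
    (hl₁ : ∀ e : Fin n, ell e = ell (Rep646.rep hM₁ hM₂ P.w₁ e)) :
    LInst.Facts (sdA 𝒜 t P ell) (bA 𝒜 P t 𝒜.r₁) (dA 𝒜 P t 𝒜.r₁) (bA 𝒜 P t 𝒜.r₂)
      (dA 𝒜 P t 𝒜.r₂) 1 (𝒜.stR 𝒜.r₁ t) (𝒜.stR 𝒜.r₂ t) 𝒜.R 𝒜.R
      (fun v k => stOm1 n 𝒜.L t v (𝒜.x₀ v) k) (fun _ _ => 1) :=
  facts_sdA hP (repC_rep hM₁ hM₂ P) ⟨ell, hl₁⟩

/-! ### the instances of the sampler -/

section inst

open Crest.Polymatroid Crest.Agent.R302.Smp Crest.Agent.R302.Top Crest.Agent.R302.ORAM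

variable {Ω : Type*} {Pr : Prg Ω} {R m : ℕ} {r₁ r₂ : Finset (Fin n) → ℕ} {lo hi : Fin n → ℤ}

theorem inst_pos₁ (h : IsInst Pr n R m r₁ r₂ lo hi 𝒜) (z : Fin n → ℤ) (hz : MemJ 𝒜.r₁ 𝒜.R z)
    (v : Fin n) : 0 ≤ z v := by
  rw [h.A₁, h.AR, memJ_boxR (zr_subM h.pr₁ h.e₁)] at hz
  exact (h.box v).1.trans (hz.2 v).1

theorem inst_pos₂ (h : IsInst Pr n R m r₁ r₂ lo hi 𝒜) (z : Fin n → ℤ) (hz : MemJ 𝒜.r₂ 𝒜.R z)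
    (v : Fin n) : 0 ≤ z v := by
  rw [h.A₂, h.AR, memJ_boxR (zr_subM h.pr₂ h.e₂)] at hz
  exact (h.box v).1.trans (hz.2 v).1

/-- the parameter conditions for an instance -/
theorem parOK_inst (h : IsInst Pr n R m r₁ r₂ lo hi 𝒜) (w : (cA n : ℤ) < P.w₁) (dk0 : 0 < P.dk)
    (big : 4 * n * (P.dk : ℤ) ≤ P.w₁) (Lb : (R : ℤ) ≤ P.Lb) : ParOK 𝒜 P :=
  ⟨w, dk0, big, by rw [h.AR]; exact Lb, inst_pos₁ h, inst_pos₂ h⟩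

end inst

end Crest.Agent.R302.ConcF
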