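import Mathlib
import Crest.Prelude.Def_Polymatroid

/-!
# R302 / EDM, part 1: the discrete sandwich theorem and integral polymatroid intersection

* `sandwich`: between a supermodular and a submodular integer set function there is an integer modular one.
* `exists_common_ge`: common integer bases above a lower bound `l`.
* `numCommonIntBases_eq_zero_iff`: the emptiness criterion of the row.
-/

set_option autoImplicit false

namespace Crest.Agent.R302.EDM

open Finset

variable {α : Type*} [DecidableEq α]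

/-- submodular on the subsets of `V` -/
def SubOn (V : Finset α) (f : Finset α → ℤ) : Prop :=
  ∀ A B : Finset α, A ⊆ V → B ⊆ V → f (A ∪ B) + f (A ∩ B) ≤ f A + f B

/-- supermodular on the subsets of `V` -/
def SupOn (V : Finset α) (g : Finset α → ℤ) : Prop :=
  ∀ A B : Finset α, A ⊆ V → B ⊆ V → g A + g B ≤ g (A ∪ B) + g (A ∩ B)

theorem SubOn.project {V : Finset α} {f : Finset α → ℤ} {v : α} (hv : v ∉ V)
    (hf : SubOn (insert v V) f) (t : ℤ) :
    SubOn V (fun A => min (f A) (f (insert v A) - t)) := by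
  intro A B hA hB
  have hA' : A ⊆ insert v V := hA.trans (subset_insert v V)
  have hB' : B ⊆ insert v V := hB.trans (subset_insert v V)
  have hvA : v ∉ A := fun h => hv (hA h)
  have hvB : v ∉ B := fun h => hv (hB h)
  have hA2 : insert v A ⊆ insert v V := insert_subset_insert v hA
  have hB2 : insert v B ⊆ insert v V := insert_subset_insert v hB
  have h1 := hf A B hA' hB'
  have h2 := hf (insert v A) (insert v B) hA2 hB2
  have h3 := hf A (insert v B) hA' hB2
  have h4 := hf (insert v A) B hA2 hB'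
  rw [show insert v A ∪ insert v B = insert v (A ∪ B) by ext x; simp only [mem_union, mem_insert]; tauto,
    show insert v A ∩ insert v B = insert v (A ∩ B) by
      ext x; simp only [mem_inter, mem_insert]; tauto] at h2
  rw [show A ∪ insert v B = insert v (A ∪ B) by ext x; simp only [mem_union, mem_insert]; tauto,
    show A ∩ insert v B = A ∩ B by
      ext x
      simp only [mem_inter, mem_insert]
      constructor
      · rintro ⟨h, rfl | h'⟩
        · exact absurd h hvA
        · exact ⟨h, h'⟩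
      · rintro ⟨h, h'⟩; exact ⟨h, Or.inr h'⟩] at h3
  rw [show insert v A ∪ B = insert v (A ∪ B) by
      ext x; simp only [mem_union, mem_insert]; tauto,
    show insert v A ∩ B = A ∩ B by
      ext x
      simp only [mem_inter, mem_insert]
      constructor
      · rintro ⟨rfl | h, h'⟩
        · exact absurd h' hvB
        · exact ⟨h, h'⟩
      · rintro ⟨h, h'⟩; exact ⟨Or.inr h, h'⟩] at h4
  have a1 := min_le_left (f (A ∪ B)) (f (insert v (A ∪ B)) - t)
  have a2 := min_le_right (f (A ∪ B)) (f (insert v (A ∪ B)) - t)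
  have a3 := min_le_left (f (A ∩ B)) (f (insert v (A ∩ B)) - t)
  have a4 := min_le_right (f (A ∩ B)) (f (insert v (A ∩ B)) - t)
  show min (f (A ∪ B)) (f (insert v (A ∪ B)) - t) + min (f (A ∩ B)) (f (insert v (A ∩ B)) - t) ≤
    min (f A) (f (insert v A) - t) + min (f B) (f (insert v B) - t)
  rcases min_choice (f A) (f (insert v A) - t) with e1 | e1 <;>
    rcases min_choice (f B) (f (insert v B) - t) with e2 | e2 <;> rw [e1, e2] <;> linarith

theorem SubOn.neg {V : Finset α} {f : Finset α → ℤ} (hf : SubOn V f) :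
    SupOn V (fun A => -f A) := fun A B hA hB => by
  have := hf A B hA hB
  show -f A + -f B ≤ -f (A ∪ B) + -f (A ∩ B)
  linarith

theorem SupOn.neg {V : Finset α} {f : Finset α → ℤ} (hf : SupOn V f) :
    SubOn V (fun A => -f A) := fun A B hA hB => by
  have := hf A B hA hB
  show -f (A ∪ B) + -f (A ∩ B) ≤ -f A + -f B
  linarith

theorem SupOn.project {V : Finset α} {g : Finset α → ℤ} {v : α} (hv : v ∉ V)
    (hg : SupOn (insert v V) g) (t : ℤ) :
    SupOn V (fun A => max (g A) (g (insert v A) - t)) := by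
  have h := (SubOn.project hv hg.neg (-t)).neg
  intro A B hA hB
  have := h A B hA hB
  have e : ∀ x y : ℤ, -min (-x) (-y - -t) = max x (y - t) := fun x y => by
    rw [show -y - -t = -(y - t) by ring, ← max_neg_neg, neg_neg, neg_neg]
  simpa only [e] using this

/-- **the discrete sandwich theorem** -/
theorem sandwich (V : Finset α) : ∀ (f g : Finset α → ℤ), SubOn V f → SupOn V g → f ∅ = 0 →
    g ∅ = 0 → (∀ A ⊆ V, g A ≤ f A) →
    ∃ m : α → ℤ, ∀ A ⊆ V, g A ≤ ∑ a ∈ A, m a ∧ ∑ a ∈ A, m a ≤ f A := by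
  induction V using Finset.induction_on with
  | empty =>
    intro f g hf hg f0 g0 h
    refine ⟨fun _ => 0, fun A hA => ?_⟩
    rw [subset_empty.1 hA]
    simp [f0, g0]
  | insert v V hv ih =>
    intro f g hf hg f0 g0 h
    -- choose `t`
    have hne : (V.powerset).Nonempty := ⟨∅, empty_mem_powerset V⟩
    obtain ⟨A₀, hA₀, ht⟩ := Finset.exists_mem_eq_inf' hne fun A => f (insert v A) - g A
    set t : ℤ := V.powerset.inf' hne fun A => f (insert v A) - g A with htdef
    have t1 : ∀ A ⊆ V, t ≤ f (insert v A) - g A := fun A hA =>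
      Finset.inf'_le (f := fun A => f (insert v A) - g A) (mem_powerset.2 hA)
    have t2 : ∀ A ⊆ V, g (insert v A) - f A ≤ t := by
      intro A hA
      rw [ht]
      have hA₀' := mem_powerset.1 hA₀
      have hvA : v ∉ A := fun h => hv (hA h)
      have hvA0 : v ∉ A₀ := fun h => hv (hA₀' h)
      have a1 := hg (insert v A) A₀ (insert_subset_insert v hA) (hA₀'.trans (subset_insert v V))
      have a2 := hf A (insert v A₀) (hA.trans (subset_insert v V)) (insert_subset_insert v hA₀')
      have e1 : insert v A ∪ A₀ = A ∪ insert v A₀ := by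
        ext x; simp only [mem_union, mem_insert]; tauto
      have e2 : insert v A ∩ A₀ = A ∩ insert v A₀ := by
        ext x
        simp only [mem_inter, mem_insert]
        constructor
        · rintro ⟨rfl | hx, hx'⟩
          · exact absurd hx' hvA0
          · exact ⟨hx, Or.inr hx'⟩
        · rintro ⟨hx, rfl | hx'⟩
          · exact absurd hx hvA
          · exact ⟨Or.inr hx, hx'⟩
      rw [e1, e2] at a1
      have b1 := h (A ∪ insert v A₀)
        (union_subset (hA.trans (subset_insert v V)) (insert_subset_insert v hA₀'))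
      have b2 := h (A ∩ insert v A₀)
        (inter_subset_left.trans (hA.trans (subset_insert v V)))
      show g (insert v A) - f A ≤ f (insert v A₀) - g A₀
      linarith
    obtain ⟨m, hm⟩ := ih (fun A => min (f A) (f (insert v A) - t))
      (fun A => max (g A) (g (insert v A) - t)) (hf.project hv t) (hg.project hv t)
      (by
        have := t1 ∅ (empty_subset V)
        have h2 : t ≤ f {v} := by simpa [g0] using this
        show min (f ∅) (f (insert v ∅) - t) = 0
        rw [f0, min_eq_left]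
        simpa using h2)
      (by
        have := t2 ∅ (empty_subset V)
        have h2 : g {v} ≤ t := by simpa [f0] using this
        show max (g ∅) (g (insert v ∅) - t) = 0
        rw [g0, max_eq_left]
        simpa using h2)
      (by
        intro A hA
        have c1 := h A (hA.trans (subset_insert v V))
        have c2 := h (insert v A) (insert_subset_insert v hA)
        have c3 := t1 A hA
        have c4 := t2 A hA
        refine max_le (le_min c1 (by linarith)) (le_min (by linarith) (by linarith)))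
    refine ⟨Function.update m v t, fun A hA => ?_⟩
    by_cases hvA : v ∈ A
    · have hA' : A.erase v ⊆ V := by
        intro x hx
        rcases mem_insert.1 (hA (mem_of_mem_erase hx)) with e | e
        · exact absurd e (ne_of_mem_erase hx)
        · exact e
      have hsum : ∑ a ∈ A, Function.update m v t a = t + ∑ a ∈ A.erase v, m a := by
        rw [← Finset.add_sum_erase A _ hvA, Function.update_self]
        congr 1
        exact Finset.sum_congr rfl fun x hx => Function.update_of_ne (ne_of_mem_erase hx) _ _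
      obtain ⟨h1, h2⟩ := hm (A.erase v) hA'
      have h3 := le_max_right (g (A.erase v)) (g (insert v (A.erase v)) - t)
      have h4 := min_le_right (f (A.erase v)) (f (insert v (A.erase v)) - t)
      rw [insert_erase hvA] at h3 h4 h1 h2
      rw [hsum]
      constructor
      · have := h3.trans h1; linarith
      · have := h2.trans h4; linarith
    · have hA' : A ⊆ V := by
        intro x hx
        rcases mem_insert.1 (hA hx) with e | e
        · subst e; exact absurd hx hvA
        · exact e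
      have hsum : ∑ a ∈ A, Function.update m v t a = ∑ a ∈ A, m a :=
        Finset.sum_congr rfl fun x hx =>
          Function.update_of_ne (by rintro rfl; exact hvA hx) _ _
      obtain ⟨h1, h2⟩ := hm A hA'
      rw [hsum]
      exact ⟨(le_max_left _ _).trans h1, h2.trans (min_le_left _ _)⟩

/-! ### closures -/

variable [Fintype α]

/-- `min_{Z ⊇ A} f Z` -/
def upMin (f : Finset α → ℤ) (A : Finset α) : ℤ :=
  (univ.filter fun Z : Finset α => A ⊆ Z).inf' ⟨univ, by simp⟩ f

theorem upMin_le (f : Finset α → ℤ) {A Z : Finset α} (h : A ⊆ Z) : upMin f A ≤ f Z :=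
  Finset.inf'_le f (by simpa using h)

theorem exists_upMin (f : Finset α → ℤ) (A : Finset α) : ∃ Z, A ⊆ Z ∧ upMin f A = f Z := by
  obtain ⟨Z, hZ, e⟩ := Finset.exists_mem_eq_inf' (s := univ.filter fun Z : Finset α => A ⊆ Z)
    ⟨univ, by simp⟩ f
  exact ⟨Z, by simpa using hZ, e⟩

theorem upMin_sub {f : Finset α → ℤ} (hf : SubOn univ f) : SubOn univ (upMin f) := by
  intro A B _ _
  obtain ⟨X, hX, eX⟩ := exists_upMin f A
  obtain ⟨Y, hY, eY⟩ := exists_upMin f B
  rw [eX, eY]
  have h1 := upMin_le f (union_subset_union hX hY)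
  have h2 := upMin_le f (inter_subset_inter hX hY)
  have h3 := hf X Y (subset_univ _) (subset_univ _)
  linarith

theorem upMin_mono (f : Finset α → ℤ) {A B : Finset α} (h : A ⊆ B) : upMin f A ≤ upMin f B := by
  obtain ⟨Y, hY, eY⟩ := exists_upMin f B
  rw [eY]
  exact upMin_le f (h.trans hY)

/-- **Common integer bases above `l`**: for submodular `f₁, f₂` with `f₁ ∅ = f₂ ∅ = 0` and
`f₁ univ = f₂ univ = R`. -/
theorem exists_common_ge {f₁ f₂ : Finset α → ℤ} (h₁ : SubOn univ f₁) (h₂ : SubOn univ f₂)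
    (z₁ : f₁ ∅ = 0) (z₂ : f₂ ∅ = 0) {R : ℤ} (e₁ : f₁ univ = R) (e₂ : f₂ univ = R) (l : α → ℤ) :
    (∃ x : α → ℤ, (∀ a, l a ≤ x a) ∧ ∑ a, x a = R ∧ (∀ A, ∑ a ∈ A, x a ≤ f₁ A) ∧
      ∀ A, ∑ a ∈ A, x a ≤ f₂ A) ↔
    ∀ X Y : Finset α, X ∪ Y = univ → R ≤ f₁ X + f₂ Y - ∑ a ∈ X ∩ Y, l a := by
  constructor
  · rintro ⟨x, hl, hR, hx1, hx2⟩ X Y hXY
    have a1 := hx1 X
    have a2 := hx2 Y
    have a3 := Finset.sum_union_inter (s₁ := X) (s₂ := Y) (f := x)
    rw [hXY, hR] at a3
    have a4 : ∑ a ∈ X ∩ Y, l a ≤ ∑ a ∈ X ∩ Y, x a := Finset.sum_le_sum fun a _ => hl a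
    linarith
  · intro h
    -- shifted functions
    set F₁ : Finset α → ℤ := fun A => f₁ A - ∑ a ∈ A, l a with hF₁
    set F₂ : Finset α → ℤ := fun A => f₂ A - ∑ a ∈ A, l a with hF₂
    have s₁ : SubOn univ F₁ := fun A B hA hB => by
      have := h₁ A B hA hB
      have h' := Finset.sum_union_inter (s₁ := A) (s₂ := B) (f := l)
      show f₁ (A ∪ B) - ∑ a ∈ A ∪ B, l a + (f₁ (A ∩ B) - ∑ a ∈ A ∩ B, l a) ≤
        f₁ A - ∑ a ∈ A, l a + (f₁ B - ∑ a ∈ B, l a)
      linarith
    have s₂ : SubOn univ F₂ := fun A B hA hB => by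
      have := h₂ A B hA hB
      have h' := Finset.sum_union_inter (s₁ := A) (s₂ := B) (f := l)
      show f₂ (A ∪ B) - ∑ a ∈ A ∪ B, l a + (f₂ (A ∩ B) - ∑ a ∈ A ∩ B, l a) ≤
        f₂ A - ∑ a ∈ A, l a + (f₂ B - ∑ a ∈ B, l a)
      linarith
    have key : ∀ X Y : Finset α, X ∪ Y = univ → R - ∑ a, l a ≤ F₁ X + F₂ Y := by
      intro X Y hXY
      have := h X Y hXY
      have h' := Finset.sum_union_inter (s₁ := X) (s₂ := Y) (f := l)
      rw [hXY] at h'
      show R - ∑ a, l a ≤ f₁ X - ∑ a ∈ X, l a + (f₂ Y - ∑ a ∈ Y, l a)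
      linarith
    have u₁ : F₁ univ = R - ∑ a, l a := by show f₁ univ - _ = _; rw [e₁]
    have u₂ : F₂ univ = R - ∑ a, l a := by show f₂ univ - _ = _; rw [e₂]
    have w₁ : F₁ ∅ = 0 := by show f₁ ∅ - _ = _; rw [z₁]; simp
    have w₂ : F₂ ∅ = 0 := by show f₂ ∅ - _ = _; rw [z₂]; simp
    have keyU : ∀ A B : Finset α, A ∪ B = univ → R - ∑ a, l a ≤ upMin F₁ A + upMin F₂ B := by
      intro A B hAB
      obtain ⟨X, hX, eX⟩ := exists_upMin F₁ A
      obtain ⟨Y, hY, eY⟩ := exists_upMin F₂ B
      rw [eX, eY]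
      refine key X Y (eq_univ_of_forall fun a => ?_)
      have : a ∈ A ∪ B := by rw [hAB]; exact mem_univ a
      rcases mem_union.1 this with h' | h'
      · exact mem_union_left _ (hX h')
      · exact mem_union_right _ (hY h')
    have up1 : upMin F₁ univ = R - ∑ a, l a := by
      obtain ⟨X, hX, eX⟩ := exists_upMin F₁ univ
      rw [eX, univ_subset_iff.1 hX, u₁]
    have up2 : upMin F₂ univ = R - ∑ a, l a := by
      obtain ⟨X, hX, eX⟩ := exists_upMin F₂ univ
      rw [eX, univ_subset_iff.1 hX, u₂]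
    have ze1 : upMin F₁ ∅ = 0 := by
      refine le_antisymm ((upMin_le F₁ (Subset.refl ∅)).trans_eq w₁) ?_
      have := keyU ∅ univ (by simp)
      rw [up2] at this
      linarith
    have ze2 : upMin F₂ ∅ = 0 := by
      refine le_antisymm ((upMin_le F₂ (Subset.refl ∅)).trans_eq w₂) ?_
      have := keyU univ ∅ (by simp)
      rw [up1] at this
      linarith
    have hsup : SupOn univ (fun A => R - ∑ a, l a - upMin F₂ Aᶜ) := by
      intro A B _ _
      have := upMin_sub s₂ Aᶜ Bᶜ (subset_univ _) (subset_univ _)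
      rw [← compl_inter, ← compl_union] at this
      show R - ∑ a, l a - upMin F₂ Aᶜ + (R - ∑ a, l a - upMin F₂ Bᶜ) ≤
        R - ∑ a, l a - upMin F₂ (A ∪ B)ᶜ + (R - ∑ a, l a - upMin F₂ (A ∩ B)ᶜ)
      linarith
    obtain ⟨m, hm⟩ := sandwich univ (upMin F₁) (fun A => R - ∑ a, l a - upMin F₂ Aᶜ)
      (upMin_sub s₁) hsup ze1 (by
        show R - ∑ a, l a - upMin F₂ ∅ᶜ = 0
        rw [compl_empty, up2]; ring)
      (fun A _ => by
        have := keyU A Aᶜ (by simp)
        show R - ∑ a, l a - upMin F₂ Aᶜ ≤ upMin F₁ A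
        linarith)
    have hmu : ∑ a, m a = R - ∑ a, l a := by
      obtain ⟨c1, c2⟩ := hm univ (subset_univ _)
      rw [up1] at c2
      simp only [compl_univ, ze2] at c1
      linarith
    have hm2 : ∀ A : Finset α, ∑ a ∈ A, m a ≤ upMin F₂ A := by
      intro A
      obtain ⟨c1, _⟩ := hm Aᶜ (subset_univ _)
      simp only [compl_compl] at c1
      have := Finset.sum_add_sum_compl A m
      linarith
    refine ⟨fun a => m a + l a, fun a => ?_, ?_, fun A => ?_, fun A => ?_⟩
    · -- `0 ≤ m a`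
      have c1 := (hm {a}ᶜ (subset_univ _)).2
      have c2 := upMin_mono F₁ (subset_univ ({a}ᶜ : Finset α))
      rw [up1] at c2
      have c3 := Finset.sum_add_sum_compl {a} m
      rw [Finset.sum_singleton] at c3
      show l a ≤ m a + l a
      linarith
    · rw [Finset.sum_add_distrib]; linarith
    · have c1 := (hm A (subset_univ _)).2
      have c2 := upMin_le F₁ (Subset.refl A)
      have c3 : F₁ A = f₁ A - ∑ a ∈ A, l a := rfl
      rw [Finset.sum_add_distrib]; linarith
    · have c1 := hm2 A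
      have c2 := upMin_le F₂ (Subset.refl A)
      have c3 : F₂ A = f₂ A - ∑ a ∈ A, l a := rfl
      rw [Finset.sum_add_distrib]; linarith

/-! ### the row's statement -/

open Crest.Polymatroid

variable {n : ℕ}

theorem rank_sub {r : Finset (Fin n) → ℕ} (h : IsPolymatroidRank r) :
    SubOn univ (fun A => (r A : ℤ)) := fun A B _ _ => by
  have := h.2.2 A B
  show (r (A ∪ B) : ℤ) + (r (A ∩ B) : ℤ) ≤ r A + r B
  exact_mod_cast this

/-- integer bases as integer vectors -/
def IsBaseVec (R : ℕ) (r₁ r₂ : Finset (Fin n) → ℕ) (x : Fin n → ℕ) : Prop :=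
  ∑ j, x j = R ∧ ∀ A : Finset (Fin n), ∑ j ∈ A, x j ≤ r₁ A ∧ ∑ j ∈ A, x j ≤ r₂ A

theorem numCommonIntBases_ne_zero_iff (R : ℕ) (r₁ r₂ : Finset (Fin n) → ℕ) :
    numCommonIntBases R r₁ r₂ ≠ 0 ↔ ∃ x : Fin n → ℕ, IsBaseVec R r₁ r₂ x := by
  unfold numCommonIntBases
  rw [← Nat.pos_iff_ne_zero, Finset.card_pos]
  constructor
  · rintro ⟨x, hx⟩
    rw [mem_filter] at hx
    exact ⟨fun j => (x j : ℕ), hx.2.1, hx.2.2⟩
  · rintro ⟨x, hx⟩
    have hlt : ∀ j, x j < R + 1 := fun j => by
      have : x j ≤ ∑ j, x j := Finset.single_le_sum (fun _ _ => Nat.zero_le _) (mem_univ j)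
      rw [hx.1] at this
      omega
    exact ⟨fun j => ⟨x j, hlt j⟩, by rw [mem_filter]; exact ⟨mem_univ _, hx.1, hx.2⟩⟩

/-- common bases above a natural lower bound -/
theorem exists_baseVec_ge_iff {R : ℕ} {r₁ r₂ : Finset (Fin n) → ℕ} (h₁ : IsPolymatroidRank r₁)
    (h₂ : IsPolymatroidRank r₂) (e₁ : r₁ univ = R) (e₂ : r₂ univ = R) (l : Fin n → ℕ) :
    (∃ x : Fin n → ℕ, (∀ j, l j ≤ x j) ∧ IsBaseVec R r₁ r₂ x) ↔
      ∀ X Y : Finset (Fin n), X ∪ Y = univ → R + ∑ j ∈ X ∩ Y, l j ≤ r₁ X + r₂ Y := by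
  have key := exists_common_ge (rank_sub h₁) (rank_sub h₂) (R := (R : ℤ)) (by simp [h₁.1])
    (by simp [h₂.1]) (by simp [e₁]) (by simp [e₂]) (fun j => (l j : ℤ))
  constructor
  · rintro ⟨x, hl, hx⟩ X Y hXY
    have b1 : ∀ j, (l j : ℤ) ≤ (x j : ℤ) := fun j => by exact_mod_cast hl j
    have b2 : ∑ j, (x j : ℤ) = R := by exact_mod_cast hx.1
    have b3 : ∀ A : Finset (Fin n), ∑ j ∈ A, (x j : ℤ) ≤ (r₁ A : ℤ) := fun A => by
      exact_mod_cast (hx.2 A).1
    have b4 : ∀ A : Finset (Fin n), ∑ j ∈ A, (x j : ℤ) ≤ (r₂ A : ℤ) := fun A => by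
      exact_mod_cast (hx.2 A).2
    have := key.1 ⟨fun j => (x j : ℤ), b1, b2, b3, b4⟩ X Y hXY
    have h' : (R : ℤ) + ∑ j ∈ X ∩ Y, (l j : ℤ) ≤ r₁ X + r₂ Y := by linarith
    exact_mod_cast h'
  · intro h
    obtain ⟨x, hl, hR, hx1, hx2⟩ := key.2 fun X Y hXY => by
      have := h X Y hXY
      have h' : (R : ℤ) + ∑ j ∈ X ∩ Y, (l j : ℤ) ≤ r₁ X + r₂ Y := by exact_mod_cast this
      linarith
    have hx0 : ∀ j, 0 ≤ x j := fun j => le_trans (by positivity) (hl j)
    have hc : ∀ A : Finset (Fin n), ((∑ j ∈ A, (x j).toNat : ℕ) : ℤ) = ∑ j ∈ A, x j := fun A => by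
      push_cast
      exact Finset.sum_congr rfl fun j _ => Int.toNat_of_nonneg (hx0 j)
    refine ⟨fun j => (x j).toNat, fun j => ?_, ?_, fun A => ⟨?_, ?_⟩⟩
    · have := hl j
      have h2 : ((x j).toNat : ℤ) = x j := Int.toNat_of_nonneg (hx0 j)
      show l j ≤ (x j).toNat
      omega
    · have := hc univ
      rw [hR] at this
      exact_mod_cast this
    · have := hx1 A
      rw [← hc A] at this
      exact_mod_cast this
    · have := hx2 A
      rw [← hc A] at this
      exact_mod_cast this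

/-- **Emptiness criterion** (Edmonds) -/
theorem numCommonIntBases_eq_zero_iff {R : ℕ} {r₁ r₂ : Finset (Fin n) → ℕ}
    (h₁ : IsPolymatroidRank r₁) (h₂ : IsPolymatroidRank r₂) (e₁ : r₁ univ = R) (e₂ : r₂ univ = R) :
    numCommonIntBases R r₁ r₂ = 0 ↔ ∃ A : Finset (Fin n), r₁ A + r₂ Aᶜ < R := by
  rw [← not_iff_not, ← ne_eq, numCommonIntBases_ne_zero_iff]
  push Not
  have := exists_baseVec_ge_iff h₁ h₂ e₁ e₂ (fun _ => 0)
  simp only [Nat.zero_le, implies_true, true_and, sum_const_zero, add_zero] at this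
  rw [this]
  constructor
  · intro h A
    exact h A Aᶜ (by simp)
  · intro h X Y hXY
    have hsub : Xᶜ ⊆ Y := by
      intro a ha
      have : a ∈ X ∪ Y := by rw [hXY]; exact mem_univ a
      rcases mem_union.1 this with h' | h'
      · exact absurd h' (mem_compl.1 ha)
      · exact h'
    exact (h X).trans (Nat.add_le_add_left (h₂.2.1 _ _ hsub) _)

end Crest.Agent.R302.EDM
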