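import Crest.Agent.R302.Sfm646B

/-! Submodular function minimisation by cutting simplices: the algorithm and its exactness. -/

set_option autoImplicit false

namespace Crest.Agent.R302.Sfm646

open Finset

/-- state of the algorithm: vertices (over the common scale `s`) and the best set found -/
structure St (n : ℕ) where
  V : Fin (n+1) → Fin n → ℤ
  s : ℤ
  best : Finset (Fin n)

variable {n : ℕ}

/-- a coordinate of the centroid outside `[0,1]` -/
def bad (s : ℤ) (V : Fin (n+1) → Fin n → ℤ) : Option (Fin n) :=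
  (List.finRange n).find? fun j => decide (cen V j < 0 ∨ ((n:ℤ) + 1) * s < cen V j)

/-- the cut functional -/
def cutg (f : Finset (Fin n) → ℤ) (σ : St n) : Fin n → ℤ :=
  match bad σ.s σ.V with
  | some j0 => fun j => if j = j0 then (if cen σ.V j0 < 0 then -1 else 1) else 0
  | none => gy f (cen σ.V)

/-- the best set after looking at the level sets of the centroid -/
def newBest (f : Finset (Fin n) → ℤ) (σ : St n) : Finset (Fin n) :=
  match bad σ.s σ.V with
  | some _ => σ.best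
  | none => (List.finRange n).foldl
      (fun b j => if f (lev (cen σ.V) j) < f b then lev (cen σ.V) j else b) σ.best

def stp (f : Finset (Fin n) → ℤ) (σ : St n) : St n :=
  ⟨stepV σ.V (cutg f σ), 64 * (n:ℤ)^3 * σ.s, newBest f σ⟩

def st0 (n : ℕ) : St n := ⟨V0 n, 1, ∅⟩

def sfmIter (n M : ℕ) : ℕ := 64 * n^3 * (Nat.clog 2 (n * (3 * M + 1)) + 1)

/-- the computed minimiser -/
def sfmArg (n M : ℕ) (f : Finset (Fin n) → ℤ) : Finset (Fin n) :=
  ((stp f)^[sfmIter n M] (st0 n)).best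

/-- the computed minimum -/
def sfmMin (n M : ℕ) (f : Finset (Fin n) → ℤ) : ℤ := f (sfmArg n M f)

theorem foldl_best (f : Finset (Fin n) → ℤ) (g : Fin n → Finset (Fin n)) (L : List (Fin n))
    (b : Finset (Fin n)) :
    f (L.foldl (fun b j => if f (g j) < f b then g j else b) b) ≤ f b ∧
    ∀ j ∈ L, f (L.foldl (fun b j => if f (g j) < f b then g j else b) b) ≤ f (g j) := by
  induction L generalizing b with
  | nil => simp
  | cons a L ih =>
    simp only [List.foldl_cons]
    obtain ⟨h1, h2⟩ := ih (if f (g a) < f b then g a else b)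
    have h3 : f (if f (g a) < f b then g a else b) ≤ f b ∧
        f (if f (g a) < f b then g a else b) ≤ f (g a) := by
      split_ifs with h
      · exact ⟨h.le, le_rfl⟩
      · exact ⟨le_rfl, not_lt.mp h⟩
    refine ⟨h1.trans h3.1, ?_⟩
    intro i hi
    rcases List.mem_cons.mp hi with rfl | hi
    · exact h1.trans h3.2
    · exact h2 i hi

theorem newBest_le (f : Finset (Fin n) → ℤ) (σ : St n) : f (newBest f σ) ≤ f σ.best := by
  unfold newBest
  split
  · exact le_rfl
  · exact (foldl_best f _ _ _).1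

theorem newBest_le_lev (f : Finset (Fin n) → ℤ) (σ : St n) (h : bad σ.s σ.V = none)
    (j : Fin n) : f (newBest f σ) ≤ f (lev (cen σ.V) j) := by
  unfold newBest
  rw [h]
  exact (foldl_best f (fun j => lev (cen σ.V) j) _ _).2 j (List.mem_finRange j)

theorem iter_s (f : Finset (Fin n) → ℤ) (k : ℕ) :
    ((stp f)^[k] (st0 n)).s = (64 * (n:ℤ)^3)^k := by
  induction k with
  | zero => simp [st0]
  | succ k ih =>
    rw [Function.iterate_succ_apply', stp]
    simp only [ih]
    ring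

section exact

variable (hn : 1 ≤ n) (f : Finset (Fin n) → ℤ)
  (hf : ∀ A B, f (A ∪ B) + f (A ∩ B) ≤ f A + f B) (h0 : f ∅ = 0) (M : ℕ) (hM : ∀ A, |f A| ≤ M)
  (As : Finset (Fin n))

/-- the test points -/
noncomputable def tp (M : ℕ) (As : Finset (Fin n)) : Fin (n+1) → Fin n → ℝ :=
  Fin.cons (fun j => (1 - 1/(3*(M:ℝ)+1)) * (if j ∈ As then 1 else 0))
    (fun i j => (1 - 1/(3*(M:ℝ)+1)) * (if j ∈ As then 1 else 0) +
      if i = j then 1/(3*(M:ℝ)+1) else 0)

theorem tp_bounds (M : ℕ) (As : Finset (Fin n)) (i : Fin (n+1)) (j : Fin n) :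
    0 ≤ tp M As i j ∧ tp M As i j ≤ 1 := by
  have hM0 : (0:ℝ) ≤ M := Nat.cast_nonneg M
  have h1 : 0 ≤ 1/(3*(M:ℝ)+1) := by positivity
  have h2 : 1/(3*(M:ℝ)+1) ≤ 1 := by
    rw [div_le_one (by positivity)]; linarith
  generalize hη : 1/(3*(M:ℝ)+1) = η at h1 h2
  refine Fin.cases ?_ (fun i => ?_) i
  · simp only [tp, Fin.cons_zero, hη]
    split_ifs <;> constructor <;> linarith
  · simp only [tp, Fin.cons_succ, hη]
    split_ifs <;> constructor <;> linarith

include hf h0 hM in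
theorem gy_tp_lt (c : Fin n → ℤ) (β : ℤ) (hβ : f As < β) (i : Fin (n+1)) :
    ∑ j, (gy f c j : ℝ) * tp M As i j < β := by
  have hM0 : (0:ℝ) ≤ M := Nat.cast_nonneg M
  have hpos : (0:ℝ) < 3*(M:ℝ)+1 := by positivity
  have h1 : 0 < 1/(3*(M:ℝ)+1) := by positivity
  have h2 : 1/(3*(M:ℝ)+1) ≤ 1 := by
    rw [div_le_one (by positivity)]; linarith
  have h3 : 1/(3*(M:ℝ)+1) * (3*(M:ℝ)+1) = 1 := by field_simp
  have hy : ∑ j, (gy f c j : ℝ) * (if j ∈ As then (1:ℝ) else 0) ≤ f As := by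
    have h := gy_sum_le f hf h0 c As
    have h' : (∑ j ∈ As, (gy f c j : ℝ)) ≤ f As := by exact_mod_cast h
    have h'' : ∑ j, (gy f c j : ℝ) * (if j ∈ As then (1:ℝ) else 0) = ∑ j ∈ As, (gy f c j : ℝ) := by
      simp [Finset.sum_ite_mem]
    rw [h'']; exact h'
  have hyj : ∀ j, (gy f c j : ℝ) ≤ 2 * M := by
    intro j
    have ha := abs_le.mp (hM (lev c j))
    have hb := abs_le.mp (hM ((lev c j).erase j))
    have : gy f c j ≤ 2 * M := by unfold gy; linarith
    exact_mod_cast this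
  have hfA : -(M:ℝ) ≤ f As := by
    have := (abs_le.mp (hM As)).1
    exact_mod_cast this
  have hβ' : (f As : ℝ) + 1 ≤ β := by exact_mod_cast hβ
  generalize hη : 1/(3*(M:ℝ)+1) = η at h1 h2 h3
  refine Fin.cases ?_ (fun i => ?_) i
  · simp only [tp, Fin.cons_zero, hη]
    have h4 : ∑ j, (gy f c j : ℝ) * ((1 - η) * (if j ∈ As then (1:ℝ) else 0)) =
        (1 - η) * ∑ j, (gy f c j : ℝ) * (if j ∈ As then (1:ℝ) else 0) := by
      rw [Finset.mul_sum]; exact Finset.sum_congr rfl fun j _ => by ring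
    rw [h4]
    nlinarith
  · simp only [tp, Fin.cons_succ, hη]
    have h4 : ∑ j, (gy f c j : ℝ) * ((1 - η) * (if j ∈ As then (1:ℝ) else 0) +
          (if i = j then η else 0)) =
        (1 - η) * ∑ j, (gy f c j : ℝ) * (if j ∈ As then (1:ℝ) else 0) + η * gy f c i := by
      rw [Finset.mul_sum]
      have : η * (gy f c i : ℝ) = ∑ j, (gy f c j : ℝ) * (if i = j then η else 0) := by
        simp [mul_comm]
      rw [this, ← Finset.sum_add_distrib]
      exact Finset.sum_congr rfl fun j _ => by ring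
    rw [h4]
    have := hyj i
    nlinarith

include hn hf h0 hM in
theorem cut_holds (σ : St n) (hs : 0 < σ.s) (h0b : f σ.best ≤ 0) (hlt : f As < f (newBest f σ))
    (i : Fin (n+1)) :
    Cut (σ.s : ℝ) σ.V (cutg f σ) (tp M As i) := by
  have hsR : (0:ℝ) < (σ.s : ℝ) := by exact_mod_cast hs
  have hnR : (0:ℝ) < (n:ℝ) + 1 := by positivity
  unfold Cut cutg
  cases hb : bad σ.s σ.V with
  | some j0 =>
    have hj0 := List.find?_some hb
    simp only [decide_eq_true_eq] at hj0
    simp only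
    by_cases hneg : cen σ.V j0 < 0
    · simp only [hneg, if_true]
      have h1 : ∑ j, (((if j = j0 then (-1:ℤ) else 0 : ℤ)) : ℝ) * tp M As i j = - tp M As i j0 := by
        simp
      have h2 : ∑ j, (((if j = j0 then (-1:ℤ) else 0 : ℤ)) : ℝ) * (cen σ.V j : ℝ) = -(cen σ.V j0 : ℝ) := by
        simp
      rw [h1, h2]
      have h3 : (cen σ.V j0 : ℝ) < 0 := by exact_mod_cast hneg
      have h4 := (tp_bounds M As i j0).1
      have h5 : 0 ≤ ((n:ℝ) + 1) * σ.s * tp M As i j0 := by positivity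
      linarith
    · simp only [hneg, if_false]
      have hj1 : ((n:ℤ) + 1) * σ.s < cen σ.V j0 := by
        rcases hj0 with h | h
        · exact absurd h hneg
        · exact h
      have h1 : ∑ j, (((if j = j0 then (1:ℤ) else 0 : ℤ)) : ℝ) * tp M As i j = tp M As i j0 := by
        simp
      have h2 : ∑ j, (((if j = j0 then (1:ℤ) else 0 : ℤ)) : ℝ) * (cen σ.V j : ℝ) = (cen σ.V j0 : ℝ) := by
        simp
      rw [h1, h2]
      have h3 : ((n:ℝ) + 1) * σ.s < (cen σ.V j0 : ℝ) := by exact_mod_cast hj1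
      have h4 := (tp_bounds M As i j0).2
      have h5 : ((n:ℝ) + 1) * σ.s * tp M As i j0 ≤ ((n:ℝ) + 1) * σ.s * 1 := by gcongr
      linarith
  | none =>
    simp only
    have hall : ∀ j, 0 ≤ cen σ.V j ∧ cen σ.V j ≤ ((n:ℤ) + 1) * σ.s := by
      intro j
      have := List.find?_eq_none.mp hb j (List.mem_finRange j)
      simp only [decide_eq_true_eq, not_or, not_lt] at this
      exact this
    have h1 := abel_univ f h0 (cen σ.V) (f (newBest f σ)) (((n:ℤ) + 1) * σ.s)
      ((newBest_le f σ).trans h0b) (newBest_le_lev f σ hb) (fun j => (hall j).2)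
      (fun j => (hall j).1) (by positivity)
    have h2 := gy_tp_lt f hf h0 M hM As (cen σ.V) (f (newBest f σ)) hlt i
    have h1' : (f (newBest f σ) : ℝ) * (((n:ℝ) + 1) * σ.s) ≤
        ∑ j, (gy f (cen σ.V) j : ℝ) * (cen σ.V j : ℝ) := by exact_mod_cast h1
    have h3 : ((n:ℝ) + 1) * σ.s * ∑ j, (gy f (cen σ.V) j : ℝ) * tp M As i j <
        ((n:ℝ) + 1) * σ.s * (f (newBest f σ)) := by
      have : (0:ℝ) < ((n:ℝ) + 1) * σ.s := by positivity
      exact mul_lt_mul_of_pos_left h2 this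
    linarith

theorem best_anti (f : Finset (Fin n) → ℤ) (σ : St n) (k : ℕ) :
    ∀ l, k ≤ l → f ((stp f)^[l] σ).best ≤ f ((stp f)^[k] σ).best := by
  intro l hl
  induction l, hl using Nat.le_induction with
  | base => exact le_rfl
  | succ l _ ih =>
    rw [Function.iterate_succ_apply']
    exact (newBest_le f _).trans ih

include hn hf h0 hM in
theorem sfm_inv (N : ℕ) (hlt : f As < f ((stp f)^[N] (st0 n)).best) :
    ∀ k ≤ N, (∀ i, InSimplex (((stp f)^[k] (st0 n)).s : ℝ) (rV ((stp f)^[k] (st0 n)).V) (tp M As i)) ∧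
      |(hmat (((stp f)^[k] (st0 n)).s : ℝ) (rV ((stp f)^[k] (st0 n)).V)).det| /
        (((stp f)^[k] (st0 n)).s : ℝ) ^ (n+1) ≤ Real.exp (-(1 / (64 * (n:ℝ)^2))) ^ k * (n:ℝ)^n := by
  intro k hk
  induction k with
  | zero =>
    constructor
    · intro i
      simpa [st0] using V0_mem hn (tp M As i) (fun j => (tp_bounds M As i j).1)
        (fun j => (tp_bounds M As i j).2)
    · have := V0_det n
      simp only [one_pow, div_one] at this
      simp [st0, this]
  | succ k ih =>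
    obtain ⟨ih1, ih2⟩ := ih (by omega)
    set σ := (stp f)^[k] (st0 n) with hσ
    have hsσ : 0 < σ.s := by
      rw [hσ, iter_s]
      have : (1:ℤ) ≤ n := by exact_mod_cast hn
      positivity
    have hsR : (0:ℝ) < (σ.s : ℝ) := by exact_mod_cast hsσ
    have hb0 : f σ.best ≤ 0 := by
      have := best_anti f (st0 n) 0 k (Nat.zero_le _)
      simpa [st0, h0, hσ] using this
    have hlt' : f As < f (newBest f σ) := by
      have h1 := best_anti f (st0 n) (k+1) N hk
      rw [Function.iterate_succ_apply'] at h1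
      exact lt_of_lt_of_le hlt h1
    have hstep : ∀ i, _ := fun i => step_spec hn (σ.s : ℝ) σ.V (cutg f σ) (tp M As i) (ih1 i)
      (cut_holds hn f hf h0 M hM As σ hsσ hb0 hlt' i)
    have hnot : ¬ ((σ.s : ℝ) ≤ 0) := not_le.mpr hsR
    rw [Function.iterate_succ_apply']
    have hs' : ((stp f σ).s : ℝ) = 64 * (n:ℝ)^3 * σ.s := by simp [stp]
    rw [← hσ, hs']
    constructor
    · intro i
      rcases hstep i with h | h
      · exact h.1
      · exact absurd h hnot
    · rcases hstep 0 with h | h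
      · refine h.2.trans ?_
        rw [pow_succ' (Real.exp (-(1 / (64 * (n:ℝ)^2)))) k, mul_assoc]
        gcongr
      · exact absurd h hnot

include hf h0 hM in
theorem sfmArg_spec : f (sfmArg n M f) ≤ f As := by
  rcases Nat.eq_zero_or_pos n with hn0 | hn
  · subst hn0
    rw [Subsingleton.elim (sfmArg 0 M f) As]
  by_contra hcon
  have hcon := not_le.mp hcon
  obtain ⟨h1, h2⟩ := sfm_inv hn f hf h0 M hM As (sfmIter n M) hcon (sfmIter n M) le_rfl
  set σ := (stp f)^[sfmIter n M] (st0 n) with hσ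
  have hsσ : 0 < σ.s := by
    rw [hσ, iter_s]
    have : (1:ℤ) ≤ n := by exact_mod_cast hn
    positivity
  have hsR : (0:ℝ) < (σ.s : ℝ) := by exact_mod_cast hsσ
  have h3 := det_le_of_inSimplex (σ.s : ℝ) hsR _ _ h1
  have h4 : (hmat 1 (tp M As)).det = (1/(3*(M:ℝ)+1))^n := by
    have := corner_det (fun j => (1 - 1/(3*(M:ℝ)+1)) * (if j ∈ As then (1:ℝ) else 0))
      (1/(3*(M:ℝ)+1))
    exact this
  have hM0 : (0:ℝ) ≤ M := Nat.cast_nonneg M
  have hnR : (1:ℝ) ≤ n := by exact_mod_cast hn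
  rw [h4, abs_of_nonneg (by positivity)] at h3
  have h5 := h3.trans h2
  set c := Nat.clog 2 (n * (3 * M + 1)) with hc
  have h6 : Real.exp (-(1 / (64 * (n:ℝ)^2))) ^ (sfmIter n M) = (Real.exp (-((c:ℝ)+1)))^n := by
    rw [← Real.exp_nat_mul, ← Real.exp_nat_mul]
    congr 1
    unfold sfmIter
    rw [← hc]
    push_cast
    field_simp
  rw [h6] at h5
  have h7 : (n:ℝ) * (3*(M:ℝ)+1) ≤ 2^c := by
    have := Nat.le_pow_clog (by norm_num : 1 < 2) (n * (3 * M + 1))
    rw [← hc] at this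
    exact_mod_cast this
  have h8 : (2:ℝ)^c < Real.exp ((c:ℝ)+1) := by
    have h9 : (2:ℝ)^c ≤ Real.exp (c:ℝ) := by
      rw [← Real.exp_one_rpow, Real.rpow_natCast]
      have : (2:ℝ) ≤ Real.exp 1 := by
        have := Real.add_one_le_exp (1:ℝ); linarith
      gcongr
    refine h9.trans_lt (Real.exp_lt_exp.mpr (by linarith))
  have h10 : 1 ≤ ((n:ℝ) * (3*(M:ℝ)+1) * Real.exp (-((c:ℝ)+1)))^n := by
    have h11 : ((n:ℝ) * (3*(M:ℝ)+1) * Real.exp (-((c:ℝ)+1)))^n =
        (3*(M:ℝ)+1)^n * (Real.exp (-((c:ℝ)+1))^n * (n:ℝ)^n) := by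
      rw [mul_pow, mul_pow]; ring
    rw [h11]
    have h12 : (1:ℝ) = (3*(M:ℝ)+1)^n * (1/(3*(M:ℝ)+1))^n := by
      rw [← mul_pow, mul_one_div_cancel (by positivity), one_pow]
    calc (1:ℝ) = (3*(M:ℝ)+1)^n * (1/(3*(M:ℝ)+1))^n := h12
      _ ≤ _ := by gcongr
  have h13 : (n:ℝ) * (3*(M:ℝ)+1) * Real.exp (-((c:ℝ)+1)) < 1 := by
    rw [Real.exp_neg, mul_inv_lt_iff₀ (Real.exp_pos _)]
    linarith
  have h14 : ((n:ℝ) * (3*(M:ℝ)+1) * Real.exp (-((c:ℝ)+1)))^n < 1 :=
    pow_lt_one₀ (by positivity) h13 (by omega)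
  linarith

end exact

end Crest.Agent.R302.Sfm646
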