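import Crest.Agent.R302.EDM1
import Crest.Agent.R302.Facet907
import Crest.Agent.R302.Sfm646C

/-!
# R302 / EDM, part 2: membership, exchange capacities, emptiness, feasibility above a lower bound
by exact submodular minimisation
-/

set_option autoImplicit false

namespace Crest.Agent.R302.EDM

open Finset Crest.Agent.R302.Facet Crest.Agent.R302.Sfm646

variable {n : ℕ}

/-- `∑ |x j|` -/
def nrm (x : Fin n → ℤ) : ℕ := ∑ j, (x j).natAbs

theorem abs_sum_le_nrm (x : Fin n → ℤ) (A : Finset (Fin n)) : |∑ j ∈ A, x j| ≤ nrm x := by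
  calc |∑ j ∈ A, x j| ≤ ∑ j ∈ A, |x j| := Finset.abs_sum_le_sum_abs _ _
    _ ≤ ∑ j, |x j| := Finset.sum_le_sum_of_subset_of_nonneg (subset_univ _)
        fun _ _ _ => abs_nonneg _
    _ = nrm x := by unfold nrm; push_cast; simp

/-- minimum of `r A - x(A)`; `K` bounds `|r|` -/
def minSlk (n K : ℕ) (r : Finset (Fin n) → ℤ) (x : Fin n → ℤ) : ℤ :=
  sfmMin n (K + nrm x) (fun A => r A - ∑ j ∈ A, x j)

theorem slk_submod {r : Finset (Fin n) → ℤ}
    (hr : ∀ A B, r (A ∪ B) + r (A ∩ B) ≤ r A + r B) (x : Fin n → ℤ) :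
    ∀ A B : Finset (Fin n), (fun A => r A - ∑ j ∈ A, x j) (A ∪ B) +
      (fun A => r A - ∑ j ∈ A, x j) (A ∩ B) ≤ (fun A => r A - ∑ j ∈ A, x j) A +
        (fun A => r A - ∑ j ∈ A, x j) B := by
  intro A B
  have h1 := hr A B
  have h2 := Finset.sum_union_inter (s₁ := A) (s₂ := B) (f := x)
  show r (A ∪ B) - ∑ j ∈ A ∪ B, x j + (r (A ∩ B) - ∑ j ∈ A ∩ B, x j) ≤
    r A - ∑ j ∈ A, x j + (r B - ∑ j ∈ B, x j)
  linarith

theorem slk_abs {r : Finset (Fin n) → ℤ} {K : ℕ} (hK : ∀ A, |r A| ≤ K) (x : Fin n → ℤ)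
    (A : Finset (Fin n)) : |r A - ∑ j ∈ A, x j| ≤ ((K + nrm x : ℕ) : ℤ) := by
  have h1 := hK A
  have h2 := abs_sum_le_nrm x A
  push_cast
  calc |r A - ∑ j ∈ A, x j| ≤ |r A| + |∑ j ∈ A, x j| := abs_sub _ _
    _ ≤ K + nrm x := add_le_add h1 h2

theorem minSlk_le {r : Finset (Fin n) → ℤ} {K : ℕ} {R : ℤ} (hr : SubM r R)
    (hK : ∀ A, |r A| ≤ K) (x : Fin n → ℤ) (A : Finset (Fin n)) :
    minSlk n K r x ≤ r A - ∑ j ∈ A, x j :=
  sfmArg_spec (n := n) (fun A => r A - ∑ j ∈ A, x j) (slk_submod hr.sub x) (by simp [hr.empty])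
    (K + nrm x) (slk_abs hK x) A

theorem exists_minSlk (r : Finset (Fin n) → ℤ) (K : ℕ) (x : Fin n → ℤ) :
    ∃ A : Finset (Fin n), minSlk n K r x = r A - ∑ j ∈ A, x j := ⟨_, rfl⟩

/-- membership of an integer vector in the base polytope -/
def memQ (n K : ℕ) (r : Finset (Fin n) → ℤ) (R : ℤ) (x : Fin n → ℤ) : Bool :=
  decide (∑ j, x j = R) && decide (0 ≤ minSlk n K r x)

theorem memQ_iff {r : Finset (Fin n) → ℤ} {K : ℕ} {R : ℤ} (hr : SubM r R)
    (hK : ∀ A, |r A| ≤ K) (x : Fin n → ℤ) : memQ n K r R x = true ↔ MemJ r R x := by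
  unfold memQ MemJ
  rw [Bool.and_eq_true, decide_eq_true_eq, decide_eq_true_eq]
  constructor
  · rintro ⟨h1, h2⟩
    refine ⟨fun A => ?_, h1⟩
    have := minSlk_le hr hK x A
    linarith
  · rintro ⟨h1, h2⟩
    refine ⟨h2, ?_⟩
    obtain ⟨A, hA⟩ := exists_minSlk r K x
    rw [hA]
    linarith [h1 A]

/-! ### constrained minimisation -/

/-- minimiser of `f` over the sets `A` with `I ⊆ A`, `A` disjoint from `O` -/
def minIn (n M : ℕ) (I O : Finset (Fin n)) (f : Finset (Fin n) → ℤ) : Finset (Fin n) :=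
  (sfmArg n (2 * M) (fun A => f ((A \ O) ∪ I) - f I)) \ O ∪ I

theorem minIn_mem (M : ℕ) {I O : Finset (Fin n)} (hIO : Disjoint I O)
    (f : Finset (Fin n) → ℤ) :
    I ⊆ minIn n M I O f ∧ Disjoint (minIn n M I O f) O := by
  unfold minIn
  refine ⟨subset_union_right, ?_⟩
  rw [disjoint_union_left]
  exact ⟨sdiff_disjoint, hIO⟩

theorem minIn_spec {M : ℕ} {I O : Finset (Fin n)}
    {f : Finset (Fin n) → ℤ} (hf : ∀ A B, f (A ∪ B) + f (A ∩ B) ≤ f A + f B)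
    (hM : ∀ A, |f A| ≤ M) {A : Finset (Fin n)} (hI : I ⊆ A) (hO : Disjoint A O) :
    f (minIn n M I O f) ≤ f A := by
  have h := sfmArg_spec (n := n) (fun A => f ((A \ O) ∪ I) - f I)
    (fun A B => by
      have := hf (A \ O ∪ I) (B \ O ∪ I)
      have e1 : (A \ O ∪ I) ∪ (B \ O ∪ I) = (A ∪ B) \ O ∪ I := by
        ext x; simp only [mem_union, mem_sdiff]; tauto
      have e2 : (A \ O ∪ I) ∩ (B \ O ∪ I) = (A ∩ B) \ O ∪ I := by
        ext x; simp only [mem_union, mem_sdiff, mem_inter]; tauto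
      rw [e1, e2] at this
      show f ((A ∪ B) \ O ∪ I) - f I + (f ((A ∩ B) \ O ∪ I) - f I) ≤
        f (A \ O ∪ I) - f I + (f (B \ O ∪ I) - f I)
      linarith)
    (by simp) (2 * M) (fun A => by
      have h1 := abs_le.1 (hM (A \ O ∪ I))
      have h2 := abs_le.1 (hM I)
      push_cast
      rw [abs_le]
      constructor <;> linarith [h1.1, h1.2, h2.1, h2.2]) A
  have e : A \ O ∪ I = A := by
    rw [sdiff_eq_self_of_disjoint hO, union_eq_left.2 hI]
  rw [e] at h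
  unfold minIn
  linarith

/-- exchange capacity by constrained minimisation -/
def capQ (n K : ℕ) (r : Finset (Fin n) → ℤ) (x : Fin n → ℤ) (a b : Fin n) : ℤ :=
  slk r x (minIn n (K + nrm x) {a} {b} (slk r x))

theorem capQ_eq {r : Finset (Fin n) → ℤ} {K : ℕ} {R : ℤ} (hr : SubM r R) (hK : ∀ A, |r A| ≤ K)
    (x : Fin n → ℤ) {a b : Fin n} (hab : a ≠ b) : capQ n K r x a b = cap r x a b := by
  have hd : Disjoint ({a} : Finset (Fin n)) {b} := by
    rw [disjoint_singleton]; exact hab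
  refine le_antisymm ?_ ?_
  · obtain ⟨A, hA1, hA2, hA⟩ := exists_cap (r := r) (x := x) hab
    rw [← hA]
    exact minIn_spec (slk_submod hr.sub x) (slk_abs hK x) (singleton_subset_iff.2 hA1)
      (disjoint_singleton_right.2 hA2)
  · obtain ⟨h1, h2⟩ := minIn_mem (n := n) (K + nrm x) hd (slk r x)
    exact cap_le (singleton_subset_iff.1 h1) (disjoint_singleton_right.1 h2)

/-! ### emptiness -/

/-- `min_A r₁ A + r₂ Aᶜ - R`; `K` bounds `|r₁|, |r₂|` -/
def gapQ (n K : ℕ) (r₁ r₂ : Finset (Fin n) → ℤ) (R : ℤ) : ℤ :=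
  sfmMin n (2 * K + R.natAbs) (fun A => r₁ A + r₂ Aᶜ - R)

theorem compl_submod {r : Finset (Fin n) → ℤ} (hr : ∀ A B, r (A ∪ B) + r (A ∩ B) ≤ r A + r B)
    (A B : Finset (Fin n)) : r (A ∪ B)ᶜ + r (A ∩ B)ᶜ ≤ r Aᶜ + r Bᶜ := by
  have := hr Aᶜ Bᶜ
  rw [← compl_inter, ← compl_union] at this
  linarith

theorem gapQ_le {r₁ r₂ : Finset (Fin n) → ℤ} {K : ℕ} {R : ℤ} (h₁ : SubM r₁ R) (h₂ : SubM r₂ R)
    (K₁ : ∀ A, |r₁ A| ≤ K) (K₂ : ∀ A, |r₂ A| ≤ K) (A : Finset (Fin n)) :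
    gapQ n K r₁ r₂ R ≤ r₁ A + r₂ Aᶜ - R :=
  sfmArg_spec (n := n) (fun A => r₁ A + r₂ Aᶜ - R)
    (fun A B => by
      have a1 := h₁.sub A B
      have a2 := compl_submod h₂.sub A B
      show r₁ (A ∪ B) + r₂ (A ∪ B)ᶜ - R + (r₁ (A ∩ B) + r₂ (A ∩ B)ᶜ - R) ≤
        r₁ A + r₂ Aᶜ - R + (r₁ B + r₂ Bᶜ - R)
      linarith)
    (by simp [h₁.empty, h₂.univ]) (2 * K + R.natAbs) (fun A => by
      have b1 := abs_le.1 (K₁ A)
      have b2 := abs_le.1 (K₂ Aᶜ)
      have b3 := abs_le.1 (le_refl |R|)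
      push_cast
      rw [abs_le]
      constructor <;> linarith [b1.1, b1.2, b2.1, b2.2, b3.1, b3.2]) A

theorem gapQ_nonneg_iff {r₁ r₂ : Finset (Fin n) → ℤ} {K : ℕ} {R : ℤ} (h₁ : SubM r₁ R)
    (h₂ : SubM r₂ R) (K₁ : ∀ A, |r₁ A| ≤ K) (K₂ : ∀ A, |r₂ A| ≤ K) :
    0 ≤ gapQ n K r₁ r₂ R ↔ ∀ A, R ≤ r₁ A + r₂ Aᶜ := by
  constructor
  · intro h A
    have := gapQ_le h₁ h₂ K₁ K₂ A
    linarith
  · intro h
    have e : gapQ n K r₁ r₂ R = r₁ (sfmArg n (2 * K + R.natAbs) (fun A => r₁ A + r₂ Aᶜ - R)) +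
      r₂ (sfmArg n (2 * K + R.natAbs) (fun A => r₁ A + r₂ Aᶜ - R))ᶜ - R := rfl
    rw [e]
    linarith [h (sfmArg n (2 * K + R.natAbs) (fun A => r₁ A + r₂ Aᶜ - R))]

/-! ### feasibility above a lower bound: doubled ground set -/

/-- first half of a subset of `Fin (n + n)` -/
def fstH (A : Finset (Fin (n + n))) : Finset (Fin n) := univ.filter fun i => Fin.castAdd n i ∈ A

/-- second half of a subset of `Fin (n + n)` -/
def sndH (A : Finset (Fin (n + n))) : Finset (Fin n) := univ.filter fun i => Fin.natAdd n i ∈ A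

theorem fstH_union (A B : Finset (Fin (n + n))) : fstH (A ∪ B) = fstH A ∪ fstH B := by
  ext i; simp [fstH]
theorem fstH_inter (A B : Finset (Fin (n + n))) : fstH (A ∩ B) = fstH A ∩ fstH B := by
  ext i; simp [fstH]
theorem sndH_union (A B : Finset (Fin (n + n))) : sndH (A ∪ B) = sndH A ∪ sndH B := by
  ext i; simp [sndH]
theorem sndH_inter (A B : Finset (Fin (n + n))) : sndH (A ∩ B) = sndH A ∩ sndH B := by
  ext i; simp [sndH]

/-- the coupled function: `r₁ X + r₂ Yᶜ + R |Y \ X| - l(X \ Y) - R` -/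
def dblF (r₁ r₂ : Finset (Fin n) → ℤ) (R : ℤ) (l : Fin n → ℤ) (A : Finset (Fin (n + n))) : ℤ :=
  r₁ (fstH A) + r₂ (sndH A)ᶜ + ∑ i, (if i ∈ sndH A ∧ i ∉ fstH A then R else 0) -
    ∑ i, (if i ∈ fstH A ∧ i ∉ sndH A then l i else 0) - R

/-- is there a common base above `l`? -/
def feasQ (n K : ℕ) (r₁ r₂ : Finset (Fin n) → ℤ) (R : ℤ) (l : Fin n → ℤ) : Bool :=
  (List.finRange n).all (fun i => decide (l i ≤ R)) &&
    decide (0 ≤ sfmMin (n + n) (2 * K + (n + 1) * R.natAbs + nrm l) (dblF r₁ r₂ R l))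

theorem dblF_submod {r₁ r₂ : Finset (Fin n) → ℤ} {R : ℤ} {l : Fin n → ℤ}
    (h₁ : SubM r₁ R) (h₂ : SubM r₂ R) (hl : ∀ i, l i ≤ R) (A B : Finset (Fin (n + n))) :
    dblF r₁ r₂ R l (A ∪ B) + dblF r₁ r₂ R l (A ∩ B) ≤ dblF r₁ r₂ R l A + dblF r₁ r₂ R l B := by
  unfold dblF
  rw [fstH_union, fstH_inter, sndH_union, sndH_inter]
  have a1 := h₁.sub (fstH A) (fstH B)
  have a2 := compl_submod h₂.sub (sndH A) (sndH B)
  have key : (∑ i, (if i ∈ sndH A ∪ sndH B ∧ i ∉ fstH A ∪ fstH B then R else 0) -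
      ∑ i, (if i ∈ fstH A ∪ fstH B ∧ i ∉ sndH A ∪ sndH B then l i else 0)) +
      (∑ i, (if i ∈ sndH A ∩ sndH B ∧ i ∉ fstH A ∩ fstH B then R else 0) -
      ∑ i, (if i ∈ fstH A ∩ fstH B ∧ i ∉ sndH A ∩ sndH B then l i else 0)) ≤
      (∑ i, (if i ∈ sndH A ∧ i ∉ fstH A then R else 0) -
      ∑ i, (if i ∈ fstH A ∧ i ∉ sndH A then l i else 0)) +
      (∑ i, (if i ∈ sndH B ∧ i ∉ fstH B then R else 0) -
      ∑ i, (if i ∈ fstH B ∧ i ∉ sndH B then l i else 0)) := by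
    simp only [← Finset.sum_sub_distrib, ← Finset.sum_add_distrib]
    refine Finset.sum_le_sum fun i _ => ?_
    have := hl i
    simp only [mem_union, mem_inter]
    by_cases p1 : i ∈ fstH A <;> by_cases p2 : i ∈ fstH B <;> by_cases p3 : i ∈ sndH A <;>
      by_cases p4 : i ∈ sndH B <;> simp [p1, p2, p3, p4] <;> linarith
  linarith

theorem dblF_abs {r₁ r₂ : Finset (Fin n) → ℤ} {K : ℕ} {R : ℤ} {l : Fin n → ℤ}
    (K₁ : ∀ A, |r₁ A| ≤ K) (K₂ : ∀ A, |r₂ A| ≤ K) (A : Finset (Fin (n + n))) :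
    |dblF r₁ r₂ R l A| ≤ ((2 * K + (n + 1) * R.natAbs + nrm l : ℕ) : ℤ) := by
  unfold dblF
  have b1 := abs_le.1 (K₁ (fstH A))
  have b2 := abs_le.1 (K₂ (sndH A)ᶜ)
  have b3 : |∑ i, (if i ∈ sndH A ∧ i ∉ fstH A then R else 0)| ≤ n * |R| := by
    calc |∑ i, (if i ∈ sndH A ∧ i ∉ fstH A then R else 0)|
        ≤ ∑ i : Fin n, |if i ∈ sndH A ∧ i ∉ fstH A then R else 0| :=
          Finset.abs_sum_le_sum_abs _ _
      _ ≤ ∑ i : Fin n, |R| := Finset.sum_le_sum fun i _ => by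
          split_ifs
          · exact le_rfl
          · simp
      _ = n * |R| := by simp
  have b4 : |∑ i, (if i ∈ fstH A ∧ i ∉ sndH A then l i else 0)| ≤ nrm l := by
    calc |∑ i, (if i ∈ fstH A ∧ i ∉ sndH A then l i else 0)|
        ≤ ∑ i : Fin n, |if i ∈ fstH A ∧ i ∉ sndH A then l i else 0| :=
          Finset.abs_sum_le_sum_abs _ _
      _ ≤ ∑ i : Fin n, |l i| := Finset.sum_le_sum fun i _ => by
          split_ifs
          · exact le_rfl
          · simp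
      _ = nrm l := by unfold nrm; push_cast; simp
  have b5 := abs_le.1 (le_refl |R|)
  rw [abs_le] at b3 b4
  push_cast
  rw [abs_le]
  constructor <;> linarith [b1.1, b1.2, b2.1, b2.2, b3.1, b3.2, b4.1, b4.2, b5.1, b5.2]

/-- the subset of `Fin (n + n)` with given halves -/
def mkH (X Y : Finset (Fin n)) : Finset (Fin (n + n)) :=
  X.image (Fin.castAdd n) ∪ Y.image (Fin.natAdd n)

theorem fstH_mkH (X Y : Finset (Fin n)) : fstH (mkH X Y) = X := by
  ext i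
  simp only [fstH, mkH, mem_filter, mem_univ, true_and, mem_union, mem_image]
  constructor
  · rintro (⟨j, hj, e⟩ | ⟨j, hj, e⟩)
    · rwa [← Fin.castAdd_injective n n e]
    · have := congrArg Fin.val e
      simp only [Fin.val_natAdd, Fin.val_castAdd] at this
      omega
  · intro h; exact Or.inl ⟨i, h, rfl⟩
theorem sndH_mkH (X Y : Finset (Fin n)) : sndH (mkH X Y) = Y := by
  ext i
  simp only [sndH, mkH, mem_filter, mem_univ, true_and, mem_union, mem_image]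
  constructor
  · rintro (⟨j, hj, e⟩ | ⟨j, hj, e⟩)
    · have := congrArg Fin.val e
      simp only [Fin.val_natAdd, Fin.val_castAdd] at this
      omega
    · have := congrArg Fin.val e
      simp only [Fin.val_natAdd] at this
      have h2 : j = i := Fin.ext (by omega)
      rwa [← h2]
  · intro h; exact Or.inr ⟨i, h, rfl⟩

theorem feasQ_iff {r₁ r₂ : Finset (Fin n) → ℤ} {K : ℕ} {R : ℤ} (h₁ : SubM r₁ R)
    (h₂ : SubM r₂ R) (K₁ : ∀ A, |r₁ A| ≤ K) (K₂ : ∀ A, |r₂ A| ≤ K)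
    (m₁ : ∀ A B, A ⊆ B → r₁ A ≤ r₁ B) (l : Fin n → ℤ) :
    feasQ n K r₁ r₂ R l = true ↔ ∃ x : Fin n → ℤ, (∀ i, l i ≤ x i) ∧ MemJ r₁ R x ∧ MemJ r₂ R x := by
  have ex := exists_common_ge (f₁ := r₁) (f₂ := r₂) (fun A B _ _ => h₁.sub A B)
    (fun A B _ _ => h₂.sub A B) h₁.empty h₂.empty h₁.univ h₂.univ l
  have hx0 : ∀ x : Fin n → ℤ, MemJ r₁ R x → ∀ i, 0 ≤ x i := by
    intro x hx i
    have c1 := hx.1 {i}ᶜ
    have c2 := m₁ {i}ᶜ univ (subset_univ _)
    have c3 := Finset.sum_add_sum_compl {i} x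
    rw [h₁.univ] at c2
    rw [hx.2, Finset.sum_singleton] at c3
    linarith
  unfold feasQ
  rw [Bool.and_eq_true, List.all_eq_true, decide_eq_true_eq]
  constructor
  · rintro ⟨hl', hm⟩
    have hl : ∀ i, l i ≤ R := fun i => by simpa using hl' i (by simp)
    obtain ⟨x, a1, a2, a3, a4⟩ := ex.2 (fun X Y hXY => by
      have hs := sfmArg_spec (n := n + n) (dblF r₁ r₂ R l) (dblF_submod h₁ h₂ hl)
        (by simp [dblF, fstH, sndH, h₁.empty, h₂.univ])
        (2 * K + (n + 1) * R.natAbs + nrm l) (dblF_abs K₁ K₂) (mkH X Yᶜ)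
      have hs' := hm.trans hs
      have hsub : Yᶜ ⊆ X := by
        intro a ha
        have : a ∈ X ∪ Y := by rw [hXY]; exact mem_univ a
        rcases mem_union.1 this with h' | h'
        · exact h'
        · exact absurd h' (mem_compl.1 ha)
      unfold dblF at hs'
      rw [fstH_mkH, sndH_mkH, compl_compl] at hs'
      have e1 : ∑ i, (if i ∈ Yᶜ ∧ i ∉ X then R else 0) = 0 := by
        refine Finset.sum_eq_zero fun i _ => ?_
        rw [if_neg]
        rintro ⟨c1, c2⟩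
        exact c2 (hsub c1)
      have e2 : ∑ i, (if i ∈ X ∧ i ∉ Yᶜ then l i else 0) = ∑ i ∈ X ∩ Y, l i := by
        rw [← Finset.sum_filter]
        refine Finset.sum_congr ?_ fun _ _ => rfl
        ext i
        simp
      rw [e1, e2] at hs'
      linarith)
    exact ⟨x, a1, ⟨a3, a2⟩, ⟨a4, a2⟩⟩
  · rintro ⟨x, a1, a2, a3⟩
    have hx := hx0 x a2
    have hxR : ∀ i, x i ≤ R := fun i => by
      rw [← a2.2]
      exact Finset.single_le_sum (fun j _ => hx j) (mem_univ i)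
    have hl : ∀ i, l i ≤ R := fun i => (a1 i).trans (hxR i)
    refine ⟨fun i _ => decide_eq_true (hl i), ?_⟩
    set A := sfmArg (n + n) (2 * K + (n + 1) * R.natAbs + nrm l) (dblF r₁ r₂ R l) with hA
    show 0 ≤ dblF r₁ r₂ R l A
    have c1 := a2.1 (fstH A)
    have c2 := a3.1 (sndH A)ᶜ
    -- total of `x`
    have c3 : R ≤ ∑ i ∈ fstH A, x i + ∑ i ∈ (sndH A)ᶜ, x i +
        (∑ i, (if i ∈ sndH A ∧ i ∉ fstH A then R else 0) -
          ∑ i, (if i ∈ fstH A ∧ i ∉ sndH A then l i else 0)) := by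
      have e1 : ∑ i ∈ fstH A, x i = ∑ i, if i ∈ fstH A then x i else 0 := by
        rw [← Finset.sum_filter]; simp
      have e2 : ∑ i ∈ (sndH A)ᶜ, x i = ∑ i, if i ∈ sndH A then 0 else x i := by
        rw [Finset.sum_ite, Finset.sum_const_zero, zero_add]
        refine Finset.sum_congr ?_ fun _ _ => rfl
        ext i; simp
      rw [e1, e2, ← Finset.sum_sub_distrib, ← Finset.sum_add_distrib, ← Finset.sum_add_distrib]
      rw [← a2.2]
      have : ∀ i ∈ (univ : Finset (Fin n)), x i ≤ (if i ∈ fstH A then x i else 0) +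
          (if i ∈ sndH A then 0 else x i) + ((if i ∈ sndH A ∧ i ∉ fstH A then R else 0) -
            if i ∈ fstH A ∧ i ∉ sndH A then l i else 0) := by
        intro i _
        have h1 := a1 i
        have h2 := hxR i
        have h3 := hx i
        by_cases p1 : i ∈ fstH A <;> by_cases p2 : i ∈ sndH A <;> simp [p1, p2] <;> linarith
      rw [a2.2]
      calc R = ∑ i, x i := a2.2.symm
        _ ≤ _ := Finset.sum_le_sum this
    unfold dblF
    linarith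

end Crest.Agent.R302.EDM
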