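import Crest.Agent.R302.Stage536B
import Crest.Agent.R302.Gau970D

/-!
R302 (helper536): the far link mass `farM` of `Joint536` is bounded by 970's link tail.
-/

set_option autoImplicit false
set_option linter.unusedSectionVars false

namespace Crest.Agent.R302.Stage

open Finset Crest.Agent.R302.Inst Crest.Agent.R302.Joint Crest.Agent.R302.Gau
open Crest.Agent.R302.Lor (ev Lz)

variable {E : Type*} [Fintype E] [DecidableEq E]

namespace SD

variable {D : SD E}

theorem sv_sum (h : LzD D) {σ : St D} (hσ : D.nuG σ ≠ 0) : ∑ i, sv D σ i = 0 := by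
  obtain ⟨R, h1, h2⟩ := h.lz
  rw [nuG_sv h.gauge₁ h.gauge₂] at hσ
  have hF := right_ne_zero_of_mul hσ
  have e1 := h1.deg _ (left_ne_zero_of_mul hF)
  have e2 := h2.deg (-(σ.1 - fun e => sh D (sv D σ) (Sum.inr e))) (by
    rw [neg_neg]; exact right_ne_zero_of_mul hF)
  have e3 : ∑ e, sh D (sv D σ) e = ∑ i, sv D σ i := by
    unfold sh
    simp only [Finset.sum_apply, Pi.smul_apply]
    rw [Finset.sum_comm]
    refine Finset.sum_congr rfl fun i _ => ?_
    rw [← Finset.smul_sum]
    have : ∑ e, ev (tok D i) e = (1 : ℤ) := by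
      unfold ev
      rw [Finset.sum_pi_single']
      simp
    rw [this]; simp
  rw [Fintype.sum_sum_type] at e3
  simp only [Pi.add_apply, Pi.sub_apply, Pi.neg_apply, Finset.sum_add_distrib,
    Finset.sum_sub_distrib, Finset.sum_neg_distrib] at e1 e2
  linarith

/-- a far link forces many link pairs -/
theorem lt_lks (h : LzD D) {σ : St D} (hσ : D.nuG σ ≠ 0) {K : ℕ} {i : Lk D}
    (hi : (K : ℤ) < |sv D σ i|) : K + 1 ≤ lks D σ := by
  have h0 := sv_sum h hσ
  have hud := ups_sub_downs (sv D σ)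
  rw [h0] at hud
  unfold lks
  rcases le_or_gt 0 (sv D σ i) with hs | hs
  · rw [abs_of_nonneg hs] at hi
    have h1 : (sv D σ i).toNat ≤ ups (sv D σ) :=
      Finset.single_le_sum (f := fun i => (sv D σ i).toNat) (fun _ _ => Nat.zero_le _)
        (mem_univ i)
    omega
  · rw [abs_of_neg hs] at hi
    have h1 : (-sv D σ i).toNat ≤ downs (sv D σ) :=
      Finset.single_le_sum (f := fun i => (-sv D σ i).toNat) (fun _ _ => Nat.zero_le _)
        (mem_univ i)
    omega

/-- **far mass** -/
theorem farM_le (hOK : D.OK) (h : LzD D) (K : ℕ) :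
    farM D.Bx D.a₁ D.a₂ D.Λ₁ D.Λ₂ D.S₁.blk D.S₂.blk K
      ≤ ∑ σ ∈ D.bx.filter (fun σ => K + 1 ≤ lks D σ), D.nuG σ := by
  classical
  unfold farM
  rw [← bx_eq, ← D.nuG_eq_joint]
  rw [Finset.sum_filter, Finset.sum_filter]
  refine Finset.sum_le_sum fun σ _ => ?_
  by_cases h0 : D.nuG σ = 0
  · rw [h0]; simp
  by_cases h1 : InW (D.S₁.blk σ.1) K σ.2.1 ∧ InW (D.S₂.blk σ.1) K σ.2.2
  · rw [if_neg (not_not.2 h1)]
    split_ifs
    · exact nuG_nonneg hOK σ
    · exact le_rfl
  · have h2 : K + 1 ≤ lks D σ := by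
      rw [not_and_or] at h1
      rcases h1 with h1 | h1
      · unfold InW at h1
        push Not at h1
        obtain ⟨r, hr⟩ := h1
        refine lt_lks h h0 (i := Sum.inl r) ?_
        simp only [sv, Sum.elim_inl]
        exact hr
      · unfold InW at h1
        push Not at h1
        obtain ⟨r, hr⟩ := h1
        refine lt_lks h h0 (i := Sum.inr r) ?_
        simp only [sv, Sum.elim_inr, abs_neg]
        exact hr
    rw [if_pos h1, if_pos h2]

end SD

end Crest.Agent.R302.Stage
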