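import Crest.Agent.R302.Mix497B
import Crest.Agent.R302.Loop272C

/-!
# R302, block LOOP, part D: from the warm-start mixing theorem to `ChainOK` (helper272)

Abstract glue, for one stage and one good gauge.  `α` = finite set of chain states, `w` = weight of the chain,
`M` = its mass; `P` = points of the next stage with weight `om`, `Z` = their mass; `f` = weight `w` at the perfect
state of a point.

* `startdom`, `conv_of`: the law `μ ≤ 2 ν` of the present stage, put at the perfect states, is dominated by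
  `8 π + ρ`, hence the run converges (`conv`), error `es + 4 ε₁ + η`;
* `perf_of`: `|π.E (φ (out.getD d)) - ν.E φ| ≤ 2 (2 ε₁ + ε₂)`;
* `rat_of`: the one-link events.
-/

set_option autoImplicit false
open Finset

namespace Crest.Agent.R302.Loop

open Crest.Agent.R309.MC Crest.Agent.R309.Tape Crest.Agent.R302.Mix

variable {α : Type*} [Fintype α]

/-- the one-particle theorem for programs which implement the kernel approximately -/
theorem one_particle' [DecidableEq α] {S S' : Type*} {f : S → List Bool → S} {r : ℕ} {enc : α → S}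
    {K : α → α → ℝ} {w : α → ℝ} (hw : ∀ x, 0 ≤ w x) (hm : 0 < mass w)
    (hK : IsKer K) (hr : Rev w K) (hp : PSD w K) {c e : ℝ} (hc : PoincD w K c e) (hc0 : 0 < c)
    (hc1 : c ≤ 1) (he : 0 ≤ e) {H ε η es : ℝ} (hH : 0 ≤ H) (hη : 0 ≤ η) (μ : Law S') (start : S' → S)
    (st : S' → α) (hst : ∀ x ∈ μ.supp, enc (st x) = start x)
    (ρ : α → ℝ) (hρ0 : ∀ a, 0 ≤ ρ a) (hρ : ∑ a, ρ a ≤ ε) (hε : ε ≤ 1 / 2)
    (hdom : ∀ a, startLaw μ st a ≤ H * (w a / mass w) + ρ a) {t L : ℕ}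
    (hI : ∀ a, ∀ φ : S → ℝ, (∀ s, 0 ≤ φ s ∧ φ s ≤ 1) →
      |avg (t * r) (fun l => φ (runSteps f r t (enc a) l)) - ∑ y, law K (pt a) t y * φ (enc y)| ≤ es)
    (hL : H ≤ η ^ 2 * 2 ^ L) (ht : (L : ℝ) ≤ c * t) (hec : 2 * e * H ^ 2 ≤ c * mass w * η ^ 2)
    (φ : S → ℝ) (hφ : ∀ s, 0 ≤ φ s ∧ φ s ≤ 1) :
    |μ.E (fun x => avg (t * r) (fun l => φ (runSteps f r t (start x) l))) -
        ∑ x, w x / mass w * φ (enc x)| ≤ es + ε + η := by
  classical
  have h1 := warm hw hm hK hr hp hc hc0 hc1 he hH (startLaw μ st) ρ (startLaw_nonneg μ st)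
    (startLaw_sum μ st) hdom hρ0 hρ hε t (φ := fun a => φ (enc a)) (fun a => (hφ _).1)
    (fun a => (hφ _).2)
  have h2 := sqrt_err_le hc0 hc1 hm hη hL ht hec
  have h3 : |μ.E (fun x => avg (t * r) (fun l => φ (runSteps f r t (start x) l))) -
      ∑ y, law K (startLaw μ st) t y * φ (enc y)| ≤ es := by
    rw [law_eq_sum_pt, ← μ.E_sub]
    refine (μ.abs_E_le _).trans ?_
    rw [← μ.E_const es]
    refine μ.E_mono fun x hx => ?_
    rw [← hst x hx]
    exact hI (st x) φ hφ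
  have h4 := abs_sub_le (μ.E (fun x => avg (t * r) (fun l => φ (runSteps f r t (start x) l))))
    (∑ y, law K (startLaw μ st) t y * φ (enc y)) (∑ x, w x / mass w * φ (enc x))
  linarith

/-- the start: `μ ≤ 2 om / Z`, put at the perfect states `st x` which have weight `f x`, is dominated by
`8 π` up to a mass `4 ε₁`. -/
theorem startdom [DecidableEq α] {S' : Type*} (μ : Law S') (st : S' → α)
    (hinj : Set.InjOn st μ.supp) {w : α → ℝ} (hw : ∀ x, 0 ≤ w x) (hm : 0 < mass w)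
    {f om : S' → ℝ} {Z ε₁ : ℝ} (hZ : 0 < Z) (hM : mass w ≤ 2 * Z)
    (hwt : ∀ x ∈ μ.supp, μ.wt x ≤ 2 * (om x / Z)) (hf : ∀ x ∈ μ.supp, w (st x) = f x)
    (hom : ∀ x ∈ μ.supp, 0 ≤ om x)
    (hsum : ∑ x ∈ μ.supp, |f x - om x| ≤ ε₁ * Z) :
    ∃ ρ : α → ℝ, (∀ a, 0 ≤ ρ a) ∧ ∑ a, ρ a ≤ 4 * ε₁ ∧
      ∀ a, startLaw μ st a ≤ 8 * (w a / mass w) + ρ a := by
  classical
  set ρ : α → ℝ := fun a => ∑ x ∈ μ.supp.filter (fun x => st x = a), 4 * |f x - om x| / Z with hρ
  refine ⟨ρ, fun a => sum_nonneg fun x _ => by positivity, ?_, ?_⟩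
  · rw [hρ]
    simp only
    rw [sum_fiberwise, ← sum_div, ← mul_sum, div_le_iff₀ hZ]
    linarith
  · intro a
    by_cases h : ∃ x ∈ μ.supp, st x = a
    · obtain ⟨x, hx, rfl⟩ := h
      have hfil : μ.supp.filter (fun y => st y = st x) = {x} := by
        ext y
        simp only [mem_filter, mem_singleton]
        constructor
        · rintro ⟨hy, hyx⟩
          exact hinj (by exact_mod_cast hy) (by exact_mod_cast hx) hyx
        · rintro rfl; exact ⟨hx, rfl⟩
      simp only [startLaw, hρ, hfil, sum_singleton]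
      have h1 := hwt x hx
      have h2 := hf x hx
      have h3 := hom x hx
      have hfx : 0 ≤ f x := h2 ▸ hw _
      rw [h2]
      rcases le_total (om x) (2 * f x) with h4 | h4
      · have h5 : 2 * (om x / Z) ≤ 8 * (f x / mass w) := by
          have h6 : f x / (2 * Z) ≤ f x / mass w := by gcongr
          have h7 : om x / Z ≤ 2 * f x / Z := by gcongr
          have h8 : 8 * (f x / (2 * Z)) = 2 * (2 * f x / Z) := by field_simp; ring
          linarith
        have : 0 ≤ 4 * |f x - om x| / Z := by positivity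
        linarith
      · have h5 : om x ≤ 2 * |f x - om x| := by
          have := neg_abs_le (f x - om x)
          linarith
        have h6 : 2 * (om x / Z) ≤ 4 * |f x - om x| / Z := by
          rw [← mul_div_assoc, div_le_div_iff_of_pos_right hZ]; linarith
        have : 0 ≤ 8 * (f x / mass w) := by positivity
        linarith
    · push Not at h
      have hfil : μ.supp.filter (fun y => st y = a) = ∅ := by
        ext y
        simp only [mem_filter, notMem_empty, iff_false, not_and]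
        exact fun hy => h y hy
      simp only [startLaw, hρ, hfil, sum_empty]
      have : 0 ≤ w a / mass w := div_nonneg (hw a) hm.le
      linarith

/-- **`conv`** for one stage and one gauge: from a Poincaré inequality with defect, the comparison `μ ≤ 2 ν`, the
mass of the perfect states and the one-run law of the program. -/
theorem conv_of [DecidableEq α] {S S' : Type*} [DecidableEq S] {g : S → List Bool → S} {r : ℕ} {enc : α → S}
    {K : α → α → ℝ} {w : α → ℝ} (hw : ∀ x, 0 ≤ w x) (hm : 0 < mass w)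
    (hK : IsKer K) (hr : Rev w K) (hp : PSD w K) {c e : ℝ} (hc : PoincD w K c e) (hc0 : 0 < c)
    (hc1 : c ≤ 1) (he : 0 ≤ e) {η es : ℝ} (hη : 0 ≤ η) (μ : Law S') (start : S' → S)
    (st : S' → α) (hst : ∀ x ∈ μ.supp, enc (st x) = start x) (hinj : Set.InjOn st μ.supp)
    {f om : S' → ℝ} {Z ε₁ : ℝ} (hZ : 0 < Z) (hM : mass w ≤ 2 * Z)
    (hwt : ∀ x ∈ μ.supp, μ.wt x ≤ 2 * (om x / Z)) (hf : ∀ x ∈ μ.supp, w (st x) = f x)
    (hom : ∀ x ∈ μ.supp, 0 ≤ om x)
    (hsum : ∑ x ∈ μ.supp, |f x - om x| ≤ ε₁ * Z) (hε₁ : ε₁ ≤ 1 / 8) {t L : ℕ}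
    (hI : ∀ a, ∀ φ : S → ℝ, (∀ s, 0 ≤ φ s ∧ φ s ≤ 1) →
      |avg (t * r) (fun l => φ (runSteps g r t (enc a) l)) - ∑ y, law K (pt a) t y * φ (enc y)| ≤ es)
    (hL : 8 ≤ η ^ 2 * 2 ^ L) (ht : (L : ℝ) ≤ c * t) (hec : 128 * e ≤ c * mass w * η ^ 2)
    (φ : S → ℝ) (hφ : ∀ s, 0 ≤ φ s ∧ φ s ≤ 1) :
    |μ.E (fun x => avg (t * r) (fun l => φ (runSteps g r t (start x) l))) -
        (stat w hw hm enc).E φ| ≤ es + 4 * ε₁ + η := by
  obtain ⟨ρ, hρ0, hρ, hdom⟩ := startdom μ st hinj hw hm hZ hM hwt hf hom hsum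
  rw [stat_E]
  exact one_particle' hw hm hK hr hp hc hc0 hc1 he (by norm_num : (0 : ℝ) ≤ 8) hη μ start st hst ρ hρ0
    hρ (by linarith) hdom hI hL ht (by linarith) φ hφ

/-- **`perf`**: the output of a stationary state has almost the law `om / Z`. -/
theorem perf_of {S T : Type*} [DecidableEq T] [DecidableEq S] {w : α → ℝ} (hw : ∀ x, 0 ≤ w x)
    (hm : 0 < mass w) (enc : α → S) (out : S → Option T) (ν : Law T) (P : Finset T) {f om : T → ℝ}
    {Z ε₁ ε₂ : ℝ} (hZ : 0 < Z)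
    (hf0 : ∀ x ∈ P, 0 ≤ f x) (hsum : ∑ x ∈ P, |f x - om x| ≤ ε₁ * Z) (hM : |mass w - Z| ≤ ε₂ * Z)
    (hν : ∀ φ : T → ℝ, ν.E φ = ∑ x ∈ P, om x / Z * φ x)
    (hout : ∀ φ : T → ℝ, ∑ a, w a * (out (enc a)).elim 0 φ = ∑ x ∈ P, f x * φ x)
    (φ : T → ℝ) (hφ : ∀ x, 0 ≤ φ x ∧ φ x ≤ 1) (d : T) :
    |(stat w hw hm enc).E (fun y => φ ((out y).getD d)) - ν.E φ| ≤ 2 * (ε₁ + ε₂) := by
  refine output_close (stat w hw hm enc) ν out (ε₁ + ε₂) (fun φ hφ => ?_) φ hφ d
  rw [stat_E, hν]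
  have h1 : ∑ x, w x / mass w * (out (enc x)).elim 0 φ = (∑ x ∈ P, f x * φ x) / mass w := by
    rw [← hout φ, sum_div]
    exact sum_congr rfl fun x _ => by ring
  have h2 : ∑ x ∈ P, om x / Z * φ x = (∑ x ∈ P, om x * φ x) / Z := by
    rw [sum_div]; exact sum_congr rfl fun x _ => by ring
  rw [h1, h2]
  set A := ∑ x ∈ P, f x * φ x with hA
  set B := ∑ x ∈ P, om x * φ x with hB
  have hA0 : 0 ≤ A := sum_nonneg fun x hx => mul_nonneg (hf0 x hx) (hφ x).1
  have hAM : A ≤ mass w := by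
    rw [hA, ← hout φ]
    unfold mass
    refine sum_le_sum fun a _ => ?_
    have : (out (enc a)).elim 0 φ ≤ 1 := by
      cases out (enc a) with
      | none => simp
      | some x => simpa using (hφ x).2
    nlinarith [hw a]
  have hAB : |A - B| ≤ ε₁ * Z := by
    refine le_trans ?_ hsum
    rw [hA, hB, ← sum_sub_distrib]
    refine (abs_sum_le_sum_abs _ _).trans (sum_le_sum fun x _ => ?_)
    rw [← sub_mul, abs_mul, abs_of_nonneg (hφ x).1]
    exact mul_le_of_le_one_right (abs_nonneg _) (hφ x).2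
  have h3 : A / mass w - B / Z = (A - B) / Z + (A / mass w) * ((Z - mass w) / Z) := by
    field_simp
    ring
  rw [h3]
  refine (abs_add_le _ _).trans ?_
  have h4 : |(A - B) / Z| ≤ ε₁ := by
    rw [abs_div, abs_of_pos hZ, div_le_iff₀ hZ]; exact hAB
  have h5 : |(A / mass w) * ((Z - mass w) / Z)| ≤ ε₂ := by
    rw [abs_mul, abs_div (Z - mass w), abs_of_pos hZ, abs_of_nonneg (div_nonneg hA0 hm.le)]
    have a1 : A / mass w ≤ 1 := (div_le_one hm).mpr hAM
    have a2 : |Z - mass w| / Z ≤ ε₂ := by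
      rw [div_le_iff₀ hZ, abs_sub_comm]; exact hM
    calc A / mass w * (|Z - mass w| / Z) ≤ 1 * ε₂ :=
          mul_le_mul a1 a2 (by positivity) (by norm_num)
      _ = ε₂ := one_mul _
  linarith

/-- **`rat`**: the one-link event of weight `2^(-m) q s` (`q` = gauge factor, `s` = soft count, `N` = exact
count). -/
theorem rat_of {S : Type*} [DecidableEq S] {w : α → ℝ} (hw : ∀ x, 0 ≤ w x)
    (hm : 0 < mass w) (enc : α → S) (E : S → Prop) {m : ℕ} {q s N Z : ℝ} (hq : 0 ≤ q) (hN : 0 ≤ N)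
    (hZ : 0 < Z) (hE : ∑ a, w a * ind (E (enc a)) = (1 / 2 ^ m) * q * s)
    (hs : |s - N| ≤ 1 / 16 * N) (hM : |mass w - Z| ≤ 1 / 8 * Z) :
    |2 ^ m * (stat w hw hm enc).E (fun y => ind (E y)) - q * N / Z| ≤ 1 / 4 * (q * N / Z) := by
  rw [stat_E]
  have h1 : ∑ x, w x / mass w * ind (E (enc x)) = (1 / 2 ^ m) * q * s / mass w := by
    rw [← hE, sum_div]
    exact sum_congr rfl fun x _ => by ring
  rw [h1]
  have h2 : (2 : ℝ) ^ m * ((1 / 2 ^ m) * q * s / mass w) = q * (s / mass w) := by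
    field_simp
  rw [h2]
  have h3 : q * N / Z = q * (N / Z) := by ring
  rw [h3, ← mul_sub, abs_mul, abs_of_nonneg hq]
  have h4 : |s / mass w - N / Z| ≤ 1 / 4 * (N / Z) := by
    obtain ⟨s1, s2⟩ := abs_le.mp hs
    obtain ⟨m1, m2⟩ := abs_le.mp hM
    have b1 : s / mass w ≤ 5 / 4 * (N / Z) := by
      rw [div_le_iff₀ hm]
      have : 7 / 8 * Z ≤ mass w := by linarith
      have c1 : 5 / 4 * (N / Z) * (7 / 8 * Z) ≤ 5 / 4 * (N / Z) * mass w := by gcongr
      have c2 : 5 / 4 * (N / Z) * (7 / 8 * Z) = 35 / 32 * N := by field_simp; ring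
      linarith
    have b2 : 3 / 4 * (N / Z) ≤ s / mass w := by
      rw [le_div_iff₀ hm]
      have : mass w ≤ 9 / 8 * Z := by linarith
      have c1 : 3 / 4 * (N / Z) * mass w ≤ 3 / 4 * (N / Z) * (9 / 8 * Z) := by gcongr
      have c2 : 3 / 4 * (N / Z) * (9 / 8 * Z) = 27 / 32 * N := by field_simp; ring
      linarith
    rw [abs_le]; constructor <;> linarith
  calc q * |s / mass w - N / Z| ≤ q * (1 / 4 * (N / Z)) := mul_le_mul_of_nonneg_left h4 hq
    _ = _ := by ring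

end Crest.Agent.R302.Loop
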