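import Crest.Agent.R302.Stage536D
import Crest.Agent.R302.Warm272
import Crest.Agent.R302.Prog166

/-!
R302 (helper536), STAGE: the loop fields `conv`, `move`, `rat` of one stage, generic in `D : SD (Fin n)`.

* `PP D = J₁ ∩ J₂`, `MF 𝒜 t D ε₁ ε₂` : mass facts, `Rat 𝒜 t D` : one-link masses;
* `conv_stage`, `perf_stage`, `move_stage`, `rat_stage`.
-/

set_option autoImplicit false
set_option linter.unusedSectionVars false

namespace Crest.Agent.R302.Fields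

open Finset Crest.Agent.R302.Inst Crest.Agent.R302.Stage Crest.Agent.R302.AnnBox
open Crest.Agent.R302.Loop Crest.Agent.R302.Mix Crest.Agent.R302.Step Crest.Agent.R302.Prog
open Crest.Agent.R302.Slk
open Crest.Agent.R302.Lor (ev)
open Crest.Agent.R309.MC Crest.Agent.R309.Tape

variable {n : ℕ}

/-- perfect points of a stage -/
noncomputable def PP (D : SD (Fin n)) : Finset (Fin n → ℤ) := D.S₁.J ∩ D.S₂.J

theorem mem_PP {D : SD (Fin n)} {x : Fin n → ℤ} : x ∈ PP D ↔ x ∈ D.S₁.J ∧ x ∈ D.S₂.J := by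
  unfold PP; rw [mem_inter]

/-- mass facts of one stage -/
structure MF (𝒜 : AnnData n) (t : ℕ) (D : SD (Fin n)) (ε₁ ε₂ : ℝ) : Prop where
  ok : D.OK
  sub : PP D ⊆ 𝒜.PH 0
  out : ∀ x ∈ 𝒜.PH 0, x ∉ PP D → stW 𝒜.L 𝒜.x₀ 0 t x = 0
  inb : ∀ x ∈ PP D, D.pf x ∈ D.bx
  s1 : ∑ x ∈ PP D, |D.nuG (D.pf x) - stW 𝒜.L 𝒜.x₀ 0 t x| ≤ ε₁ * 𝒜.Z t
  s2 : |∑ σ ∈ D.bx, D.nuG σ - 𝒜.Z t| ≤ ε₂ * 𝒜.Z t

open Classical in
/-- one-link masses of one stage -/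
def Rat (𝒜 : AnnData n) (t : ℕ) (D : SD (Fin n)) : Prop :=
  ∀ u v : Fin n, ∃ s : ℝ, ∑ σ ∈ D.bx.filter (D.EvG u v), D.nuG σ =
    (1 / 2) ^ (2 * D.a) * 2 ^ (D.ell u - D.ell v) * s ∧
      |s - 𝒜.Nst t v u| ≤ 1 / 16 * 𝒜.Nst t v u

variable {𝒜 : AnnData n} {t : ℕ} {D : SD (Fin n)} {ε₁ ε₂ : ℝ}

/-- the perfect points as lists -/
noncomputable def PPL (D : SD (Fin n)) : Finset (List ℤ) :=
  (PP D).map ⟨List.ofFn, List.ofFn_injective⟩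

theorem mem_PPL {l : List ℤ} : l ∈ PPL D ↔ ∃ x ∈ PP D, List.ofFn x = l := by
  unfold PPL
  rw [mem_map]
  rfl

theorem sum_PPL (F : List ℤ → ℝ) : ∑ l ∈ PPL D, F l = ∑ x ∈ PP D, F (List.ofFn x) := by
  unfold PPL
  rw [sum_map]
  rfl

theorem MF.mass_pos (h : MF 𝒜 t D ε₁ ε₂) (hε : ε₂ < 1) : 0 < mass (fun σ : D.bx => D.nuG σ) := by
  rw [SD.mass_nuG]
  have h1 := (abs_le.1 h.s2).1
  have h2 := 𝒜.Z_pos t
  nlinarith

/-- `stLaw` as a sum over the perfect points of the stage -/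
theorem MF.E_eq (h : MF 𝒜 (t + 1) D ε₁ ε₂) {t' : ℕ} (ht : t' = t ∨ t' = t + 1) (φ : List ℤ → ℝ) :
    (𝒜.stLaw t').E φ =
      ∑ l ∈ PPL D, stW 𝒜.L 𝒜.x₀ 0 t' (AnnData.toV n l) / 𝒜.Z t' * φ l := by
  rw [𝒜.stLaw_E, sum_PPL, sum_div]
  have hz : ∀ x ∈ 𝒜.PH 0, x ∉ PP D → stW 𝒜.L 𝒜.x₀ 0 t' x = 0 := by
    intro x hx hx'
    have h1 := h.out x hx hx'
    rcases ht with rfl | rfl
    · exact le_antisymm ((stW_mono 𝒜.L 𝒜.x₀ 0 t' x).trans h1.le) (stW_nonneg _ _ _ _ _)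
    · exact h1
  rw [← sum_subset h.sub (f := fun x => stW 𝒜.L 𝒜.x₀ 0 t' x * φ (List.ofFn x) / 𝒜.Z t')
    (fun x hx hx' => by rw [hz x hx hx', zero_mul, zero_div])]
  refine sum_congr rfl fun x _ => ?_
  rw [AnnData.toV_ofFn]
  ring

/-- the law of the present stage, on the perfect points of the next stage -/
noncomputable def lawP (h : MF 𝒜 (t + 1) D ε₁ ε₂) : Law (List ℤ) where
  supp := PPL D
  wt := fun l => stW 𝒜.L 𝒜.x₀ 0 t (AnnData.toV n l) / 𝒜.Z t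
  nonneg := fun _ _ => div_nonneg (stW_nonneg _ _ _ _ _) (𝒜.Z_pos t).le
  sum_eq := by
    have h1 := h.E_eq (t' := t) (Or.inl rfl) (fun _ => 1)
    rw [Law.E_const] at h1
    rw [h1]
    exact sum_congr rfl fun l _ => (mul_one _).symm

theorem lawP_E (h : MF 𝒜 (t + 1) D ε₁ ε₂) (φ : List ℤ → ℝ) :
    (lawP h).E φ = (𝒜.stLaw t).E φ := by
  rw [h.E_eq (Or.inl rfl)]
  rfl

variable {Pm : Prm} {w : List ℤ → ℤ} {mem₁ mem₂ : List ℤ → Bool}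

/-- **convergence of one run** -/
theorem conv_stage (h : MF 𝒜 (t + 1) D ε₁ ε₂) (hε₁ : ε₁ ≤ 1 / 8) (hε₂ : ε₂ ≤ 1 / 8)
    (hc : Code D Pm w mem₁ mem₂) {kmax N B : ℕ}
    (hB₁ : ∀ k ∈ Pm.ks₁, slkLen k N ≤ B) (hB₂ : ∀ k ∈ Pm.ks₂, slkLen k N ≤ B)
    (hm : 0 < mass (fun σ : D.bx => D.nuG σ)) {c e η : ℝ}
    (hP : PoincD (fun σ : D.bx => D.nuG σ) D.Kch c e) (hc0 : 0 < c) (hc1 : c ≤ 1) (he : 0 ≤ e)
    (hη : 0 ≤ η) {T L : ℕ} (hL : 8 ≤ η ^ 2 * 2 ^ L) (hT : (L : ℝ) ≤ c * T)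
    (hec : 128 * e ≤ c * mass (fun σ : D.bx => D.nuG σ) * η ^ 2) (φ : St → ℝ)
    (hφ : ∀ s, 0 ≤ φ s ∧ φ s ≤ 1) :
    |(𝒜.stLaw t).E (fun x => avg (T * stepBits n Pm kmax B) (fun l =>
        φ (runSteps (stepL n Pm w mem₁ mem₂ kmax N B) (stepBits n Pm kmax B) T
          (pfL n Pm.par₁ Pm.par₂ Pm.sub₁ Pm.sub₂ x) l))) -
      (stat (fun σ : D.bx => D.nuG σ) (fun σ => SD.nuG_nonneg h.ok σ.1) hm
        (fun σ => enc D σ.1)).E φ| ≤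
      T * ((1 / 2) ^ kmax + (n * (1 / 2 ^ N) + n * (1 / 2 ^ N))) + 4 * ε₁ + η := by
  classical
  obtain ⟨k1, k2, k3⟩ := SD.kch_facts h.ok
  -- a point of the box
  obtain ⟨σ₀⟩ : Nonempty D.bx := by
    by_contra hne
    rw [not_nonempty_iff] at hne
    unfold mass at hm
    rw [Finset.univ_eq_empty, Finset.sum_empty] at hm
    exact lt_irrefl _ hm
  set st : List ℤ → D.bx := fun l =>
    if hl : D.pf (AnnData.toV n l) ∈ D.bx then ⟨D.pf (AnnData.toV n l), hl⟩ else σ₀ with hst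
  have hst1 : ∀ (x : Fin n → ℤ) (hx : x ∈ PP D), st (List.ofFn x) = ⟨D.pf x, h.inb x hx⟩ := by
    intro x hx
    have h1 := h.inb x hx
    simp only [hst, AnnData.toV_ofFn]
    rw [dif_pos h1]
  rw [← lawP_E h]
  have hZ := 𝒜.Z_pos (t + 1)
  refine conv_of (w := fun σ : D.bx => D.nuG σ) (enc := fun σ : D.bx => enc D σ.1) (K := D.Kch)
    (fun σ => SD.nuG_nonneg h.ok σ.1) hm k1 k2 k3 hP hc0 hc1 he hη (lawP h)
    (pfL n Pm.par₁ Pm.par₂ Pm.sub₁ Pm.sub₂) st ?_ ?_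
    (f := fun l => D.nuG (D.pf (AnnData.toV n l)))
    (om := fun l => stW 𝒜.L 𝒜.x₀ 0 (t + 1) (AnnData.toV n l)) (Z := 𝒜.Z (t + 1)) hZ ?_ ?_ ?_ ?_ ?_
    hε₁ (hc.run h.ok hB₁ hB₂ T) hL hT hec φ hφ
  · intro l hl
    obtain ⟨x, hx, rfl⟩ := mem_PPL.1 hl
    rw [hst1 x hx, hc.pfL]
  · intro l hl l' hl' hll
    obtain ⟨x, hx, rfl⟩ := mem_PPL.1 hl
    obtain ⟨x', hx', rfl⟩ := mem_PPL.1 hl'
    rw [hst1 x hx, hst1 x' hx'] at hll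
    have := congrArg (fun σ : D.bx => σ.1.1) hll
    simp only [SD.pf] at this
    rw [this]
  · rw [SD.mass_nuG]
    have h1 := (abs_le.1 h.s2).2
    nlinarith
  · intro l hl
    exact 𝒜.stLaw_wt_le t l
  · intro l hl
    obtain ⟨x, hx, rfl⟩ := mem_PPL.1 hl
    simp only [hst1 x hx, AnnData.toV_ofFn]
  · intro l _
    exact stW_nonneg _ _ _ _ _
  · show ∑ l ∈ PPL D, _ ≤ _
    rw [sum_PPL]
    simp only [AnnData.toV_ofFn]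
    exact h.s1

/-- the output of a coded state -/
theorem outL_enc (hc : Code D Pm w mem₁ mem₂) (σ : Stage.St D) :
    outL n Pm.par₁ Pm.par₂ Pm.sub₁ Pm.sub₂ mem₁ mem₂ (enc D σ) =
      (D.outG σ).map List.ofFn := by
  classical
  have e1 : (enc D σ).1 = List.ofFn σ.1 := rfl
  unfold outL SD.outG
  rw [e1, hc.pfL]
  by_cases hp : D.IsPf σ
  · rw [if_pos hp]
    obtain ⟨h1, h2, h3⟩ := hp
    rw [← h1, (hc.s₁.mem _).2 h2, (hc.s₂.mem _).2 h3]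
    simp
  · rw [if_neg hp, if_neg]
    · rfl
    · intro hh
      rw [Bool.and_eq_true, Bool.and_eq_true, decide_eq_true_iff] at hh
      exact hp ⟨(enc_injective D hh.1).symm, (hc.s₁.mem _).1 hh.2.1, (hc.s₂.mem _).1 hh.2.2⟩

/-- **the output law** -/
theorem perf_stage (h : MF 𝒜 (t + 1) D ε₁ ε₂) (hc : Code D Pm w mem₁ mem₂)
    (hm : 0 < mass (fun σ : D.bx => D.nuG σ)) (φ : List ℤ → ℝ) (hφ : ∀ y, 0 ≤ φ y ∧ φ y ≤ 1)
    (d : List ℤ) :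
    |(stat (fun σ : D.bx => D.nuG σ) (fun σ => SD.nuG_nonneg h.ok σ.1) hm
        (fun σ => enc D σ.1)).E
        (fun y => φ ((outL n Pm.par₁ Pm.par₂ Pm.sub₁ Pm.sub₂ mem₁ mem₂ y).getD d)) -
      (𝒜.stLaw (t + 1)).E φ| ≤ 2 * (ε₁ + ε₂) := by
  classical
  refine perf_of (w := fun σ : D.bx => D.nuG σ) (fun σ => SD.nuG_nonneg h.ok σ.1) hm
    (fun σ : D.bx => enc D σ.1) (outL n Pm.par₁ Pm.par₂ Pm.sub₁ Pm.sub₂ mem₁ mem₂)
    (𝒜.stLaw (t + 1)) (PPL D) (f := fun l => D.nuG (D.pf (AnnData.toV n l)))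
    (om := fun l => stW 𝒜.L 𝒜.x₀ 0 (t + 1) (AnnData.toV n l)) (Z := 𝒜.Z (t + 1))
    (𝒜.Z_pos (t + 1)) ?_ ?_ ?_ ?_ ?_ φ hφ d
  · intro l _
    exact SD.nuG_nonneg h.ok _
  · rw [sum_PPL]
    simp only [AnnData.toV_ofFn]
    exact h.s1
  · rw [SD.mass_nuG]
    exact h.s2
  · intro ψ
    exact h.E_eq (Or.inr rfl) ψ
  · intro ψ
    rw [sum_PPL]
    simp only [AnnData.toV_ofFn]
    have e1 : ∑ a : D.bx, D.nuG a * (outL n Pm.par₁ Pm.par₂ Pm.sub₁ Pm.sub₂ mem₁ mem₂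
        (enc D a)).elim 0 ψ =
        ∑ σ ∈ D.bx, D.nuG σ * (outL n Pm.par₁ Pm.par₂ Pm.sub₁ Pm.sub₂ mem₁ mem₂
        (enc D σ)).elim 0 ψ :=
      Finset.sum_coe_sort D.bx (fun σ => D.nuG σ * (outL n Pm.par₁ Pm.par₂ Pm.sub₁ Pm.sub₂ mem₁
        mem₂ (enc D σ)).elim 0 ψ)
    rw [e1]
    have e2 : ∀ σ : Stage.St D, D.nuG σ * (outL n Pm.par₁ Pm.par₂ Pm.sub₁ Pm.sub₂ mem₁ mem₂
        (enc D σ)).elim 0 ψ = if D.IsPf σ then D.nuG σ * ψ (List.ofFn σ.1) else 0 := by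
      intro σ
      rw [outL_enc hc]
      unfold SD.outG
      split_ifs <;> simp
    simp only [e2]
    rw [← sum_filter]
    symm
    refine sum_bij (fun x _ => D.pf x) (fun x hx => ?_) (fun x _ y _ hxy => congrArg Prod.fst hxy)
      (fun σ hσ => ?_) (fun x _ => rfl)
    · rw [mem_filter]
      exact ⟨h.inb x hx, rfl, (mem_PP.1 hx).1, (mem_PP.1 hx).2⟩
    · obtain ⟨_, h1, h2, h3⟩ := mem_filter.1 hσ
      exact ⟨σ.1, mem_PP.2 ⟨h2, h3⟩, h1.symm⟩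

/-- adding a unit vector -/
theorem addE_ofFn (x : Fin n → ℤ) (u : Fin n) :
    addE n (List.ofFn x) u = List.ofFn (x + ev u) := by
  unfold addE
  refine map_range_eq_ofFn _ _ fun a => ?_
  rw [Step.getD_ofFn]
  simp only [ev, Pi.add_apply, Pi.single_apply]
  by_cases hau : a = u
  · subst hau; simp
  · rw [if_neg hau, if_neg (fun e => hau (Fin.ext e))]

/-- the one-link event of a coded state -/
theorem evL_enc (hc : Code D Pm w mem₁ mem₂) (u v : Fin n) (σ : Stage.St D) :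
    evL n Pm.par₁ Pm.par₂ Pm.sub₁ Pm.sub₂ u v (enc D σ) = true ↔ D.EvG u v σ := by
  have e1 : (enc D σ).1 = List.ofFn σ.1 := rfl
  have e2 : (enc D σ).2.1 = encB D.S₁ σ.2.1 := rfl
  have e3 : (enc D σ).2.2 = encB D.S₂ σ.2.2 := rfl
  unfold evL SD.EvG
  rw [Bool.and_eq_true, decide_eq_true_iff, decide_eq_true_iff, e1, e2, e3, addE_ofFn, addE_ofFn,
    hc.s₁.blkL, hc.s₂.blkL]
  constructor
  · rintro ⟨h1, h2⟩
    exact ⟨(encB_injective _ h1).symm, (encB_injective _ h2).symm⟩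
  · rintro ⟨h1, h2⟩
    rw [h1, h2]
    exact ⟨rfl, rfl⟩

/-- **the one-link estimates** -/
theorem rat_stage (h : MF 𝒜 (t + 1) D ε₁ ε₂) (hε₂ : ε₂ ≤ 1 / 8) (hr : Rat 𝒜 (t + 1) D)
    (hc : Code D Pm w mem₁ mem₂) (hm : 0 < mass (fun σ : D.bx => D.nuG σ)) (u v : Fin n) :
    |2 ^ (2 * D.a) * (stat (fun σ : D.bx => D.nuG σ) (fun σ => SD.nuG_nonneg h.ok σ.1) hm
        (fun σ => enc D σ.1)).E
        (fun y => ind (evL n Pm.par₁ Pm.par₂ Pm.sub₁ Pm.sub₂ u v y = true)) -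
      𝒜.Nst (t + 1) v u * (2 : ℝ) ^ (D.ell u) / (𝒜.Z (t + 1) * (2 : ℝ) ^ (D.ell v))| ≤
      1 / 4 * (𝒜.Nst (t + 1) v u * (2 : ℝ) ^ (D.ell u) / (𝒜.Z (t + 1) * (2 : ℝ) ^ (D.ell v))) := by
  classical
  obtain ⟨s, hs1, hs2⟩ := hr u v
  have hZ := 𝒜.Z_pos (t + 1)
  have e0 : 𝒜.Nst (t + 1) v u * (2 : ℝ) ^ (D.ell u) / (𝒜.Z (t + 1) * (2 : ℝ) ^ (D.ell v)) =
      2 ^ (D.ell u - D.ell v) * 𝒜.Nst (t + 1) v u / 𝒜.Z (t + 1) := by
    rw [zpow_sub₀ (by norm_num)]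
    field_simp
  rw [e0]
  refine rat_of (w := fun σ : D.bx => D.nuG σ) (fun σ => SD.nuG_nonneg h.ok σ.1) hm
    (fun σ : D.bx => enc D σ.1)
    (fun y => evL n Pm.par₁ Pm.par₂ Pm.sub₁ Pm.sub₂ u v y = true)
    (m := 2 * D.a) (q := 2 ^ (D.ell u - D.ell v)) (s := s) (by positivity)
    (𝒜.Nst_nonneg (t + 1) v u) hZ ?_ hs2 ?_
  · have e1 : (1 : ℝ) / 2 ^ (2 * D.a) = (1 / 2) ^ (2 * D.a) := by rw [one_div_pow]
    rw [e1, ← hs1, sum_filter, ← Finset.sum_coe_sort D.bx]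
    refine sum_congr rfl fun σ _ => ?_
    by_cases he : D.EvG u v σ.1
    · rw [if_pos he, ind_of ((evL_enc hc u v σ.1).2 he), mul_one]
    · rw [if_neg he, ind_of_not (fun e => he ((evL_enc hc u v σ.1).1 e)), mul_zero]
  · rw [SD.mass_nuG]
    refine h.s2.trans ?_
    exact mul_le_mul_of_nonneg_right hε₂ hZ.le

end Crest.Agent.R302.Fields
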