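import Mathlib

/-!
# Rooted forests on a finite set (helper928, R302)

`Forest E` = parent map with a rank.  `F.Le c a` : `c` lies in the subtree of `a`
(`c = a` allowed).  `F.sub a` is the subtree of `a` as a `Finset`.
Main facts: the subtrees are laminar, the ancestors of a point form a chain,
telescoping of sums along the forest, and the product formula for potentials.
-/

set_option linter.unusedSectionVars false
set_option linter.unusedVariables false
set_option autoImplicit false

namespace Crest.Agent.R302.MP3

open Finset

/-- A rooted forest: parent map (roots have no parent) with a rank certificate. -/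
structure Forest (E : Type*) where
  par : E → Option E
  dep : E → ℕ
  dep_lt : ∀ a b, par a = some b → dep b < dep a

namespace Forest

variable {E : Type*} (F : Forest E)

/-- `c` is below or equal to `a`. -/
def Le (c a : E) : Prop := Relation.ReflTransGen (fun x y => F.par x = some y) c a

theorem Le.refl (a : E) : F.Le a a := Relation.ReflTransGen.refl

variable {F}

theorem Le.trans {a b c : E} (h : F.Le a b) (h' : F.Le b c) : F.Le a c :=
  Relation.ReflTransGen.trans h h'

theorem Le.of_par {a b : E} (h : F.par a = some b) : F.Le a b :=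
  Relation.ReflTransGen.single h

theorem le_iff {c a : E} : F.Le c a ↔ c = a ∨ ∃ b, F.par c = some b ∧ F.Le b a := by
  unfold Le
  rw [Relation.ReflTransGen.cases_head_iff]

theorem Le.dep_le {c a : E} (h : F.Le c a) : F.dep a ≤ F.dep c := by
  induction h with
  | refl => exact le_refl _
  | tail _ h ih => exact (F.dep_lt _ _ h).le.trans ih

theorem Le.dep_lt {c a : E} (h : F.Le c a) (hne : c ≠ a) : F.dep a < F.dep c := by
  rcases le_iff.1 h with h | ⟨b, hb, h⟩
  · exact absurd h hne
  · exact lt_of_le_of_lt h.dep_le (F.dep_lt _ _ hb)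

theorem Le.antisymm {c a : E} (h : F.Le c a) (h' : F.Le a c) : c = a := by
  by_contra hne
  exact absurd (h.dep_lt hne) (not_lt.2 h'.dep_le)

theorem not_le_of_par {a b : E} (h : F.par a = some b) : ¬ F.Le b a := fun h' =>
  absurd (F.dep_lt _ _ h) (not_lt.2 h'.dep_le)

/-- the ancestors of a point form a chain -/
theorem Le.total {c a b : E} (h : F.Le c a) (h' : F.Le c b) : F.Le a b ∨ F.Le b a := by
  induction h using Relation.ReflTransGen.head_induction_on with
  | refl => exact Or.inl h'
  | head hx _ ih =>
    rcases le_iff.1 h' with rfl | ⟨y, hy, hyb⟩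
    · right
      exact Relation.ReflTransGen.head hx (by assumption)
    · rw [hx] at hy
      cases hy
      exact ih hyb

section fin

variable [Fintype E] [DecidableEq E]

variable (F)

/-- the subtree of `a` -/
noncomputable def sub (a : E) : Finset E := by
  classical exact univ.filter (fun c => F.Le c a)

variable {F}

@[simp] theorem mem_sub {a c : E} : c ∈ F.sub a ↔ F.Le c a := by
  classical
  simp [sub]

theorem self_mem_sub (a : E) : a ∈ F.sub a := mem_sub.2 (Le.refl F a)

theorem sub_subset {a b : E} (h : F.Le a b) : F.sub a ⊆ F.sub b := fun c hc =>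
  mem_sub.2 ((mem_sub.1 hc).trans h)

/-- laminarity -/
theorem sub_inter (a b : E) :
    F.sub a ∩ F.sub b = F.sub a ∨ F.sub a ∩ F.sub b = F.sub b ∨ F.sub a ∩ F.sub b = ∅ := by
  by_cases h : F.sub a ∩ F.sub b = ∅
  · exact Or.inr (Or.inr h)
  · obtain ⟨c, hc⟩ := Finset.nonempty_iff_ne_empty.2 h
    rw [mem_inter, mem_sub, mem_sub] at hc
    rcases hc.1.total hc.2 with h' | h'
    · left; exact Finset.inter_eq_left.2 (sub_subset h')
    · right; left; exact Finset.inter_eq_right.2 (sub_subset h')

variable (F)

/-- parent with default itself -/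
def parD (b : E) : E := (F.par b).getD b

variable {F}

/-- decomposition of `g c - g a` along the path from `c` up to `a` -/
theorem path_sum {c a : E} (h : F.Le c a) (g : E → ℝ) [DecidableRel F.Le] :
    g c = g a + ∑ b ∈ univ.filter (fun b => F.Le c b ∧ F.Le b a ∧ b ≠ a), (g b - g (F.parD b)) := by
  classical
  induction h using Relation.ReflTransGen.head_induction_on with
  | refl =>
    rw [Finset.filter_false_of_mem, Finset.sum_empty, add_zero]
    rintro b - ⟨h1, h2, h3⟩
    exact h3 (h2.antisymm h1)
  | @head x y hx hya ih =>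
    have hya' : F.Le y a := hya
    have hxne : x ≠ a := by
      rintro rfl
      exact not_le_of_par hx hya'
    have hset : univ.filter (fun b => F.Le x b ∧ F.Le b a ∧ b ≠ a)
        = insert x (univ.filter (fun b => F.Le y b ∧ F.Le b a ∧ b ≠ a)) := by
      ext b
      simp only [mem_filter, mem_univ, true_and, mem_insert]
      constructor
      · rintro ⟨h1, h2, h3⟩
        rcases le_iff.1 h1 with rfl | ⟨z, hz, hzb⟩
        · exact Or.inl rfl
        · rw [hx] at hz
          cases hz
          exact Or.inr ⟨hzb, h2, h3⟩
      · rintro (rfl | ⟨h1, h2, h3⟩)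
        · exact ⟨Le.refl F _, (Le.of_par hx).trans hya', hxne⟩
        · exact ⟨(Le.of_par hx).trans h1, h2, h3⟩
    have hnot : x ∉ univ.filter (fun b => F.Le y b ∧ F.Le b a ∧ b ≠ a) := by
      simp only [mem_filter, mem_univ, true_and]
      rintro ⟨h1, -⟩
      exact not_le_of_par hx h1
    rw [hset, Finset.sum_insert hnot]
    have hp : F.parD x = y := by simp [parD, hx]
    rw [hp]
    linarith [ih]

/-- decomposition of `g c` along the path from `c` to the root -/
theorem root_sum (c : E) (g : E → ℝ) [DecidableRel F.Le] :
    g c = ∑ b ∈ univ.filter (fun b => F.Le c b), (g b - (F.par b).elim 0 g) := by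
  classical
  induction hd : F.dep c using Nat.strong_induction_on generalizing c with
  | _ d ih =>
    rcases hpc : F.par c with _ | y
    · have hset : univ.filter (fun b => F.Le c b) = {c} := by
        ext b
        simp only [mem_filter, mem_univ, true_and, mem_singleton]
        constructor
        · intro h
          rcases le_iff.1 h with rfl | ⟨z, hz, -⟩
          · rfl
          · rw [hpc] at hz; cases hz
        · rintro rfl; exact Le.refl F _
      rw [hset, Finset.sum_singleton, hpc]
      simp
    · have hset : univ.filter (fun b => F.Le c b) = insert c (univ.filter (fun b => F.Le y b)) := by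
        ext b
        simp only [mem_filter, mem_univ, true_and, mem_insert]
        constructor
        · intro h
          rcases le_iff.1 h with rfl | ⟨z, hz, hzb⟩
          · exact Or.inl rfl
          · rw [hpc] at hz
            cases hz
            exact Or.inr hzb
        · rintro (rfl | h)
          · exact Le.refl F _
          · exact (Le.of_par hpc).trans h
      have hnot : c ∉ univ.filter (fun b => F.Le y b) := by
        simp only [mem_filter, mem_univ, true_and]
        exact not_le_of_par hpc
      rw [hset, Finset.sum_insert hnot, hpc]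
      have := ih (F.dep y) (hd ▸ F.dep_lt _ _ hpc) y rfl
      rw [← this]
      simp

/-- **telescoping inside a subtree** -/
theorem tele (a : E) (w g : E → ℝ) :
    ∑ c ∈ F.sub a, w c * g c
      = (∑ c ∈ F.sub a, w c) * g a
        + ∑ b ∈ (F.sub a).erase a, (∑ c ∈ F.sub b, w c) * (g b - g (F.parD b)) := by
  classical
  have h1 : ∀ c ∈ F.sub a, w c * g c = w c * g a
      + ∑ b ∈ (F.sub a).erase a, if F.Le c b then w c * (g b - g (F.parD b)) else 0 := by
    intro c hc
    conv_lhs => rw [path_sum (mem_sub.1 hc) g]
    rw [mul_add, Finset.mul_sum, ← Finset.sum_filter]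
    congr 1
    apply Finset.sum_congr _ (fun _ _ => rfl)
    ext b
    simp only [mem_filter, mem_univ, true_and, mem_erase, mem_sub]
    tauto
  rw [Finset.sum_congr rfl h1, Finset.sum_add_distrib, ← Finset.sum_mul, Finset.sum_comm]
  congr 1
  apply Finset.sum_congr rfl
  intro b hb
  rw [mem_erase, mem_sub] at hb
  rw [Finset.sum_mul, ← Finset.sum_filter]
  apply Finset.sum_congr _ (fun _ _ => rfl)
  ext c
  simp only [mem_filter, mem_sub]
  exact ⟨fun h => h.2, fun h => ⟨h.trans hb.2, h⟩⟩

/-- **telescoping over the whole forest** -/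
theorem tele_all (w g : E → ℝ) :
    ∑ c, w c * g c = ∑ b, (∑ c ∈ F.sub b, w c) * (g b - (F.par b).elim 0 g) := by
  classical
  have h1 : ∀ c ∈ (univ : Finset E), w c * g c
      = ∑ b, if F.Le c b then w c * (g b - (F.par b).elim 0 g) else 0 := by
    intro c hc
    conv_lhs => rw [root_sum (F := F) c g]
    rw [Finset.mul_sum, ← Finset.sum_filter]
  rw [Finset.sum_congr rfl h1, Finset.sum_comm]
  apply Finset.sum_congr rfl
  intro b hb
  rw [Finset.sum_mul, ← Finset.sum_filter]
  apply Finset.sum_congr _ (fun _ _ => rfl)
  ext c
  simp only [mem_filter, mem_sub, mem_univ, true_and]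

variable (F)

/-- `eps~_a = eps_a * prod over strict ancestors (1 - eps)` -/
noncomputable def epst (ep : E → ℝ) (a : E) : ℝ := by
  classical exact ep a * ∏ b ∈ univ.filter (fun b => F.Le a b ∧ b ≠ a), (1 - ep b)

variable {F}

theorem prod_anc (ep : E → ℝ) (c : E) [DecidableRel F.Le] :
    ∏ a ∈ univ.filter (fun a => F.Le c a), (1 - ep a)
      = 1 - ∑ a ∈ univ.filter (fun a => F.Le c a), F.epst ep a := by
  classical
  induction hd : F.dep c using Nat.strong_induction_on generalizing c with
  | _ d ih =>
    have hset1 : univ.filter (fun b => F.Le c b)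
        = insert c (univ.filter (fun b => F.Le c b ∧ b ≠ c)) := by
      ext b
      simp only [mem_filter, mem_univ, true_and, mem_insert]
      constructor
      · intro h
        by_cases hb : b = c
        · exact Or.inl hb
        · exact Or.inr ⟨h, hb⟩
      · rintro (rfl | h)
        · exact Le.refl F _
        · exact h.1
    have hnot : c ∉ univ.filter (fun b => F.Le c b ∧ b ≠ c) := by simp
    have hstrict : ∏ a ∈ univ.filter (fun b => F.Le c b ∧ b ≠ c), (1 - ep a)
        = 1 - ∑ a ∈ univ.filter (fun b => F.Le c b ∧ b ≠ c), F.epst ep a := by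
      rcases hpc : F.par c with _ | y
      · have hset : univ.filter (fun b => F.Le c b ∧ b ≠ c) = ∅ := by
          rw [Finset.filter_eq_empty_iff]
          rintro b - ⟨h, hb⟩
          rcases le_iff.1 h with rfl | ⟨z, hz, -⟩
          · exact hb rfl
          · rw [hpc] at hz; cases hz
        rw [hset]; simp
      · have hset : univ.filter (fun b => F.Le c b ∧ b ≠ c) = univ.filter (fun b => F.Le y b) := by
          ext b
          simp only [mem_filter, mem_univ, true_and]
          constructor
          · rintro ⟨h, hb⟩
            rcases le_iff.1 h with rfl | ⟨z, hz, hzb⟩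
            · exact absurd rfl hb
            · rw [hpc] at hz
              cases hz
              exact hzb
          · intro h
            refine ⟨(Le.of_par hpc).trans h, ?_⟩
            rintro rfl
            exact not_le_of_par hpc h
        rw [hset]
        exact ih (F.dep y) (hd ▸ F.dep_lt _ _ hpc) y rfl
    rw [hset1, Finset.prod_insert hnot, Finset.sum_insert hnot]
    have he : F.epst ep c = ep c * ∏ a ∈ univ.filter (fun b => F.Le c b ∧ b ≠ c), (1 - ep a) := by
      unfold epst
      congr 1
      apply Finset.prod_congr _ (fun _ _ => rfl)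
      ext b
      simp
    rw [he]
    have := hstrict
    linarith [this]

/-- **product formula for the potentials** -/
theorem prod_pair (ep : E → ℝ) (c d : E) [DecidableRel F.Le] :
    ∏ a ∈ univ.filter (fun a => F.Le c a ∧ F.Le d a), (1 - ep a)
      = 1 - ∑ a ∈ univ.filter (fun a => F.Le c a ∧ F.Le d a), F.epst ep a := by
  classical
  by_cases h : (univ.filter (fun a => F.Le c a ∧ F.Le d a)) = ∅
  · rw [h]; simp
  · -- lowest common ancestor
    obtain ⟨m, hm, hmax⟩ := Finset.exists_max_image _ F.dep (Finset.nonempty_iff_ne_empty.2 h)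
    simp only [mem_filter, mem_univ, true_and] at hm hmax
    have hset : univ.filter (fun a => F.Le c a ∧ F.Le d a) = univ.filter (fun a => F.Le m a) := by
      ext a
      simp only [mem_filter, mem_univ, true_and]
      constructor
      · rintro ⟨h1, h2⟩
        rcases h1.total hm.1 with h' | h'
        · by_cases hma : a = m
          · rw [hma]; exact Le.refl F _
          · exact absurd (h'.dep_lt hma) (not_lt.2 (hmax a ⟨h1, h2⟩))
        · exact h'
      · intro h'
        exact ⟨hm.1.trans h', hm.2.trans h'⟩
    rw [hset]
    exact prod_anc ep m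

theorem epst_nonneg {ep : E → ℝ} (h0 : ∀ a, 0 ≤ ep a) (h1 : ∀ a, ep a ≤ 1) (a : E) :
    0 ≤ F.epst ep a := by
  classical
  unfold epst
  apply mul_nonneg (h0 a)
  apply Finset.prod_nonneg
  intro b _
  linarith [h1 b]

theorem epst_le {ep : E → ℝ} (h0 : ∀ a, 0 ≤ ep a) (h1 : ∀ a, ep a ≤ 1) (a : E) :
    F.epst ep a ≤ ep a := by
  classical
  unfold epst
  apply mul_le_of_le_one_right (h0 a)
  apply Finset.prod_le_one
  · intro b _; linarith [h1 b]
  · intro b _; linarith [h0 b]

/-- if all `eps` are at most `1/(2n)` then `eps~ >= eps/2` -/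
theorem le_epst {ep : E → ℝ} (h0 : ∀ a, 0 ≤ ep a)
    (h1 : ∀ a, ep a ≤ 1 / (2 * (Fintype.card E : ℝ))) (a : E) :
    ep a / 2 ≤ F.epst ep a := by
  classical
  have hn : 0 < (Fintype.card E : ℝ) := by
    have : Nonempty E := ⟨a⟩
    exact_mod_cast Fintype.card_pos
  have hle1 : ∀ a, ep a ≤ 1 := by
    intro b
    refine (h1 b).trans ?_
    rw [div_le_one (by positivity)]
    have : (1 : ℝ) ≤ (Fintype.card E : ℝ) := by
      have : Nonempty E := ⟨a⟩
      exact_mod_cast Fintype.card_pos
    linarith
  unfold epst
  -- prod (1 - ep) >= 1 - sum ep >= 1/2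
  have key : ∀ s : Finset E, 1 - ∑ b ∈ s, ep b ≤ ∏ b ∈ s, (1 - ep b) := by
    intro s
    induction s using Finset.induction_on with
    | empty => simp
    | insert b s hb ih =>
      rw [Finset.sum_insert hb, Finset.prod_insert hb]
      have hp : ∏ c ∈ s, (1 - ep c) ≤ 1 := by
        apply Finset.prod_le_one
        · intro c _; linarith [hle1 c]
        · intro c _; linarith [h0 c]
      nlinarith [h0 b]
  have h2 : ∑ b ∈ univ.filter (fun b => F.Le a b ∧ b ≠ a), ep b ≤ 1 / 2 := by
    calc ∑ b ∈ univ.filter (fun b => F.Le a b ∧ b ≠ a), ep b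
        ≤ ∑ b : E, ep b := Finset.sum_le_sum_of_subset_of_nonneg (Finset.filter_subset _ _)
          (fun b _ _ => h0 b)
      _ ≤ ∑ _b : E, 1 / (2 * (Fintype.card E : ℝ)) := Finset.sum_le_sum (fun b _ => h1 b)
      _ = 1 / 2 := by
        rw [Finset.sum_const, Finset.card_univ, nsmul_eq_mul]
        field_simp
  have h3 := key (univ.filter (fun b => F.Le a b ∧ b ≠ a))
  have h4 : (1 : ℝ) / 2 ≤ ∏ b ∈ univ.filter (fun b => F.Le a b ∧ b ≠ a), (1 - ep b) := by
    linarith
  nlinarith [h0 a]

end fin

end Forest

end Crest.Agent.R302.MP3
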