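import Mathlib
import Crest.Agent.R309.MCTape
import Crest.Agent.R309.MCRev
import Crest.Agent.R302.Loop272A

/-!
# R302, block MIX (helper497), part A

Reversible chains with a Poincaré inequality *with a defect*
`c Var(f) ≤ E(f,f) + e |f|_∞²` (for all bounded `f`), weights allowed to vanish, warm starts dominated by the
stationary law up to a small mass; tape form = the one-particle statement of `Loop272A.StageOK.move`.
-/

set_option autoImplicit false
open Finset

namespace Crest.Agent.R302.Mix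

open Crest.Agent.R309.MC Crest.Agent.R309.Tape Crest.Agent.R302.Loop

variable {α : Type*} [Fintype α]

/-- Poincaré inequality with constant `c` and (unnormalised) defect `e`. -/
def PoincD (w : α → ℝ) (K : α → α → ℝ) (c e : ℝ) : Prop :=
  ∀ (f : α → ℝ) (M : ℝ), (∀ x, |f x| ≤ M) → c * varU w f ≤ dir w K f + e * M ^ 2

theorem PoincD.of_poinc {w : α → ℝ} {K : α → α → ℝ} {c : ℝ} (h : Poinc w K c) : PoincD w K c 0 :=
  fun f M _ => by simpa using h f

/-- comparison of Dirichlet forms with a defect -/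
theorem PoincD.mono {w : α → ℝ} {K K' : α → α → ℝ} {c e a b : ℝ} (h : PoincD w K c e) (ha : 0 ≤ a)
    (hK : ∀ (f : α → ℝ) (M : ℝ), (∀ x, |f x| ≤ M) → a * dir w K f ≤ dir w K' f + b * M ^ 2) :
    PoincD w K' (a * c) (a * e + b) := by
  intro f M hM
  have h1 := h f M hM
  have h2 := hK f M hM
  have h3 := mul_le_mul_of_nonneg_left h1 ha
  nlinarith [h3, h2]

theorem abs_app_le {K : α → α → ℝ} (hK : IsKer K) {f : α → ℝ} {M : ℝ} (hM : ∀ x, |f x| ≤ M) (x : α) :
    |app K f x| ≤ M := by
  unfold app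
  refine (abs_sum_le_sum_abs _ _).trans ?_
  calc ∑ y, |K x y * f y| ≤ ∑ y, K x y * M := by
        refine sum_le_sum fun y _ => ?_
        rw [abs_mul, abs_of_nonneg (hK.nonneg x y)]
        exact mul_le_mul_of_nonneg_left (hM y) (hK.nonneg x y)
    _ = M := by rw [← sum_mul, hK.sum_one, one_mul]

theorem abs_iter_le {K : α → α → ℝ} (hK : IsKer K) {f : α → ℝ} {M : ℝ} (hM : ∀ x, |f x| ≤ M) (t : ℕ) :
    ∀ x, |iter K t f x| ≤ M := by
  induction t with
  | zero => exact hM
  | succ t ih => exact abs_app_le hK ih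

/-- one step -/
theorem contractD {w : α → ℝ} (hw : ∀ x, 0 ≤ w x) {K : α → α → ℝ} (hK : IsKer K)
    (hr : Rev w K) (hp : PSD w K) {c e : ℝ} (hc : PoincD w K c e)
    (f : α → ℝ) (hf : ∑ x, w x * f x = 0) {M : ℝ} (hM : ∀ x, |f x| ≤ M) :
    (∑ x, w x * app K f x = 0) ∧
      inn w (app K f) (app K f) ≤ (1 - c) * inn w f f + e * M ^ 2 := by
  have h0 : ∑ x, w x * app K f x = 0 := by
    have h1 : inn w (fun _ => 1) (app K f) = ∑ x, w x * app K f x := by
      unfold inn; exact sum_congr rfl fun x _ => by ring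
    rw [← h1, inn_app hr, app_const hK]
    unfold inn
    rw [← hf]
    exact sum_congr rfl fun x _ => by ring
  refine ⟨h0, ?_⟩
  have hmean : mean w f = 0 := by unfold mean; rw [hf, zero_div]
  have h2 : varU w f = inn w f f := by
    unfold varU inn
    rw [hmean]
    exact sum_congr rfl fun x _ => by ring
  have key : inn w f (app K f) ≤ (1 - c) * inn w f f + e * M ^ 2 := by
    have h1 := hc f M hM
    rw [dir_eq hK hr, h2] at h1
    linarith
  set A := inn w (app K f) (app K f) with hA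
  have hA0 : 0 ≤ A := inn_self_nonneg hw _
  have h1 : A ^ 2 ≤ inn w f (app K f) * inn w (app K f) (app K (app K f)) := by
    have := psd_cauchy hr hp f (app K f)
    rw [inn_app hr f (app K f)] at this
    exact this
  have h3 : inn w (app K f) (app K (app K f)) ≤ A := by
    have := dir_nonneg hw hK (app K f)
    rw [dir_eq hK hr] at this
    linarith
  have h4 := hp f
  have h5 := hp (app K f)
  by_cases hAz : A = 0
  · rw [hAz]; linarith
  have hApos : 0 < A := lt_of_le_of_ne hA0 (Ne.symm hAz)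
  have h6 : A * A ≤ inn w f (app K f) * A := by
    calc A * A = A ^ 2 := by ring
      _ ≤ inn w f (app K f) * inn w (app K f) (app K (app K f)) := h1
      _ ≤ inn w f (app K f) * A := mul_le_mul_of_nonneg_left h3 h4
  exact (le_of_mul_le_mul_right h6 hApos).trans key

theorem contractD_iter {w : α → ℝ} (hw : ∀ x, 0 ≤ w x) {K : α → α → ℝ} (hK : IsKer K)
    (hr : Rev w K) (hp : PSD w K) {c e : ℝ} (hc : PoincD w K c e) (hc0 : 0 < c) (hc1 : c ≤ 1)
    (he : 0 ≤ e) (f : α → ℝ) (hf : ∑ x, w x * f x = 0) {M : ℝ} (hM : ∀ x, |f x| ≤ M) (t : ℕ) :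
    (∑ x, w x * iter K t f x = 0) ∧
      inn w (iter K t f) (iter K t f) ≤ (1 - c) ^ t * inn w f f + e / c * M ^ 2 := by
  induction t with
  | zero =>
    refine ⟨hf, ?_⟩
    have : 0 ≤ e / c * M ^ 2 := by positivity
    simp only [iter, pow_zero, one_mul]
    linarith
  | succ t ih =>
    obtain ⟨h1, h2⟩ := contractD hw hK hr hp hc (iter K t f) ih.1 (abs_iter_le hK hM t)
    refine ⟨h1, h2.trans ?_⟩
    calc (1 - c) * inn w (iter K t f) (iter K t f) + e * M ^ 2
        ≤ (1 - c) * ((1 - c) ^ t * inn w f f + e / c * M ^ 2) + e * M ^ 2 := by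
          have := mul_le_mul_of_nonneg_left ih.2 (by linarith : (0 : ℝ) ≤ 1 - c)
          linarith
      _ = (1 - c) ^ (t + 1) * inn w f f + e / c * M ^ 2 := by
          field_simp
          ring

/-- **Warm starts**: if `p ≤ H π` then the law after `t` steps is within
`½ √((1-c)^t H + e H² / (c mass))` of `π = w / mass w`. -/
theorem tv_warm {w : α → ℝ} (hw : ∀ x, 0 ≤ w x) (hm : 0 < mass w) {K : α → α → ℝ} (hK : IsKer K)
    (hr : Rev w K) (hp : PSD w K) {c e : ℝ} (hc : PoincD w K c e) (hc0 : 0 < c) (hc1 : c ≤ 1)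
    (he : 0 ≤ e) {H : ℝ} (p : α → ℝ) (hp0 : ∀ x, 0 ≤ p x) (hp1 : ∑ x, p x = 1)
    (hdom : ∀ x, p x ≤ H * (w x / mass w)) (t : ℕ) :
    tv (law K p t) (fun x => w x / mass w) ≤
      Real.sqrt ((1 - c) ^ t * H + e / (c * mass w) * H ^ 2) / 2 := by
  have hH : 1 ≤ H := by
    have h1 : ∑ x, p x ≤ ∑ x, H * (w x / mass w) := sum_le_sum fun x _ => hdom x
    rw [hp1, ← mul_sum, ← sum_div] at h1
    have h2 : (∑ x, w x) / mass w = 1 := div_self hm.ne'
    rw [h2, mul_one] at h1
    exact h1
  set h : α → ℝ := fun x => p x / w x - 1 / mass w with hh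
  have hz : ∀ x, w x = 0 → p x = 0 := by
    intro x hx
    have := hdom x
    rw [hx] at this
    simp at this
    exact le_antisymm this (hp0 x)
  have hwp : ∀ x, w x * (p x / w x) = p x := by
    intro x
    by_cases hx : w x = 0
    · rw [hx, hz x hx]; simp
    · field_simp
  have hpw : (fun x => w x * (h + (fun _ => 1 / mass w) : α → ℝ) x) = p := by
    funext x
    simp only [hh, Pi.add_apply, sub_add_cancel]
    exact hwp x
  have hlaw : law K p t = fun x => w x * (iter K t h x + 1 / mass w) := by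
    rw [← hpw, law_eq_iter hr, iter_add, iter_const hK]
    rfl
  have hh0 : ∑ x, w x * h x = 0 := by
    simp only [hh, mul_sub, sum_sub_distrib]
    have e1 : ∑ x, w x * (p x / w x) = 1 := by
      rw [← hp1]
      exact sum_congr rfl fun x _ => hwp x
    have e2 : ∑ x, w x * (1 / mass w) = 1 := by
      rw [← sum_mul]
      change mass w * (1 / mass w) = 1
      field_simp
    rw [e1, e2, sub_self]
  have hq : ∀ x, 0 ≤ p x / w x ∧ p x / w x ≤ H / mass w := by
    intro x
    refine ⟨div_nonneg (hp0 x) (hw x), ?_⟩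
    by_cases hx : w x = 0
    · rw [hx]; simp only [div_zero]; positivity
    · have hx' : 0 < w x := lt_of_le_of_ne (hw x) (Ne.symm hx)
      rw [div_le_iff₀ hx']
      calc p x ≤ H * (w x / mass w) := hdom x
        _ = H / mass w * w x := by ring
  have hM : ∀ x, |h x| ≤ H / mass w := by
    intro x
    have h1 := hq x
    have h2 : 0 ≤ 1 / mass w := by positivity
    have h3 : 1 / mass w ≤ H / mass w := by gcongr
    rw [abs_le]
    constructor <;> simp only [hh] <;> linarith [h1.1, h1.2]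
  obtain ⟨_, h2⟩ := contractD_iter hw hK hr hp hc hc0 hc1 he h hh0 hM t
  have hinn : inn w h h ≤ H / mass w := by
    have e0 : inn w h h = (∑ x, w x * (p x / w x) * (p x / w x)) - 1 / mass w := by
      have e : ∀ x, w x * h x * h x = w x * (p x / w x) * (p x / w x) - (2 / mass w) * p x +
          (1 / mass w) ^ 2 * w x := by
        intro x
        have h1 := hwp x
        calc w x * h x * h x = w x * (p x / w x) * (p x / w x)
              - (2 / mass w) * (w x * (p x / w x)) + (1 / mass w) ^ 2 * w x := by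
              simp only [hh]; ring
          _ = _ := by rw [h1]
      unfold inn
      rw [sum_congr rfl fun x _ => e x, sum_add_distrib, sum_sub_distrib, ← mul_sum, ← mul_sum,
        hp1]
      change _ - _ + _ * mass w = _
      field_simp
      ring
    have e1 : ∑ x, w x * (p x / w x) * (p x / w x) ≤ H / mass w := by
      calc ∑ x, w x * (p x / w x) * (p x / w x) = ∑ x, p x * (p x / w x) :=
            sum_congr rfl fun x _ => by rw [hwp x]
        _ ≤ ∑ x, p x * (H / mass w) :=
            sum_le_sum fun x _ => mul_le_mul_of_nonneg_left (hq x).2 (hp0 x)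
        _ = H / mass w := by rw [← sum_mul, hp1, one_mul]
    have : 0 < 1 / mass w := by positivity
    linarith
  have h3 : tv (law K p t) (fun x => w x / mass w) = (∑ x, w x * |iter K t h x|) / 2 := by
    unfold tv
    congr 1
    refine sum_congr rfl fun x _ => ?_
    rw [hlaw]
    have : w x * (iter K t h x + 1 / mass w) - w x / mass w = w x * iter K t h x := by
      field_simp
      ring
    simp only [this, abs_mul, abs_of_nonneg (hw x)]
  rw [h3]
  have h4 : (∑ x, w x * |iter K t h x|) ^ 2 ≤ mass w * inn w (iter K t h) (iter K t h) := by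
    have := Finset.sum_mul_sq_le_sq_mul_sq univ (fun x => Real.sqrt (w x))
      (fun x => Real.sqrt (w x) * |iter K t h x|)
    have e1 : ∀ x, Real.sqrt (w x) * (Real.sqrt (w x) * |iter K t h x|) = w x * |iter K t h x| := by
      intro x; rw [← mul_assoc, Real.mul_self_sqrt (hw x)]
    have e2 : ∀ x, Real.sqrt (w x) ^ 2 = w x := fun x => Real.sq_sqrt (hw x)
    have e3 : ∀ x, (Real.sqrt (w x) * |iter K t h x|) ^ 2 = w x * iter K t h x * iter K t h x := by
      intro x
      rw [mul_pow, Real.sq_sqrt (hw x), sq_abs]; ring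
    simp only [e1, e2, e3] at this
    exact this
  have h5 : mass w * inn w (iter K t h) (iter K t h) ≤
      (1 - c) ^ t * H + e / (c * mass w) * H ^ 2 := by
    have h6 : 0 ≤ (1 - c) ^ t := pow_nonneg (by linarith) t
    calc mass w * inn w (iter K t h) (iter K t h)
        ≤ mass w * ((1 - c) ^ t * inn w h h + e / c * (H / mass w) ^ 2) :=
          mul_le_mul_of_nonneg_left h2 hm.le
      _ ≤ mass w * ((1 - c) ^ t * (H / mass w) + e / c * (H / mass w) ^ 2) := by gcongr
      _ = (1 - c) ^ t * H + e / (c * mass w) * H ^ 2 := by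
          field_simp
  have h6 : ∑ x, w x * |iter K t h x| ≤ Real.sqrt ((1 - c) ^ t * H + e / (c * mass w) * H ^ 2) :=
    Real.le_sqrt_of_sq_le (h4.trans h5)
  linarith

/-- linearity of the law in the start -/
theorem law_add (K : α → α → ℝ) (p q : α → ℝ) (t : ℕ) :
    law K (p + q) t = law K p t + law K q t := by
  induction t with
  | zero => rfl
  | succ t ih =>
    funext y
    change push K (law K (p + q) t) y = push K (law K p t) y + push K (law K q t) y
    rw [ih]
    unfold push
    rw [← sum_add_distrib]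
    exact sum_congr rfl fun x _ => by rw [Pi.add_apply]; ring

theorem law_smul (K : α → α → ℝ) (a : ℝ) (p : α → ℝ) (t : ℕ) :
    law K (a • p) t = a • law K p t := by
  induction t with
  | zero => rfl
  | succ t ih =>
    funext y
    change push K (law K (a • p) t) y = a * push K (law K p t) y
    rw [ih]
    unfold push
    rw [mul_sum]
    exact sum_congr rfl fun x _ => by rw [Pi.smul_apply, smul_eq_mul]; ring

theorem law_congr_sum (K : α → α → ℝ) {p q : α → ℝ} (h : ∀ x, p x = q x) (t : ℕ) :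
    law K p t = law K q t := by
  rw [show p = q from funext h]

/-- **Warm starts up to a bad mass**: `p ≤ H π + ρ`, `∑ ρ ≤ ε`. -/
theorem warm {w : α → ℝ} (hw : ∀ x, 0 ≤ w x) (hm : 0 < mass w) {K : α → α → ℝ} (hK : IsKer K)
    (hr : Rev w K) (hp : PSD w K) {c e : ℝ} (hc : PoincD w K c e) (hc0 : 0 < c) (hc1 : c ≤ 1)
    (he : 0 ≤ e) {H ε : ℝ} (hH : 0 ≤ H) (p ρ : α → ℝ) (hp0 : ∀ x, 0 ≤ p x) (hp1 : ∑ x, p x = 1)
    (hdom : ∀ x, p x ≤ H * (w x / mass w) + ρ x) (hρ0 : ∀ x, 0 ≤ ρ x) (hρ : ∑ x, ρ x ≤ ε)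
    (hε : ε ≤ 1 / 2) (t : ℕ) {φ : α → ℝ} (h0 : ∀ x, 0 ≤ φ x) (h1 : ∀ x, φ x ≤ 1) :
    |∑ x, law K p t x * φ x - ∑ x, w x / mass w * φ x| ≤
      ε + Real.sqrt ((1 - c) ^ t * (2 * H) + e / (c * mass w) * (2 * H) ^ 2) / 2 := by
  classical
  set q : α → ℝ := fun x => min (p x) (H * (w x / mass w)) with hq
  set s : α → ℝ := fun x => p x - q x with hs
  have hπ0 : ∀ x, 0 ≤ H * (w x / mass w) := fun x => mul_nonneg hH (div_nonneg (hw x) hm.le)
  have hq0 : ∀ x, 0 ≤ q x := fun x => le_min (hp0 x) (hπ0 x)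
  have hs0 : ∀ x, 0 ≤ s x := fun x => by simp only [hs, hq]; linarith [min_le_left (p x) (H * (w x / mass w))]
  have hsρ : ∀ x, s x ≤ ρ x := by
    intro x
    simp only [hs, hq]
    rcases le_total (p x) (H * (w x / mass w)) with h | h
    · rw [min_eq_left h]; linarith [hρ0 x]
    · rw [min_eq_right h]; linarith [hdom x]
  have hsum_s : ∑ x, s x ≤ ε := (sum_le_sum fun x _ => hsρ x).trans hρ
  have hsum_s0 : 0 ≤ ∑ x, s x := sum_nonneg fun x _ => hs0 x
  set a : ℝ := ∑ x, q x with ha
  have has : a + ∑ x, s x = 1 := by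
    rw [ha, ← sum_add_distrib, ← hp1]
    exact sum_congr rfl fun x _ => by simp only [hs]; ring
  have ha2 : 1 / 2 ≤ a := by linarith
  have ha1 : a ≤ 1 := by linarith
  have ha0 : 0 < a := by linarith
  set p' : α → ℝ := a⁻¹ • q with hp'
  have hp'0 : ∀ x, 0 ≤ p' x := fun x => by
    simp only [hp', Pi.smul_apply, smul_eq_mul]; exact mul_nonneg (by positivity) (hq0 x)
  have hp'1 : ∑ x, p' x = 1 := by
    simp only [hp', Pi.smul_apply, smul_eq_mul, ← mul_sum]
    rw [← ha]; field_simp
  have hdom' : ∀ x, p' x ≤ 2 * H * (w x / mass w) := by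
    intro x
    simp only [hp', Pi.smul_apply, smul_eq_mul]
    have h2 : a⁻¹ ≤ 2 := by
      rw [inv_le_comm₀ ha0 (by norm_num)]; linarith
    calc a⁻¹ * q x ≤ 2 * (H * (w x / mass w)) :=
          mul_le_mul h2 (min_le_right _ _) (hq0 x) (by norm_num)
      _ = _ := by ring
  have htv := tv_warm hw hm hK hr hp hc hc0 hc1 he p' hp'0 hp'1 hdom' t
  set δ := Real.sqrt ((1 - c) ^ t * (2 * H) + e / (c * mass w) * (2 * H) ^ 2) / 2 with hδ
  have hδ0 : 0 ≤ δ := by rw [hδ]; positivity
  have hpe : p = a • p' + s := by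
    funext x
    simp only [Pi.add_apply, Pi.smul_apply, smul_eq_mul, hp']
    rw [← mul_assoc, mul_inv_cancel₀ ha0.ne', one_mul]
    simp only [hs]; ring
  have hl : ∀ x, law K p t x = a * law K p' t x + law K s t x := by
    intro x
    rw [hpe, law_add, law_smul]; rfl
  have hsumπ : ∑ x, w x / mass w = 1 := by rw [← sum_div]; exact div_self hm.ne'
  have h2 := abs_sum_mul_sub_le_tv (p := law K p' t) (q := fun x => w x / mass w)
    (by rw [law_sum hK, hp'1, hsumπ]) h0 h1
  have h3 : |∑ x, law K p' t x * φ x - ∑ x, w x / mass w * φ x| ≤ δ := h2.trans htv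
  have hls0 : ∀ x, 0 ≤ law K s t x := law_nonneg hK hs0 t
  have h4 : ∑ x, law K s t x * φ x ≤ ∑ x, s x := by
    rw [← law_sum hK s t]
    exact sum_le_sum fun x _ => by nlinarith [hls0 x, h1 x]
  have h4' : 0 ≤ ∑ x, law K s t x * φ x := sum_nonneg fun x _ => mul_nonneg (hls0 x) (h0 x)
  have hπφ1 : ∑ x, w x / mass w * φ x ≤ 1 := by
    rw [← hsumπ]
    exact sum_le_sum fun x _ => by
      have : 0 ≤ w x / mass w := div_nonneg (hw x) hm.le
      nlinarith [h1 x]
  have hπφ0 : 0 ≤ ∑ x, w x / mass w * φ x :=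
    sum_nonneg fun x _ => mul_nonneg (div_nonneg (hw x) hm.le) (h0 x)
  have e1 : ∑ x, law K p t x * φ x = a * ∑ x, law K p' t x * φ x + ∑ x, law K s t x * φ x := by
    rw [mul_sum, ← sum_add_distrib]
    exact sum_congr rfl fun x _ => by rw [hl x]; ring
  rw [e1]
  have e2 : a * ∑ x, law K p' t x * φ x + ∑ x, law K s t x * φ x - ∑ x, w x / mass w * φ x =
      a * (∑ x, law K p' t x * φ x - ∑ x, w x / mass w * φ x) +
        (∑ x, law K s t x * φ x - (∑ x, s x) * ∑ x, w x / mass w * φ x) := by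
    have : 1 - a = ∑ x, s x := by linarith
    rw [← this]; ring
  rw [e2]
  refine (abs_add_le _ _).trans ?_
  have h5 : |a * (∑ x, law K p' t x * φ x - ∑ x, w x / mass w * φ x)| ≤ δ := by
    rw [abs_mul, abs_of_pos ha0]
    calc a * |∑ x, law K p' t x * φ x - ∑ x, w x / mass w * φ x| ≤ 1 * δ :=
          mul_le_mul ha1 h3 (abs_nonneg _) (by norm_num)
      _ = δ := one_mul δ
  have h6 : |∑ x, law K s t x * φ x - (∑ x, s x) * ∑ x, w x / mass w * φ x| ≤ ε := by
    rw [abs_le]
    constructor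
    · nlinarith
    · nlinarith
  linarith

end Crest.Agent.R302.Mix
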