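import Mathlib
import Crest.Agent.R302.Mix497A
import Crest.Agent.R302.LatChain541

/-!
Row 302 (helper541).  The simulated ("fresh slack") chain against the ideal Metropolis chain: the
weight is `w = e * f`, the acceptance of a proposed move `x → y` is `h x y * f y`, where `f y` is
the probability of a successful fresh test at `y`.  On `{f ≥ δ}` the conductances are comparable,
the rest goes into the defect.
-/

set_option autoImplicit false
open Finset

namespace Crest.Agent.R302.LatChain

open Crest.Agent.R309.MC Crest.Agent.R302.Mix Crest.Agent.R302.Macro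

variable {α : Type*} [Fintype α] [DecidableEq α]

/-- the Metropolis Dirichlet sum of a proposal -/
noncomputable def dsum (w : α → ℝ) (S : α → α → ℝ) (F : α → ℝ) : ℝ :=
  (∑ x, ∑ y, S x y * min (w x) (w y) * (F x - F y) ^ 2) / 2

/-- comparison of Dirichlet forms outside a bad set -/
theorem dsum_le_dir {w : α → ℝ} (hw : ∀ x, 0 ≤ w x) {S : α → α → ℝ} (hS : IsProp S)
    {a : α → α → ℝ} (ha0 : ∀ x y, 0 ≤ a x y) {c₀ : ℝ} (hc0 : 0 ≤ c₀) (good : α → Prop)
    [DecidablePred good]
    (hc : ∀ x y, S x y ≠ 0 → good x → good y → c₀ * min (w x) (w y) ≤ w x * a x y)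
    {F : α → ℝ} {M : ℝ} (hF : ∀ x, |F x| ≤ M) :
    c₀ * dsum w S F ≤ dir w (metro S a) F
      + 2 * c₀ * (∑ x ∈ univ.filter (fun x => ¬ good x), w x) * M ^ 2 := by
  rw [dir_metro_gen]
  unfold dsum
  set β := ∑ x ∈ univ.filter (fun x => ¬ good x), w x with hβ
  -- pointwise
  have hpt : ∀ x y, c₀ * (S x y * min (w x) (w y) * (F x - F y) ^ 2)
      ≤ S x y * (w x * a x y) * (F x - F y) ^ 2
        + (if y = x then 0 else S x y) * (c₀ * (4 * M ^ 2)
          * ((if good x then 0 else w x) + (if good y then 0 else w y))) := by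
    intro x y
    have hM2 : (F x - F y) ^ 2 ≤ 4 * M ^ 2 := by
      have a1 := abs_le.1 (hF x)
      have a2 := abs_le.1 (hF y)
      nlinarith
    have hSn := hS.nonneg x y
    have hwa : 0 ≤ w x * a x y := mul_nonneg (hw x) (ha0 x y)
    have hsq := sq_nonneg (F x - F y)
    by_cases hxy : y = x
    · subst hxy; simp
    rw [if_neg hxy]
    by_cases hs : S x y = 0
    · simp [hs]
    by_cases hg : good x ∧ good y
    · rw [if_pos hg.1, if_pos hg.2]
      have h1 := hc x y hs hg.1 hg.2
      have h2 : 0 ≤ S x y * (F x - F y) ^ 2 := mul_nonneg hSn hsq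
      nlinarith
    · have hmin : min (w x) (w y) ≤ (if good x then 0 else w x) + (if good y then 0 else w y) := by
        by_cases h1 : good x
        · have h2 : ¬ good y := fun h2 => hg ⟨h1, h2⟩
          rw [if_pos h1, if_neg h2, zero_add]; exact min_le_right _ _
        · rw [if_neg h1]
          refine (min_le_left _ _).trans ?_
          have : 0 ≤ (if good y then 0 else w y) := by split_ifs <;> [exact le_rfl; exact hw y]
          linarith
      have hmin0 : 0 ≤ min (w x) (w y) := le_min (hw x) (hw y)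
      have h3 : min (w x) (w y) * (F x - F y) ^ 2
          ≤ ((if good x then 0 else w x) + (if good y then 0 else w y)) * (4 * M ^ 2) :=
        mul_le_mul hmin hM2 hsq (hmin0.trans hmin)
      have h4 : 0 ≤ S x y * (w x * a x y) * (F x - F y) ^ 2 :=
        mul_nonneg (mul_nonneg hSn hwa) hsq
      have h5 := mul_le_mul_of_nonneg_left h3 (mul_nonneg hc0 hSn)
      calc c₀ * (S x y * min (w x) (w y) * (F x - F y) ^ 2)
          = c₀ * S x y * (min (w x) (w y) * (F x - F y) ^ 2) := by ring
        _ ≤ c₀ * S x y * (((if good x then 0 else w x) + (if good y then 0 else w y))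
            * (4 * M ^ 2)) := h5
        _ = S x y * (c₀ * (4 * M ^ 2)
            * ((if good x then 0 else w x) + (if good y then 0 else w y))) := by ring
        _ ≤ _ := by linarith
  have hsum : c₀ * ∑ x, ∑ y, S x y * min (w x) (w y) * (F x - F y) ^ 2
      ≤ ∑ x, ∑ y, S x y * (w x * a x y) * (F x - F y) ^ 2
        + ∑ x, ∑ y, (if y = x then 0 else S x y) * (c₀ * (4 * M ^ 2)
          * ((if good x then 0 else w x) + (if good y then 0 else w y))) := by
    rw [mul_sum, ← sum_add_distrib]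
    refine sum_le_sum fun x _ => ?_
    rw [mul_sum, ← sum_add_distrib]
    exact sum_le_sum fun y _ => hpt x y
  have hrow : ∀ x, ∑ y, (if y = x then 0 else S x y) ≤ 1 / 2 := by
    intro x
    have : ∑ y, (if y = x then 0 else S x y) = ∑ y ∈ univ.erase x, S x y := by
      rw [← add_sum_erase univ _ (mem_univ x), if_pos rfl, zero_add]
      exact sum_congr rfl fun y hy => by rw [if_neg (ne_of_mem_erase hy)]
    rw [this]; exact hS.half x
  have hβ' : ∑ x, (if good x then 0 else w x) = β := by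
    rw [hβ, sum_filter]
    exact sum_congr rfl fun x _ => by by_cases h : good x <;> simp [h]
  have hbad : ∑ x, ∑ y, (if y = x then 0 else S x y) * (c₀ * (4 * M ^ 2)
          * ((if good x then 0 else w x) + (if good y then 0 else w y)))
      ≤ 4 * c₀ * β * M ^ 2 := by
    have e1 : ∑ x, ∑ y, (if y = x then 0 else S x y) * (c₀ * (4 * M ^ 2)
          * ((if good x then 0 else w x) + (if good y then 0 else w y)))
        = c₀ * (4 * M ^ 2) * (∑ x, (if good x then 0 else w x) * ∑ y, (if y = x then 0 else S x y)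
          + ∑ x, ∑ y, (if y = x then 0 else S x y) * (if good y then 0 else w y)) := by
      rw [← sum_add_distrib, mul_sum]
      refine sum_congr rfl fun x _ => ?_
      rw [mul_sum, ← sum_add_distrib, mul_sum]
      exact sum_congr rfl fun y _ => by ring
    have e2 : ∑ x, ∑ y, (if y = x then 0 else S x y) * (if good y then 0 else w y)
        = ∑ x, (if good x then 0 else w x) * ∑ y, (if y = x then 0 else S x y) := by
      rw [sum_comm]
      refine sum_congr rfl fun y _ => ?_
      rw [mul_sum]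
      refine sum_congr rfl fun x _ => ?_
      rw [hS.symm x y, mul_comm]
      by_cases h : y = x
      · subst h; simp
      · rw [if_neg h, if_neg (Ne.symm h)]
    have e3 : ∑ x, (if good x then 0 else w x) * ∑ y, (if y = x then 0 else S x y)
        ≤ β * (1 / 2) := by
      rw [← hβ', sum_mul]
      refine sum_le_sum fun x _ => mul_le_mul_of_nonneg_left (hrow x) ?_
      split_ifs <;> [exact le_rfl; exact hw x]
    rw [e1, e2]
    have hcm : 0 ≤ c₀ * (4 * M ^ 2) := by positivity
    nlinarith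
  have hβ0 : 0 ≤ β := sum_nonneg fun x _ => hw x
  linarith

/-- **Poincaré inequality with defect for the simulated chain.** -/
theorem poincD_sim {w : α → ℝ} (hw : ∀ x, 0 ≤ w x) {S : α → α → ℝ} (hS : IsProp S)
    {a : α → α → ℝ} (ha0 : ∀ x y, 0 ≤ a x y) {c₀ : ℝ} (hc0 : 0 ≤ c₀) (good : α → Prop)
    [DecidablePred good]
    (hc : ∀ x y, S x y ≠ 0 → good x → good y → c₀ * min (w x) (w y) ≤ w x * a x y)
    {A d : ℝ} (hA : 0 < A)
    (hP : ∀ (F : α → ℝ) (M : ℝ), (∀ x, |F x| ≤ M) → varU w F ≤ A * dsum w S F + d * M ^ 2) :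
    PoincD w (metro S a) (c₀ / A)
      (c₀ * d / A + 2 * c₀ * ∑ x ∈ univ.filter (fun x => ¬ good x), w x) := by
  intro F M hF
  have h1 := hP F M hF
  have h2 := dsum_le_dir hw hS ha0 hc0 good hc hF
  have h3 : c₀ / A * varU w F ≤ c₀ / A * (A * dsum w S F + d * M ^ 2) :=
    mul_le_mul_of_nonneg_left h1 (by positivity)
  have h4 : c₀ / A * (A * dsum w S F + d * M ^ 2) = c₀ * dsum w S F + c₀ * d / A * M ^ 2 := by
    field_simp
  rw [h4] at h3
  calc c₀ / A * varU w F ≤ c₀ * dsum w S F + c₀ * d / A * M ^ 2 := h3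
    _ ≤ _ := by
      have e : (c₀ * d / A + 2 * c₀ * ∑ x ∈ univ.filter (fun x => ¬ good x), w x) * M ^ 2
          = c₀ * d / A * M ^ 2
            + 2 * c₀ * (∑ x ∈ univ.filter (fun x => ¬ good x), w x) * M ^ 2 := by ring
      rw [e]; linarith

omit [Fintype α] [DecidableEq α] in
/-- fresh test: conductances on `{f ≥ δ}` -/
theorem fresh_cond {e f : α → ℝ} (he : ∀ x, 0 ≤ e x) (hf0 : ∀ x, 0 ≤ f x)
    {h : α → α → ℝ} {c₁ δ : ℝ} (hc1 : 0 ≤ c₁) (hδ : 0 ≤ δ) (x y : α)
    (hh : c₁ * min (e x) (e y) ≤ e x * h x y) (hx : δ ≤ f x) (hy : δ ≤ f y) :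
    c₁ * δ * min (e x * f x) (e y * f y) ≤ e x * f x * (h x y * f y) := by
  have h1 : δ * min (e x * f x) (e y * f y) ≤ f x * f y * min (e x) (e y) := by
    rcases le_total (e x) (e y) with hxy | hxy
    · rw [min_eq_left hxy]
      calc δ * min (e x * f x) (e y * f y) ≤ δ * (e x * f x) :=
            mul_le_mul_of_nonneg_left (min_le_left _ _) hδ
        _ ≤ f y * (e x * f x) := mul_le_mul_of_nonneg_right hy (mul_nonneg (he x) (hf0 x))
        _ = _ := by ring
    · rw [min_eq_right hxy]
      calc δ * min (e x * f x) (e y * f y) ≤ δ * (e y * f y) :=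
            mul_le_mul_of_nonneg_left (min_le_right _ _) hδ
        _ ≤ f x * (e y * f y) := mul_le_mul_of_nonneg_right hx (mul_nonneg (he y) (hf0 y))
        _ = _ := by ring
  have hff : 0 ≤ f x * f y := mul_nonneg (hf0 x) (hf0 y)
  calc c₁ * δ * min (e x * f x) (e y * f y) = c₁ * (δ * min (e x * f x) (e y * f y)) := by ring
    _ ≤ c₁ * (f x * f y * min (e x) (e y)) := mul_le_mul_of_nonneg_left h1 hc1
    _ = f x * f y * (c₁ * min (e x) (e y)) := by ring
    _ ≤ f x * f y * (e x * h x y) := mul_le_mul_of_nonneg_left hh hff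
    _ = _ := by ring

/-- The fresh-test chain: weight `e * f`, acceptance `h x y * f y`. -/
theorem poincD_fresh {e f : α → ℝ} (he : ∀ x, 0 ≤ e x) (hf0 : ∀ x, 0 ≤ f x)
    {S : α → α → ℝ} (hS : IsProp S) {h : α → α → ℝ} (hh0 : ∀ x y, 0 ≤ h x y)
    {c₁ δ : ℝ} (hc1 : 0 ≤ c₁) (hδ : 0 ≤ δ)
    (hh : ∀ x y, S x y ≠ 0 → c₁ * min (e x) (e y) ≤ e x * h x y)
    {A d : ℝ} (hA : 0 < A)
    (hP : ∀ (F : α → ℝ) (M : ℝ), (∀ x, |F x| ≤ M) →
      varU (fun x => e x * f x) F ≤ A * dsum (fun x => e x * f x) S F + d * M ^ 2) :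
    PoincD (fun x => e x * f x) (metro S (fun x y => h x y * f y)) (c₁ * δ / A)
      (c₁ * δ * d / A
        + 2 * (c₁ * δ) * ∑ x ∈ univ.filter (fun x => ¬ δ ≤ f x), e x * f x) := by
  classical
  have := poincD_sim (w := fun x => e x * f x) (fun x => mul_nonneg (he x) (hf0 x)) hS
    (a := fun x y => h x y * f y) (fun x y => mul_nonneg (hh0 x y) (hf0 y))
    (mul_nonneg hc1 hδ) (fun x => δ ≤ f x)
    (fun x y hs hx hy => fresh_cond he hf0 hc1 hδ x y (hh x y hs) hx hy) hA hP
  exact this

omit [Fintype α] [DecidableEq α] in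
/-- reversibility data of the fresh-test chain -/
theorem isAcc_fresh_mul {e f : α → ℝ} (hf0 : ∀ x, 0 ≤ f x) (hf1 : ∀ x, f x ≤ 1)
    {S h : α → α → ℝ} (hh : IsAcc e S h) :
    IsAcc (fun x => e x * f x) S (fun x y => h x y * f y) :=
  hh.mul (isAcc_fresh hf0 hf1 S)

end Crest.Agent.R302.LatChain
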