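import Mathlib
import Crest.Agent.R302.Gau970C
import Crest.Agent.R302.Ann425E

/-!
R302 (helper970), block GAUGE, part E: the triangle inequality of the (weighted) one-link counts of
the stages, `ChainOK.tri`.
-/

set_option autoImplicit false
set_option linter.unusedSectionVars false

namespace Crest.Agent.R302.Gau

open Finset Crest.Agent.R302.Lor Crest.Agent.R302.AnnBox
open Crest.Agent.R302.Facet (MemJ SubM)

variable {n : ℕ} (𝒜 : AnnData n)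

open Classical in
/-- weighted indicator of side 1 of stage `t` -/
noncomputable def w1 (t : ℕ) (x : Fin n → ℤ) : ℝ :=
  if MemJ (𝒜.stR 𝒜.r₁ t) 𝒜.R x then stOm n 𝒜.L t 𝒜.x₀ x else 0

open Classical in
/-- indicator of side 2 of stage `t` -/
noncomputable def w2 (t : ℕ) (x : Fin n → ℤ) : ℝ :=
  if MemJ (𝒜.stR 𝒜.r₂ t) 𝒜.R x then 1 else 0

theorem w1_lz (t : ℕ) : Lz 𝒜.R (w1 𝒜 t) := by
  refine Lz_base_of (𝒜.stR_sub 𝒜.sub₁ 𝒜.mem₁ t) (ω := fun v k => stOm1 n 𝒜.L t v (𝒜.x₀ v) k)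
    (fun v k => stOm1_pos _ _ _ _ _ _) (fun v k => stOm1_lc _ _ _ _ _ _) (fun z hz => ?_)
    (fun z hz => ?_)
  · unfold w1; rw [if_pos hz]; rfl
  · unfold w1; rw [if_neg hz]

theorem w2_lz (t : ℕ) : Lz (-𝒜.R) (fun p => w2 𝒜 t (-p)) := by
  have := Lz.memJ_reflect (𝒜.stR_sub 𝒜.sub₂ 𝒜.mem₂ t) 0 (c := fun p => w2 𝒜 t (-p))
    (fun z hz => by
      rw [zero_sub] at hz
      show w2 𝒜 t (-z) = 1
      unfold w2; rw [if_pos hz])
    (fun z hz => by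
      rw [zero_sub] at hz
      show w2 𝒜 t (-z) = 0
      unfold w2; rw [if_neg hz])
  simpa using this

/-- the window of stage `t` -/
noncomputable def bxA (t : ℕ) : Finset (Fin n → ℤ) :=
  Fintype.piFinset fun v => Icc (𝒜.x₀ v - stQ n 𝒜.L t)
    ((𝒜.x₀ v - stQ n 𝒜.L t) + ((2 * stQ n 𝒜.L t : ℕ) : ℤ))

theorem pairA_eq (t : ℕ) (u v : Fin n) :
    pairA (bxA 𝒜 t) (w1 𝒜 t) (w2 𝒜 t) (ev (Sum.inr v) - ev (Sum.inr u)) = 𝒜.Nst t u v := by
  classical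
  set P : Finset (Fin n → ℤ) := (bxA 𝒜 t).filter fun x =>
    MemJ (𝒜.stR 𝒜.r₁ t) 𝒜.R x ∧ MemJ (𝒜.stR 𝒜.r₂ t) 𝒜.R (fun w => x w + hs u v w) with hP
  have hPm : ∀ x, x ∈ P ↔ MemJ (𝒜.stR 𝒜.r₁ t) 𝒜.R x ∧
      MemJ (𝒜.stR 𝒜.r₂ t) 𝒜.R (fun w => x w + hs u v w) := by
    intro x
    rw [hP, mem_filter]
    constructor
    · exact fun h => h.2
    · intro h
      refine ⟨?_, h⟩
      have hc := ((𝒜.mem_stR 𝒜.sub₁ t x).1 h.1).2
      unfold bxA
      rw [Fintype.mem_piFinset]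
      intro e
      have := hc e
      rw [mem_Icc]
      push_cast
      constructor <;> linarith [this.1, this.2]
  unfold AnnData.Nst
  rw [𝒜.Ns_eq (hs u v) t P hPm, hP, Finset.sum_filter]
  unfold pairA
  refine Finset.sum_congr rfl fun x _ => ?_
  have e1 : (x + fun e => (ev (Sum.inr v) - ev (Sum.inr u) : Fin n ⊕ Fin n → ℤ) (Sum.inl e)) = x := by
    funext e
    have a1 : ev (Sum.inr v : Fin n ⊕ Fin n) (Sum.inl e) = 0 := ev_ne (by simp)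
    have a2 : ev (Sum.inr u : Fin n ⊕ Fin n) (Sum.inl e) = 0 := ev_ne (by simp)
    simp [a1, a2]
  have e2 : (x - fun e => (ev (Sum.inr v) - ev (Sum.inr u) : Fin n ⊕ Fin n → ℤ) (Sum.inr e)) =
      fun w => x w + hs u v w := by
    funext e
    have a1 : ev (Sum.inr v : Fin n ⊕ Fin n) (Sum.inr e) = ev v e := ev_inr_apply _ _
    have a2 : ev (Sum.inr u : Fin n ⊕ Fin n) (Sum.inr e) = ev u e := ev_inr_apply _ _
    rw [Pi.sub_apply, Pi.sub_apply, a1, a2]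
    unfold hs ev
    simp only [Pi.single_apply]
    ring
  rw [e1, e2]
  unfold w1 w2
  by_cases h1 : MemJ (𝒜.stR 𝒜.r₁ t) 𝒜.R x
  · by_cases h2 : MemJ (𝒜.stR 𝒜.r₂ t) 𝒜.R (fun w => x w + hs u v w)
    · simp only [h1, h2, if_true, and_self, mul_one]
    · simp only [h1, h2, if_true, if_false, and_false, mul_zero]
  · simp only [h1, if_false, false_and, zero_mul]

/-- **triangle inequality of the one-link counts** -/
theorem tri_Nst (t : ℕ) (u v w : Fin n) :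
    𝒜.Nst t u v * 𝒜.Nst t v w ≤ 2 * 𝒜.Z t * 𝒜.Nst t u w := by
  have hb1 : ∀ p, w1 𝒜 t p ≤ 1 := by
    intro p
    unfold w1
    split_ifs
    · exact stOm_le_one _ _ _ _ _
    · exact zero_le_one
  have hb2 : ∀ p, w2 𝒜 t p ≤ 1 := by
    intro p
    unfold w2
    split_ifs
    · exact le_rfl
    · exact zero_le_one
  have hL : Lz 0 (pairA (bxA 𝒜 t) (w1 𝒜 t) (w2 𝒜 t)) :=
    (Lz_pair (w1_lz 𝒜 t) (w2_lz 𝒜 t) hb1 hb2 (fun v => 𝒜.x₀ v - stQ n 𝒜.L t)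
      (fun _ => 2 * stQ n 𝒜.L t)).1
  have hl : LorN (pairA (bxA 𝒜 t) (w1 𝒜 t) (w2 𝒜 t)) := fun β => hL.af [] (by simp) β
  have h := cyc hl hL.nonneg (Sum.inr w) (Sum.inr v) (Sum.inr u)
  rw [pairA_eq, pairA_eq, pairA_eq] at h
  have h0 : pairA (bxA 𝒜 t) (w1 𝒜 t) (w2 𝒜 t) 0 = 𝒜.Z t := by
    have := pairA_eq 𝒜 t u u
    rw [sub_self, 𝒜.Nst_self] at this
    exact this
  rw [h0] at h
  linarith

/-- the same in helper272's orientation `N u v := Nst t v u` -/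
theorem tri_Nst' (t : ℕ) (u v w : Fin n) :
    𝒜.Nst t v u * 𝒜.Nst t w v ≤ 2 * 𝒜.Z t * 𝒜.Nst t w u := by
  have := tri_Nst 𝒜 t w v u
  linarith

end Crest.Agent.R302.Gau
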