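import Mathlib
import Crest.Agent.R302.Gau970G
import Crest.Agent.R302.Loop272C

/-!
R302 (helper970), block GAUGE, part H: the field `good` of `MassIn` from `GoodR` and `blk`.
-/

set_option autoImplicit false
set_option linter.unusedSectionVars false

namespace Crest.Agent.R302.Gau

open Finset Crest.Agent.R302.Inst Crest.Agent.R302.Stage Crest.Agent.R302.Loop

variable {n : ℕ}

/-- the gauge of all pairs from the gauge of the representatives -/
theorem good_of {D : SD (Fin n)} {rep : ℕ → ℕ} {N' : ℕ → ℕ → ℝ} {Z' Gam kap : ℝ} {g : List ℤ}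
    (hg : GoodR n rep N' Z' Gam g) (hkap : 0 ≤ kap)
    (hblk : ∀ u < n, ∀ v < n, N' u v ≤ kap * N' (rep u) (rep v))
    (hell : ∀ e : Fin n, D.ell e = g.getD (rep e) 0) (u v : Fin n) :
    N' u v * D.μ u ≤ (kap * Gam) * Z' * D.μ v := by
  have h1 := hg u u.2 v v.2
  have h2 := hblk u u.2 v v.2
  unfold SD.μ
  rw [hell, hell]
  have p1 : (0 : ℝ) < 2 ^ (g.getD (rep u) 0) := by positivity
  calc N' u v * (2 : ℝ) ^ (g.getD (rep u) 0)
      ≤ kap * N' (rep u) (rep v) * (2 : ℝ) ^ (g.getD (rep u) 0) :=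
        mul_le_mul_of_nonneg_right h2 p1.le
    _ = kap * (N' (rep u) (rep v) * (2 : ℝ) ^ (g.getD (rep u) 0)) := by ring
    _ ≤ kap * (Gam * Z' * (2 : ℝ) ^ (g.getD (rep v) 0)) := mul_le_mul_of_nonneg_left h1 hkap
    _ = _ := by ring

end Crest.Agent.R302.Gau
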