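import Mathlib

/-!
R302, block GEO, part 1 (helper725): a bipartite multigraph given by two label maps
`s : E → V1`, `t : E → V2` (the edges are the elements of `E`), independence in the linear
algebra form, alternating paths, fundamental cycles, cut functionals.
-/

set_option autoImplicit false
set_option linter.unusedSectionVars false
set_option linter.unusedSimpArgs false

namespace Crest.Agent.R302.Geo

open Finset

section basic

variable {E V1 V2 : Type*} [Fintype E] [DecidableEq E] [DecidableEq V1] [DecidableEq V2]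

/-- sum of `z` over the block with label `v`. -/
def bs {V : Type*} [DecidableEq V] (s : E → V) (z : E → ℤ) (v : V) : ℤ :=
  ∑ g ∈ univ.filter (fun g => s g = v), z g

theorem bs_eq {V : Type*} [DecidableEq V] (s : E → V) (z : E → ℤ) (v : V) :
    bs s z v = ∑ g, if s g = v then z g else 0 := by
  unfold bs; rw [Finset.sum_filter]

theorem bs_add {V : Type*} [DecidableEq V] (s : E → V) (z z' : E → ℤ) (v : V) :
    bs s (z + z') v = bs s z v + bs s z' v := by
  unfold bs; rw [← Finset.sum_add_distrib]; rfl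

theorem bs_sub {V : Type*} [DecidableEq V] (s : E → V) (z z' : E → ℤ) (v : V) :
    bs s (z - z') v = bs s z v - bs s z' v := by
  unfold bs; rw [← Finset.sum_sub_distrib]; rfl

theorem bs_neg {V : Type*} [DecidableEq V] (s : E → V) (z : E → ℤ) (v : V) :
    bs s (-z) v = - bs s z v := by
  unfold bs; rw [← Finset.sum_neg_distrib]; rfl

theorem bs_zero {V : Type*} [DecidableEq V] (s : E → V) (v : V) :
    bs s (0 : E → ℤ) v = 0 := by
  unfold bs; simp

theorem bs_single {V : Type*} [DecidableEq V] (s : E → V) (e : E) (v : V) :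
    bs s (Pi.single e (1 : ℤ)) v = if s e = v then 1 else 0 := by
  rw [bs_eq]
  rw [Finset.sum_eq_single e]
  · simp
  · intro g _ hg
    simp [Pi.single_apply, hg]
  · intro h; exact absurd (mem_univ e) h

/-- balanced: all block sums of both families vanish. -/
def Bal (s : E → V1) (t : E → V2) (z : E → ℤ) : Prop :=
  (∀ v, bs s z v = 0) ∧ (∀ v, bs t z v = 0)

theorem Bal.zero (s : E → V1) (t : E → V2) : Bal s t (0 : E → ℤ) :=
  ⟨fun v => bs_zero s v, fun v => bs_zero t v⟩

theorem Bal.add {s : E → V1} {t : E → V2} {z z' : E → ℤ} (h : Bal s t z) (h' : Bal s t z') :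
    Bal s t (z + z') :=
  ⟨fun v => by rw [bs_add, h.1, h'.1, add_zero], fun v => by rw [bs_add, h.2, h'.2, add_zero]⟩

theorem Bal.sub {s : E → V1} {t : E → V2} {z z' : E → ℤ} (h : Bal s t z) (h' : Bal s t z') :
    Bal s t (z - z') :=
  ⟨fun v => by rw [bs_sub, h.1, h'.1, sub_zero], fun v => by rw [bs_sub, h.2, h'.2, sub_zero]⟩

theorem Bal.neg {s : E → V1} {t : E → V2} {z : E → ℤ} (h : Bal s t z) : Bal s t (-z) :=
  ⟨fun v => by rw [bs_neg, h.1, neg_zero], fun v => by rw [bs_neg, h.2, neg_zero]⟩

/-- block sums over a coarser family are sums of block sums over a finer one. -/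
theorem bs_coarse {V V' : Type*} [DecidableEq V] [DecidableEq V']
    (s : E → V) (s' : E → V') (hc : ∀ a b, s' a = s' b → s a = s b) (z : E → ℤ)
    (hz : ∀ v, bs s' z v = 0) (v : V) : bs s z v = 0 := by
  classical
  unfold bs
  rw [← Finset.sum_fiberwise_of_maps_to (s := univ.filter (fun g => s g = v))
    (t := (univ.filter (fun g => s g = v)).image s') (g := s')
    (fun g hg => Finset.mem_image_of_mem _ hg)]
  apply Finset.sum_eq_zero
  intro v' hv'
  obtain ⟨g0, hg0, rfl⟩ := Finset.mem_image.mp hv'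
  have := hz (s' g0)
  unfold bs at this
  rw [← this]
  apply Finset.sum_congr _ (fun _ _ => rfl)
  ext g
  simp only [mem_filter, mem_univ, true_and] at hg0 ⊢
  constructor
  · exact fun h => h.2
  · intro h
    exact ⟨by rw [hc g g0 h, hg0], h⟩

theorem Bal.coarse {V V' U U' : Type*} [DecidableEq V] [DecidableEq V'] [DecidableEq U]
    [DecidableEq U'] {s : E → V} {s' : E → V'} {t : E → U} {t' : E → U'}
    (hs : ∀ a b, s' a = s' b → s a = s b) (ht : ∀ a b, t' a = t' b → t a = t b)
    {z : E → ℤ} (h : Bal s' t' z) : Bal s t z :=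
  ⟨bs_coarse s s' hs z h.1, bs_coarse t t' ht z h.2⟩

/-- `F` is independent (a forest): no nonzero balanced vector is supported on `F`. -/
def Indep (s : E → V1) (t : E → V2) (F : Finset E) : Prop :=
  ∀ z : E → ℤ, (∀ g, g ∉ F → z g = 0) → Bal s t z → z = 0

theorem Indep.mono {s : E → V1} {t : E → V2} {F F' : Finset E} (h : Indep s t F') (hF : F ⊆ F') :
    Indep s t F :=
  fun z hz hb => h z (fun g hg => hz g (fun h' => hg (hF h'))) hb

theorem Indep.empty (s : E → V1) (t : E → V2) : Indep s t ∅ :=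
  fun z hz _ => funext fun g => hz g (by simp)

theorem Indep.fine {V V' U U' : Type*} [DecidableEq V] [DecidableEq V'] [DecidableEq U]
    [DecidableEq U'] {s : E → V} {s' : E → V'} {t : E → U} {t' : E → U'}
    (hs : ∀ a b, s' a = s' b → s a = s b) (ht : ∀ a b, t' a = t' b → t a = t b)
    {F : Finset E} (h : Indep s t F) : Indep s' t' F :=
  fun z hz hb => h z hz (hb.coarse hs ht)

/-! ### alternating paths -/

/-- `l = [g₁, …, g_{2r-1}]` is an alternating path from the 1-block `a` to the 2-block `b`: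
`s g₁ = a`, `t g₁ = t g₂`, `s g₂ = s g₃`, …, `t g_{2r-1} = b`. -/
def IsPth (s : E → V1) (t : E → V2) : V1 → V2 → List E → Prop
  | _, _, [] => False
  | a, b, [g] => s g = a ∧ t g = b
  | a, b, g₁ :: g₂ :: l => s g₁ = a ∧ t g₁ = t g₂ ∧ IsPth s t (s g₂) b l

/-- alternating sum `g₁ - g₂ + g₃ - …` of a list. -/
def alt : List E → (E → ℤ)
  | [] => 0
  | g :: l => Pi.single g 1 - alt l

omit [Fintype E] [DecidableEq E] [DecidableEq V1] [DecidableEq V2] in
theorem IsPth.ne_nil {s : E → V1} {t : E → V2} {a : V1} {b : V2} {l : List E}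
    (h : IsPth s t a b l) : l ≠ [] := by
  cases l with
  | nil => exact h.elim
  | cons _ _ => simp

omit [Fintype E] [DecidableEq E] [DecidableEq V1] [DecidableEq V2] in
/-- extension of a path by two edges at the end. -/
theorem IsPth.append {s : E → V1} {t : E → V2} : ∀ {a : V1} {b : V2} {l : List E},
    IsPth s t a b l → ∀ {g g' : E}, t g' = b → s g' = s g → IsPth s t a (t g) (l ++ [g', g])
  | a, b, [], h, _, _, _, _ => h.elim
  | a, b, [g₁], h, g, g', h1, h2 => by
      refine ⟨h.1, by rw [h.2, h1], ?_⟩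
      exact ⟨h2.symm, rfl⟩
  | a, b, g₁ :: g₂ :: l, h, g, g', h1, h2 =>
      ⟨h.1, h.2.1, IsPth.append h.2.2 h1 h2⟩

theorem bs_alt {s : E → V1} {t : E → V2} : ∀ {a : V1} {b : V2} {l : List E},
    IsPth s t a b l → (∀ v, bs s (alt l) v = if a = v then 1 else 0) ∧
      (∀ v, bs t (alt l) v = if b = v then 1 else 0)
  | a, b, [], h => h.elim
  | a, b, [g], h => by
      have e1 : alt [g] = Pi.single g (1 : ℤ) := by simp [alt]
      rw [e1]
      refine ⟨fun v => ?_, fun v => ?_⟩
      · rw [bs_single, h.1]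
      · rw [bs_single, h.2]
  | a, b, g₁ :: g₂ :: l, h => by
      obtain ⟨h1, h2, h3⟩ := h
      have ih := bs_alt h3
      have e1 : alt (g₁ :: g₂ :: l) = Pi.single g₁ (1 : ℤ) - (Pi.single g₂ (1 : ℤ) - alt l) := rfl
      rw [e1]
      refine ⟨fun v => ?_, fun v => ?_⟩
      · rw [bs_sub, bs_sub, bs_single, bs_single, ih.1, h1]; ring
      · rw [bs_sub, bs_sub, bs_single, bs_single, ih.2, h2]; ring

/-- there is an alternating path inside `F`. -/
def Reach (s : E → V1) (t : E → V2) (F : Finset E) (a : V1) (b : V2) : Prop :=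
  ∃ l : List E, (∀ g ∈ l, g ∈ F) ∧ IsPth s t a b l

theorem alt_supp : ∀ (l : List E) (g : E), g ∉ l → alt l g = 0
  | [], g, _ => rfl
  | g' :: l, g, h => by
      have h1 : g ≠ g' := fun e => h (by simp [e])
      have h2 : g ∉ l := fun e => h (by simp [e])
      simp [alt, alt_supp l g h2, Pi.single_apply, h1]

/-- the cycle closing a path from the 1-block of `e` to the 2-block of `e`. -/
theorem bal_cycle {s : E → V1} {t : E → V2} {e : E} {l : List E}
    (h : IsPth s t (s e) (t e) l) : Bal s t (Pi.single e 1 - alt l) := by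
  have h' := bs_alt h
  exact ⟨fun v => by rw [bs_sub, bs_single, h'.1, sub_self],
    fun v => by rw [bs_sub, bs_single, h'.2, sub_self]⟩

theorem not_indep_of_reach {s : E → V1} {t : E → V2} {F : Finset E} {e : E} (he : e ∉ F)
    (h : Reach s t F (s e) (t e)) : ¬ Indep s t (insert e F) := by
  obtain ⟨l, hl, hp⟩ := h
  intro hI
  have hel : e ∉ l := fun h => he (hl e h)
  have h0 := hI (Pi.single e 1 - alt l) (fun g hg => by
    have h1 : g ≠ e := fun h => hg (by simp [h])
    have h2 : g ∉ l := fun h => hg (by simp [hl g h])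
    simp [Pi.single_apply, h1, alt_supp l g h2]) (bal_cycle hp)
  have := congrFun h0 e
  simp [alt_supp l e hel] at this

/-! ### cuts -/

/-- the 2-blocks on the side of the 1-block `a`. -/
def R2 (s : E → V1) (t : E → V2) (F : Finset E) (a : V1) (b : V2) : Prop := Reach s t F a b

/-- the 1-blocks on the side of the 1-block `a`. -/
def R1 (s : E → V1) (t : E → V2) (F : Finset E) (a : V1) (a' : V1) : Prop :=
  a' = a ∨ ∃ g ∈ F, s g = a' ∧ Reach s t F a (t g)

omit [Fintype E] [DecidableEq E] [DecidableEq V1] [DecidableEq V2] in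
theorem R1_iff_R2 {s : E → V1} {t : E → V2} {F : Finset E} {a : V1} {g : E} (hg : g ∈ F) :
    R1 s t F a (s g) ↔ R2 s t F a (t g) := by
  constructor
  · rintro (h | ⟨g', hg', h1, l, hl, hp⟩)
    · exact ⟨[g], by simpa using hg, h, rfl⟩
    · refine ⟨l ++ [g', g], ?_, hp.append rfl h1⟩
      intro x hx
      simp only [List.mem_append, List.mem_cons, List.not_mem_nil, or_false] at hx
      rcases hx with hx | hx | hx
      · exact hl x hx
      · rw [hx]; exact hg'
      · rw [hx]; exact hg
  · intro h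
    exact Or.inr ⟨g, hg, rfl, h⟩

open Classical in
/-- coefficient of the cut functional of the side of `a` (w.r.t. `F`). -/
noncomputable def cutCoef (s : E → V1) (t : E → V2) (F : Finset E) (a : V1) (g : E) : ℤ :=
  (if R1 s t F a (s g) then 1 else 0) - (if R2 s t F a (t g) then 1 else 0)

/-- the cut functional. -/
noncomputable def cut (s : E → V1) (t : E → V2) (F : Finset E) (a : V1) (x : E → ℤ) : ℤ :=
  ∑ g, cutCoef s t F a g * x g

omit [Fintype E] [DecidableEq E] [DecidableEq V1] [DecidableEq V2] in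
theorem cutCoef_mem {s : E → V1} {t : E → V2} {F : Finset E} {a : V1} {g : E} (hg : g ∈ F) :
    cutCoef s t F a g = 0 := by
  classical
  unfold cutCoef
  by_cases h : R2 s t F a (t g)
  · rw [if_pos h, if_pos ((R1_iff_R2 hg).mpr h), sub_self]
  · rw [if_neg h, if_neg (fun h' => h ((R1_iff_R2 hg).mp h')), sub_self]

omit [Fintype E] [DecidableEq E] [DecidableEq V1] [DecidableEq V2] in
theorem cutCoef_cases (s : E → V1) (t : E → V2) (F : Finset E) (a : V1) (g : E) :
    cutCoef s t F a g = 0 ∨ cutCoef s t F a g = 1 ∨ cutCoef s t F a g = -1 := by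
  classical
  unfold cutCoef
  by_cases h : R2 s t F a (t g) <;> by_cases h' : R1 s t F a (s g) <;> simp [h, h']

omit [Fintype E] [DecidableEq E] [DecidableEq V1] [DecidableEq V2] in
theorem cutCoef_abs (s : E → V1) (t : E → V2) (F : Finset E) (a : V1) (g : E) :
    |cutCoef s t F a g| ≤ 1 := by
  rcases cutCoef_cases s t F a g with h | h | h <;> simp [h]

omit [Fintype E] [DecidableEq E] [DecidableEq V1] [DecidableEq V2] in
theorem cutCoef_self {s : E → V1} {t : E → V2} {F : Finset E} {e : E}
    (h : ¬ Reach s t F (s e) (t e)) : cutCoef s t F (s e) e = 1 := by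
  classical
  unfold cutCoef R2 R1
  rw [if_pos (Or.inl rfl), if_neg h, sub_zero]

/-- the cut functional is the sum of the 1-block sums minus the sum of the 2-block sums of one
side. -/
theorem cut_eq (s : E → V1) (t : E → V2) (F : Finset E) (a : V1) (x : E → ℤ)
    (P : Finset V1) (Q : Finset V2) (hP : ∀ g, s g ∈ P ↔ R1 s t F a (s g))
    (hQ : ∀ g, t g ∈ Q ↔ R2 s t F a (t g)) :
    cut s t F a x = ∑ v ∈ P, bs s x v - ∑ v ∈ Q, bs t x v := by
  classical
  have h1 : ∑ v ∈ P, bs s x v = ∑ g, if s g ∈ P then x g else 0 := by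
    simp only [bs_eq]
    rw [Finset.sum_comm]
    apply Finset.sum_congr rfl
    intro g _
    rw [Finset.sum_ite_eq]
  have h2 : ∑ v ∈ Q, bs t x v = ∑ g, if t g ∈ Q then x g else 0 := by
    simp only [bs_eq]
    rw [Finset.sum_comm]
    apply Finset.sum_congr rfl
    intro g _
    rw [Finset.sum_ite_eq]
  rw [h1, h2, ← Finset.sum_sub_distrib]
  unfold cut
  apply Finset.sum_congr rfl
  intro g _
  unfold cutCoef
  by_cases h : R1 s t F a (s g) <;> by_cases h' : R2 s t F a (t g) <;>
    simp [h, h', (hP g), (hQ g)]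

theorem cut_bal {s : E → V1} {t : E → V2} (F : Finset E) (a : V1) {x : E → ℤ}
    (h : Bal s t x) : cut s t F a x = 0 := by
  classical
  rw [cut_eq s t F a x ((univ.image s).filter (fun v => R1 s t F a v))
    ((univ.image t).filter (fun v => R2 s t F a v)) (fun g => by simp) (fun g => by simp)]
  rw [Finset.sum_eq_zero (fun v _ => h.1 v), Finset.sum_eq_zero (fun v _ => h.2 v), sub_self]

theorem indep_insert_of_not_reach {s : E → V1} {t : E → V2} {F : Finset E} {e : E}
    (hF : Indep s t F) (h : ¬ Reach s t F (s e) (t e)) : Indep s t (insert e F) := by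
  intro z hz hb
  have h0 := cut_bal F (s e) hb
  have h1 : cut s t F (s e) z = z e := by
    unfold cut
    rw [Finset.sum_eq_single e]
    · rw [cutCoef_self h, one_mul]
    · intro g _ hg
      by_cases hgF : g ∈ F
      · rw [cutCoef_mem hgF, zero_mul]
      · rw [hz g (by simp [hg, hgF]), mul_zero]
    · intro h; exact absurd (mem_univ e) h
  rw [h1] at h0
  apply hF z _ hb
  intro g hg
  by_cases hge : g = e
  · rw [hge, h0]
  · exact hz g (by simp [hge, hg])

theorem indep_insert_iff {s : E → V1} {t : E → V2} {F : Finset E} {e : E} (he : e ∉ F)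
    (hF : Indep s t F) : Indep s t (insert e F) ↔ ¬ Reach s t F (s e) (t e) :=
  ⟨fun h h' => not_indep_of_reach he h' h, indep_insert_of_not_reach hF⟩

/-- if `k ∈ F` and `F` is independent then the ends of `k` are separated in `F \ {k}`. -/
theorem not_reach_erase {s : E → V1} {t : E → V2} {F : Finset E} {k : E} (hk : k ∈ F)
    (hF : Indep s t F) : ¬ Reach s t (F.erase k) (s k) (t k) := by
  intro h
  have := not_indep_of_reach (Finset.notMem_erase k F) h
  rw [Finset.insert_erase hk] at this
  exact this hF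

/-! ### simple paths -/

/-- the 1-blocks left by the path: `s g₁, s g₃, …` -/
def vs1 (s : E → V1) : List E → List V1
  | [] => []
  | [g] => [s g]
  | g₁ :: _ :: l => s g₁ :: vs1 s l

/-- the 2-blocks visited by the path: `t g₁, t g₃, …` -/
def vs2 (t : E → V2) : List E → List V2
  | [] => []
  | [g] => [t g]
  | g₁ :: _ :: l => t g₁ :: vs2 t l

omit [Fintype E] [DecidableEq E] [DecidableEq V1] [DecidableEq V2] in
/-- a path can be entered at any 1-block it leaves -/
theorem IsPth.suffix1 {s : E → V1} {t : E → V2} : ∀ {a : V1} {b : V2} {l : List E},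
    IsPth s t a b l → ∀ {a' : V1}, a' ∈ vs1 s l →
      ∃ l' : List E, IsPth s t a' b l' ∧ (∀ g ∈ l', g ∈ l) ∧ l'.length ≤ l.length
  | a, b, [], h, _, _ => h.elim
  | a, b, [g], h, a', ha' => by
      simp only [vs1, List.mem_singleton] at ha'
      exact ⟨[g], ⟨ha'.symm, h.2⟩, fun _ h => h, le_rfl⟩
  | a, b, g₁ :: g₂ :: l, h, a', ha' => by
      simp only [vs1, List.mem_cons] at ha'
      rcases ha' with rfl | ha'
      · exact ⟨g₁ :: g₂ :: l, ⟨rfl, h.2⟩, fun _ h => h, le_rfl⟩
      · obtain ⟨l', h1, h2, h3⟩ := IsPth.suffix1 h.2.2 ha'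
        exact ⟨l', h1, fun g hg => by simp [h2 g hg], by simp; omega⟩

omit [Fintype E] [DecidableEq E] [DecidableEq V1] [DecidableEq V2] in
/-- a path can be left at any 2-block it visits; shortcut `g₁` then the rest after the visit -/
theorem IsPth.suffix2 {s : E → V1} {t : E → V2} : ∀ {a : V1} {b : V2} {l : List E},
    IsPth s t a b l → ∀ {c : V2}, c ∈ vs2 t l → ∀ {g₀ : E}, t g₀ = c →
      ∃ l' : List E, IsPth s t (s g₀) b l' ∧ (∀ g ∈ l', g = g₀ ∨ g ∈ l) ∧ l'.length ≤ l.length
  | a, b, [], h, _, _, _, _ => h.elim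
  | a, b, [g], h, c, hc, g₀, hg₀ => by
      simp only [vs2, List.mem_singleton] at hc
      exact ⟨[g₀], ⟨rfl, by rw [hg₀, hc, h.2]⟩, fun g hg => Or.inl (by simpa using hg), le_rfl⟩
  | a, b, g₁ :: g₂ :: l, h, c, hc, g₀, hg₀ => by
      simp only [vs2, List.mem_cons] at hc
      rcases hc with rfl | hc
      · refine ⟨g₀ :: g₂ :: l, ⟨rfl, by rw [hg₀, h.2.1], h.2.2⟩, ?_, le_rfl⟩
        intro g hg
        simp only [List.mem_cons] at hg ⊢
        tauto
      · obtain ⟨l', h1, h2, h3⟩ := IsPth.suffix2 h.2.2 hc hg₀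
        refine ⟨l', h1, fun g hg => ?_, by simp; omega⟩
        rcases h2 g hg with h | h
        · exact Or.inl h
        · exact Or.inr (by simp [h])

omit [Fintype E] [DecidableEq E] [DecidableEq V1] [DecidableEq V2] in
/-- a shortest path is simple -/
theorem simple_of_minimal {s : E → V1} {t : E → V2} {F : Finset E} : ∀ {a : V1} {b : V2}
    {l : List E}, IsPth s t a b l → (∀ g ∈ l, g ∈ F) →
      (∀ l', IsPth s t a b l' → (∀ g ∈ l', g ∈ F) → l.length ≤ l'.length) →
      (vs1 s l).Nodup ∧ (vs2 t l).Nodup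
  | a, b, [], h, _, _ => h.elim
  | a, b, [g], h, _, _ => by simp [vs1, vs2]
  | a, b, g₁ :: g₂ :: l, h, hF, hmin => by
      obtain ⟨h1, h2, h3⟩ := h
      have hFl : ∀ g ∈ l, g ∈ F := fun g hg => hF g (by simp [hg])
      have hg1 : g₁ ∈ F := hF g₁ (by simp)
      have hg2 : g₂ ∈ F := hF g₂ (by simp)
      have ih := simple_of_minimal h3 hFl (fun l' hl' hF' => by
        have := hmin (g₁ :: g₂ :: l') ⟨h1, h2, hl'⟩ (by
          intro g hg
          simp only [List.mem_cons] at hg
          rcases hg with rfl | rfl | hg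
          · exact hg1
          · exact hg2
          · exact hF' g hg)
        simpa using this)
      constructor
      · simp only [vs1, List.nodup_cons]
        refine ⟨fun hm => ?_, ih.1⟩
        obtain ⟨l', k1, k2, k3⟩ := h3.suffix1 hm
        rw [h1] at k1
        have := hmin l' k1 (fun g hg => hFl g (k2 g hg))
        simp at this
        omega
      · simp only [vs2, List.nodup_cons]
        refine ⟨fun hm => ?_, ih.2⟩
        obtain ⟨l', k1, k2, k3⟩ := h3.suffix2 hm rfl
        rw [h1] at k1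
        have := hmin l' k1 (fun g hg => by
          rcases k2 g hg with h | h
          · rw [h]; exact hg1
          · exact hFl g h)
        simp at this
        omega

theorem exists_simple {s : E → V1} {t : E → V2} {F : Finset E} {a : V1} {b : V2}
    (h : Reach s t F a b) :
    ∃ l : List E, (∀ g ∈ l, g ∈ F) ∧ IsPth s t a b l ∧ (vs1 s l).Nodup ∧ (vs2 t l).Nodup := by
  classical
  have h' : ∃ n : ℕ, ∃ l : List E, l.length = n ∧ (∀ g ∈ l, g ∈ F) ∧ IsPth s t a b l := by
    obtain ⟨l, h1, h2⟩ := h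
    exact ⟨l.length, l, rfl, h1, h2⟩
  obtain ⟨l, h1, h2, h3⟩ := Nat.find_spec h'
  refine ⟨l, h2, h3, ?_⟩
  refine simple_of_minimal h3 h2 (fun l' hl' hF' => ?_)
  rw [h1]
  exact Nat.find_min' h' ⟨l', rfl, hF', hl'⟩

end basic

end Crest.Agent.R302.Geo
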