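import Crest.Agent.R302.Geo1

/-!
R302, block GEO, part 2 (helper725): the fundamental cycle in cyclic (function) form.
-/

set_option autoImplicit false
set_option linter.unusedSectionVars false
set_option linter.unusedSimpArgs false

namespace Crest.Agent.R302.Geo

open Finset

section cyc

variable {E V1 V2 : Type*} [Fintype E] [DecidableEq E] [DecidableEq V1] [DecidableEq V2]

theorem IsPth.getD {s : E → V1} {t : E → V2} (d : E) : ∀ {a : V1} {b : V2} {l : List E},
    IsPth s t a b l → ∃ r : ℕ, l.length = 2 * r + 1 ∧ s (l.getD 0 d) = a ∧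
      t (l.getD (2 * r) d) = b ∧ (∀ j < r, t (l.getD (2 * j) d) = t (l.getD (2 * j + 1) d)) ∧
      (∀ j < r, s (l.getD (2 * j + 1) d) = s (l.getD (2 * j + 2) d)) ∧
      (∀ j ≤ r, (vs1 s l)[j]? = some (s (l.getD (2 * j) d))) ∧
      (∀ j ≤ r, (vs2 t l)[j]? = some (t (l.getD (2 * j) d)))
  | a, b, [], h => h.elim
  | a, b, [g], h => by
      refine ⟨0, rfl, h.1, h.2, fun j hj => absurd hj (Nat.not_lt_zero _),
        fun j hj => absurd hj (Nat.not_lt_zero _), ?_, ?_⟩
      · intro j hj
        obtain rfl : j = 0 := by omega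
        rfl
      · intro j hj
        obtain rfl : j = 0 := by omega
        rfl
  | a, b, g₁ :: g₂ :: l, h => by
      obtain ⟨h1, h2, h3⟩ := h
      obtain ⟨r, k1, k2, k3, k4, k5, k6, k7⟩ := IsPth.getD d h3
      refine ⟨r + 1, by simp only [List.length_cons]; omega, h1, ?_, ?_, ?_, ?_, ?_⟩
      · have : 2 * (r + 1) = 2 * r + 1 + 1 := by ring
        rw [this, List.getD_cons_succ, List.getD_cons_succ, k3]
      · intro j hj
        cases j with
        | zero => exact h2
        | succ j =>
          have e1 : 2 * (j + 1) = 2 * j + 1 + 1 := by ring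
          rw [e1, List.getD_cons_succ, List.getD_cons_succ, List.getD_cons_succ,
            List.getD_cons_succ]
          exact k4 j (by omega)
      · intro j hj
        cases j with
        | zero =>
          show s g₂ = s ((g₁ :: g₂ :: l).getD 2 d)
          rw [List.getD_cons_succ, List.getD_cons_succ, k2]
        | succ j =>
          have e1 : 2 * (j + 1) + 1 = 2 * j + 1 + 1 + 1 := by ring
          have e2 : 2 * (j + 1) + 2 = 2 * j + 2 + 1 + 1 := by ring
          rw [e1, e2, List.getD_cons_succ, List.getD_cons_succ, List.getD_cons_succ,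
            List.getD_cons_succ]
          exact k5 j (by omega)
      · intro j hj
        cases j with
        | zero => rfl
        | succ j =>
          have e1 : 2 * (j + 1) = 2 * j + 1 + 1 := by ring
          rw [e1, List.getD_cons_succ, List.getD_cons_succ]
          simp only [vs1, List.getElem?_cons_succ]
          exact k6 j (by omega)
      · intro j hj
        cases j with
        | zero => rfl
        | succ j =>
          have e1 : 2 * (j + 1) = 2 * j + 1 + 1 := by ring
          rw [e1, List.getD_cons_succ, List.getD_cons_succ]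
          simp only [vs2, List.getElem?_cons_succ]
          exact k7 j (by omega)

theorem alt_eq (d : E) : ∀ l : List E,
    alt l = ∑ i ∈ Finset.range l.length, ((-1 : ℤ) ^ i) • (Pi.single (l.getD i d) (1 : ℤ) : E → ℤ)
  | [] => by simp [alt]
  | g :: l => by
      rw [List.length_cons, Finset.sum_range_succ']
      simp only [List.getD_cons_succ, List.getD_cons_zero, pow_zero, one_smul]
      rw [alt, alt_eq d l, sub_eq_neg_add, ← Finset.sum_neg_distrib]
      congr 1
      apply Finset.sum_congr rfl
      intro i _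
      rw [pow_succ]
      simp

/-- cyclic form of a cycle through `e`: `g 0 = e, g 1, …, g (2r-1)`, `g (2r) = e`; `g (2j)` and
`g (2j+1)` are in one 1-block, `g (2j+1)`, `g (2j+2)` in one 2-block; the elements `g 0, …,
g (2r-1)` are different, and `C = ∑ (-1)^i 1_{g i}`. -/
structure Cyc (s : E → V1) (t : E → V2) (e : E) (C : E → ℤ) where
  r : ℕ
  hr : 1 ≤ r
  g : ℕ → E
  g0 : g 0 = e
  gr : g (2 * r) = e
  inj : ∀ i < 2 * r, ∀ j < 2 * r, g i = g j → i = j
  st1 : ∀ j < r, s (g (2 * j)) = s (g (2 * j + 1))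
  st2 : ∀ j < r, t (g (2 * j + 1)) = t (g (2 * j + 2))
  C_eq : C = ∑ i ∈ Finset.range (2 * r), ((-1 : ℤ) ^ i) • (Pi.single (g i) (1 : ℤ) : E → ℤ)

theorem Cyc.apply {s : E → V1} {t : E → V2} {e : E} {C : E → ℤ} (c : Cyc s t e C) {i : ℕ}
    (hi : i < 2 * c.r) : C (c.g i) = (-1) ^ i := by
  refine (congrFun c.C_eq (c.g i)).trans ?_
  rw [Finset.sum_apply, Finset.sum_eq_single i]
  · simp
  · intro j hj hji
    have : c.g i ≠ c.g j := fun h => hji (c.inj i hi j (Finset.mem_range.mp hj) h).symm
    simp [Pi.single_apply, this]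
  · intro h; exact absurd (Finset.mem_range.mpr hi) h

theorem Cyc.apply_zero {s : E → V1} {t : E → V2} {e : E} {C : E → ℤ} (c : Cyc s t e C) {x : E}
    (hx : ∀ i < 2 * c.r, c.g i ≠ x) : C x = 0 := by
  refine (congrFun c.C_eq x).trans ?_
  rw [Finset.sum_apply]
  apply Finset.sum_eq_zero
  intro j hj
  have : x ≠ c.g j := fun h => hx j (Finset.mem_range.mp hj) h.symm
  simp [Pi.single_apply, this]

theorem Cyc.self {s : E → V1} {t : E → V2} {e : E} {C : E → ℤ} (c : Cyc s t e C) : C e = 1 := by
  have := c.apply (i := 0) (by have := c.hr; omega)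
  rw [c.g0] at this
  simpa using this

theorem Cyc.cases {s : E → V1} {t : E → V2} {e : E} {C : E → ℤ} (c : Cyc s t e C) (x : E) :
    C x = 0 ∨ C x = 1 ∨ C x = -1 := by
  by_cases h : ∃ i < 2 * c.r, c.g i = x
  · obtain ⟨i, hi, rfl⟩ := h
    rw [c.apply hi]
    rcases Nat.even_or_odd i with h | h
    · right; left; exact h.neg_one_pow
    · right; right; exact h.neg_one_pow
  · left
    exact c.apply_zero (fun i hi h' => h ⟨i, hi, h'⟩)

theorem Cyc.abs_le {s : E → V1} {t : E → V2} {e : E} {C : E → ℤ} (c : Cyc s t e C) (x : E) :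
    |C x| ≤ 1 := by
  rcases c.cases x with h | h | h <;> simp [h]

/-- the fundamental cycle exists. -/
theorem exists_cyc {s : E → V1} {t : E → V2} {F : Finset E} {e : E} (he : e ∉ F)
    (h : Reach s t F (s e) (t e)) :
    ∃ C : E → ℤ, ∃ c : Cyc s t e C, Bal s t C ∧ (∀ x, C x ≠ 0 → x = e ∨ x ∈ F) ∧
      (∀ i, 1 ≤ i → i < 2 * c.r → c.g i ∈ F) := by
  obtain ⟨l, hl, hp, hn1, hn2⟩ := exists_simple h
  obtain ⟨r, k1, k2, k3, k4, k5, k6, k7⟩ := hp.getD e
  have hel : ∀ i < 2 * r + 1, l.getD i e ∈ F := by
    intro i hi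
    rw [List.getD_eq_getElem l e (by omega)]
    exact hl _ (List.getElem_mem _)
  have nd1 : ∀ p ≤ r, ∀ q ≤ r, s (l.getD (2 * p) e) = s (l.getD (2 * q) e) → p = q := by
    intro p hp q hq h
    have hlp : p < (vs1 s l).length := by
      by_contra hh
      have h6 := k6 p hp
      rw [List.getElem?_eq_none (by omega)] at h6
      exact absurd h6 (by simp)
    refine (List.nodup_iff_injective_get.mp hn1 |> fun hi => ?_)
    have hlq : q < (vs1 s l).length := by
      by_contra hh
      have h6 := k6 q hq
      rw [List.getElem?_eq_none (by omega)] at h6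
      exact absurd h6 (by simp)
    have e1 := k6 p hp
    have e2 := k6 q hq
    rw [List.getElem?_eq_getElem hlp] at e1
    rw [List.getElem?_eq_getElem hlq] at e2
    have e3 : (vs1 s l).get ⟨p, hlp⟩ = (vs1 s l).get ⟨q, hlq⟩ := by
      have e1' := Option.some.inj e1
      have e2' := Option.some.inj e2
      simp only [List.get_eq_getElem, e1', e2', h]
    have := hi e3
    simpa using this
  have nd2 : ∀ p ≤ r, ∀ q ≤ r, t (l.getD (2 * p) e) = t (l.getD (2 * q) e) → p = q := by
    intro p hp q hq h
    have hlp : p < (vs2 t l).length := by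
      by_contra hh
      have h6 := k7 p hp
      rw [List.getElem?_eq_none (by omega)] at h6
      exact absurd h6 (by simp)
    refine (List.nodup_iff_injective_get.mp hn2 |> fun hi => ?_)
    have hlq : q < (vs2 t l).length := by
      by_contra hh
      have h6 := k7 q hq
      rw [List.getElem?_eq_none (by omega)] at h6
      exact absurd h6 (by simp)
    have e1 := k7 p hp
    have e2 := k7 q hq
    rw [List.getElem?_eq_getElem hlp] at e1
    rw [List.getElem?_eq_getElem hlq] at e2
    have e3 : (vs2 t l).get ⟨p, hlp⟩ = (vs2 t l).get ⟨q, hlq⟩ := by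
      have e1' := Option.some.inj e1
      have e2' := Option.some.inj e2
      simp only [List.get_eq_getElem, e1', e2', h]
    have := hi e3
    simpa using this
  -- different elements of the path
  have inj' : ∀ i < 2 * r + 1, ∀ j < 2 * r + 1, l.getD i e = l.getD j e → i = j := by
    have mixed : ∀ p ≤ r, ∀ q < r, l.getD (2 * p) e ≠ l.getD (2 * q + 1) e := by
      intro p hp q hq h
      have a1 : p = q + 1 := by
        apply nd1 p hp (q + 1) (by omega)
        rw [show 2 * (q + 1) = 2 * q + 2 by ring, ← k5 q hq, h]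
      have a2 : p = q := by
        apply nd2 p hp q (by omega)
        rw [k4 q hq, h]
      omega
    intro i hi j hj h
    rcases Nat.even_or_odd' i with ⟨p, rfl | rfl⟩ <;> rcases Nat.even_or_odd' j with ⟨q, rfl | rfl⟩
    · rw [nd1 p (by omega) q (by omega) (by rw [h])]
    · exact absurd h (mixed p (by omega) q (by omega))
    · exact absurd h.symm (mixed q (by omega) p (by omega))
    · have a1 : p + 1 = q + 1 := by
        apply nd1 (p + 1) (by omega) (q + 1) (by omega)
        rw [show 2 * (q + 1) = 2 * q + 2 by ring, show 2 * (p + 1) = 2 * p + 2 by ring,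
          ← k5 q (by omega), ← k5 p (by omega), h]
      omega
  let G : ℕ → E := fun i => (e :: l).getD i e
  have G0 : G 0 = e := rfl
  have Gs : ∀ i, G (i + 1) = l.getD i e := fun i => by
    show (e :: l).getD (i + 1) e = _
    rw [List.getD_cons_succ]
  have hC : (Pi.single e 1 - alt l : E → ℤ) =
      ∑ i ∈ Finset.range (2 * (r + 1)), ((-1 : ℤ) ^ i) • (Pi.single (G i) (1 : ℤ) : E → ℤ) := by
    have : alt (e :: l) = (Pi.single e 1 - alt l : E → ℤ) := rfl
    rw [← this, alt_eq e, List.length_cons, k1, show 2 * r + 1 + 1 = 2 * (r + 1) by ring]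
  refine ⟨Pi.single e 1 - alt l, ⟨r + 1, by omega, G, G0, ?_, ?_, ?_, ?_, hC⟩, bal_cycle hp, ?_, ?_⟩
  · rw [show 2 * (r + 1) = 2 * r + 1 + 1 by ring, Gs]
    rw [List.getD_eq_default _ _ (by omega)]
  · intro i hi j hj h
    rcases Nat.eq_zero_or_pos i with hi0 | hi0 <;> rcases Nat.eq_zero_or_pos j with hj0 | hj0
    · omega
    · exfalso
      obtain ⟨j', rfl⟩ : ∃ j', j = j' + 1 := ⟨j - 1, by omega⟩
      rw [hi0, G0, Gs] at h
      exact he (h ▸ hel j' (by omega))
    · exfalso
      obtain ⟨i', rfl⟩ : ∃ i', i = i' + 1 := ⟨i - 1, by omega⟩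
      rw [hj0, G0, Gs] at h
      exact he (h ▸ hel i' (by omega))
    · obtain ⟨j', rfl⟩ : ∃ j', j = j' + 1 := ⟨j - 1, by omega⟩
      obtain ⟨i', rfl⟩ : ∃ i', i = i' + 1 := ⟨i - 1, by omega⟩
      rw [Gs, Gs] at h
      rw [inj' i' (by omega) j' (by omega) h]
  · intro j hj
    cases j with
    | zero =>
      show s (G 0) = s (G (0 + 1))
      rw [Gs, G0, k2]
    | succ j =>
      rw [show 2 * (j + 1) = 2 * j + 1 + 1 by ring, Gs, Gs]
      exact k5 j (by omega)
  · intro j hj
    rcases Nat.lt_or_ge j r with h | h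
    · rw [Gs, show 2 * j + 2 = 2 * j + 1 + 1 by ring, Gs]
      exact k4 j h
    · obtain rfl : j = r := by omega
      rw [Gs, show 2 * j + 2 = 2 * j + 1 + 1 by ring, Gs, k3,
        List.getD_eq_default _ _ (by omega)]
  · intro x hx
    by_contra hh
    push Not at hh
    apply hx
    have h2 : x ∉ l := fun h => hh.2 (hl x h)
    simp [Pi.single_apply, hh.1, alt_supp l x h2]
  · intro i hi1 hi2
    obtain ⟨i', rfl⟩ : ∃ i', i = i' + 1 := ⟨i - 1, by omega⟩
    show G (i' + 1) ∈ F
    rw [Gs]
    exact hel i' (by simp only at hi2; omega)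

/-- uniqueness of the fundamental cycle. -/
theorem cycle_unique {s : E → V1} {t : E → V2} {F : Finset E} (hF : Indep s t F) {e : E}
    {z z' : E → ℤ} (hz : ∀ x, z x ≠ 0 → x = e ∨ x ∈ F) (hz' : ∀ x, z' x ≠ 0 → x = e ∨ x ∈ F)
    (h1 : z e = z' e) (hb : Bal s t z) (hb' : Bal s t z') : z = z' := by
  have := hF (z - z') (fun g hg => by
    by_cases hge : g = e
    · rw [hge]; simp [h1]
    · have a1 : z g = 0 := by
        by_contra h
        rcases hz g h with h | h
        · exact hge h
        · exact hg h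
      have a2 : z' g = 0 := by
        by_contra h
        rcases hz' g h with h | h
        · exact hge h
        · exact hg h
      simp [a1, a2]) (hb.sub hb')
  exact sub_eq_zero.mp this

end cyc

end Crest.Agent.R302.Geo
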