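import Crest.Agent.R302.FHyp674
import Crest.Agent.R302.Ann425B

/-!
R302 (helper674): base weights with separable log-concave factor (stage weights, gauge) and the
hard-support form (fat slack only).

* `hyp_base` : `an (viol r z) ∏ ω_v (z_v)` has the Alexandrov-Fenchel property;
* `hyp_FF_sep` : `FF` over the integer points of a base polytope with weight `∏ ω_v (z_v)`;
* `FFp` : kernels only on the edges of `ps`, the other cuts are hard; `approx_FFp` : it is the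
  pointwise limit (on the hyperplane) of everywhere positive weights with the Alexandrov-Fenchel
  property; `af_FFp`.
-/

set_option autoImplicit false
set_option linter.unusedSectionVars false

namespace Crest.Agent.R302.AFC

open Finset Crest.Agent.R302.Lor
open Crest.Agent.R302.Tree (RTree)
open Crest.Agent.R302.Tree.RTree

variable {V : Type*} [Fintype V] [DecidableEq V]

/-- separable factor -/
noncomputable def sep (ω : V → ℤ → ℝ) (z : V → ℤ) : ℝ := ∏ v, ω v (z v)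

theorem sep_pos {ω : V → ℤ → ℝ} (hω : ∀ v k, 0 < ω v k) (z : V → ℤ) : 0 < sep ω z :=
  Finset.prod_pos fun v _ => hω v _

theorem hyp_mul_sep {c : (V → ℤ) → ℝ} (hc : ∀ γ, 0 ≤ c γ) (hH : Hyp c) {ω : V → ℤ → ℝ}
    (hω : ∀ v k, 0 < ω v k) (hlc : ∀ v k, ω v k * ω v (k + 2) ≤ ω v (k + 1) ^ 2) :
    Hyp (fun z => c z * sep ω z) := fun β => AnnBox.af_mul_sep hc hH hω hlc β

theorem hyp_base {r : Finset V → ℤ} (hr : ∀ A B, r (A ∪ B) + r (A ∩ B) ≤ r A + r B)
    {a : ℤ → ℝ} (ha0 : ∀ k, 0 ≤ a k) (ha1 : ∀ k, a (k + 1) ≤ a k)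
    (ha2 : ∀ k, a k * a (k + 2) ≤ a (k + 1) ^ 2) {ω : V → ℤ → ℝ}
    (hω : ∀ v k, 0 < ω v k) (hlc : ∀ v k, ω v k * ω v (k + 2) ≤ ω v (k + 1) ^ 2) :
    Hyp (fun z => a (viol r z) * sep ω z) :=
  hyp_mul_sep (fun _ => ha0 _) (hyp_viol hr ha0 ha1 ha2) hω hlc

/-- AF of the soft weight with a separable factor (stage weight, gauge) -/
theorem hyp_FF_sep {T : RTree V} {f : V → ℤ → ℝ} (hf : ∀ p s, 0 < f p s)
    (hlc : ∀ p s, f p (s - 1) * f p (s + 1) ≤ f p s ^ 2) {r : Finset V → ℤ} {R : ℤ}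
    (hr : Facet.SubM r R) {ω : V → ℤ → ℝ} (hω : ∀ v k, 0 < ω v k)
    (hωlc : ∀ v k, ω v k * ω v (k + 2) ≤ ω v (k + 1) ^ 2)
    {J : Finset (V → ℤ)} (hJ : ∀ z, z ∈ J ↔ Facet.MemJ r R z) : Hyp (FF T f J (sep ω)) := by
  have ha := approx_indicator
  have h : Hyp (FF T f J (fun z => (if viol r z = 0 then (1 : ℝ) else 0) * sep ω z)) := by
    refine hyp_tree hf hlc
      (c := fun n z => ((1 : ℝ) / (n + 1)) ^ (viol r z) * sep ω z) ?_ ?_ ?_
      (R := R) (fun z hz => ((hJ z).1 hz).2) ?_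
    · intro n β
      exact mul_pos (ha.pos n _) (sep_pos hω β)
    · intro n
      exact hyp_base hr.sub (fun k => (ha.pos n k).le) (ha.anti n) (ha.lc n) hω hωlc
    · intro x
      exact (ha.lim _ (viol_nonneg hr.empty x)).mul_const _
    · intro x hx hxJ
      have : viol r x ≠ 0 := by
        intro h0
        exact hxJ ((hJ x).2 ⟨(viol_eq_zero_iff hr.empty x).1 h0, hx⟩)
      simp only [if_neg this, zero_mul]
  have e : FF T f J (sep ω)
      = FF T f J (fun z => (if viol r z = 0 then (1 : ℝ) else 0) * sep ω z) := by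
    funext g
    unfold FF
    refine Finset.sum_congr rfl fun z hz => ?_
    have := (viol_eq_zero_iff hr.empty z).2 ((hJ z).1 hz).1
    simp only [if_pos this, one_mul]
  rw [e]
  exact h

/-! ### hard cuts -/

/-- kernels on the edges of `ps` only -/
noncomputable def FFp (T : RTree V) (f : V → ℤ → ℝ) (ps : List V) (J : Finset (V → ℤ))
    (c : (V → ℤ) → ℝ) (g : V → ℤ) : ℝ :=
  ∑ z ∈ J, c z * ∏ q ∈ univ.erase T.root,
    (if q ∈ ps then f q (icut T (g - z) q) else (if icut T (g - z) q = 0 then 1 else 0))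

theorem wins_tendsto_FFp {T : RTree V} {f : V → ℤ → ℝ} {c0 : (V → ℤ) → ℝ} {R : ℤ}
    {J : Finset (V → ℤ)} (hJ : ∀ z ∈ J, ∑ a, z a = R)
    (hc0 : ∀ x, ∑ a, x a = R → x ∉ J → c0 x = 0) {ps : List V} (hnd : ps.Nodup)
    (hroot : ∀ p ∈ ps, p ≠ T.root) {g : V → ℤ} (hg : ∑ a, g a = R) :
    Filter.Tendsto (fun L : ℕ => wins T f L ps c0 g) Filter.atTop (nhds (FFp T f ps J c0 g)) := by
  have h1 : ∀ L : ℕ, wins T f L ps c0 g
      = ∑ z ∈ J, c0 z * ∏ q ∈ univ.erase T.root, kk f L ps q (icut T (g - z) q) :=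
    fun L => wins_eq (f := f) L hJ hc0 ps hnd hroot g hg
  simp only [h1]
  unfold FFp
  refine tendsto_finsetSum _ fun z _ => Filter.Tendsto.const_mul _ ?_
  refine tendsto_finsetProd _ fun q _ => ?_
  unfold kk
  by_cases hq : q ∈ ps
  · simp only [if_pos hq]
    refine tendsto_const_nhds.congr' ?_
    filter_upwards [Filter.eventually_ge_atTop (icut T (g - z) q).natAbs] with L hL
    rw [if_pos]
    rw [Int.abs_eq_natAbs]
    exact_mod_cast hL
  · simp only [if_neg hq]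
    exact tendsto_const_nhds

/-- approximation on finite sets gives a sequence -/
theorem exists_seq_of_finite_approx {R : ℤ} {F : (V → ℤ) → ℝ} {P : ((V → ℤ) → ℝ) → Prop}
    (h : ∀ (S : Finset (V → ℤ)), (∀ g ∈ S, ∑ a, g a = R) → ∀ ε : ℝ, 0 < ε →
      ∃ c, P c ∧ ∀ g ∈ S, |c g - F g| < ε) :
    ∃ ck : ℕ → (V → ℤ) → ℝ, (∀ k, P (ck k)) ∧ ∀ g, ∑ a, g a = R →
      Filter.Tendsto (fun k => ck k g) Filter.atTop (nhds (F g)) := by
  classical
  obtain ⟨e, he⟩ := exists_surjective_nat (V → ℤ)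
  set S : ℕ → Finset (V → ℤ) := fun k =>
    ((Finset.range k).image e).filter (fun g => ∑ a, g a = R) with hS
  have hε : ∀ k : ℕ, (0 : ℝ) < 1 / (k + 1) := fun k => by positivity
  choose ck hck1 hck2 using fun k : ℕ =>
    h (S k) (fun g hg => (Finset.mem_filter.1 hg).2) (1 / (k + 1)) (hε k)
  refine ⟨ck, hck1, fun g hg => ?_⟩
  obtain ⟨i, hi⟩ := he g
  rw [Metric.tendsto_atTop]
  intro ε hεpos
  obtain ⟨N, hN⟩ := exists_nat_one_div_lt hεpos
  refine ⟨max N (i + 1), fun k hk => ?_⟩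
  have hgS : g ∈ S k := by
    rw [hS]
    refine Finset.mem_filter.2 ⟨Finset.mem_image.2 ⟨i, Finset.mem_range.2 ?_, hi⟩, hg⟩
    have := le_max_right N (i + 1)
    omega
  have h1 := hck2 k g hgS
  rw [Real.dist_eq]
  refine h1.trans (lt_of_le_of_lt ?_ hN)
  apply one_div_le_one_div_of_le (by positivity)
  have : (N : ℝ) ≤ k := by exact_mod_cast (le_max_left N (i + 1)).trans hk
  linarith

/-- finite approximation of `FFp` by everywhere positive weights with the AF property -/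
theorem approx_FFp_finite {T : RTree V} {f : V → ℤ → ℝ} (hf : ∀ p s, 0 < f p s)
    (hlc : ∀ p s, f p (s - 1) * f p (s + 1) ≤ f p s ^ 2) {c : ℕ → (V → ℤ) → ℝ}
    (hc : ∀ n β, 0 < c n β) (hH : ∀ n, Hyp (c n)) {c0 : (V → ℤ) → ℝ}
    (hlim : ∀ x, Filter.Tendsto (fun n => c n x) Filter.atTop (nhds (c0 x)))
    {R : ℤ} {J : Finset (V → ℤ)} (hJ : ∀ z ∈ J, ∑ a, z a = R)
    (hc0 : ∀ x, ∑ a, x a = R → x ∉ J → c0 x = 0) {ps : List V} (hnd : ps.Nodup)
    (hroot : ∀ p ∈ ps, p ≠ T.root) (S : Finset (V → ℤ)) (hS : ∀ g ∈ S, ∑ a, g a = R) {ε : ℝ}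
    (hε : 0 < ε) : ∃ c' : (V → ℤ) → ℝ, ((∀ β, 0 < c' β) ∧ Hyp c') ∧
      ∀ g ∈ S, |c' g - FFp T f ps J c0 g| < ε := by
  have h1 : ∀ᶠ L : ℕ in Filter.atTop, ∀ g ∈ S, |wins T f L ps c0 g - FFp T f ps J c0 g| < ε / 2 := by
    rw [Filter.eventually_all_finset]
    intro g hg
    have := wins_tendsto_FFp (f := f) hJ hc0 hnd hroot (hS g hg)
    have h2 := (Metric.tendsto_nhds.1 this) (ε / 2) (by linarith)
    simpa [Real.dist_eq] using h2
  obtain ⟨L, hL⟩ := h1.exists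
  have h2 : ∀ᶠ n : ℕ in Filter.atTop, ∀ g ∈ S, |wins T f L ps (c n) g - wins T f L ps c0 g| < ε / 2 := by
    rw [Filter.eventually_all_finset]
    intro g hg
    have := wins_lim (T := T) (f := f) L hlim ps g
    have h2 := (Metric.tendsto_nhds.1 this) (ε / 2) (by linarith)
    simpa [Real.dist_eq] using h2
  obtain ⟨n, hn⟩ := h2.exists
  refine ⟨wins T f L ps (c n), ⟨wins_pos hf L (hc n) ps, wins_hyp hf hlc L (hc n) (hH n) ps⟩,
    fun g hg => ?_⟩
  have h3 := hL g hg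
  have h4 := hn g hg
  calc |wins T f L ps (c n) g - FFp T f ps J c0 g|
      = |(wins T f L ps (c n) g - wins T f L ps c0 g)
        + (wins T f L ps c0 g - FFp T f ps J c0 g)| := by congr 1; ring
    _ ≤ |wins T f L ps (c n) g - wins T f L ps c0 g|
        + |wins T f L ps c0 g - FFp T f ps J c0 g| := abs_add_le _ _
    _ < ε := by linarith

/-- **hard support form** for the integer points of a base polytope with separable weight -/
theorem approx_FFp {T : RTree V} {f : V → ℤ → ℝ} (hf : ∀ p s, 0 < f p s)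
    (hlc : ∀ p s, f p (s - 1) * f p (s + 1) ≤ f p s ^ 2) {r : Finset V → ℤ} {R : ℤ}
    (hr : Facet.SubM r R) {ω : V → ℤ → ℝ} (hω : ∀ v k, 0 < ω v k)
    (hωlc : ∀ v k, ω v k * ω v (k + 2) ≤ ω v (k + 1) ^ 2)
    {J : Finset (V → ℤ)} (hJ : ∀ z, z ∈ J ↔ Facet.MemJ r R z) {ps : List V} (hnd : ps.Nodup)
    (hroot : ∀ p ∈ ps, p ≠ T.root) :
    ∃ ck : ℕ → (V → ℤ) → ℝ, (∀ k, (∀ β, 0 < ck k β) ∧ Hyp (ck k)) ∧ ∀ g, ∑ a, g a = R →
      Filter.Tendsto (fun k => ck k g) Filter.atTop (nhds (FFp T f ps J (sep ω) g)) := by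
  have ha := approx_indicator
  have e : ∀ g, FFp T f ps J (sep ω) g
      = FFp T f ps J (fun z => (if viol r z = 0 then (1 : ℝ) else 0) * sep ω z) g := by
    intro g
    unfold FFp
    refine Finset.sum_congr rfl fun z hz => ?_
    have := (viol_eq_zero_iff hr.empty z).2 ((hJ z).1 hz).1
    simp only [if_pos this, one_mul]
  simp only [e]
  refine exists_seq_of_finite_approx (P := fun c' => (∀ β, 0 < c' β) ∧ Hyp c') ?_
  intro S hS ε hε
  refine approx_FFp_finite hf hlc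
    (c := fun n z => ((1 : ℝ) / (n + 1)) ^ (viol r z) * sep ω z) ?_ ?_ ?_
    (R := R) (fun z hz => ((hJ z).1 hz).2) ?_ hnd hroot S hS hε
  · intro n β
    exact mul_pos (ha.pos n _) (sep_pos hω β)
  · intro n
    exact hyp_base hr.sub (fun k => (ha.pos n k).le) (ha.anti n) (ha.lc n) hω hωlc
  · intro x
    exact (ha.lim _ (viol_nonneg hr.empty x)).mul_const _
  · intro x hx hxJ
    have : viol r x ≠ 0 := by
      intro h0
      exact hxJ ((hJ x).2 ⟨(viol_eq_zero_iff hr.empty x).1 h0, hx⟩)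
    simp only [if_neg this, zero_mul]

/-- AF of the hard form on the hyperplane -/
theorem af_FFp {T : RTree V} {f : V → ℤ → ℝ} (hf : ∀ p s, 0 < f p s)
    (hlc : ∀ p s, f p (s - 1) * f p (s + 1) ≤ f p s ^ 2) {r : Finset V → ℤ} {R : ℤ}
    (hr : Facet.SubM r R) {ω : V → ℤ → ℝ} (hω : ∀ v k, 0 < ω v k)
    (hωlc : ∀ v k, ω v k * ω v (k + 2) ≤ ω v (k + 1) ^ 2)
    {J : Finset (V → ℤ)} (hJ : ∀ z, z ∈ J ↔ Facet.MemJ r R z) {ps : List V} (hnd : ps.Nodup)
    (hroot : ∀ p ∈ ps, p ≠ T.root) {β : V → ℤ} (hβ : ∑ a, β a + 2 = R) :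
    AF (fun u v => FFp T f ps J (sep ω) (β + ev u + ev v)) := by
  obtain ⟨ck, h1, h2⟩ := approx_FFp hf hlc hr hω hωlc hJ hnd hroot
  refine AF.lim (F := Filter.atTop) (fun u v => h2 _ ?_)
    (Filter.Eventually.of_forall fun k => (h1 k).2 β)
  simp only [Pi.add_apply, Finset.sum_add_distrib, Lor.sum_ev]
  omega

/-- with all edges the hard form is the soft weight -/
theorem FFp_univ {T : RTree V} {f : V → ℤ → ℝ} {J : Finset (V → ℤ)} {c : (V → ℤ) → ℝ}
    {ps : List V} (hps : ∀ q, q ≠ T.root → q ∈ ps) (g : V → ℤ) : FFp T f ps J c g = FF T f J c g := by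
  unfold FFp FF
  refine Finset.sum_congr rfl fun z _ => ?_
  congr 1
  refine Finset.prod_congr rfl fun q hq => ?_
  rw [if_pos (hps q (mem_erase.1 hq).1)]

end Crest.Agent.R302.AFC
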