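import Crest.Agent.R302.Inst532B
import Crest.Agent.R302.Cut550

/-!
R302 (helper532): the analytic hypotheses of helper893's `msp` (positivity, `κ`, `b`, `s`) for `FF`.
-/

set_option linter.unusedSectionVars false
set_option autoImplicit false

namespace Crest.Agent.R302.Inst

open Finset Crest.Agent.R302.Lor

/-- slope `b` and second difference `D` -/
structure Ker (κ : ℤ → ℝ) (b D : ℝ) : Prop extends Slope κ b where
  two : ∀ t, |κ (t + 1) - 2 * κ t + κ (t - 1)| ≤ D * κ t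

theorem Slope.rev {κ : ℤ → ℝ} {b : ℝ} (h : Slope κ b) : Slope (fun t => κ (-t)) b :=
  ⟨fun t => h.pos _, fun t => by
    have := h.dn (-(t + 1))
    rwa [show -(t + 1) + 1 = -t from by ring] at this, fun t => by
    have := h.up (-(t + 1))
    rwa [show -(t + 1) + 1 = -t from by ring] at this⟩

theorem Ker.rev {κ : ℤ → ℝ} {b D : ℝ} (h : Ker κ b D) : Ker (fun t => κ (-t)) b D :=
  ⟨h.toSlope.rev, fun t => by
    have := h.two (-t)
    rw [show -t + 1 = -(t - 1) from by ring, show -t - 1 = -(t + 1) from by ring] at this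
    rwa [show κ (-(t + 1)) - 2 * κ (-t) + κ (-(t - 1)) = κ (-(t - 1)) - 2 * κ (-t) + κ (-(t + 1))
      from by ring]⟩

theorem Ker.D_nonneg {κ : ℤ → ℝ} {b D : ℝ} (h : Ker κ b D) : 0 ≤ D := by
  have := h.two 0
  have h1 := h.pos 0
  by_contra hD
  push Not at hD
  have := abs_nonneg (κ (0 + 1) - 2 * κ 0 + κ (0 - 1))
  nlinarith

theorem ker_of_slope {κ : ℤ → ℝ} {b : ℝ} (h : Slope κ b) : Ker κ b (2 * Real.exp b) :=
  ⟨h, fun t => by
    have h1 := h.up t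
    have h2 := h.dn (t - 1)
    rw [sub_add_cancel] at h2
    have h3 := h.pos t
    have h4 := h.pos (t + 1)
    have h5 := h.pos (t - 1)
    have h6 : 1 ≤ Real.exp b := Real.one_le_exp h.b_nonneg
    rw [abs_le]
    constructor <;> nlinarith⟩

/-- mixtures of shifted kernels -/
theorem Ker.mix {κ : ℤ → ℝ} {b D : ℝ} (h : Ker κ b D) {ι : Type*} (s : Finset ι) (C : ι → ℝ)
    (t : ι → ℤ) (hC : ∀ i ∈ s, 0 ≤ C i) (hpos : ∃ i ∈ s, 0 < C i) :
    Ker (fun u => ∑ i ∈ s, C i * κ (t i + u)) b D := by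
  refine ⟨⟨fun u => ?_, fun u => ?_, fun u => ?_⟩, fun u => ?_⟩
  · obtain ⟨i, hi, hi'⟩ := hpos
    exact Finset.sum_pos' (fun i hi => mul_nonneg (hC i hi) (h.pos _).le)
      ⟨i, hi, mul_pos hi' (h.pos _)⟩
  · rw [Finset.mul_sum]
    refine Finset.sum_le_sum fun i hi => ?_
    have := mul_le_mul_of_nonneg_left (h.up (t i + u)) (hC i hi)
    rw [show t i + (u + 1) = t i + u + 1 from by ring]
    linarith
  · rw [Finset.mul_sum]
    refine Finset.sum_le_sum fun i hi => ?_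
    have := mul_le_mul_of_nonneg_left (h.dn (t i + u)) (hC i hi)
    rw [show t i + (u + 1) = t i + u + 1 from by ring]
    linarith
  · have e : ∑ i ∈ s, C i * κ (t i + (u + 1)) - 2 * ∑ i ∈ s, C i * κ (t i + u)
        + ∑ i ∈ s, C i * κ (t i + (u - 1))
        = ∑ i ∈ s, C i * (κ (t i + u + 1) - 2 * κ (t i + u) + κ (t i + u - 1)) := by
      rw [Finset.mul_sum, ← Finset.sum_sub_distrib, ← Finset.sum_add_distrib]
      refine Finset.sum_congr rfl fun i _ => ?_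
      rw [show t i + (u + 1) = t i + u + 1 from by ring,
        show t i + (u - 1) = t i + u - 1 from by ring]
      ring
    rw [e, Finset.mul_sum]
    refine (Finset.abs_sum_le_sum_abs _ _).trans (Finset.sum_le_sum fun i hi => ?_)
    rw [abs_mul, abs_of_nonneg (hC i hi)]
    have := mul_le_mul_of_nonneg_left (h.two (t i + u)) (hC i hi)
    linarith

theorem Ker.smul {κ : ℤ → ℝ} {b D : ℝ} (h : Ker κ b D) {c : ℝ} (hc : 0 < c) :
    Ker (fun u => c * κ u) b D := by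
  have := h.mix {()} (fun _ => c) (fun _ => 0) (fun _ _ => hc.le) ⟨(), by simp, hc⟩
  simpa using this

theorem Ker.mono {κ : ℤ → ℝ} {b b' D D' : ℝ} (h : Ker κ b D) (hb : b ≤ b') (hD : D ≤ D') :
    Ker κ b' D' :=
  ⟨⟨h.pos, fun t => (h.up t).trans (mul_le_mul_of_nonneg_right (Real.exp_le_exp.2 hb) (h.pos _).le),
    fun t => (h.dn t).trans (mul_le_mul_of_nonneg_right (Real.exp_le_exp.2 hb) (h.pos _).le)⟩,
    fun t => (h.two t).trans (mul_le_mul_of_nonneg_right hD (h.pos _).le)⟩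

theorem Slope.abs_sub_le {κ : ℤ → ℝ} {b : ℝ} (h : Slope κ b) (t : ℤ) :
    |κ (t + 1) - κ t| ≤ (Real.exp b - 1) * κ t ∧ |κ (t + 1) - κ t| ≤ (Real.exp b - 1) * κ (t + 1) := by
  have h1 := h.up t
  have h2 := h.dn t
  have h3 := h.pos t
  have h4 := h.pos (t + 1)
  have h6 : 1 ≤ Real.exp b := Real.one_le_exp h.b_nonneg
  constructor
  · rw [abs_le]
    refine ⟨?_, by linarith⟩
    -- κ t - κ (t+1) ≤ (e^b - 1) κ t : from κ (t+1) ≥ e^{-b} κ t
    rcases le_total (κ t) (κ (t + 1)) with h5 | h5 <;> nlinarith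
  · rw [abs_le]
    constructor
    · linarith
    · rcases le_total (κ t) (κ (t + 1)) with h5 | h5 <;> nlinarith

variable {E : Type*} [Fintype E] [DecidableEq E]

namespace Side

variable {S : Side E} {b D : E → ℝ}

/-- `Ok` with second differences -/
structure Ok2 (S : Side E) (b D : E → ℝ) : Prop where
  g0 : ∀ z, 0 ≤ S.g z
  ke : ∀ a, S.T.par a ≠ none → Ker (S.κ a) (b a) (D a)
  ne : ∃ z ∈ S.J, 0 < S.g z

theorem Ok2.ok (h : S.Ok2 b D) : S.Ok b := ⟨h.g0, fun a ha => (h.ke a ha).toSlope⟩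

open Classical in
/-- slope of the edge `a` in `W` -/
noncomputable def bb (S : Side E) (θ : ℝ) (b : E → ℝ) (a : E) : ℝ :=
  if S.T.par a = none then -Real.log θ else b a

open Classical in
/-- second difference of the edge `a` in `W` -/
noncomputable def DD (S : Side E) (θ : ℝ) (D : E → ℝ) (a : E) : ℝ :=
  if S.T.par a = none then 2 * θ⁻¹ else D a

theorem Ok2.wk_ker (h : S.Ok2 b D) {θ : ℝ} (h0 : 0 < θ) (h1 : θ ≤ 1) (a : E) :
    Ker (S.wk θ a) (S.bb θ b a) (S.DD θ D a) := by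
  unfold bb DD
  by_cases ha : S.T.par a = none
  · rw [if_pos ha, if_pos ha]
    have : S.wk θ a = fun t => θ ^ t.natAbs := by funext t; simp [wk, ha]
    rw [this]
    have := ker_of_slope (slope_theta h0 h1)
    rwa [Real.exp_neg, Real.exp_log h0] at this
  · rw [if_neg ha, if_neg ha]
    have : S.wk θ a = S.κ a := by funext t; simp [wk, ha]
    rw [this]
    exact h.ke a ha

/-- along `dq a` the weight `W` is a mixture of shifted kernels -/
theorem Ok2.W_line (h : S.Ok2 b D) {θ : ℝ} (h0 : 0 < θ) (h1 : θ ≤ 1) {μ : E → ℝ}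
    (hμ : ∀ a, 0 < μ a) (a : E) (y : E → ℤ) :
    Ker (fun u : ℤ => S.W θ μ (y - u • dq S.T a)) (S.bb θ b a) (S.DD θ D a) := by
  classical
  have key := (h.wk_ker h0 h1 a).mix S.J
    (fun z => (mon μ z * S.g z) * ∏ c ∈ univ.erase a, S.wk θ c (bs S.T z c - bs S.T y c))
    (fun z => bs S.T z a - bs S.T y a) ?_ ?_
  · have e : (fun u : ℤ => S.W θ μ (y - u • dq S.T a)) = fun u : ℤ => ∑ z ∈ S.J,
        ((mon μ z * S.g z) * ∏ c ∈ univ.erase a, S.wk θ c (bs S.T z c - bs S.T y c))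
          * S.wk θ a (bs S.T z a - bs S.T y a + u) := by
      funext u
      unfold W
      refine Finset.sum_congr rfl fun z _ => ?_
      rw [← Finset.prod_erase_mul _ _ (mem_univ a)]
      have e1 : ∏ c ∈ univ.erase a, S.wk θ c (bs S.T z c - bs S.T (y - u • dq S.T a) c)
          = ∏ c ∈ univ.erase a, S.wk θ c (bs S.T z c - bs S.T y c) := by
        refine Finset.prod_congr rfl fun c hc => ?_
        rw [bs_sub, bs_smul, bs_dq, if_neg (Finset.ne_of_mem_erase hc), mul_zero, sub_zero]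
      have e2 : bs S.T z a - bs S.T (y - u • dq S.T a) a = bs S.T z a - bs S.T y a + u := by
        rw [bs_sub, bs_smul, bs_dq, if_pos rfl]; ring
      rw [e1, e2]; ring
    rw [e]
    exact key
  · intro z _
    have := mon_pos hμ z
    have := h.g0 z
    have h2 : 0 < ∏ c ∈ univ.erase a, S.wk θ c (bs S.T z c - bs S.T y c) :=
      Finset.prod_pos fun c _ => (h.wk_ker h0 h1 c).pos _
    positivity
  · obtain ⟨z, hz, hg⟩ := h.ne
    refine ⟨z, hz, ?_⟩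
    have := mon_pos hμ z
    have h2 : 0 < ∏ c ∈ univ.erase a, S.wk θ c (bs S.T z c - bs S.T y c) :=
      Finset.prod_pos fun c _ => (h.wk_ker h0 h1 c).pos _
    positivity

/-- ratio lemma for `W` -/
theorem Ok2.W_le (h : S.Ok2 b D) {θ : ℝ} (h0 : 0 < θ) (h1 : θ ≤ 1) {μ : E → ℝ}
    (hμ : ∀ a, 0 < μ a) (x c : E → ℤ) :
    S.W θ μ (x + c) ≤ ((θ⁻¹) ^ (tcost S.T c) * Real.exp (fcost S.T b c)) * S.W θ μ x := by
  classical
  have e : (θ⁻¹) ^ (tcost S.T c) * Real.exp (fcost S.T b c)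
      = ∏ a, Real.exp (S.bb θ b a * ((bs S.T c a).natAbs : ℝ)) := by
    unfold tcost fcost bb
    rw [Real.exp_sum, ← Finset.prod_pow_eq_pow_sum, Finset.prod_filter, Finset.prod_filter,
      ← Finset.prod_mul_distrib]
    refine Finset.prod_congr rfl fun a _ => ?_
    by_cases ha : S.T.par a = none
    · simp only [ha, if_true, ne_eq, not_true_eq_false, if_false, mul_one]
      rw [mul_comm (-Real.log θ), Real.exp_nat_mul, Real.exp_neg, Real.exp_log h0]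
    · simp [ha]
  unfold W
  rw [e, Finset.mul_sum]
  refine Finset.sum_le_sum fun z _ => ?_
  have h3 : ∏ a, S.wk θ a (bs S.T z a - bs S.T (x + c) a)
      ≤ (∏ a, Real.exp (S.bb θ b a * ((bs S.T c a).natAbs : ℝ)))
        * ∏ a, S.wk θ a (bs S.T z a - bs S.T x a) := by
    rw [← Finset.prod_mul_distrib]
    refine Finset.prod_le_prod (fun a _ => ((h.wk_ker h0 h1 a).pos _).le) fun a _ => ?_
    have h2 := (h.wk_ker h0 h1 a).toSlope.le (bs S.T z a - bs S.T x a) (-(bs S.T c a))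
    rw [Int.natAbs_neg] at h2
    rwa [show bs S.T z a - bs S.T (x + c) a = bs S.T z a - bs S.T x a + -(bs S.T c a) from by
      rw [bs_add]; ring]
  have h4 : 0 ≤ mon μ z * S.g z := mul_nonneg (mon_pos hμ z).le (h.g0 z)
  calc (mon μ z * S.g z) * ∏ a, S.wk θ a (bs S.T z a - bs S.T (x + c) a)
      ≤ (mon μ z * S.g z) * ((∏ a, Real.exp (S.bb θ b a * ((bs S.T c a).natAbs : ℝ)))
        * ∏ a, S.wk θ a (bs S.T z a - bs S.T x a)) := mul_le_mul_of_nonneg_left h3 h4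
    _ = _ := by ring

/-- a unit vector crosses at most one thin edge -/
theorem tcost_ev (T : MP3.Forest E) (e : E) : tcost T (ev e) ≤ 1 := by
  classical
  unfold tcost
  have h1 : ∀ a ∈ univ.filter (fun a => T.par a = none), ∀ a' ∈ univ.filter (fun a => T.par a = none),
      (bs T (ev e) a).natAbs ≠ 0 → (bs T (ev e) a').natAbs ≠ 0 → a = a' := by
    intro a ha a' ha' h h'
    rw [bs_ev] at h h'
    have m1 : e ∈ T.sub a := by by_contra hc; simp [hc] at h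
    have m2 : e ∈ T.sub a' := by by_contra hc; simp [hc] at h'
    rw [MP3.Forest.mem_sub] at m1 m2
    rw [mem_filter] at ha ha'
    rcases m1.total m2 with h3 | h3
    · rcases MP3.Forest.le_iff.1 h3 with h4 | ⟨c, hc, _⟩
      · exact h4
      · rw [ha.2] at hc; cases hc
    · rcases MP3.Forest.le_iff.1 h3 with h4 | ⟨c, hc, _⟩
      · exact h4.symm
      · rw [ha'.2] at hc; cases hc
  by_cases hex : ∃ a ∈ univ.filter (fun a => T.par a = none), (bs T (ev e) a).natAbs ≠ 0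
  · obtain ⟨a, ha, hne⟩ := hex
    rw [Finset.sum_eq_single a]
    · rw [bs_ev]; split_ifs <;> simp
    · intro a' ha' hne'
      by_contra hc
      exact hne' (h1 a' ha' a ha hc hne)
    · intro h; exact absurd ha h
  · push Not at hex
    rw [Finset.sum_eq_zero hex]; exact zero_le_one

theorem fcost_ev_le (T : MP3.Forest E) (b : E → ℝ) (hb : ∀ a, T.par a ≠ none → 0 ≤ b a) (e : E) :
    fcost T b (ev e) ≤ ∑ a, (open Classical in if T.par a ≠ none then b a else 0) := by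
  classical
  unfold fcost
  rw [Finset.sum_filter]
  refine Finset.sum_le_sum fun a _ => ?_
  by_cases ha : T.par a ≠ none
  · rw [if_pos ha, if_pos ha, bs_ev]
    have := hb a ha
    split_ifs
    · simp
    · simpa using this
  · rw [if_neg ha, if_neg ha]

theorem Ok2.W_ev (h : S.Ok2 b D) {θ : ℝ} (h0 : 0 < θ) (h1 : θ ≤ 1) {μ : E → ℝ}
    (hμ : ∀ a, 0 < μ a) {β₀ : ℝ}
    (hβ : ∑ a, (open Classical in if S.T.par a ≠ none then b a else 0) ≤ β₀) (x : E → ℤ) (e : E) :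
    S.W θ μ (x + ev e) ≤ (θ⁻¹ * Real.exp β₀) * S.W θ μ x
      ∧ S.W θ μ x ≤ (θ⁻¹ * Real.exp β₀) * S.W θ μ (x + ev e) := by
  have hb : ∀ a, S.T.par a ≠ none → 0 ≤ b a := fun a ha => (h.ke a ha).b_nonneg
  have hpos : ∀ y, 0 < S.W θ μ y := fun y => S.W_pos h.ok h0 h1 hμ h.ne y
  have hi : 1 ≤ θ⁻¹ := (one_le_inv₀ h0).2 h1
  have hk : (θ⁻¹) ^ (tcost S.T (ev e)) * Real.exp (fcost S.T b (ev e)) ≤ θ⁻¹ * Real.exp β₀ := by
    refine mul_le_mul ?_ (Real.exp_le_exp.2 ((fcost_ev_le S.T b hb e).trans hβ))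
      (Real.exp_pos _).le (by positivity)
    calc (θ⁻¹) ^ (tcost S.T (ev e)) ≤ (θ⁻¹) ^ 1 := pow_le_pow_right₀ hi (tcost_ev S.T e)
      _ = θ⁻¹ := pow_one _
  constructor
  · exact (h.W_le h0 h1 hμ x (ev e)).trans (mul_le_mul_of_nonneg_right hk (hpos x).le)
  · have h2 := h.W_le h0 h1 hμ (x + ev e) (-(ev e))
    rw [add_neg_cancel_right, tcost_neg, fcost_neg] at h2
    exact h2.trans (mul_le_mul_of_nonneg_right hk (hpos _).le)

end Side

/-! ### the function `FF` -/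

section FF

variable {S₁ S₂ : Side E} {b₁ D₁ b₂ D₂ : E → ℝ}

/-- hypotheses on the pair -/
structure Pair (S₁ S₂ : Side E) (b₁ D₁ b₂ D₂ : E → ℝ) (θ : ℝ) (μ : E → ℝ) (β₀ : ℝ) : Prop where
  ok₁ : S₁.Ok2 b₁ D₁
  ok₂ : S₂.Ok2 b₂ D₂
  θ0 : 0 < θ
  θ1 : θ ≤ 1
  μ0 : ∀ a, 0 < μ a
  hβ₁ : ∑ a, (open Classical in if S₁.T.par a ≠ none then b₁ a else 0) ≤ β₀
  hβ₂ : ∑ a, (open Classical in if S₂.T.par a ≠ none then b₂ a else 0) ≤ β₀

variable {θ : ℝ} {μ : E → ℝ} {β₀ : ℝ}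

theorem Pair.μi (h : Pair S₁ S₂ b₁ D₁ b₂ D₂ θ μ β₀) (a : E) : 0 < (fun e => (μ e)⁻¹) a :=
  inv_pos.2 (h.μ0 a)

theorem Pair.β_nonneg (h : Pair S₁ S₂ b₁ D₁ b₂ D₂ θ μ β₀) : 0 ≤ β₀ := by
  classical
  refine le_trans (Finset.sum_nonneg fun a _ => ?_) h.hβ₁
  split_ifs with ha
  · exact (h.ok₁.ke a ha).b_nonneg
  · exact le_rfl

theorem Pair.W₁_pos (h : Pair S₁ S₂ b₁ D₁ b₂ D₂ θ μ β₀) (x : E → ℤ) : 0 < S₁.W θ μ x :=
  S₁.W_pos h.ok₁.ok h.θ0 h.θ1 h.μ0 h.ok₁.ne x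

theorem Pair.W₂_pos (h : Pair S₁ S₂ b₁ D₁ b₂ D₂ θ μ β₀) (x : E → ℤ) :
    0 < S₂.W θ (fun e => (μ e)⁻¹) x :=
  S₂.W_pos h.ok₂.ok h.θ0 h.θ1 h.μi h.ok₂.ne x

/-- **positivity** -/
theorem Pair.FF_pos (h : Pair S₁ S₂ b₁ D₁ b₂ D₂ θ μ β₀) (m : ℤ) (d : Tok E → ℤ) :
    0 < FF S₁ S₂ θ μ m d := mul_pos (h.W₁_pos _) (h.W₂_pos _)

/-- slope of a token edge -/
noncomputable def tb (S₁ S₂ : Side E) (θ : ℝ) (b₁ b₂ : E → ℝ) (p : Tok E) : ℝ := match p with
  | none => 0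
  | some (Sum.inl e) => S₁.bb θ b₁ e
  | some (Sum.inr e) => S₂.bb θ b₂ e

/-- second difference of a token edge -/
noncomputable def tD (S₁ S₂ : Side E) (θ : ℝ) (D₁ D₂ : E → ℝ) (p : Tok E) : ℝ := match p with
  | none => 0
  | some (Sum.inl e) => S₁.DD θ D₁ e
  | some (Sum.inr e) => S₂.DD θ D₂ e

theorem ev_inl (T₁ T₂ : MP3.Forest E) (e : E) (c : E) :
    (ev (tX e) - ev ((tree T₁ T₂).par (tX e)) : Tok E → ℤ) (tX c) = dq T₁ e c := by
  unfold dq tree tX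
  rcases h : T₁.par e with _ | b
  · simp [ev, Pi.single_apply, h]
  · simp [ev, Pi.single_apply, h]

theorem ev_inl' (T₁ T₂ : MP3.Forest E) (e : E) (c : E) :
    (ev (tX e) - ev ((tree T₁ T₂).par (tX e)) : Tok E → ℤ) (tY c) = 0 := by
  unfold tree tX tY
  rcases h : T₁.par e with _ | b
  · simp [ev, Pi.single_apply, h]
  · simp [ev, Pi.single_apply, h]

theorem ev_inr (T₁ T₂ : MP3.Forest E) (e : E) (c : E) :
    (ev (tY e) - ev ((tree T₁ T₂).par (tY e)) : Tok E → ℤ) (tY c) = dq T₂ e c := by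
  unfold dq tree tY
  rcases h : T₂.par e with _ | b
  · simp [ev, Pi.single_apply, h]
  · simp [ev, Pi.single_apply, h]

theorem ev_inr' (T₁ T₂ : MP3.Forest E) (e : E) (c : E) :
    (ev (tY e) - ev ((tree T₁ T₂).par (tY e)) : Tok E → ℤ) (tX c) = 0 := by
  unfold tree tX tY
  rcases h : T₂.par e with _ | b
  · simp [ev, Pi.single_apply, h]
  · simp [ev, Pi.single_apply, h]

/-- **along every tree edge `FF` is a kernel with the slope and second difference of the edge** -/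
theorem Pair.FF_line (h : Pair S₁ S₂ b₁ D₁ b₂ D₂ θ μ β₀) (m : ℤ) (q : Tok E)
    (hq : q ≠ (tree S₁.T S₂.T).root) (d : Tok E → ℤ) :
    Ker (fun u : ℤ => FF S₁ S₂ θ μ m (d + u • (ev q - ev ((tree S₁.T S₂.T).par q))))
      (tb S₁ S₂ θ b₁ b₂ q) (tD S₁ S₂ θ D₁ D₂ q) := by
  rcases q with _ | e | e
  · exact absurd rfl hq
  · have h1 := (h.ok₁.W_line h.θ0 h.θ1 h.μ0 e (fun c => d (tX c))).rev
    have h2 := h1.smul (h.W₂_pos (fun c => m - d (tY c)))
    refine (?_ : (fun u : ℤ => FF S₁ S₂ θ μ m (d + u • (ev (tX e) -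
      ev ((tree S₁.T S₂.T).par (tX e))))) = _) ▸ h2
    funext u
    unfold FF
    have e1 : (fun c => (d + u • (ev (tX e) - ev ((tree S₁.T S₂.T).par (tX e)))) (tX c))
        = (fun c => d (tX c)) - (-u) • dq S₁.T e := by
      funext c
      simp only [Pi.add_apply, Pi.smul_apply, Pi.sub_apply, smul_eq_mul]
      have := ev_inl S₁.T S₂.T e c
      rw [Pi.sub_apply] at this
      rw [this]; ring
    have e2 : (fun c => m - (d + u • (ev (tX e) - ev ((tree S₁.T S₂.T).par (tX e)))) (tY c))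
        = fun c => m - d (tY c) := by
      funext c
      simp only [Pi.add_apply, Pi.smul_apply, smul_eq_mul]
      rw [ev_inl']; ring
    rw [e1, e2, mul_comm]
  · have h1 := h.ok₂.W_line h.θ0 h.θ1 h.μi e (fun c => m - d (tY c))
    have h2 := h1.smul (h.W₁_pos (fun c => d (tX c)))
    refine (?_ : (fun u : ℤ => FF S₁ S₂ θ μ m (d + u • (ev (tY e) -
      ev ((tree S₁.T S₂.T).par (tY e))))) = _) ▸ h2
    funext u
    unfold FF
    have e1 : (fun c => m - (d + u • (ev (tY e) - ev ((tree S₁.T S₂.T).par (tY e)))) (tY c))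
        = (fun c => m - d (tY c)) - u • dq S₂.T e := by
      funext c
      simp only [Pi.add_apply, Pi.smul_apply, Pi.sub_apply, smul_eq_mul]
      have := ev_inr S₁.T S₂.T e c
      rw [Pi.sub_apply] at this
      rw [this]; ring
    have e2 : (fun c => (d + u • (ev (tY e) - ev ((tree S₁.T S₂.T).par (tY e)))) (tX c))
        = fun c => d (tX c) := by
      funext c
      simp only [Pi.add_apply, Pi.smul_apply, smul_eq_mul]
      rw [ev_inr']; ring
    rw [e1, e2]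

/-- the crude comparison constant -/
noncomputable def kap (θ β₀ : ℝ) : ℝ := (θ⁻¹ * Real.exp β₀) ^ 2

theorem Pair.kap_ge (h : Pair S₁ S₂ b₁ D₁ b₂ D₂ θ μ β₀) : 1 ≤ kap θ β₀ := by
  unfold kap
  have h1 : 1 ≤ θ⁻¹ := (one_le_inv₀ h.θ0).2 h.θ1
  have h2 : 1 ≤ Real.exp β₀ := Real.one_le_exp h.β_nonneg
  exact one_le_pow₀ (one_le_mul_of_one_le_of_one_le h1 h2)

theorem Pair.FF_hub (h : Pair S₁ S₂ b₁ D₁ b₂ D₂ θ μ β₀) (m : ℤ) (d : Tok E → ℤ) (p : Tok E) :
    FF S₁ S₂ θ μ m (d + ev p) ≤ (θ⁻¹ * Real.exp β₀) * FF S₁ S₂ θ μ m d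
      ∧ FF S₁ S₂ θ μ m d ≤ (θ⁻¹ * Real.exp β₀) * FF S₁ S₂ θ μ m (d + ev p) := by
  have h1 : 1 ≤ θ⁻¹ := (one_le_inv₀ h.θ0).2 h.θ1
  have h2 : 1 ≤ Real.exp β₀ := Real.one_le_exp h.β_nonneg
  have h3 : 1 ≤ θ⁻¹ * Real.exp β₀ := one_le_mul_of_one_le_of_one_le h1 h2
  have hp := h.FF_pos m d
  rcases p with _ | e | e
  · have e0 : FF S₁ S₂ θ μ m (d + ev none) = FF S₁ S₂ θ μ m d := by
      unfold FF
      simp [ev, tX, tY]
    rw [e0]
    constructor <;> nlinarith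
  · have e0 : FF S₁ S₂ θ μ m (d + ev (some (Sum.inl e))) = S₁.W θ μ ((fun c => d (tX c)) + ev e)
        * S₂.W θ (fun e => (μ e)⁻¹) (fun c => m - d (tY c)) := by
      unfold FF
      congr 2
      · funext c
        simp [ev, tX, Pi.single_apply]
      · funext c
        simp [ev, tY]
    rw [e0]
    have h4 := h.ok₁.W_ev h.θ0 h.θ1 h.μ0 h.hβ₁ (fun c => d (tX c)) e
    have h5 := (h.W₂_pos (fun c => m - d (tY c))).le
    constructor
    · calc _ ≤ ((θ⁻¹ * Real.exp β₀) * S₁.W θ μ (fun c => d (tX c)))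
          * S₂.W θ (fun e => (μ e)⁻¹) (fun c => m - d (tY c)) :=
          mul_le_mul_of_nonneg_right h4.1 h5
        _ = _ := by unfold FF; ring
    · calc FF S₁ S₂ θ μ m d = S₁.W θ μ (fun c => d (tX c))
          * S₂.W θ (fun e => (μ e)⁻¹) (fun c => m - d (tY c)) := rfl
        _ ≤ ((θ⁻¹ * Real.exp β₀) * S₁.W θ μ ((fun c => d (tX c)) + ev e))
          * S₂.W θ (fun e => (μ e)⁻¹) (fun c => m - d (tY c)) :=
          mul_le_mul_of_nonneg_right h4.2 h5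
        _ = _ := by ring
  · have e0 : FF S₁ S₂ θ μ m (d + ev (some (Sum.inr e))) = S₁.W θ μ (fun c => d (tX c))
        * S₂.W θ (fun e => (μ e)⁻¹) ((fun c => m - d (tY c)) - ev e) := by
      unfold FF
      congr 2
      · funext c
        simp [ev, tX]
      · funext c
        simp [ev, tY, Pi.single_apply]
        ring
    rw [e0]
    have h4 := h.ok₂.W_ev h.θ0 h.θ1 h.μi h.hβ₂ ((fun c => m - d (tY c)) - ev e) e
    rw [sub_add_cancel] at h4
    have h5 := (h.W₁_pos (fun c => d (tX c))).le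
    constructor
    · calc _ ≤ S₁.W θ μ (fun c => d (tX c))
          * ((θ⁻¹ * Real.exp β₀) * S₂.W θ (fun e => (μ e)⁻¹) (fun c => m - d (tY c))) :=
          mul_le_mul_of_nonneg_left h4.2 h5
        _ = _ := by unfold FF; ring
    · calc FF S₁ S₂ θ μ m d = S₁.W θ μ (fun c => d (tX c))
          * S₂.W θ (fun e => (μ e)⁻¹) (fun c => m - d (tY c)) := rfl
        _ ≤ S₁.W θ μ (fun c => d (tX c))
          * ((θ⁻¹ * Real.exp β₀) * S₂.W θ (fun e => (μ e)⁻¹) ((fun c => m - d (tY c)) - ev e)) :=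
          mul_le_mul_of_nonneg_left h4.1 h5
        _ = _ := by ring

/-- **hypothesis `hκ` of `msp`** -/
theorem Pair.FF_kap (h : Pair S₁ S₂ b₁ D₁ b₂ D₂ θ μ β₀) (m : ℤ) (d : Tok E → ℤ) (p q : Tok E) :
    FF S₁ S₂ θ μ m (d + ev p) ≤ kap θ β₀ * FF S₁ S₂ θ μ m (d + ev q) := by
  have h1 := (h.FF_hub m d p).1
  have h2 := (h.FF_hub m d q).2
  have h3 : 0 < θ⁻¹ * Real.exp β₀ := mul_pos (inv_pos.2 h.θ0) (Real.exp_pos _)
  calc _ ≤ (θ⁻¹ * Real.exp β₀) * FF S₁ S₂ θ μ m d := h1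
    _ ≤ (θ⁻¹ * Real.exp β₀) * ((θ⁻¹ * Real.exp β₀) * FF S₁ S₂ θ μ m (d + ev q)) :=
      mul_le_mul_of_nonneg_left h2 h3.le
    _ = _ := by unfold kap; ring

/-- the `b` of `msp` -/
noncomputable def tB (S₁ S₂ : Side E) (θ : ℝ) (b₁ b₂ : E → ℝ) (p : Tok E) : ℝ :=
  Real.exp (tb S₁ S₂ θ b₁ b₂ p) - 1

theorem Pair.tb_nonneg (h : Pair S₁ S₂ b₁ D₁ b₂ D₂ θ μ β₀) (p : Tok E) :
    0 ≤ tb S₁ S₂ θ b₁ b₂ p := by
  rcases p with _ | e | e
  · exact le_rfl
  · exact (h.ok₁.wk_ker h.θ0 h.θ1 e).b_nonneg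
  · exact (h.ok₂.wk_ker h.θ0 h.θ1 e).b_nonneg

theorem Pair.tD_nonneg (h : Pair S₁ S₂ b₁ D₁ b₂ D₂ θ μ β₀) (p : Tok E) :
    0 ≤ tD S₁ S₂ θ D₁ D₂ p := by
  rcases p with _ | e | e
  · exact le_rfl
  · exact (h.ok₁.wk_ker h.θ0 h.θ1 e).D_nonneg
  · exact (h.ok₂.wk_ker h.θ0 h.θ1 e).D_nonneg

theorem Pair.tB_nonneg (h : Pair S₁ S₂ b₁ D₁ b₂ D₂ θ μ β₀) (p : Tok E) :
    0 ≤ tB S₁ S₂ θ b₁ b₂ p := by
  unfold tB
  linarith [Real.one_le_exp (h.tb_nonneg p)]

/-- **hypothesis `hb` of `msp`** -/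
theorem Pair.FF_b (h : Pair S₁ S₂ b₁ D₁ b₂ D₂ θ μ β₀) (m : ℤ) (q : Tok E)
    (hq : q ≠ (tree S₁.T S₂.T).root) (d : Tok E → ℤ) :
    |FF S₁ S₂ θ μ m (d + ev q) - FF S₁ S₂ θ μ m (d + ev ((tree S₁.T S₂.T).par q))|
      ≤ tB S₁ S₂ θ b₁ b₂ q * FF S₁ S₂ θ μ m (d + ev ((tree S₁.T S₂.T).par q)) := by
  have h1 := ((h.FF_line m q hq (d + ev ((tree S₁.T S₂.T).par q))).toSlope.abs_sub_le 0).1
  simp only [zero_add, one_smul, zero_smul, add_zero] at h1
  rw [show d + ev ((tree S₁.T S₂.T).par q) + (ev q - ev ((tree S₁.T S₂.T).par q))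
    = d + ev q from by abel] at h1
  exact h1

/-- the `s` of `msp` -/
noncomputable def ts (S₁ S₂ : Side E) (θ : ℝ) (b₁ b₂ D₁ D₂ : E → ℝ) (β₀ : ℝ) (p : Tok E) : ℝ :=
  (tD S₁ S₂ θ D₁ D₂ p * (1 + tB S₁ S₂ θ b₁ b₂ p)
    + 2 * (tB S₁ S₂ θ b₁ b₂ p * (1 + tB S₁ S₂ θ b₁ b₂ p)) ^ 2) * kap θ β₀

theorem Pair.ts_nonneg (h : Pair S₁ S₂ b₁ D₁ b₂ D₂ θ μ β₀) (p : Tok E) :
    0 ≤ ts S₁ S₂ θ b₁ b₂ D₁ D₂ β₀ p := by
  unfold ts
  have h1 := h.tB_nonneg p
  have h2 := h.tD_nonneg p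
  have h3 := h.kap_ge
  have : 0 ≤ kap θ β₀ := by linarith
  positivity

/-- **hypothesis `hs` of `msp`** -/
theorem Pair.FF_s (h : Pair S₁ S₂ b₁ D₁ b₂ D₂ θ μ β₀) (m : ℤ) (p q : Tok E)
    (hq : q ≠ (tree S₁.T S₂.T).root) (d : Tok E → ℤ) :
    -Q (fun a b => FF S₁ S₂ θ μ m (d - ev p + ev a + ev b))
      (Cut.dvec (fun q => FF S₁ S₂ θ μ m (d + ev q)) q ((tree S₁.T S₂.T).par q))
      (Cut.dvec (fun q => FF S₁ S₂ θ μ m (d + ev q)) q ((tree S₁.T S₂.T).par q))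
      ≤ ts S₁ S₂ θ b₁ b₂ D₁ D₂ β₀ q / FF S₁ S₂ θ μ m (d + ev q) := by
  set r := (tree S₁.T S₂.T).par q with hr
  set B := tB S₁ S₂ θ b₁ b₂ q with hB
  set Dq := tD S₁ S₂ θ D₁ D₂ q with hD
  have hB0 : 0 ≤ B := h.tB_nonneg q
  have hD0 : 0 ≤ Dq := h.tD_nonneg q
  have hexp : Real.exp (tb S₁ S₂ θ b₁ b₂ q) = 1 + B := by rw [hB]; unfold tB; ring
  -- the line through `d - e_p + 2 e_r`
  have hline := h.FF_line m q hq (d - ev p + ev r + ev r)
  have eG : ∀ u : ℤ, d - ev p + ev r + ev r + u • (ev q - ev r)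
      = d - ev p + ev r + ev r + u • (ev q - ev r) := fun _ => rfl
  set G : ℤ → ℝ := fun u => FF S₁ S₂ θ μ m (d - ev p + ev r + ev r + u • (ev q - ev r)) with hG
  have g0 : G 0 = FF S₁ S₂ θ μ m (d - ev p + ev r + ev r) := by
    simp only [hG, zero_smul, add_zero]
  have g1 : G 1 = FF S₁ S₂ θ μ m (d - ev p + ev q + ev r) := by
    simp only [hG, one_smul]; congr 1; abel
  have g2 : G 2 = FF S₁ S₂ θ μ m (d - ev p + ev q + ev q) := by
    simp only [hG, two_smul]; congr 1; abel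
  have hline' : Ker G (tb S₁ S₂ θ b₁ b₂ q) Dq := hline
  have hfin := Cut.neg_Q_dvec_le (A := fun a b => FF S₁ S₂ θ μ m (d - ev p + ev a + ev b))
    (fun a b => by simp only [add_right_comm _ (ev a) (ev b)])
    (F := fun q => FF S₁ S₂ θ μ m (d + ev q)) (q := q) (r := r)
    (h.FF_pos m _) (h.FF_pos m _) (h.FF_pos m _).le
    (c1 := Dq * (1 + B)) (c2 := B * (1 + B)) (M := kap θ β₀) (b := 1) ?_ ?_ ?_ ?_
    (by positivity) (by positivity) zero_le_one (h.FF_pos m _).le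
  · refine hfin.trans (le_of_eq ?_)
    rw [← hr] at *
    unfold ts
    rw [← hB, ← hD]
    ring
  · -- hM
    have := h.FF_kap m (d - ev p + ev q) q p
    rwa [show d - ev p + ev q + ev p = d + ev q from by abel] at this
  · -- second difference
    have h2 := hline'.two 1
    norm_num at h2
    rw [g0, g1, g2] at h2
    have h3 := hline'.dn 1
    norm_num at h3
    rw [g1, g2, hexp] at h3
    refine h2.trans ?_
    have := mul_le_mul_of_nonneg_left h3 hD0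
    linarith
  · -- first difference
    have h2 := (hline'.toSlope.abs_sub_le 0).2
    norm_num at h2
    rw [g0, g1, hexp] at h2
    have h3 := hline'.dn 1
    norm_num at h3
    rw [g1, g2, hexp] at h3
    rw [abs_sub_comm]
    refine h2.trans ?_
    have := mul_le_mul_of_nonneg_left h3 hB0
    linarith
  · have h2 := h.FF_b m q hq d
    rw [← hr, ← hB] at h2
    refine h2.trans ?_
    have := (h.FF_pos m (d + ev r)).le
    nlinarith [mul_nonneg hB0 (mul_nonneg hB0 this)]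

end FF

end Crest.Agent.R302.Inst
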