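import Crest.Agent.R302.Mix536
import Crest.Agent.R302.CParNum166

/-!
R302 (helper536), STAGE: the facts without masses of the two concrete chains
`Dc = sdA 𝒜 (t + 1) (parOf cPar s a) (ellOf cPar Q s t g)`.
-/

set_option autoImplicit false
set_option linter.unusedSectionVars false

namespace Crest.Agent.R302.Fields

open Finset Crest.Agent.R302.Inst Crest.Agent.R302.Stage Crest.Agent.R302.AnnBox
open Crest.Agent.R302.Loop Crest.Agent.R302.Mix Crest.Agent.R302.Step Crest.Agent.R302.Prog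
open Crest.Agent.R302.Slk Crest.Agent.R302.Smp Crest.Agent.R302.Top Crest.Agent.R302.Facet
open Crest.Agent.R302.Macro Crest.Agent.R302.Cst
open Crest.Agent.R302.Conc (sdA sdOf parOf ellOf jF mem_jF mA code_prg mem_ks₁ mem_ks₂ matT₁ matT₂)
open Crest.Agent.R302.Lor (ev)
open Crest.Agent.R302.ORAM Crest.Agent.R302.StageL Crest.Agent.R302.GeoSpec
open Crest.Agent.R309.MC Crest.Agent.R309.Tape

/-! ### numbers -/

section num

variable (s : SIn)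

theorem cA_le_X : cA (sn s) ≤ XX s ^ 12 := Cst.cA_le (XX_ge s) (sn_le s)

theorem kap_le_X' : Facet.kap (sn s) ≤ XX s ^ 9 := Cst.kap_le' (XX_ge s) (sn_le s)

theorem XX_lt_pow {a b : ℕ} (h : a < b) : XX s ^ a < XX s ^ b :=
  Nat.pow_lt_pow_right (lt_of_lt_of_le (by norm_num) (XX_ge s)) h

theorem cA_lt_w1 : (cA (sn s) : ℤ) < cPar.w₁ s := by
  have h1 : cA (sn s) < XX s ^ 112 := lt_of_le_of_lt (cA_le_X s) (XX_lt_pow s (by norm_num))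
  exact_mod_cast h1

theorem sn_le' : sn s ≤ XX s := (Nat.le_succ _).trans (sn_le s)

theorem kap_w1 : 16 * (sn s : ℤ) * (Facet.kap (sn s) : ℤ) + (4 * (sn s : ℤ) + 2) ≤ cPar.w₁ s := by
  have h1 : 16 * sn s * Facet.kap (sn s) + (4 * sn s + 2) ≤ XX s ^ 112 := by
    have hX := XX_ge s
    have hn := sn_le' s
    have hk := kap_le_X' s
    have e1 : 16 * sn s * Facet.kap (sn s) ≤ 16 * XX s ^ 10 := by
      calc 16 * sn s * Facet.kap (sn s) ≤ 16 * XX s * XX s ^ 9 :=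
            Nat.mul_le_mul (Nat.mul_le_mul_left _ hn) hk
        _ = 16 * XX s ^ 10 := by ring
    have e2 : 16 * XX s ^ 10 ≤ XX s ^ 11 := c_mul_pw hX (by norm_num)
    have e3 : 4 * sn s + 2 ≤ XX s ^ 11 := by
      have : 4 * sn s + 2 ≤ 5 * XX s ^ 1 := by rw [pow_one]; omega
      exact this.trans (c_mul_pw' hX (by norm_num) (by norm_num))
    have e4 : XX s ^ 11 + XX s ^ 11 ≤ XX s ^ 112 := pw_add hX (by norm_num) (by norm_num)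
    omega
  exact_mod_cast h1

theorem dk_pos : 0 < cPar.dk s := Num.one_le_XXpow s 75

theorem dk_le_w1 : (cPar.dk s : ℤ) ≤ cPar.w₁ s := by
  have h1 : XX s ^ 75 ≤ XX s ^ 112 := (XX_lt_pow s (by norm_num)).le
  exact_mod_cast h1

theorem big_w1 : 4 * (sn s : ℤ) * (cPar.dk s : ℤ) ≤ cPar.w₁ s := by
  have h1 : 4 * sn s * XX s ^ 75 ≤ XX s ^ 112 := by
    calc 4 * sn s * XX s ^ 75 ≤ 4 * XX s * XX s ^ 75 :=
          Nat.mul_le_mul_right _ (Nat.mul_le_mul_left _ (sn_le' s))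
      _ = 4 * XX s ^ 76 := by ring
      _ ≤ XX s ^ 112 := c_mul_pw' (XX_ge s) (by norm_num) (by norm_num)
  exact_mod_cast h1

theorem R_le_Lb : sR s ≤ cPar.Lb s := by
  have h1 : sR s < 2 ^ XX s := R_lt
  have h2 : (2 : ℕ) ^ XX s ≤ 2 ^ (5 * XX s) := Nat.pow_le_pow_right (by norm_num) (by omega)
  exact h1.le.trans h2

theorem len_le : 4 * sn s ^ 2 ≤ 2 ^ cPar.qa s := by
  show 4 * sn s ^ 2 ≤ 2 ^ (3 * ss s)
  rw [two_pow_mul_ss]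
  calc 4 * sn s ^ 2 ≤ 4 * XX s ^ 2 := Nat.mul_le_mul_left _ (Nat.pow_le_pow_left (sn_le' s) 2)
    _ ≤ XX s ^ 3 := c_mul_pw (XX_ge s) (by norm_num)

theorem four_X_le : 4 * XX s ≤ cPar.qb s := by
  show 4 * XX s ≤ XX s ^ 2
  have := c_mul_pw (c := 4) (a := 1) (XX_ge s) (by norm_num)
  simpa using this

theorem w1_le : (cPar.w₁ s : ℤ) ≤ 2 ^ (4 * XX s) := Num.w1_le_mx s

end num

section inst

variable {n R m : ℕ} {r₁ r₂ : Finset (Fin n) → ℕ} {lo hi : Fin n → ℤ} {𝒜 : AnnData n}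

/-- the stage data of the program with link exponent `a` -/
noncomputable abbrev Dc (𝒜 : AnnData n) (Q : Qf) (s : SIn) (t a : ℕ) (g : List ℤ) : SD (Fin n) :=
  sdA 𝒜 (t + 1) (parOf cPar s a) (ellOf cPar Q s t g)

theorem stQ_inst (h : IsInst (Prog.prg cPar) n R m r₁ r₂ lo hi 𝒜) {t : ℕ}
    (ht : t < (Prog.prg cPar).T (inp n R m lo hi)) :
    stQ n 𝒜.L (t + 1) ≤ 2 ^ (4 * XX (inp n R m lo hi)) := by
  refine Num.stQ_le_mx (inp n R m lo hi) 𝒜.L (t + 1) ?_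
  rw [h.AL]
  exact ht

theorem dc_len (Q : Qf) (t a : ℕ) (g : List ℤ) :
    (Dc 𝒜 Q (inp n R m lo hi) t a g).cs.length ≤ 2 ^ (Dc 𝒜 Q (inp n R m lo hi) t a g).qa := by
  have e : (Dc 𝒜 Q (inp n R m lo hi) t a g).qa = cPar.qa (inp n R m lo hi) := rfl
  have e2 : 4 * n ^ 2 ≤ 2 ^ cPar.qa (inp n R m lo hi) := by
    have := len_le (inp n R m lo hi)
    have e3 : sn (inp n R m lo hi) = n := rfl
    rw [e3] at this
    exact this
  rw [e]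
  exact le_trans (cs_length 𝒜 (t + 1) _ _) e2

theorem dc_exp (h : IsInst (Prog.prg cPar) n R m r₁ r₂ lo hi 𝒜) {t : ℕ}
    (ht : t < (Prog.prg cPar).T (inp n R m lo hi)) (Q : Qf) (a : ℕ) (g : List ℤ) :
    ∀ p ∈ (Dc 𝒜 Q (inp n R m lo hi) t a g).cs, p.2 ≤ (Dc 𝒜 Q (inp n R m lo hi) t a g).qb := by
  intro p hp
  have e : (Dc 𝒜 Q (inp n R m lo hi) t a g).qb = cPar.qb (inp n R m lo hi) := rfl
  rw [e]
  have e2 : (parOf cPar (inp n R m lo hi) a).w₁ ≤ 2 ^ (4 * XX (inp n R m lo hi)) :=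
    w1_le (inp n R m lo hi)
  exact (cs_exp 𝒜 (t + 1) (parOf cPar (inp n R m lo hi) a)
    (ellOf cPar Q (inp n R m lo hi) t g) e2 (stQ_inst h ht) p hp).trans
      (four_X_le (inp n R m lo hi))

theorem hB₁_inst (h : IsInst (Prog.prg cPar) n R m r₁ r₂ lo hi 𝒜) {t : ℕ}
    (ht : t < (Prog.prg cPar).T (inp n R m lo hi)) (e : Fin n) :
    slkLen (StageL.kV (cPar.dk (inp n R m lo hi))
      (GeoSpec.nnForest (mA 𝒜 𝒜.r₁ (t + 1)) (cPar.w₁ (inp n R m lo hi))) (mA 𝒜 𝒜.r₁ (t + 1)) e)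
      (cPar.N (inp n R m lo hi)) ≤ cPar.B (inp n R m lo hi) := by
  refine slkLen_cPar (inp n R m lo hi) ((kV_le (K := 4 * XX (inp n R m lo hi)) (fun a b => ?_)
    e).trans (by omega))
  have h1 : (stQ n 𝒜.L (t + 1) : ℤ) ≤ 2 ^ (4 * XX (inp n R m lo hi)) := by
    exact_mod_cast stQ_inst h ht
  exact (T893.mA_le_stQ 𝒜 𝒜.sub₁ 𝒜.mem₁ (t + 1) a b).trans h1

theorem hB₂_inst (h : IsInst (Prog.prg cPar) n R m r₁ r₂ lo hi 𝒜) {t : ℕ}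
    (ht : t < (Prog.prg cPar).T (inp n R m lo hi)) (e : Fin n) :
    slkLen (StageL.kV (cPar.dk (inp n R m lo hi))
      (GeoSpec.nnForest (mA 𝒜 𝒜.r₂ (t + 1)) (cPar.w₁ (inp n R m lo hi))) (mA 𝒜 𝒜.r₂ (t + 1)) e)
      (cPar.N (inp n R m lo hi)) ≤ cPar.B (inp n R m lo hi) := by
  refine slkLen_cPar (inp n R m lo hi) ((kV_le (K := 4 * XX (inp n R m lo hi)) (fun a b => ?_)
    e).trans (by omega))
  have h1 : (stQ n 𝒜.L (t + 1) : ℤ) ≤ 2 ^ (4 * XX (inp n R m lo hi)) := by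
    exact_mod_cast stQ_inst h ht
  exact (T893.mA_le_stQ 𝒜 𝒜.sub₂ 𝒜.mem₂ (t + 1) a b).trans h1

theorem parOK_c (h : IsInst (Prog.prg cPar) n R m r₁ r₂ lo hi 𝒜) (a : ℕ) :
    ConcF.ParOK 𝒜 (parOf cPar (inp n R m lo hi) a) :=
  ConcF.parOK_inst h (cA_lt_w1 (inp n R m lo hi)) (dk_pos (inp n R m lo hi))
    (big_w1 (inp n R m lo hi)) (by exact_mod_cast R_le_Lb (inp n R m lo hi))

theorem dc_ok (Q : Qf) (s : SIn) (t a : ℕ) (g : List ℤ) : (Dc 𝒜 Q s t a g).OK :=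
  ConcF.sdA_ok 𝒜 (t + 1) _ _ (dk_pos s) (dk_le_w1 s)

/-- the representatives of the components -/
noncomputable def repc (h : IsInst (Prog.prg cPar) n R m r₁ r₂ lo hi 𝒜) {t : ℕ}
    (ht : t < (Prog.prg cPar).T (inp n R m lo hi)) : Fin n → Fin n :=
  Rep646.rep (M₁ := Prog.matT cPar (rq r₁ r₂) (inp n R m lo hi) t false)
    (M₂ := Prog.matT cPar (rq r₁ r₂) (inp n R m lo hi) t true)
    (m₁ := mA 𝒜 𝒜.r₁ (t + 1)) (m₂ := mA 𝒜 𝒜.r₂ (t + 1))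
    (fun a b => by rw [matT₁ h ht, Conc.ofMat_getD]) (fun a b => by rw [matT₂ h ht, Conc.ofMat_getD])
    (cPar.w₁ (inp n R m lo hi))

theorem repc_val (h : IsInst (Prog.prg cPar) n R m r₁ r₂ lo hi 𝒜) {t : ℕ}
    (ht : t < (Prog.prg cPar).T (inp n R m lo hi)) (u : Fin n) :
    ((repc h ht u : Fin n) : ℕ) = Prog.repT cPar (rq r₁ r₂) (inp n R m lo hi) t u := rfl

theorem repC_c (h : IsInst (Prog.prg cPar) n R m r₁ r₂ lo hi 𝒜) {t : ℕ}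
    (ht : t < (Prog.prg cPar).T (inp n R m lo hi)) (a : ℕ) :
    ConcF.RepC 𝒜 (parOf cPar (inp n R m lo hi) a) (t + 1) (repc h ht) :=
  ⟨fun _ _ hh => Rep646.rep_par₁ _ _ hh, fun _ _ hh => Rep646.rep_par₂ _ _ hh⟩

theorem ell_c (h : IsInst (Prog.prg cPar) n R m r₁ r₂ lo hi 𝒜) {t : ℕ}
    (ht : t < (Prog.prg cPar).T (inp n R m lo hi)) (g : List ℤ) :
    ∃ f : Fin n → ℤ, ∀ e, ellOf cPar (rq r₁ r₂) (inp n R m lo hi) t g e = f (repc h ht e) :=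
  ⟨fun i => g.getD i 0, fun _ => rfl⟩

/-- 342's specification -/
theorem spec_c (h : IsInst (Prog.prg cPar) n R m r₁ r₂ lo hi 𝒜) {t : ℕ}
    (ht : t < (Prog.prg cPar).T (inp n R m lo hi)) (a : ℕ) (g : List ℤ) :
    ConcF.Spec (Dc 𝒜 (rq r₁ r₂) (inp n R m lo hi) t a g) (mA 𝒜 𝒜.r₁ (t + 1))
      (mA 𝒜 𝒜.r₂ (t + 1)) (parOf cPar (inp n R m lo hi) a).w₁ (parOf cPar (inp n R m lo hi) a).dk
      𝒜.L (t + 1) 𝒜.x₀ (𝒜.stR 𝒜.r₁ (t + 1)) (𝒜.stR 𝒜.r₂ (t + 1)) 𝒜.R (repc h ht) :=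
  ConcF.spec_sdA (parOK_c h a) (repC_c h ht a) (ell_c h ht g)

/-- the windows -/
theorem dc_pf (h : IsInst (Prog.prg cPar) n R m r₁ r₂ lo hi 𝒜) (Q : Qf) (t a : ℕ) (g : List ℤ)
    {x : Fin n → ℤ} (h₁ : MemJ 𝒜.r₁ 𝒜.R x) (h₂ : MemJ 𝒜.r₂ 𝒜.R x) :
    (Dc 𝒜 Q (inp n R m lo hi) t a g).pf x ∈ (Dc 𝒜 Q (inp n R m lo hi) t a g).bx := by
  have hn1 := ConcF.inst_pos₁ h
  have hn2 := ConcF.inst_pos₂ h
  have hR : 𝒜.R ≤ ((cPar.Lb (inp n R m lo hi) : ℕ) : ℤ) := by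
    rw [h.AR]
    exact_mod_cast R_le_Lb (inp n R m lo hi)
  have hsum : ∀ (T : MP3.Forest (Fin n)) (z : Fin n → ℤ), MemJ 𝒜.r₁ 𝒜.R z → ∀ b,
      |bs T z b| ≤ 𝒜.R := fun T z hz b => ConcF.bs_abs_le (hn1 z hz) hz.2 b
  have hle : ∀ z : Fin n → ℤ, MemJ 𝒜.r₁ 𝒜.R z → ∀ e, z e ≤ 𝒜.R := by
    intro z hz e
    rw [← hz.2]
    exact single_le_sum (f := z) (fun v _ => hn1 z hz v) (mem_univ e)
  unfold SD.bx SD.pf
  rw [mem_product, mem_product, Fintype.mem_piFinset, Fintype.mem_piFinset, Fintype.mem_piFinset]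
  refine ⟨fun e => ?_, fun r => ?_, fun r => ?_⟩
  · rw [mem_Icc]
    have a1 := hn1 x h₁ e
    have a2 := hle x h₁ e
    have a3 := hn1 _ 𝒜.mem₁ e
    have a4 := hle _ 𝒜.mem₁ e
    show 𝒜.x₀ e - ((cPar.Lb (inp n R m lo hi) : ℕ) : ℤ) ≤ x e ∧
      x e ≤ 𝒜.x₀ e + ((cPar.Lb (inp n R m lo hi) : ℕ) : ℤ)
    constructor <;> linarith
  · exact mem_Icc.2 (abs_le.1 ((hsum _ x h₁ _).trans hR))
  · exact mem_Icc.2 (abs_le.1 ((hsum _ x h₁ _).trans hR))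

end inst

end Crest.Agent.R302.Fields
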