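import Crest.Agent.R302.Link342B
import Crest.Agent.R302.MacroB541

/-!
R302 (helper342): JOINT.  From a Poincaré inequality with defect for the marginal `W` of the soft
weight on the `x`-space (MSP + MACRO) and the link inequalities (LINK) to a Poincaré inequality with
defect for the joint weight `ν (x, β₁, β₂) = a₁ x β₁ * a₂ x β₂`, for moves `x → x + s c`
(`β` fixed) and link moves `β_i → β_i + 1_q - 1_p` (`x` fixed).  Everything is unnormalised.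
-/

set_option autoImplicit false
set_option linter.unusedSectionVars false

namespace Crest.Agent.R302.Joint

open Finset Macro

section fibre

variable {X Y : Type*}

theorem vr_nonneg {Λ : Finset Y} {c : Y → ℝ} (hc : ∀ y ∈ Λ, 0 ≤ c y) (h : Y → ℝ) :
    0 ≤ vr Λ c h := by
  unfold vr S
  exact Finset.sum_nonneg fun y hy => mul_nonneg (hc y hy) (sq_nonneg _)

theorem sum_eq_zero_of {Λ : Finset Y} {c : Y → ℝ} (hc : ∀ y ∈ Λ, 0 ≤ c y)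
    (hz : ∑ y ∈ Λ, c y = 0) (g : Y → ℝ) : ∑ y ∈ Λ, c y * g y = 0 := by
  have h0 := (Finset.sum_eq_zero_iff_of_nonneg hc).1 hz
  exact Finset.sum_eq_zero fun y hy => by rw [h0 y hy, zero_mul]

theorem vr_eq {Λ : Finset Y} {c : Y → ℝ} (hc : ∀ y ∈ Λ, 0 ≤ c y) (h : Y → ℝ) :
    vr Λ c h = ∑ y ∈ Λ, c y * h y ^ 2 - (∑ y ∈ Λ, c y * h y) ^ 2 / ∑ y ∈ Λ, c y := by
  by_cases hz : ∑ y ∈ Λ, c y = 0
  · rw [hz, div_zero, sub_zero, sum_eq_zero_of hc hz]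
    unfold vr S
    exact sum_eq_zero_of hc hz _
  · unfold vr mn S
    set Z := ∑ y ∈ Λ, c y with hZ
    set μ := (∑ y ∈ Λ, c y * h y) / Z with hμ
    have hmu : ∑ y ∈ Λ, c y * h y = Z * μ := by rw [hμ, mul_div_cancel₀ _ hz]
    have e : ∀ y ∈ Λ, c y * (h y - μ) ^ 2
        = c y * h y ^ 2 - 2 * μ * (c y * h y) + μ ^ 2 * c y := fun y _ => by ring
    rw [Finset.sum_congr rfl e, Finset.sum_add_distrib, Finset.sum_sub_distrib, ← Finset.mul_sum,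
      ← Finset.mul_sum, ← hZ, hmu]
    field_simp
    ring

/-- the mean minimises -/
theorem vr_le' {Λ : Finset Y} {c : Y → ℝ} (hc : ∀ y ∈ Λ, 0 ≤ c y) (h : Y → ℝ) (t : ℝ) :
    vr Λ c h ≤ ∑ y ∈ Λ, c y * (h y - t) ^ 2 := by
  by_cases hz : ∑ y ∈ Λ, c y = 0
  · rw [vr_eq hc, hz, div_zero, sub_zero, sum_eq_zero_of hc hz, sum_eq_zero_of hc hz]
  · exact vr_le hz hc h t

theorem vr_smul {Λ : Finset Y} {c : Y → ℝ} (hc : ∀ y ∈ Λ, 0 ≤ c y) {k : ℝ} (hk : 0 ≤ k)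
    (h : Y → ℝ) : vr Λ (fun y => k * c y) h = k * vr Λ c h := by
  rw [vr_eq (fun y hy => mul_nonneg hk (hc y hy)), vr_eq hc]
  have e2 : ∑ y ∈ Λ, k * c y * h y ^ 2 = k * ∑ y ∈ Λ, c y * h y ^ 2 := by
    rw [Finset.mul_sum]; exact Finset.sum_congr rfl fun _ _ => by ring
  have e1 : ∑ y ∈ Λ, k * c y * h y = k * ∑ y ∈ Λ, c y * h y := by
    rw [Finset.mul_sum]; exact Finset.sum_congr rfl fun _ _ => by ring
  rw [e1, e2, ← Finset.mul_sum]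
  rcases hk.eq_or_lt with rfl | hk
  · simp
  · rw [mul_pow, mul_sub]
    congr 1
    by_cases hz : ∑ y ∈ Λ, c y = 0
    · rw [hz]; simp
    · field_simp

/-- marginal of `ν` -/
noncomputable def mar (Λ : Finset Y) (ν : X × Y → ℝ) (x : X) : ℝ := ∑ y ∈ Λ, ν (x, y)

/-- conditional mean -/
noncomputable def cm (Λ : Finset Y) (ν f : X × Y → ℝ) (x : X) : ℝ :=
  mn Λ (fun y => ν (x, y)) (fun y => f (x, y))

/-- conditional variance -/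
noncomputable def cv (Λ : Finset Y) (ν f : X × Y → ℝ) (x : X) : ℝ :=
  vr Λ (fun y => ν (x, y)) (fun y => f (x, y))

theorem mar_cm {Λ : Finset Y} {ν : X × Y → ℝ} {x : X} (hν : ∀ y ∈ Λ, 0 ≤ ν (x, y)) (f : X × Y → ℝ) :
    mar Λ ν x * cm Λ ν f x = ∑ y ∈ Λ, ν (x, y) * f (x, y) := by
  unfold mar cm mn S
  by_cases hz : ∑ y ∈ Λ, ν (x, y) = 0
  · rw [hz, zero_mul, sum_eq_zero_of hν hz]
  · rw [mul_div_cancel₀ _ hz]

/-- **fibre decomposition of the variance** -/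
theorem vr_fibre {B : Finset X} {Λ : Finset Y} {ν : X × Y → ℝ}
    (hν : ∀ x ∈ B, ∀ y ∈ Λ, 0 ≤ ν (x, y)) (f : X × Y → ℝ) :
    vr (B ×ˢ Λ) ν f = vr B (mar Λ ν) (cm Λ ν f) + ∑ x ∈ B, cv Λ ν f x := by
  rw [vr_eq (c := ν) (fun p hp => hν p.1 (mem_product.1 hp).1 p.2 (mem_product.1 hp).2),
    vr_eq (c := mar Λ ν) (fun x hx => Finset.sum_nonneg (hν x hx))]
  rw [Finset.sum_product, Finset.sum_product, Finset.sum_product]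
  have e1 : ∑ x ∈ B, mar Λ ν x * cm Λ ν f x = ∑ x ∈ B, ∑ y ∈ Λ, ν (x, y) * f (x, y) :=
    Finset.sum_congr rfl fun x hx => mar_cm (hν x hx) f
  have e2 : ∀ x ∈ B, cv Λ ν f x
      = ∑ y ∈ Λ, ν (x, y) * f (x, y) ^ 2 - mar Λ ν x * cm Λ ν f x ^ 2 := by
    intro x hx
    unfold cv
    rw [vr_eq (hν x hx)]
    congr 1
    unfold mar cm mn S
    by_cases hz : ∑ y ∈ Λ, ν (x, y) = 0
    · rw [hz]; simp
    · field_simp
  rw [Finset.sum_congr rfl e2, Finset.sum_sub_distrib, e1]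
  unfold mar
  ring

/-- overlap: two fibres -/
theorem two_fibres {Λ : Finset Y} {a b : Y → ℝ} (ha : ∀ y ∈ Λ, 0 ≤ a y) (hb : ∀ y ∈ Λ, 0 ≤ b y)
    {δ : ℝ} (hδ1 : δ ≤ 1) (hδ0 : 0 ≤ δ) (hab : ∀ y ∈ Λ, δ * a y ≤ b y) (f g : Y → ℝ) :
    δ * (min (∑ y ∈ Λ, a y) (∑ y ∈ Λ, b y) * (mn Λ b g - mn Λ a f) ^ 2)
      ≤ 3 * (vr Λ a f + vr Λ b g + ∑ y ∈ Λ, min (a y) (b y) * (g y - f y) ^ 2) := by
  have h1 : δ * min (∑ y ∈ Λ, a y) (∑ y ∈ Λ, b y) ≤ ∑ y ∈ Λ, min (a y) (b y) := by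
    calc δ * min (∑ y ∈ Λ, a y) (∑ y ∈ Λ, b y) ≤ δ * ∑ y ∈ Λ, a y :=
          mul_le_mul_of_nonneg_left (min_le_left _ _) hδ0
      _ = ∑ y ∈ Λ, δ * a y := Finset.mul_sum _ _ _
      _ ≤ _ := Finset.sum_le_sum fun y hy => le_min (by nlinarith [ha y hy]) (hab y hy)
  have h2 : (∑ y ∈ Λ, min (a y) (b y)) * (mn Λ b g - mn Λ a f) ^ 2
      ≤ 3 * (vr Λ a f + vr Λ b g + ∑ y ∈ Λ, min (a y) (b y) * (g y - f y) ^ 2) := by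
    rw [Finset.sum_mul]
    unfold vr S
    rw [← Finset.sum_add_distrib, ← Finset.sum_add_distrib, Finset.mul_sum]
    refine Finset.sum_le_sum fun y hy => ?_
    set u := f y - mn Λ a f
    set v := g y - mn Λ b g
    set w := g y - f y
    have e : mn Λ b g - mn Λ a f = u + w - v := by simp only [u, v, w]; ring
    have e3 : (u + w - v) ^ 2 ≤ 3 * (u ^ 2 + v ^ 2 + w ^ 2) := by
      nlinarith [sq_nonneg (u - w), sq_nonneg (u + v), sq_nonneg (w + v)]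
    have hm0 : 0 ≤ min (a y) (b y) := le_min (ha y hy) (hb y hy)
    have hma := min_le_left (a y) (b y)
    have hmb := min_le_right (a y) (b y)
    rw [e]
    have h3 := mul_le_mul_of_nonneg_left e3 hm0
    have h4 := mul_le_mul_of_nonneg_right hma (sq_nonneg u)
    have h5 := mul_le_mul_of_nonneg_right hmb (sq_nonneg v)
    nlinarith
  calc δ * (min (∑ y ∈ Λ, a y) (∑ y ∈ Λ, b y) * (mn Λ b g - mn Λ a f) ^ 2)
      = (δ * min (∑ y ∈ Λ, a y) (∑ y ∈ Λ, b y)) * (mn Λ b g - mn Λ a f) ^ 2 := by ring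
    _ ≤ (∑ y ∈ Λ, min (a y) (b y)) * (mn Λ b g - mn Λ a f) ^ 2 :=
        mul_le_mul_of_nonneg_right h1 (sq_nonneg _)
    _ ≤ _ := h2

/-- convexity of the variance -/
theorem vr_convex {Λ₁ : Finset X} {Λ₂ : Finset Y} {a : X → ℝ} {b : Y → ℝ}
    (ha : ∀ x ∈ Λ₁, 0 ≤ a x) (hb : ∀ y ∈ Λ₂, 0 ≤ b y) (f : X → Y → ℝ) :
    (∑ y ∈ Λ₂, b y) * vr Λ₁ a (fun x => mn Λ₂ b (f x))
      ≤ ∑ y ∈ Λ₂, b y * vr Λ₁ a (fun x => f x y) := by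
  by_cases hz : ∑ y ∈ Λ₂, b y = 0
  · rw [hz, zero_mul]
    exact Finset.sum_nonneg fun y hy => mul_nonneg (hb y hy) (vr_nonneg ha _)
  · set Z := ∑ y ∈ Λ₂, b y with hZ
    have hZ0 : 0 < Z := lt_of_le_of_ne (Finset.sum_nonneg hb) (Ne.symm hz)
    set t : Y → ℝ := fun y => mn Λ₁ a (fun x => f x y) with ht
    have h1 := vr_le' ha (fun x => mn Λ₂ b (f x)) (mn Λ₂ b t)
    have h2 : ∀ x ∈ Λ₁, Z * (mn Λ₂ b (f x) - mn Λ₂ b t) ^ 2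
        ≤ ∑ y ∈ Λ₂, b y * (f x y - t y) ^ 2 := by
      intro x _
      have e : mn Λ₂ b (f x) - mn Λ₂ b t = (∑ y ∈ Λ₂, b y * (f x y - t y)) / Z := by
        unfold mn S
        rw [← hZ, ← sub_div, ← Finset.sum_sub_distrib]
        congr 1
        exact Finset.sum_congr rfl fun y _ => by ring
      have hcs : (∑ y ∈ Λ₂, b y * (f x y - t y)) ^ 2 ≤ Z * ∑ y ∈ Λ₂, b y * (f x y - t y) ^ 2 :=
        Finset.sum_sq_le_sum_mul_sum_of_sq_le_mul Λ₂ hb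
          (fun y hy => mul_nonneg (hb y hy) (sq_nonneg _)) (fun y _ => le_of_eq (by ring))
      rw [e, div_pow]
      rw [show Z * ((∑ y ∈ Λ₂, b y * (f x y - t y)) ^ 2 / Z ^ 2)
        = (∑ y ∈ Λ₂, b y * (f x y - t y)) ^ 2 / Z by field_simp]
      rw [div_le_iff₀ hZ0]
      linarith
    calc Z * vr Λ₁ a (fun x => mn Λ₂ b (f x))
        ≤ Z * ∑ x ∈ Λ₁, a x * (mn Λ₂ b (f x) - mn Λ₂ b t) ^ 2 :=
          mul_le_mul_of_nonneg_left h1 hZ0.le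
      _ = ∑ x ∈ Λ₁, a x * (Z * (mn Λ₂ b (f x) - mn Λ₂ b t) ^ 2) := by
          rw [Finset.mul_sum]; exact Finset.sum_congr rfl fun _ _ => by ring
      _ ≤ ∑ x ∈ Λ₁, a x * ∑ y ∈ Λ₂, b y * (f x y - t y) ^ 2 :=
          Finset.sum_le_sum fun x hx => mul_le_mul_of_nonneg_left (h2 x hx) (ha x hx)
      _ = ∑ y ∈ Λ₂, b y * vr Λ₁ a (fun x => f x y) := by
          unfold vr S
          simp only [Finset.mul_sum]
          rw [Finset.sum_comm]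
          exact Finset.sum_congr rfl fun y _ => Finset.sum_congr rfl fun x _ => by
            simp only [ht]; ring

/-- **tensorisation** -/
theorem vr_tensor {Λ₁ : Finset X} {Λ₂ : Finset Y} {a : X → ℝ} {b : Y → ℝ}
    (ha : ∀ x ∈ Λ₁, 0 ≤ a x) (hb : ∀ y ∈ Λ₂, 0 ≤ b y) (f : X × Y → ℝ) :
    vr (Λ₁ ×ˢ Λ₂) (fun p => a p.1 * b p.2) f
      ≤ ∑ y ∈ Λ₂, b y * vr Λ₁ a (fun x => f (x, y))
        + ∑ x ∈ Λ₁, a x * vr Λ₂ b (fun y => f (x, y)) := by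
  rw [vr_fibre (ν := fun p : X × Y => a p.1 * b p.2)
    (fun x hx y hy => mul_nonneg (ha x hx) (hb y hy)) f]
  refine add_le_add ?_ (le_of_eq ?_)
  · have e1 : ∀ x, mar Λ₂ (fun p : X × Y => a p.1 * b p.2) x = (∑ y ∈ Λ₂, b y) * a x := by
      intro x
      unfold mar
      simp only
      rw [← Finset.mul_sum, mul_comm]
    have hmar : mar Λ₂ (fun p : X × Y => a p.1 * b p.2) = fun x => (∑ y ∈ Λ₂, b y) * a x :=
      funext e1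
    have e2 : vr Λ₁ (fun x => (∑ y ∈ Λ₂, b y) * a x) (cm Λ₂ (fun p : X × Y => a p.1 * b p.2) f)
        = (∑ y ∈ Λ₂, b y) * vr Λ₁ a (fun x => mn Λ₂ b (fun y => f (x, y))) := by
      rw [vr_smul ha (Finset.sum_nonneg hb)]
      congr 1
      rw [vr_eq ha, vr_eq ha]
      have e3 : ∀ x ∈ Λ₁, a x * cm Λ₂ (fun p : X × Y => a p.1 * b p.2) f x
          = a x * mn Λ₂ b (fun y => f (x, y)) := by
        intro x _
        by_cases hx : a x = 0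
        · rw [hx, zero_mul, zero_mul]
        · congr 1
          unfold cm mn S
          have h1 : ∑ y ∈ Λ₂, a x * b y * f (x, y) = a x * ∑ y ∈ Λ₂, b y * f (x, y) := by
            rw [Finset.mul_sum]; exact Finset.sum_congr rfl fun _ _ => by ring
          have h2 : ∑ y ∈ Λ₂, a x * b y = a x * ∑ y ∈ Λ₂, b y := by rw [Finset.mul_sum]
          simp only [h1, h2]
          rw [mul_div_mul_left _ _ hx]
      have e4 : ∀ x ∈ Λ₁, a x * cm Λ₂ (fun p : X × Y => a p.1 * b p.2) f x ^ 2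
          = a x * mn Λ₂ b (fun y => f (x, y)) ^ 2 := by
        intro x hx
        by_cases h0 : a x = 0
        · rw [h0, zero_mul, zero_mul]
        · have := mul_left_cancel₀ h0 (e3 x hx)
          rw [this]
      rw [Finset.sum_congr rfl e3, Finset.sum_congr rfl e4]
    rw [hmar, e2]
    exact vr_convex ha hb fun x y => f (x, y)
  · refine Finset.sum_congr rfl fun x hx => ?_
    unfold cv
    exact vr_smul hb (ha x hx) _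

end fibre

section moves

variable {X Y : Type*} [AddCommGroup X] [DecidableEq X] [AddCommGroup Y] [DecidableEq Y]

theorem Dm_fst (B : Finset X) (Λ : Finset Y) (ν f : X × Y → ℝ) (c : X) (s : ℕ) :
    Dm (B ×ˢ Λ) ν (c, 0) s f = ∑ x ∈ B.filter (fun x => x + s • c ∈ B), ∑ y ∈ Λ,
      min (ν (x, y)) (ν (x + s • c, y)) * (f (x + s • c, y) - f (x, y)) ^ 2 := by
  unfold Dm
  have h1 : (B ×ˢ Λ).filter (fun p => p + s • (c, (0 : Y)) ∈ B ×ˢ Λ)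
      = (B.filter (fun x => x + s • c ∈ B)) ×ˢ Λ := by
    ext p
    simp only [mem_filter, mem_product, Prod.smul_mk, smul_zero, Prod.fst_add, Prod.snd_add,
      add_zero]
    tauto
  rw [h1, Finset.sum_product]
  refine Finset.sum_congr rfl fun x _ => Finset.sum_congr rfl fun y _ => ?_
  simp only [Prod.smul_mk, smul_zero, Prod.mk_add_mk, add_zero]

theorem Dm_snd (B : Finset X) (Λ : Finset Y) (ν f : X × Y → ℝ) (c : Y) (s : ℕ) :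
    Dm (B ×ˢ Λ) ν (0, c) s f = ∑ x ∈ B, Dm Λ (fun y => ν (x, y)) c s (fun y => f (x, y)) := by
  unfold Dm
  have h1 : (B ×ˢ Λ).filter (fun p => p + s • ((0 : X), c) ∈ B ×ˢ Λ)
      = B ×ˢ (Λ.filter (fun y => y + s • c ∈ Λ)) := by
    ext p
    simp only [mem_filter, mem_product, Prod.smul_mk, smul_zero, Prod.fst_add, Prod.snd_add,
      add_zero]
    tauto
  rw [h1, Finset.sum_product]
  refine Finset.sum_congr rfl fun x _ => Finset.sum_congr rfl fun y _ => ?_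
  simp only [Prod.smul_mk, smul_zero, Prod.mk_add_mk, add_zero]

theorem aDm_one {G : Type*} [AddCommGroup G] [DecidableEq G] (B : Finset G) (w : G → ℝ) (c : G)
    (f : G → ℝ) : aDm B w c 1 f = Dm B w c 1 f := by
  unfold aDm
  simp

variable {B : Finset X} {Λ : Finset Y} {ν : X × Y → ℝ}

/-- one marginal move -/
theorem Dm_marginal (hν : ∀ x ∈ B, ∀ y ∈ Λ, 0 ≤ ν (x, y)) {c : X} {s : ℕ} {δ : ℝ} (hδ0 : 0 < δ)
    (hδ1 : δ ≤ 1)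
    (hcmp : ∀ x ∈ B, x + s • c ∈ B → ∀ y ∈ Λ, δ * ν (x, y) ≤ ν (x + s • c, y)) (f : X × Y → ℝ) :
    Dm B (mar Λ ν) c s (cm Λ ν f)
      ≤ 3 / δ * (Dm (B ×ˢ Λ) ν (c, 0) s f + 2 * ∑ x ∈ B, cv Λ ν f x) := by
  rw [Dm_fst]
  have hcv : ∀ x ∈ B, 0 ≤ cv Λ ν f x := fun x hx => vr_nonneg (hν x hx) _
  have h1 : ∀ x ∈ B.filter (fun x => x + s • c ∈ B),
      δ * (min (mar Λ ν x) (mar Λ ν (x + s • c)) * (cm Λ ν f (x + s • c) - cm Λ ν f x) ^ 2)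
      ≤ 3 * (cv Λ ν f x + cv Λ ν f (x + s • c)
        + ∑ y ∈ Λ, min (ν (x, y)) (ν (x + s • c, y)) * (f (x + s • c, y) - f (x, y)) ^ 2) := by
    intro x hx
    have hx' := mem_filter.1 hx
    exact two_fibres (hν x hx'.1) (hν _ hx'.2) hδ1 hδ0.le (hcmp x hx'.1 hx'.2) _ _
  have h2 : ∑ x ∈ B.filter (fun x => x + s • c ∈ B), cv Λ ν f x ≤ ∑ x ∈ B, cv Λ ν f x :=
    Finset.sum_le_sum_of_subset_of_nonneg (filter_subset _ _) fun x hx _ => hcv x hx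
  have h3 : ∑ x ∈ B.filter (fun x => x + s • c ∈ B), cv Λ ν f (x + s • c)
      ≤ ∑ x ∈ B, cv Λ ν f x := by
    have : ∑ x ∈ B.filter (fun x => x + s • c ∈ B), cv Λ ν f (x + s • c)
        = ∑ x ∈ (B.filter (fun x => x + s • c ∈ B)).image (fun x => x + s • c), cv Λ ν f x := by
      rw [Finset.sum_image]
      intro x _ y _ h
      exact add_left_injective _ h
    rw [this]
    refine Finset.sum_le_sum_of_subset_of_nonneg ?_ fun x hx _ => hcv x hx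
    intro x hx
    obtain ⟨y, hy, rfl⟩ := mem_image.1 hx
    exact (mem_filter.1 hy).2
  have h4 : δ * Dm B (mar Λ ν) c s (cm Λ ν f) ≤ 3 * (2 * ∑ x ∈ B, cv Λ ν f x
      + ∑ x ∈ B.filter (fun x => x + s • c ∈ B), ∑ y ∈ Λ,
        min (ν (x, y)) (ν (x + s • c, y)) * (f (x + s • c, y) - f (x, y)) ^ 2) := by
    unfold Dm
    rw [Finset.mul_sum]
    refine (Finset.sum_le_sum h1).trans ?_
    rw [← Finset.mul_sum, Finset.sum_add_distrib, Finset.sum_add_distrib]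
    linarith
  rw [div_mul_eq_mul_div, le_div_iff₀ hδ0]
  linarith

/-- averages of marginal moves -/
theorem aDm_marginal (hν : ∀ x ∈ B, ∀ y ∈ Λ, 0 ≤ ν (x, y)) {c : X} {l : ℕ} (hl : 1 ≤ l) {δ : ℝ}
    (hδ0 : 0 < δ) (hδ1 : δ ≤ 1)
    (hcmp : ∀ s ≤ l, ∀ x ∈ B, x + s • c ∈ B → ∀ y ∈ Λ, δ * ν (x, y) ≤ ν (x + s • c, y))
    (f : X × Y → ℝ) :
    aDm B (mar Λ ν) c l (cm Λ ν f)
      ≤ 3 / δ * (aDm (B ×ˢ Λ) ν (c, 0) l f + 2 * ∑ x ∈ B, cv Λ ν f x) := by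
  have hl0 : (0 : ℝ) < l := by exact_mod_cast hl
  unfold aDm
  rw [div_le_iff₀ hl0]
  have h1 : ∑ s ∈ range l, Dm B (mar Λ ν) c (s + 1) (cm Λ ν f)
      ≤ ∑ s ∈ range l, 3 / δ * (Dm (B ×ˢ Λ) ν (c, 0) (s + 1) f + 2 * ∑ x ∈ B, cv Λ ν f x) :=
    Finset.sum_le_sum fun s hs => Dm_marginal hν hδ0 hδ1
      (fun x hx hx' y hy => hcmp (s + 1) (by have := mem_range.1 hs; omega) x hx hx' y hy) f
  refine h1.trans (le_of_eq ?_)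
  rw [← Finset.mul_sum, Finset.sum_add_distrib, Finset.sum_const, card_range, nsmul_eq_mul]
  field_simp

end moves

section main

open Lor Link

variable {X V₁ V₂ : Type*} [AddCommGroup X] [DecidableEq X] [Fintype V₁] [DecidableEq V₁]
  [Fintype V₂] [DecidableEq V₂]

/-- joint weight -/
def nu (a₁ : X → (V₁ → ℤ) → ℝ) (a₂ : X → (V₂ → ℤ) → ℝ) (p : X × ((V₁ → ℤ) × (V₂ → ℤ))) : ℝ :=
  a₁ p.1 p.2.1 * a₂ p.1 p.2.2

/-- link hypotheses: one side -/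
structure LinkHyp {V : Type*} [Fintype V] [DecidableEq V] (B : Finset X)
    (a : X → (V → ℤ) → ℝ) (Λ : Finset (V → ℤ)) : Prop where
  la : ∀ x ∈ B, ∃ d : ℤ, LA d (a x)
  supp : ∀ x ∈ B, ∀ β, a x β ≠ 0 → β ∈ Λ

/-- energy of the link moves of side 1 -/
noncomputable def E₁ (B : Finset X) (Λ₁ : Finset (V₁ → ℤ)) (Λ₂ : Finset (V₂ → ℤ))
    (ν f : X × ((V₁ → ℤ) × (V₂ → ℤ)) → ℝ) : ℝ :=
  ∑ p, ∑ q, Dm (B ×ˢ (Λ₁ ×ˢ Λ₂)) ν ((0 : X), (ev q - ev p, (0 : V₂ → ℤ))) 1 f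

/-- energy of the link moves of side 2 -/
noncomputable def E₂ (B : Finset X) (Λ₁ : Finset (V₁ → ℤ)) (Λ₂ : Finset (V₂ → ℤ))
    (ν f : X × ((V₁ → ℤ) × (V₂ → ℤ)) → ℝ) : ℝ :=
  ∑ p, ∑ q, Dm (B ×ˢ (Λ₁ ×ˢ Λ₂)) ν ((0 : X), ((0 : V₁ → ℤ), ev q - ev p)) 1 f

open Classical in
/-- mass of the states with a link state outside the windows `|β_i - s_i x| ≤ K` -/
noncomputable def far (B : Finset X) (Λ₁ : Finset (V₁ → ℤ)) (Λ₂ : Finset (V₂ → ℤ))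
    (s₁ : X → V₁ → ℤ) (s₂ : X → V₂ → ℤ) (K : ℕ) (ν : X × ((V₁ → ℤ) × (V₂ → ℤ)) → ℝ) : ℝ :=
  ∑ p ∈ (B ×ˢ (Λ₁ ×ˢ Λ₂)).filter
    (fun p => ¬ (Near K (s₁ p.1) p.2.1 ∧ Near K (s₂ p.1) p.2.2)), ν p

variable {B : Finset X} {a₁ : X → (V₁ → ℤ) → ℝ} {a₂ : X → (V₂ → ℤ) → ℝ}
  {Λ₁ : Finset (V₁ → ℤ)} {Λ₂ : Finset (V₂ → ℤ)} {s₁ : X → V₁ → ℤ} {s₂ : X → V₂ → ℤ} {Kw : ℕ}

theorem LinkHyp.nonneg {V : Type*} [Fintype V] [DecidableEq V] {a : X → (V → ℤ) → ℝ}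
    {Λ : Finset (V → ℤ)} (h : LinkHyp B a Λ) {x : X} (hx : x ∈ B) (β : V → ℤ) :
    0 ≤ a x β := by
  obtain ⟨d, hd⟩ := h.la x hx
  exact hd.nonneg β

theorem LinkHyp.link {V : Type*} [Fintype V] [DecidableEq V] {a : X → (V → ℤ) → ℝ}
    {Λ : Finset (V → ℤ)} (h : LinkHyp B a Λ) {x : X} (hx : x ∈ B) (K : ℕ) (s : V → ℤ)
    (f : (V → ℤ) → ℝ) :
    vr Λ (cut K s (a x)) f
      ≤ KL V (2 * K) * ∑ p, ∑ q, Dm Λ (cut K s (a x)) (ev q - ev p) 1 f := by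
  obtain ⟨d, hd⟩ := h.la x hx
  exact link_cut hd (h.supp x hx) K s f

/-- a factor in a link energy -/
theorem Dm_mul {G : Type*} [AddCommGroup G] [DecidableEq G] (Λ : Finset G) {a : G → ℝ} {k : ℝ}
    (hk : 0 ≤ k) (c : G) (s : ℕ) (f : G → ℝ) :
    Dm Λ (fun y => k * a y) c s f = k * Dm Λ a c s f := by
  unfold Dm
  rw [Finset.mul_sum]
  refine Finset.sum_congr rfl fun y _ => ?_
  rw [← mul_min_of_nonneg _ _ hk]
  ring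

/-- variance of a product weight on the link space -/
theorem vr_prod_le {c₁ : (V₁ → ℤ) → ℝ} {c₂ : (V₂ → ℤ) → ℝ} (h1 : ∀ β, 0 ≤ c₁ β)
    (h2 : ∀ β, 0 ≤ c₂ β) {K₁ K₂ : ℝ}
    (hL₁ : ∀ f, vr Λ₁ c₁ f ≤ K₁ * ∑ p, ∑ q, Dm Λ₁ c₁ (ev q - ev p) 1 f)
    (hL₂ : ∀ f, vr Λ₂ c₂ f ≤ K₂ * ∑ p, ∑ q, Dm Λ₂ c₂ (ev q - ev p) 1 f)
    (f : (V₁ → ℤ) × (V₂ → ℤ) → ℝ) :
    vr (Λ₁ ×ˢ Λ₂) (fun y => c₁ y.1 * c₂ y.2) f
      ≤ K₁ * ∑ p, ∑ q, Dm (Λ₁ ×ˢ Λ₂) (fun y => c₁ y.1 * c₂ y.2) (ev q - ev p, (0 : V₂ → ℤ)) 1 f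
        + K₂ * ∑ p, ∑ q, Dm (Λ₁ ×ˢ Λ₂) (fun y => c₁ y.1 * c₂ y.2)
            ((0 : V₁ → ℤ), ev q - ev p) 1 f := by
  refine (vr_tensor (fun β _ => h1 β) (fun β _ => h2 β) f).trans ?_
  refine add_le_add ?_ ?_
  · calc ∑ y ∈ Λ₂, c₂ y * vr Λ₁ c₁ (fun z => f (z, y))
        ≤ ∑ y ∈ Λ₂, c₂ y * (K₁ * ∑ p, ∑ q, Dm Λ₁ c₁ (ev q - ev p) 1 (fun z => f (z, y))) :=
          Finset.sum_le_sum fun y _ => mul_le_mul_of_nonneg_left (hL₁ _) (h2 y)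
      _ = _ := by
          have e : ∀ p q, Dm (Λ₁ ×ˢ Λ₂) (fun y => c₁ y.1 * c₂ y.2)
              (ev q - ev p, (0 : V₂ → ℤ)) 1 f
              = ∑ y ∈ Λ₂, c₂ y * Dm Λ₁ c₁ (ev q - ev p) 1 (fun z => f (z, y)) := by
            intro p q
            rw [Dm_fst]
            simp only [one_smul, Dm, Finset.mul_sum]
            rw [Finset.sum_comm]
            refine Finset.sum_congr rfl fun y _ => Finset.sum_congr rfl fun z _ => ?_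
            rw [← min_mul_of_nonneg _ _ (h2 y)]
            ring
          simp only [e, Finset.mul_sum]
          rw [Finset.sum_comm]
          refine Finset.sum_congr rfl fun p _ => ?_
          rw [Finset.sum_comm]
          refine Finset.sum_congr rfl fun q _ => Finset.sum_congr rfl fun y _ => ?_
          ring
  · calc ∑ y ∈ Λ₁, c₁ y * vr Λ₂ c₂ (fun z => f (y, z))
        ≤ ∑ y ∈ Λ₁, c₁ y * (K₂ * ∑ p, ∑ q, Dm Λ₂ c₂ (ev q - ev p) 1 (fun z => f (y, z))) :=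
          Finset.sum_le_sum fun y _ => mul_le_mul_of_nonneg_left (hL₂ _) (h1 y)
      _ = _ := by
          have e : ∀ p q, Dm (Λ₁ ×ˢ Λ₂) (fun y => c₁ y.1 * c₂ y.2)
              ((0 : V₁ → ℤ), ev q - ev p) 1 f
              = ∑ y ∈ Λ₁, c₁ y * Dm Λ₂ c₂ (ev q - ev p) 1 (fun z => f (y, z)) := by
            intro p q
            rw [Dm_snd]
            exact Finset.sum_congr rfl fun y _ => Dm_mul Λ₂ (h1 y) _ _ _
          simp only [e, Finset.mul_sum]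
          rw [Finset.sum_comm]
          refine Finset.sum_congr rfl fun p _ => ?_
          rw [Finset.sum_comm]
          refine Finset.sum_congr rfl fun q _ => Finset.sum_congr rfl fun y _ => ?_
          ring

/-- the conditional variances are bounded by the link energies and the far mass -/
theorem sum_cv_le (h1 : LinkHyp B a₁ Λ₁) (h2 : LinkHyp B a₂ Λ₂) (s₁ : X → V₁ → ℤ)
    (s₂ : X → V₂ → ℤ) (Kw : ℕ) {M : ℝ} (hM : 0 ≤ M)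
    {f : X × ((V₁ → ℤ) × (V₂ → ℤ)) → ℝ} (hf : ∀ p, |f p| ≤ M) :
    ∑ x ∈ B, cv (Λ₁ ×ˢ Λ₂) (nu a₁ a₂) f x
      ≤ KL V₁ (2 * Kw) * E₁ B Λ₁ Λ₂ (nu a₁ a₂) f + KL V₂ (2 * Kw) * E₂ B Λ₁ Λ₂ (nu a₁ a₂) f
        + 4 * M ^ 2 * far B Λ₁ Λ₂ s₁ s₂ Kw (nu a₁ a₂) := by
  classical
  have key : ∀ x ∈ B, cv (Λ₁ ×ˢ Λ₂) (nu a₁ a₂) f x
      ≤ KL V₁ (2 * Kw) * ∑ p, ∑ q, Dm (Λ₁ ×ˢ Λ₂) (fun y => nu a₁ a₂ (x, y))
            (ev q - ev p, (0 : V₂ → ℤ)) 1 (fun y => f (x, y))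
        + KL V₂ (2 * Kw) * ∑ p, ∑ q, Dm (Λ₁ ×ˢ Λ₂) (fun y => nu a₁ a₂ (x, y))
            ((0 : V₁ → ℤ), ev q - ev p) 1 (fun y => f (x, y))
        + 4 * M ^ 2 * ∑ y ∈ Λ₁ ×ˢ Λ₂, (if ¬ (Near Kw (s₁ x) y.1 ∧ Near Kw (s₂ x) y.2)
            then nu a₁ a₂ (x, y) else 0) := by
    intro x hx
    have hn1 := fun β => h1.nonneg hx β
    have hn2 := fun β => h2.nonneg hx β
    have hcut : ∀ y : (V₁ → ℤ) × (V₂ → ℤ), cut Kw (s₁ x) (a₁ x) y.1 * cut Kw (s₂ x) (a₂ x) y.2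
        ≤ nu a₁ a₂ (x, y) := fun y =>
      mul_le_mul (cut_le hn1 _ _ _) (cut_le hn2 _ _ _) (cut_nonneg hn2 _ _ _) (hn1 _)
    have hcut0 : ∀ y : (V₁ → ℤ) × (V₂ → ℤ),
        0 ≤ cut Kw (s₁ x) (a₁ x) y.1 * cut Kw (s₂ x) (a₂ x) y.2 := fun y =>
      mul_nonneg (cut_nonneg hn1 _ _ _) (cut_nonneg hn2 _ _ _)
    have t1 := vr_restrict (Λ := Λ₁ ×ˢ Λ₂) (c := fun y => nu a₁ a₂ (x, y))
      (fun y _ => hcut0 y) (fun y _ => hcut y) (f := fun y => f (x, y)) (fun y => hf _) hM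
    have t2 := vr_prod_le (Λ₁ := Λ₁) (Λ₂ := Λ₂) (fun β => cut_nonneg hn1 Kw (s₁ x) β)
      (fun β => cut_nonneg hn2 Kw (s₂ x) β) (fun g => h1.link hx Kw (s₁ x) g)
      (fun g => h2.link hx Kw (s₂ x) g) (fun y => f (x, y))
    have t3 : ∑ p, ∑ q, Dm (Λ₁ ×ˢ Λ₂)
          (fun y => cut Kw (s₁ x) (a₁ x) y.1 * cut Kw (s₂ x) (a₂ x) y.2)
          (ev q - ev p, (0 : V₂ → ℤ)) 1 (fun y => f (x, y))
        ≤ ∑ p, ∑ q, Dm (Λ₁ ×ˢ Λ₂) (fun y => nu a₁ a₂ (x, y))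
            (ev q - ev p, (0 : V₂ → ℤ)) 1 (fun y => f (x, y)) :=
      Finset.sum_le_sum fun p _ => Finset.sum_le_sum fun q _ => Dm_mono hcut _ _ _
    have t4 : ∑ p, ∑ q, Dm (Λ₁ ×ˢ Λ₂)
          (fun y => cut Kw (s₁ x) (a₁ x) y.1 * cut Kw (s₂ x) (a₂ x) y.2)
          ((0 : V₁ → ℤ), ev q - ev p) 1 (fun y => f (x, y))
        ≤ ∑ p, ∑ q, Dm (Λ₁ ×ˢ Λ₂) (fun y => nu a₁ a₂ (x, y))
            ((0 : V₁ → ℤ), ev q - ev p) 1 (fun y => f (x, y)) :=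
      Finset.sum_le_sum fun p _ => Finset.sum_le_sum fun q _ => Dm_mono hcut _ _ _
    have t5 : ∑ y ∈ Λ₁ ×ˢ Λ₂, (nu a₁ a₂ (x, y)
          - cut Kw (s₁ x) (a₁ x) y.1 * cut Kw (s₂ x) (a₂ x) y.2)
        = ∑ y ∈ Λ₁ ×ˢ Λ₂, (if ¬ (Near Kw (s₁ x) y.1 ∧ Near Kw (s₂ x) y.2)
            then nu a₁ a₂ (x, y) else 0) := by
      refine Finset.sum_congr rfl fun y _ => ?_
      unfold Link.cut nu
      by_cases g1 : Near Kw (s₁ x) y.1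
      · by_cases g2 : Near Kw (s₂ x) y.2
        · rw [if_pos g1, if_pos g2, if_neg (not_not.2 ⟨g1, g2⟩), sub_self]
        · rw [if_neg g2, mul_zero, sub_zero, if_pos (fun hh => g2 hh.2)]
      · rw [if_neg g1, zero_mul, sub_zero, if_pos (fun hh => g1 hh.1)]
    rw [t5] at t1
    have t6 := mul_le_mul_of_nonneg_left t3 (KL_nonneg V₁ (2 * Kw))
    have t7 := mul_le_mul_of_nonneg_left t4 (KL_nonneg V₂ (2 * Kw))
    unfold cv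
    linarith
  refine (Finset.sum_le_sum key).trans (le_of_eq ?_)
  rw [Finset.sum_add_distrib, Finset.sum_add_distrib, ← Finset.mul_sum, ← Finset.mul_sum,
    ← Finset.mul_sum]
  have g1 : ∑ x ∈ B, ∑ p, ∑ q, Dm (Λ₁ ×ˢ Λ₂) (fun y => nu a₁ a₂ (x, y))
      (ev q - ev p, (0 : V₂ → ℤ)) 1 (fun y => f (x, y)) = E₁ B Λ₁ Λ₂ (nu a₁ a₂) f := by
    unfold E₁
    rw [Finset.sum_comm]
    refine Finset.sum_congr rfl fun p _ => ?_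
    rw [Finset.sum_comm]
    exact Finset.sum_congr rfl fun q _ => (Dm_snd B (Λ₁ ×ˢ Λ₂) (nu a₁ a₂) f _ 1).symm
  have g2 : ∑ x ∈ B, ∑ p, ∑ q, Dm (Λ₁ ×ˢ Λ₂) (fun y => nu a₁ a₂ (x, y))
      ((0 : V₁ → ℤ), ev q - ev p) 1 (fun y => f (x, y)) = E₂ B Λ₁ Λ₂ (nu a₁ a₂) f := by
    unfold E₂
    rw [Finset.sum_comm]
    refine Finset.sum_congr rfl fun p _ => ?_
    rw [Finset.sum_comm]
    exact Finset.sum_congr rfl fun q _ => (Dm_snd B (Λ₁ ×ˢ Λ₂) (nu a₁ a₂) f _ 1).symm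
  have g3 : ∑ x ∈ B, ∑ y ∈ Λ₁ ×ˢ Λ₂, (if ¬ (Near Kw (s₁ x) y.1 ∧ Near Kw (s₂ x) y.2)
            then nu a₁ a₂ (x, y) else 0) = far B Λ₁ Λ₂ s₁ s₂ Kw (nu a₁ a₂) := by
    unfold far
    rw [Finset.sum_filter, Finset.sum_product]
  rw [g1, g2, g3]

theorem far_nonneg (h1 : LinkHyp B a₁ Λ₁) (h2 : LinkHyp B a₂ Λ₂) (s₁ : X → V₁ → ℤ)
    (s₂ : X → V₂ → ℤ) (Kw : ℕ) : 0 ≤ far B Λ₁ Λ₂ s₁ s₂ Kw (nu a₁ a₂) := by
  classical
  unfold far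
  refine Finset.sum_nonneg fun p hp => ?_
  have hx := (mem_product.1 (mem_filter.1 hp).1).1
  exact mul_nonneg (h1.nonneg hx _) (h2.nonneg hx _)

theorem cm_abs_le {Y : Type*} {Λ : Finset Y} {ν f : X × Y → ℝ} {M : ℝ} {x : X}
    (hν : ∀ y ∈ Λ, 0 ≤ ν (x, y)) (hf : ∀ p, |f p| ≤ M) (hM : 0 ≤ M) : |cm Λ ν f x| ≤ M := by
  unfold cm mn S
  by_cases hz : ∑ y ∈ Λ, ν (x, y) = 0
  · rw [hz, div_zero, abs_zero]; exact hM
  · have hZ : 0 < ∑ y ∈ Λ, ν (x, y) := lt_of_le_of_ne (Finset.sum_nonneg hν) (Ne.symm hz)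
    rw [abs_div, abs_of_pos hZ, div_le_iff₀ hZ, Finset.mul_sum]
    refine (Finset.abs_sum_le_sum_abs _ _).trans (Finset.sum_le_sum fun y hy => ?_)
    rw [abs_mul, abs_of_nonneg (hν y hy), mul_comm]
    exact mul_le_mul_of_nonneg_right (hf _) (hν y hy)

/-- **JOINT.** -/
theorem joint {ι : Type*} [Fintype ι] (h1 : LinkHyp B a₁ Λ₁) (h2 : LinkHyp B a₂ Λ₂)
    (s₁ : X → V₁ → ℤ) (s₂ : X → V₂ → ℤ) (Kw : ℕ)
    {c : ι → X} {l : ι → ℕ} (hl : ∀ j, 1 ≤ l j) {δ : ι → ℝ} (hδ0 : ∀ j, 0 < δ j)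
    (hδ1 : ∀ j, δ j ≤ 1)
    (hcmp : ∀ j, ∀ s ≤ l j, ∀ x ∈ B, x + s • c j ∈ B → ∀ y ∈ Λ₁ ×ˢ Λ₂,
      δ j * nu a₁ a₂ (x, y) ≤ nu a₁ a₂ (x + s • c j, y))
    {K : ι → ℝ} (hK : ∀ j, 0 ≤ K j) {ε M : ℝ} (hM : 0 ≤ M)
    (hx : ∀ g : X → ℝ, (∀ x, |g x| ≤ M) → vr B (mar (Λ₁ ×ˢ Λ₂) (nu a₁ a₂)) g
      ≤ ∑ j, K j * aDm B (mar (Λ₁ ×ˢ Λ₂) (nu a₁ a₂)) (c j) (l j) g + ε * M ^ 2)
    {f : X × ((V₁ → ℤ) × (V₂ → ℤ)) → ℝ} (hf : ∀ p, |f p| ≤ M) :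
    vr (B ×ˢ (Λ₁ ×ˢ Λ₂)) (nu a₁ a₂) f
      ≤ ∑ j, 3 * K j / δ j * aDm (B ×ˢ (Λ₁ ×ˢ Λ₂)) (nu a₁ a₂) (c j, 0) (l j) f
        + (1 + ∑ j, 6 * K j / δ j) * (KL V₁ (2 * Kw) * E₁ B Λ₁ Λ₂ (nu a₁ a₂) f
          + KL V₂ (2 * Kw) * E₂ B Λ₁ Λ₂ (nu a₁ a₂) f
          + 4 * M ^ 2 * far B Λ₁ Λ₂ s₁ s₂ Kw (nu a₁ a₂))
        + ε * M ^ 2 := by
  classical
  have hν : ∀ x ∈ B, ∀ y ∈ Λ₁ ×ˢ Λ₂, 0 ≤ nu a₁ a₂ (x, y) := fun x hx y _ =>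
    mul_nonneg (h1.nonneg hx _) (h2.nonneg hx _)
  -- the conditional mean, cut off outside `B`
  set g : X → ℝ := fun x => if x ∈ B then cm (Λ₁ ×ˢ Λ₂) (nu a₁ a₂) f x else 0 with hg
  have hgM : ∀ x, |g x| ≤ M := by
    intro x
    simp only [hg]
    split_ifs with hxB
    · exact cm_abs_le (hν x hxB) hf hM
    · rw [abs_zero]; exact hM
  have hS : ∀ x ∈ B, g x = cm (Λ₁ ×ˢ Λ₂) (nu a₁ a₂) f x := fun x hxB => if_pos hxB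
  have hvr : vr B (mar (Λ₁ ×ˢ Λ₂) (nu a₁ a₂)) (cm (Λ₁ ×ˢ Λ₂) (nu a₁ a₂) f)
      = vr B (mar (Λ₁ ×ˢ Λ₂) (nu a₁ a₂)) g := by
    have hw : ∀ x ∈ B, 0 ≤ mar (Λ₁ ×ˢ Λ₂) (nu a₁ a₂) x := fun x hx => Finset.sum_nonneg (hν x hx)
    have e2 : ∑ x ∈ B, mar (Λ₁ ×ˢ Λ₂) (nu a₁ a₂) x * cm (Λ₁ ×ˢ Λ₂) (nu a₁ a₂) f x ^ 2
        = ∑ x ∈ B, mar (Λ₁ ×ˢ Λ₂) (nu a₁ a₂) x * g x ^ 2 :=
      Finset.sum_congr rfl fun x hxB => by rw [hS x hxB]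
    have e1 : ∑ x ∈ B, mar (Λ₁ ×ˢ Λ₂) (nu a₁ a₂) x * cm (Λ₁ ×ˢ Λ₂) (nu a₁ a₂) f x
        = ∑ x ∈ B, mar (Λ₁ ×ˢ Λ₂) (nu a₁ a₂) x * g x :=
      Finset.sum_congr rfl fun x hxB => by rw [hS x hxB]
    rw [vr_eq hw, vr_eq hw, e1, e2]
  have hDm : ∀ j, aDm B (mar (Λ₁ ×ˢ Λ₂) (nu a₁ a₂)) (c j) (l j) g
      = aDm B (mar (Λ₁ ×ˢ Λ₂) (nu a₁ a₂)) (c j) (l j) (cm (Λ₁ ×ˢ Λ₂) (nu a₁ a₂) f) := by
    intro j
    unfold aDm Dm
    congr 1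
    refine Finset.sum_congr rfl fun s _ => Finset.sum_congr rfl fun x hxf => ?_
    rw [hS x (mem_filter.1 hxf).1, hS _ (mem_filter.1 hxf).2]
  have h3 := hx g hgM
  rw [← hvr] at h3
  rw [vr_fibre hν f]
  have hcv := sum_cv_le h1 h2 s₁ s₂ Kw hM hf
  set CV := ∑ x ∈ B, cv (Λ₁ ×ˢ Λ₂) (nu a₁ a₂) f x with hCV
  have hCV0 : 0 ≤ CV := Finset.sum_nonneg fun x hx => vr_nonneg (hν x hx) _
  set EE := KL V₁ (2 * Kw) * E₁ B Λ₁ Λ₂ (nu a₁ a₂) f + KL V₂ (2 * Kw) * E₂ B Λ₁ Λ₂ (nu a₁ a₂) f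
    + 4 * M ^ 2 * far B Λ₁ Λ₂ s₁ s₂ Kw (nu a₁ a₂) with hEE
  have h4 : ∑ j, K j * aDm B (mar (Λ₁ ×ˢ Λ₂) (nu a₁ a₂)) (c j) (l j) g
      ≤ ∑ j, 3 * K j / δ j * aDm (B ×ˢ (Λ₁ ×ˢ Λ₂)) (nu a₁ a₂) (c j, 0) (l j) f
        + (∑ j, 6 * K j / δ j) * CV := by
    rw [Finset.sum_mul, ← Finset.sum_add_distrib]
    refine Finset.sum_le_sum fun j _ => ?_
    rw [hDm j]
    have h5 := mul_le_mul_of_nonneg_left
      (aDm_marginal hν (hl j) (hδ0 j) (hδ1 j) (hcmp j) f) (hK j)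
    refine h5.trans (le_of_eq ?_)
    rw [← hCV]
    have := (hδ0 j).ne'
    field_simp
    ring
  have hsum : 0 ≤ ∑ j, 6 * K j / δ j :=
    Finset.sum_nonneg fun j _ => div_nonneg (by have := hK j; linarith) (hδ0 j).le
  have h6 : (∑ j, 6 * K j / δ j) * CV ≤ (∑ j, 6 * K j / δ j) * EE :=
    mul_le_mul_of_nonneg_left hcv hsum
  nlinarith

/-- **MACRO + JOINT**: from the fine inequality for the marginal to the joint chain. -/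
theorem macro_joint {ι κ : Type*} [Fintype ι] [Fintype κ] (h1 : LinkHyp B a₁ Λ₁)
    (h2 : LinkHyp B a₂ Λ₂) (s₁ : X → V₁ → ℤ) (s₂ : X → V₂ → ℤ) (Kw : ℕ) {Bp : Finset X} (hBp : B ⊆ Bp) {W : X → ℝ}
    (hW : ∀ x ∈ B, W x = mar (Λ₁ ×ˢ Λ₂) (nu a₁ a₂) x) (hwp : ∀ x ∈ Bp, 0 ≤ W x)
    (hm : ∑ x ∈ B, W x ≠ 0)
    {c : ι → X} {l : ι → ℕ} (hl : ∀ j, 1 ≤ l j) {d : κ → X}
    {δ : ι → ℝ} (hδ0 : ∀ j, 0 < δ j) (hδ1 : ∀ j, δ j ≤ 1)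
    {δ' : κ → ℝ} (hδ0' : ∀ j, 0 < δ' j) (hδ1' : ∀ j, δ' j ≤ 1)
    (hcmp : ∀ j, ∀ s ≤ l j, ∀ x ∈ B, x + s • c j ∈ B → ∀ y ∈ Λ₁ ×ˢ Λ₂,
      δ j * nu a₁ a₂ (x, y) ≤ nu a₁ a₂ (x + s • c j, y))
    (hcmp' : ∀ i, ∀ s ≤ 1, ∀ x ∈ B, x + s • d i ∈ B → ∀ y ∈ Λ₁ ×ˢ Λ₂,
      δ' i * nu a₁ a₂ (x, y) ≤ nu a₁ a₂ (x + s • d i, y))
    {R : ι → ℝ} (hR : ∀ j, ∀ s ≤ l j, ∀ x ∈ B, x + s • c j ∈ B → W x ≤ R j * W (x + s • c j))
    (hR1 : ∀ j, 1 ≤ R j) (hR3 : ∏ j, R j ≤ 3) {K : ι → ℝ} (hK : ∀ j, 0 ≤ K j)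
    {K' : κ → ℝ} (hK' : ∀ i, 0 ≤ K' i) {ε M : ℝ} (hM : 0 ≤ M)
    (hfine : ∀ g : X → ℝ, (∀ x, |g x| ≤ M) → vr B W g
      ≤ ∑ j, K j * S Bp W (fun x => (g (x + c j) - g x) ^ 2)
        + ∑ i, K' i * Dm B W (d i) 1 g + ε * M ^ 2)
    {f : X × ((V₁ → ℤ) × (V₂ → ℤ)) → ℝ} (hf : ∀ p, |f p| ≤ M) :
    vr (B ×ˢ (Λ₁ ×ˢ Λ₂)) (nu a₁ a₂) f
      ≤ ∑ j, 3 * (144 * (K j / (l j : ℝ) ^ 2) + 18 * Fintype.card ι) / δ j
            * aDm (B ×ˢ (Λ₁ ×ˢ Λ₂)) (nu a₁ a₂) (c j, 0) (l j) f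
        + ∑ i, 3 * (6 * K' i) / δ' i * Dm (B ×ˢ (Λ₁ ×ˢ Λ₂)) (nu a₁ a₂) (d i, 0) 1 f
        + (1 + (∑ j, 6 * (144 * (K j / (l j : ℝ) ^ 2) + 18 * Fintype.card ι) / δ j
              + ∑ i, 6 * (6 * K' i) / δ' i))
          * (KL V₁ (2 * Kw) * E₁ B Λ₁ Λ₂ (nu a₁ a₂) f + KL V₂ (2 * Kw) * E₂ B Λ₁ Λ₂ (nu a₁ a₂) f
            + 4 * M ^ 2 * far B Λ₁ Λ₂ s₁ s₂ Kw (nu a₁ a₂))
        + (2 * ε + (72 * ∑ j, K j / (l j : ℝ) ^ 2 + 48 * ∑ i, K' i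
            + 48 * (Fintype.card ι : ℝ) ^ 2) * ∑ j, rim B W (c j) (l j)
            + 8 * (∑ j, K j) * ∑ x ∈ Bp \ B, W x) * M ^ 2 := by
  classical
  set w := mar (Λ₁ ×ˢ Λ₂) (nu a₁ a₂) with hw
  have hvr : ∀ g : X → ℝ, vr B w g = vr B W g := by
    intro g
    have e1 : ∀ h : X → ℝ, S B w h = S B W h := fun h =>
      Finset.sum_congr rfl fun x hx => by rw [hW x hx]
    have e2 : mn B w g = mn B W g := by
      unfold mn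
      rw [e1, Finset.sum_congr rfl fun x hx => (hW x hx).symm]
    unfold vr
    rw [e2, e1]
  have hD : ∀ (e : X) (s : ℕ) (g : X → ℝ), Dm B w e s g = Dm B W e s g := by
    intro e s g
    unfold Dm
    refine Finset.sum_congr rfl fun x hx => ?_
    have hx' := mem_filter.1 hx
    rw [hW x hx'.1, hW _ hx'.2]
  have haD : ∀ (e : X) (s : ℕ) (g : X → ℝ), aDm B w e s g = aDm B W e s g := by
    intro e s g
    unfold aDm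
    rw [Finset.sum_congr rfl fun t _ => hD e (t + 1) g]
  have hx : ∀ g : X → ℝ, (∀ x, |g x| ≤ M) → vr B w g
      ≤ ∑ j : ι ⊕ κ, Sum.elim (fun j => 144 * (K j / (l j : ℝ) ^ 2) + 18 * Fintype.card ι)
            (fun i => 6 * K' i) j
          * aDm B w (Sum.elim c d j) (Sum.elim l (fun _ => 1) j) g
        + (2 * ε + (72 * ∑ j, K j / (l j : ℝ) ^ 2 + 48 * ∑ i, K' i
            + 48 * (Fintype.card ι : ℝ) ^ 2) * ∑ j, rim B W (c j) (l j)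
            + 8 * (∑ j, K j) * ∑ x ∈ Bp \ B, W x) * M ^ 2 := by
    intro g hg
    have h3 := macro_full hBp (d := d) hwp hm hl hR hR1 hR3 hK hK' hfine hg
    rw [hvr, Fintype.sum_sum_type]
    simp only [Sum.elim_inl, Sum.elim_inr, aDm_one, haD]
    linarith
  have h4 := joint (c := Sum.elim c d) (l := Sum.elim l (fun _ => 1)) (δ := Sum.elim δ δ')
    (K := Sum.elim (fun j => 144 * (K j / (l j : ℝ) ^ 2) + 18 * Fintype.card ι)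
            (fun i => 6 * K' i)) h1 h2 s₁ s₂ Kw
    (by rintro (j | j) <;> simp [hl]) (by rintro (j | j) <;> simp [hδ0, hδ0'])
    (by rintro (j | j) <;> simp [hδ1, hδ1'])
    (by
      rintro (j | j)
      · simpa using hcmp j
      · simpa using hcmp' j)
    (by
      rintro (j | j)
      · simp only [Sum.elim_inl]
        have := hK j
        positivity
      · simp only [Sum.elim_inr]
        have := hK' j
        positivity) hM hx hf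
  rw [Fintype.sum_sum_type, Fintype.sum_sum_type] at h4
  simp only [Sum.elim_inl, Sum.elim_inr, aDm_one] at h4
  linarith

end main

end Crest.Agent.R302.Joint
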