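import Crest.Agent.R302.Stage536

/-!
# R302 (helper151): the fat slack kernel `Stage.kapR`

Finite-form facts on `kapR k t = ((1-q)/(1+q))² q^|t| (|t| + (1+q²)/(1-q²))`, `q = 1 - 2^(-k)`:
positivity, mass of windows (`sum_Icc`), finite sums at most one, exponential moments, tails.
-/

set_option autoImplicit false

namespace Crest.Agent.R302.KapR

open Finset Crest.Agent.R302.Stage

/-- the ratio -/
noncomputable def qk (k : ℕ) : ℝ := 1 - (1 / 2) ^ k

theorem qk_nonneg (k : ℕ) : 0 ≤ qk k := by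
  unfold qk
  have : ((1 : ℝ) / 2) ^ k ≤ 1 := pow_le_one₀ (by norm_num) (by norm_num)
  linarith

theorem qk_lt (k : ℕ) : qk k < 1 := by
  unfold qk
  have : (0 : ℝ) < (1 / 2) ^ k := by positivity
  linarith

theorem qk_pos {k : ℕ} (hk : 1 ≤ k) : 0 < qk k := by
  unfold qk
  have : ((1 : ℝ) / 2) ^ k ≤ (1 / 2) ^ 1 := pow_le_pow_of_le_one (by norm_num) (by norm_num) hk
  linarith

/-- the additive constant -/
noncomputable def ck (q : ℝ) : ℝ := (1 + q ^ 2) / (1 - q ^ 2)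

theorem ck_pos {q : ℝ} (h0 : 0 ≤ q) (h1 : q < 1) : 0 < ck q := by
  unfold ck
  have : 0 < 1 - q ^ 2 := by nlinarith
  positivity

theorem kapR_eq (k : ℕ) (t : ℤ) : kapR k t =
    ((1 - qk k) / (1 + qk k)) ^ 2 * (qk k ^ t.natAbs * (t.natAbs + ck (qk k))) := rfl

theorem kapR_nonneg (k : ℕ) (t : ℤ) : 0 ≤ kapR k t := by
  rw [kapR_eq]
  have h0 := qk_nonneg k
  have h2 := ck_pos h0 (qk_lt k)
  positivity

theorem kapR_pos {k : ℕ} (hk : 1 ≤ k) (t : ℤ) : 0 < kapR k t := by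
  rw [kapR_eq]
  have h0 := qk_pos hk
  have h1 : 0 < 1 - qk k := by linarith [qk_lt k]
  have h2 := ck_pos h0.le (qk_lt k)
  positivity

theorem kapR_neg (k : ℕ) (t : ℤ) : kapR k (-t) = kapR k t := by
  rw [kapR_eq, kapR_eq, Int.natAbs_neg]

/-- window sum of a function of `|t|` -/
theorem sum_Icc_natAbs (φ : ℕ → ℝ) (N : ℕ) :
    ∑ t ∈ Icc (-(N : ℤ)) N, φ t.natAbs = φ 0 + 2 * ∑ i ∈ range N, φ (i + 1) := by
  induction N with
  | zero => simp
  | succ N ih =>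
    have e : Icc (-((N + 1 : ℕ) : ℤ)) ((N + 1 : ℕ) : ℤ) =
        insert (-((N : ℤ) + 1)) (insert ((N : ℤ) + 1) (Icc (-(N : ℤ)) N)) := by
      ext t
      simp only [mem_insert, mem_Icc]
      push_cast
      omega
    rw [e, sum_insert, sum_insert, ih, sum_range_succ]
    · have e1 : (-((N : ℤ) + 1)).natAbs = N + 1 := by omega
      have e2 : ((N : ℤ) + 1).natAbs = N + 1 := by omega
      rw [e1, e2]
      ring
    · simp
    · simp only [mem_insert, mem_Icc]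
      omega

/-- geometric window sums in closed form -/
theorem sum_window (q D : ℝ) (N : ℕ) (hq : q ≠ 1) :
    ∑ t ∈ Icc (-(N : ℤ)) N, q ^ t.natAbs * ((t.natAbs : ℝ) + D) =
      (2 * q / (1 - q) ^ 2 + D * (1 + q) / (1 - q)) -
        2 * q ^ (N + 1) * (((N : ℝ) + 1 + D) / (1 - q) + q / (1 - q) ^ 2) := by
  have h1 : 1 - q ≠ 0 := sub_ne_zero.2 (Ne.symm hq)
  rw [sum_Icc_natAbs (fun n => q ^ n * ((n : ℝ) + D)) N]
  induction N with
  | zero =>
    simp only [range_zero, sum_empty]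
    field_simp
    push_cast
    ring
  | succ N ih =>
    rw [sum_range_succ]
    have e : ∀ a b c : ℝ, a + 2 * (b + c) = (a + 2 * b) + 2 * c := fun a b c => by ring
    rw [e, ih]
    field_simp
    push_cast
    ring

/-- every finite sum is below the full sum -/
theorem sum_le {q D : ℝ} (h0 : 0 ≤ q) (h1 : q < 1) (hD : 0 ≤ D) (T : Finset ℤ) :
    ∑ t ∈ T, q ^ t.natAbs * ((t.natAbs : ℝ) + D) ≤
      2 * q / (1 - q) ^ 2 + D * (1 + q) / (1 - q) := by
  set N := T.sup fun t => t.natAbs with hN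
  have hsub : T ⊆ Icc (-(N : ℤ)) N := by
    intro t ht
    have : t.natAbs ≤ N := Finset.le_sup (f := fun t : ℤ => t.natAbs) ht
    rw [mem_Icc]
    omega
  refine (sum_le_sum_of_subset_of_nonneg hsub fun t _ _ => by positivity).trans ?_
  rw [sum_window q D N h1.ne]
  have h2 : 0 < 1 - q := by linarith
  have : 0 ≤ 2 * q ^ (N + 1) * (((N : ℝ) + 1 + D) / (1 - q) + q / (1 - q) ^ 2) := by positivity
  linarith

theorem full_eq {q : ℝ} (h0 : 0 ≤ q) (h1 : q < 1) :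
    ((1 - q) / (1 + q)) ^ 2 * (2 * q / (1 - q) ^ 2 + ck q * (1 + q) / (1 - q)) = 1 := by
  have h2 : 1 - q ≠ 0 := by linarith
  have h3 : 1 + q ≠ 0 := by linarith
  have h4 : 1 - q ^ 2 ≠ 0 := by
    have : 0 < 1 - q ^ 2 := by nlinarith
    exact this.ne'
  unfold ck
  have e : 1 - q ^ 2 = (1 - q) * (1 + q) := by ring
  rw [e]
  field_simp
  ring

/-- **(K1)** finite sums are at most one -/
theorem sum_kapR_le (k : ℕ) (T : Finset ℤ) : ∑ t ∈ T, kapR k t ≤ 1 := by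
  have h0 := qk_nonneg k
  have h1 := qk_lt k
  simp only [kapR_eq]
  rw [← mul_sum]
  exact (mul_le_mul_of_nonneg_left (sum_le h0 h1 (ck_pos h0 h1).le T) (by positivity)).trans
    (full_eq h0 h1).le

/-- **(K2)** mass of a window -/
theorem sum_kapR_window (k N : ℕ) : ∑ t ∈ Icc (-(N : ℤ)) N, kapR k t =
    1 - ((1 - qk k) / (1 + qk k)) ^ 2 *
      (2 * qk k ^ (N + 1) * (((N : ℝ) + 1 + ck (qk k)) / (1 - qk k) + qk k / (1 - qk k) ^ 2)) := by
  have h0 := qk_nonneg k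
  have h1 := qk_lt k
  simp only [kapR_eq]
  rw [← mul_sum, sum_window _ _ _ h1.ne, mul_sub, full_eq h0 h1]

/-- the window sums tend to one: for every `ε > 0` some window has mass at least `1 - ε` -/
theorem exists_window (k : ℕ) {ε : ℝ} (hε : 0 < ε) :
    ∃ N₀ : ℕ, ∀ N, N₀ ≤ N → 1 - ε ≤ ∑ t ∈ Icc (-(N : ℤ)) N, kapR k t := by
  have h0 := qk_nonneg k
  have h1 := qk_lt k
  have t1 : Filter.Tendsto (fun N : ℕ => (N : ℝ) * qk k ^ N) Filter.atTop (nhds 0) :=
    tendsto_self_mul_const_pow_of_lt_one h0 h1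
  have t2 : Filter.Tendsto (fun N : ℕ => qk k ^ N) Filter.atTop (nhds 0) :=
    tendsto_pow_atTop_nhds_zero_of_lt_one h0 h1
  have t3 : Filter.Tendsto (fun N : ℕ => ((1 - qk k) / (1 + qk k)) ^ 2 *
      (2 * qk k ^ (N + 1) * (((N : ℝ) + 1 + ck (qk k)) / (1 - qk k) + qk k / (1 - qk k) ^ 2)))
      Filter.atTop (nhds 0) := by
    have e : ∀ N : ℕ, ((1 - qk k) / (1 + qk k)) ^ 2 *
      (2 * qk k ^ (N + 1) * (((N : ℝ) + 1 + ck (qk k)) / (1 - qk k) + qk k / (1 - qk k) ^ 2)) =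
      (((1 - qk k) / (1 + qk k)) ^ 2 * 2 * qk k / (1 - qk k)) * ((N : ℝ) * qk k ^ N) +
      (((1 - qk k) / (1 + qk k)) ^ 2 * 2 * qk k *
        ((1 + ck (qk k)) / (1 - qk k) + qk k / (1 - qk k) ^ 2)) * qk k ^ N := by
      intro N
      rw [pow_succ]
      ring
    simp only [e]
    have := (t1.const_mul (((1 - qk k) / (1 + qk k)) ^ 2 * 2 * qk k / (1 - qk k))).add
      (t2.const_mul (((1 - qk k) / (1 + qk k)) ^ 2 * 2 * qk k *
        ((1 + ck (qk k)) / (1 - qk k) + qk k / (1 - qk k) ^ 2)))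
    simpa using this
  obtain ⟨N₀, hN₀⟩ := (Filter.eventually_atTop.1 (t3.eventually (gt_mem_nhds hε)))
  refine ⟨N₀, fun N hN => ?_⟩
  rw [sum_kapR_window]
  linarith [hN₀ N hN]

/-- **(K3)** exponential moments -/
theorem sum_kapR_exp_le (k : ℕ) {c : ℝ} (hc : 0 ≤ c) (hck : c * 2 ^ k ≤ 1 / 8) (T : Finset ℤ) :
    ∑ t ∈ T, kapR k t * Real.exp (c * |(t : ℝ)|) ≤ 1 + 10 * (c * 2 ^ k) := by
  have h0 := qk_nonneg k
  have h1 := qk_lt k
  set q := qk k with hq
  have h2k : (1 : ℝ) ≤ 2 ^ k := one_le_pow₀ (by norm_num)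
  have hc8 : c ≤ 1 / 8 := by nlinarith
  have h1q : 1 - q = (2 ^ k)⁻¹ := by rw [hq]; unfold qk; rw [one_div, inv_pow]; ring
  have h1q0 : 0 < 1 - q := by linarith
  -- `exp c ≤ 1 + 2 c`
  have hexp : Real.exp c ≤ 1 + 2 * c := by
    have h3 : 1 - c ≤ Real.exp (-c) := by linarith [Real.add_one_le_exp (-c)]
    rw [Real.exp_neg] at h3
    have h4 := Real.exp_pos c
    have h5 : (1 - c) * Real.exp c ≤ 1 := by
      have := mul_le_mul_of_nonneg_right h3 h4.le
      rwa [inv_mul_cancel₀ h4.ne'] at this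
    by_contra hcon
    push Not at hcon
    nlinarith
  set η := 2 * (c * 2 ^ k) with hη
  have hη0 : 0 ≤ η := by positivity
  have hη4 : η ≤ 1 / 4 := by rw [hη]; linarith
  have h2cη : 2 * c ≤ η := by rw [hη]; nlinarith
  have h2cη' : 2 * c = η * (1 - q) := by
    rw [h1q, hη]
    field_simp
  set q' := q * Real.exp c with hq'
  have hq'0 : 0 ≤ q' := by positivity
  have hq'1 : q' ≤ q * (1 + 2 * c) := mul_le_mul_of_nonneg_left hexp h0
  have hq'2 : (1 - q) * (1 - η) ≤ 1 - q' := by nlinarith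
  have hpos' : 0 < (1 - q) * (1 - η) := by
    apply mul_pos h1q0; linarith
  have hq'lt : q' < 1 := by linarith
  have hC := ck_pos h0 h1
  -- termwise
  have e : ∀ t : ℤ, kapR k t * Real.exp (c * |(t : ℝ)|) =
      ((1 - q) / (1 + q)) ^ 2 * (q' ^ t.natAbs * ((t.natAbs : ℝ) + ck q)) := by
    intro t
    rw [kapR_eq]
    have h3 : |(t : ℝ)| = (t.natAbs : ℝ) := by
      rw [Nat.cast_natAbs, Int.cast_abs]
    have h4 : Real.exp (c * |(t : ℝ)|) = Real.exp c ^ t.natAbs := by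
      rw [h3, mul_comm, Real.exp_nat_mul]
    rw [h4, hq', mul_pow]
    ring
  simp only [e]
  rw [← mul_sum]
  have h3 := sum_le hq'0 hq'lt hC.le T
  have hA : 0 < ((1 - q) / (1 + q)) ^ 2 := by positivity
  refine (mul_le_mul_of_nonneg_left h3 hA.le).trans ?_
  -- compare with the full sum
  have b1 : 2 * q' / (1 - q') ^ 2 ≤ (1 + η) / (1 - η) ^ 2 * (2 * q / (1 - q) ^ 2) := by
    have : (1 + η) / (1 - η) ^ 2 * (2 * q / (1 - q) ^ 2) =
        2 * (q * (1 + η)) / ((1 - q) * (1 - η)) ^ 2 := by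
      rw [mul_pow]
      have : 1 - η ≠ 0 := by linarith
      field_simp
    rw [this]
    have hq'3 : q' ≤ q * (1 + η) := hq'1.trans (by nlinarith)
    have hsq : ((1 - q) * (1 - η)) ^ 2 ≤ (1 - q') ^ 2 := pow_le_pow_left₀ hpos'.le hq'2 2
    exact div_le_div₀ (by positivity) (by linarith) (by positivity) hsq
  have b2 : ck q * (1 + q') / (1 - q') ≤ (1 + η) / (1 - η) ^ 2 * (ck q * (1 + q) / (1 - q)) := by
    have h5 : ck q * (1 + q') / (1 - q') ≤ ck q * ((1 + η) * (1 + q)) / ((1 - q) * (1 - η)) := by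
      apply div_le_div₀ _ _ hpos' hq'2
      · have : 0 ≤ (1 + η) * (1 + q) := by positivity
        positivity
      · apply mul_le_mul_of_nonneg_left _ hC.le
        nlinarith
    refine h5.trans ?_
    have h6 : (1 + η) / (1 - η) ^ 2 * (ck q * (1 + q) / (1 - q)) =
        (ck q * ((1 + η) * (1 + q)) / ((1 - q) * (1 - η))) * (1 / (1 - η)) := by
      have : 1 - η ≠ 0 := by linarith
      field_simp
    rw [h6]
    apply le_mul_of_one_le_right
    · have h7 : 0 ≤ ck q * ((1 + η) * (1 + q)) := by positivity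
      positivity
    · rw [le_div_iff₀ (by linarith)]
      linarith
  have hfull := full_eq h0 h1
  have h7 : ((1 - q) / (1 + q)) ^ 2 * (2 * q' / (1 - q') ^ 2 + ck q * (1 + q') / (1 - q')) ≤
      (1 + η) / (1 - η) ^ 2 := by
    calc ((1 - q) / (1 + q)) ^ 2 * (2 * q' / (1 - q') ^ 2 + ck q * (1 + q') / (1 - q'))
        ≤ ((1 - q) / (1 + q)) ^ 2 * ((1 + η) / (1 - η) ^ 2 * (2 * q / (1 - q) ^ 2) +
          (1 + η) / (1 - η) ^ 2 * (ck q * (1 + q) / (1 - q))) :=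
          mul_le_mul_of_nonneg_left (add_le_add b1 b2) hA.le
      _ = (1 + η) / (1 - η) ^ 2 * (((1 - q) / (1 + q)) ^ 2 *
          (2 * q / (1 - q) ^ 2 + ck q * (1 + q) / (1 - q))) := by ring
      _ = (1 + η) / (1 - η) ^ 2 := by rw [hfull, mul_one]
  refine h7.trans ?_
  have h8 : (1 + η) / (1 - η) ^ 2 ≤ 1 + 5 * η := by
    rw [div_le_iff₀ (by have : 0 < 1 - η := by linarith
                        positivity)]
    nlinarith [mul_nonneg hη0 (by linarith : (0 : ℝ) ≤ 1 / 4 - η),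
      mul_nonneg (mul_nonneg hη0 hη0) (by linarith : (0 : ℝ) ≤ 1 / 4 - η)]
  rw [hη] at h8 ⊢
  linarith

/-- **tail**: the mass outside `|t| ≤ τ` of any finite set is at most `(9/4) exp (-τ / (8 2^k))` -/
theorem sum_kapR_tail (k : ℕ) (τ : ℝ) (T : Finset ℤ) (hT : ∀ t ∈ T, τ ≤ |(t : ℝ)|) :
    ∑ t ∈ T, kapR k t ≤ 9 / 4 * Real.exp (-(τ / (8 * 2 ^ k))) := by
  have h2k : (0 : ℝ) < 2 ^ k := by positivity
  set c : ℝ := 1 / (8 * 2 ^ k) with hc
  have hc0 : 0 ≤ c := by positivity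
  have hck : c * 2 ^ k = 1 / 8 := by rw [hc]; field_simp
  have h1 := sum_kapR_exp_le k hc0 hck.le T
  have h2 : ∑ t ∈ T, kapR k t ≤
      Real.exp (-(c * τ)) * ∑ t ∈ T, kapR k t * Real.exp (c * |(t : ℝ)|) := by
    rw [mul_sum]
    refine sum_le_sum fun t ht => ?_
    have h3 : 1 ≤ Real.exp (-(c * τ)) * Real.exp (c * |(t : ℝ)|) := by
      rw [← Real.exp_add]
      apply Real.one_le_exp
      have := mul_le_mul_of_nonneg_left (hT t ht) hc0
      linarith
    calc kapR k t ≤ kapR k t * (Real.exp (-(c * τ)) * Real.exp (c * |(t : ℝ)|)) :=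
          le_mul_of_one_le_right (kapR_nonneg k t) h3
      _ = _ := by ring
  rw [hck] at h1
  have e : -(τ / (8 * 2 ^ k)) = -(c * τ) := by rw [hc]; ring
  rw [e]
  calc ∑ t ∈ T, kapR k t ≤ Real.exp (-(c * τ)) * (1 + 10 * (1 / 8)) :=
        h2.trans (mul_le_mul_of_nonneg_left h1 (Real.exp_pos _).le)
    _ = _ := by ring

/-- **window**: `|t| ≤ τ` has mass at least `1 - (9/4) exp (-(τ+1) / (8 2^k))` -/
theorem window_ge (k τ : ℕ) :
    1 - 9 / 4 * Real.exp (-(((τ : ℝ) + 1) / (8 * 2 ^ k))) ≤ ∑ t ∈ Icc (-(τ : ℤ)) τ, kapR k t := by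
  refine le_of_forall_pos_le_add fun ε hε => ?_
  obtain ⟨N₀, hN₀⟩ := exists_window k hε
  set N := max N₀ τ with hN
  have h1 := hN₀ N (le_max_left _ _)
  have hsub : Icc (-(τ : ℤ)) τ ⊆ Icc (-(N : ℤ)) N := by
    have : (τ : ℤ) ≤ N := by exact_mod_cast le_max_right _ _
    exact Icc_subset_Icc (by linarith) this
  rw [← sum_sdiff hsub] at h1
  have h2 := sum_kapR_tail k ((τ : ℝ) + 1) (Icc (-(N : ℤ)) N \ Icc (-(τ : ℤ)) τ) fun t ht => by
    rw [mem_sdiff, mem_Icc, mem_Icc] at ht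
    have h3 : (τ : ℤ) + 1 ≤ |t| := by
      rcases le_total 0 t with h | h
      · rw [abs_of_nonneg h]; omega
      · rw [abs_of_nonpos h]; omega
    exact_mod_cast h3
  linarith

end Crest.Agent.R302.KapR
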