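import Mathlib

/-!
R302 (helper541): solvability of the Laplace equation on a finite connected weighted graph and
on a box of `κ → ℤ` (block M1 of helper142's route #7348).
-/

set_option autoImplicit false

namespace Crest.Agent.R302.Lap

open Finset

section Graph

variable {S : Type*} [Fintype S]

/-- weighted graph Laplacian -/
def lapl (c : S → S → ℝ) : (S → ℝ) →ₗ[ℝ] (S → ℝ) where
  toFun u := fun x => ∑ y, c x y * (u y - u x)
  map_add' u v := by
    ext x
    simp only [Pi.add_apply, ← Finset.sum_add_distrib]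
    exact Finset.sum_congr rfl fun y _ => by ring
  map_smul' t u := by
    ext x
    simp only [Pi.smul_apply, smul_eq_mul, RingHom.id_apply, Finset.mul_sum]
    exact Finset.sum_congr rfl fun y _ => by ring

theorem lapl_apply (c : S → S → ℝ) (u : S → ℝ) (x : S) :
    lapl c u x = ∑ y, c x y * (u y - u x) := rfl

theorem sum_mul_lapl {c : S → S → ℝ} (hc : ∀ x y, c x y = c y x) (u v : S → ℝ) :
    2 * ∑ x, v x * lapl c u x = - ∑ x, ∑ y, c x y * ((u y - u x) * (v y - v x)) := by
  have h1 : ∑ x, v x * lapl c u x = ∑ x, ∑ y, c x y * ((u y - u x) * v x) := by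
    refine Finset.sum_congr rfl fun x _ => ?_
    rw [lapl_apply, Finset.mul_sum]
    exact Finset.sum_congr rfl fun y _ => by ring
  have h2 : ∑ x, v x * lapl c u x = - ∑ x, ∑ y, c x y * ((u y - u x) * v y) := by
    rw [h1, Finset.sum_comm, ← Finset.sum_neg_distrib]
    refine Finset.sum_congr rfl fun x _ => ?_
    rw [← Finset.sum_neg_distrib]
    refine Finset.sum_congr rfl fun y _ => ?_
    rw [hc y x]; ring
  have h3 : 2 * ∑ x, v x * lapl c u x
      = (∑ x, ∑ y, c x y * ((u y - u x) * v x)) + (- ∑ x, ∑ y, c x y * ((u y - u x) * v y)) := by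
    rw [← h1, ← h2]; ring
  rw [h3, ← Finset.sum_neg_distrib, ← Finset.sum_neg_distrib, ← Finset.sum_add_distrib]
  refine Finset.sum_congr rfl fun x _ => ?_
  rw [← Finset.sum_neg_distrib, ← Finset.sum_neg_distrib, ← Finset.sum_add_distrib]
  exact Finset.sum_congr rfl fun y _ => by ring

theorem ker_const {c : S → S → ℝ} (hc : ∀ x y, c x y = c y x) (h0 : ∀ x y, 0 ≤ c x y)
    (hconn : ∀ x y, Relation.ReflTransGen (fun a b => 0 < c a b) x y)
    {u : S → ℝ} (hu : lapl c u = 0) (x y : S) : u x = u y := by
  have h := sum_mul_lapl hc u u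
  rw [hu] at h
  simp only [Pi.zero_apply, mul_zero, Finset.sum_const_zero] at h
  have hz : ∑ x, ∑ y, c x y * ((u y - u x) * (u y - u x)) = 0 := by linarith
  have hnn : ∀ a b, 0 ≤ c a b * ((u b - u a) * (u b - u a)) := fun a b =>
    mul_nonneg (h0 a b) (mul_self_nonneg _)
  have hz1 : ∀ a, ∑ y, c a y * ((u y - u a) * (u y - u a)) = 0 := by
    intro a
    exact (Finset.sum_eq_zero_iff_of_nonneg (fun a _ => Finset.sum_nonneg fun b _ => hnn a b)).1 hz a
      (Finset.mem_univ a)
  have hz2 : ∀ a b, c a b * ((u b - u a) * (u b - u a)) = 0 := by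
    intro a b
    exact (Finset.sum_eq_zero_iff_of_nonneg (fun b _ => hnn a b)).1 (hz1 a) b (Finset.mem_univ b)
  have hstep : ∀ a b, 0 < c a b → u a = u b := by
    intro a b hab
    have := hz2 a b
    rcases mul_eq_zero.1 this with h | h
    · exact absurd h hab.ne'
    · have := mul_self_eq_zero.1 h
      linarith
  induction hconn x y with
  | refl => rfl
  | tail _ hbc ih => exact ih.trans (hstep _ _ hbc)

/-- Laplace equation on a finite connected weighted graph. -/
theorem exists_sol {c : S → S → ℝ} (hc : ∀ x y, c x y = c y x) (h0 : ∀ x y, 0 ≤ c x y)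
    (hconn : ∀ x y, Relation.ReflTransGen (fun a b => 0 < c a b) x y)
    (q : S → ℝ) (hq : ∑ x, q x = 0) : ∃ u : S → ℝ, ∀ x, ∑ y, c x y * (u y - u x) = q x := by
  classical
  rcases isEmpty_or_nonempty S with hS | hS
  · exact ⟨fun _ => 0, fun x => (hS.false x).elim⟩
  let T : (S → ℝ) →ₗ[ℝ] ℝ :=
    { toFun := fun u => ∑ x, u x
      map_add' := fun u v => by simp [Finset.sum_add_distrib]
      map_smul' := fun t u => by simp [Finset.mul_sum] }
  have hT : ∀ u, T u = ∑ x, u x := fun _ => rfl
  have hle : LinearMap.range (lapl c) ≤ LinearMap.ker T := by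
    rintro _ ⟨u, rfl⟩
    rw [LinearMap.mem_ker, hT]
    have := sum_mul_lapl hc u (fun _ => 1)
    simp only [one_mul, sub_self, mul_zero, Finset.sum_const_zero, neg_zero] at this
    linarith
  have hker : LinearMap.ker (lapl c) ≤ Submodule.span ℝ {(fun _ => 1 : S → ℝ)} := by
    intro u hu
    rw [LinearMap.mem_ker] at hu
    obtain ⟨x0⟩ := hS
    rw [Submodule.mem_span_singleton]
    refine ⟨u x0, ?_⟩
    ext x
    simp [ker_const hc h0 hconn hu x x0]
  have hdk : Module.finrank ℝ (LinearMap.ker (lapl c)) ≤ 1 :=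
    (Submodule.finrank_mono hker).trans (by
      have := finrank_span_le_card (R := ℝ) ({(fun _ => 1 : S → ℝ)} : Set (S → ℝ))
      simpa using this)
  have h1 := LinearMap.finrank_range_add_finrank_ker (lapl c)
  have h2 := LinearMap.finrank_range_add_finrank_ker T
  have hTs : LinearMap.range T = ⊤ := by
    rw [LinearMap.range_eq_top]
    intro r
    obtain ⟨x0⟩ := hS
    refine ⟨Pi.single x0 r, ?_⟩
    rw [hT]
    simp
  rw [hTs] at h2
  have h3 : Module.finrank ℝ (⊤ : Submodule ℝ ℝ) = 1 := by simp
  rw [h3] at h2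
  have heq : LinearMap.range (lapl c) = LinearMap.ker T := by
    apply Submodule.eq_of_le_of_finrank_le hle
    omega
  have hqk : q ∈ LinearMap.ker T := by
    rw [LinearMap.mem_ker, hT]; exact hq
  rw [← heq] at hqk
  obtain ⟨u, hu⟩ := hqk
  exact ⟨u, fun x => by rw [← lapl_apply, hu]⟩

end Graph

section Box

variable {κ : Type*} [Fintype κ] [DecidableEq κ]

/-- unit vector -/
abbrev e (k : κ) : κ → ℤ := Pi.single k 1

/-- discrete gradient inside the box -/
noncomputable def J (lo hi : κ → ℤ) (u : (κ → ℤ) → ℝ) (k : κ) (x : κ → ℤ) : ℝ :=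
  open Classical in if x ∈ Set.Icc lo hi ∧ x + e k ∈ Set.Icc lo hi then u (x + e k) - u x else 0

/-- conductances of the box graph -/
noncomputable def cond (lo hi : κ → ℤ) (N : κ → (κ → ℤ) → ℝ) (x y : Finset.Icc lo hi) : ℝ :=
  open Classical in ∑ k, ((if y.1 = x.1 + e k then N k x.1 else 0)
    + (if x.1 = y.1 + e k then N k y.1 else 0))

theorem cond_comm (lo hi : κ → ℤ) (N : κ → (κ → ℤ) → ℝ) (x y : Finset.Icc lo hi) :
    cond lo hi N x y = cond lo hi N y x := by
  unfold cond
  exact Finset.sum_congr rfl fun k _ => add_comm _ _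

variable {lo hi : κ → ℤ} {N : κ → (κ → ℤ) → ℝ}

theorem cond_nonneg
    (hN : ∀ k x, x ∈ Set.Icc lo hi → x + e k ∈ Set.Icc lo hi → 0 < N k x)
    (x y : Finset.Icc lo hi) : 0 ≤ cond lo hi N x y := by
  unfold cond
  refine Finset.sum_nonneg fun k _ => add_nonneg ?_ ?_
  · split_ifs with h
    · exact (hN k x.1 (Finset.mem_Icc.1 x.2) (h ▸ Finset.mem_Icc.1 y.2)).le
    · exact le_rfl
  · split_ifs with h
    · exact (hN k y.1 (Finset.mem_Icc.1 y.2) (h ▸ Finset.mem_Icc.1 x.2)).le
    · exact le_rfl

theorem cond_pos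
    (hN : ∀ k x, x ∈ Set.Icc lo hi → x + e k ∈ Set.Icc lo hi → 0 < N k x)
    (x y : Finset.Icc lo hi) (k : κ) (h : y.1 = x.1 + e k) : 0 < cond lo hi N x y := by
  unfold cond
  have hnn : ∀ k, 0 ≤ (if y.1 = x.1 + e k then N k x.1 else 0)
    + (if x.1 = y.1 + e k then N k y.1 else 0) := by
    intro k
    refine add_nonneg ?_ ?_
    · split_ifs with h
      · exact (hN k x.1 (Finset.mem_Icc.1 x.2) (h ▸ Finset.mem_Icc.1 y.2)).le
      · exact le_rfl
    · split_ifs with h
      · exact (hN k y.1 (Finset.mem_Icc.1 y.2) (h ▸ Finset.mem_Icc.1 x.2)).le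
      · exact le_rfl
  refine Finset.sum_pos' (fun k _ => by classical exact_mod_cast hnn k) ⟨k, Finset.mem_univ _, ?_⟩
  have h1 : 0 < N k x.1 := hN k x.1 (Finset.mem_Icc.1 x.2) (h ▸ Finset.mem_Icc.1 y.2)
  rw [if_pos h]
  refine add_pos_of_pos_of_nonneg h1 ?_
  split_ifs with h'
  · exact (hN k y.1 (Finset.mem_Icc.1 y.2) (h' ▸ Finset.mem_Icc.1 x.2)).le
  · exact le_rfl

/-- the box is connected -/
theorem box_conn
    (hN : ∀ k x, x ∈ Set.Icc lo hi → x + e k ∈ Set.Icc lo hi → 0 < N k x)
    (x y : Finset.Icc lo hi) :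
    Relation.ReflTransGen (fun a b => 0 < cond lo hi N a b) x y := by
  classical
  -- induction on the l1 distance
  have key : ∀ (d : ℕ) (x y : Finset.Icc lo hi), (∑ k, (x.1 k - y.1 k).natAbs) = d →
      Relation.ReflTransGen (fun a b => 0 < cond lo hi N a b) x y := by
    intro d
    induction d with
    | zero =>
      intro x y h
      have hxy : x = y := by
        apply Subtype.ext
        funext k
        have := (Finset.sum_eq_zero_iff.1 h) k (Finset.mem_univ k)
        omega
      rw [hxy]
    | succ d ih =>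
      intro x y h
      have hne : ∃ k, x.1 k ≠ y.1 k := by
        by_contra hcon
        push Not at hcon
        have : ∑ k, (x.1 k - y.1 k).natAbs = 0 :=
          Finset.sum_eq_zero fun k _ => by rw [hcon k]; simp
        omega
      obtain ⟨k, hk⟩ := hne
      have hx := Finset.mem_Icc.1 x.2
      have hy := Finset.mem_Icc.1 y.2
      rcases lt_or_gt_of_ne hk with hlt | hgt
      · -- step up
        have hmem : x.1 + e k ∈ Finset.Icc lo hi := by
          rw [Finset.mem_Icc]
          constructor
          · intro j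
            have h1 : lo j ≤ x.1 j := hx.1 j
            show lo j ≤ x.1 j + (Pi.single k 1 : κ → ℤ) j
            rw [Pi.single_apply]; split_ifs <;> omega
          · intro j
            have h1 : x.1 j ≤ hi j := hx.2 j
            have h2 : y.1 k ≤ hi k := hy.2 k
            show x.1 j + (Pi.single k 1 : κ → ℤ) j ≤ hi j
            rw [Pi.single_apply]; split_ifs with hj
            · subst hj; omega
            · omega
        refine Relation.ReflTransGen.head (b := ⟨x.1 + e k, hmem⟩) ?_ (ih _ _ ?_)
        · exact cond_pos hN x ⟨x.1 + e k, hmem⟩ k rfl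
        · have hs : ∀ j, (((x.1 + e k) j - y.1 j).natAbs : ℕ) + (if j = k then 1 else 0)
              = (x.1 j - y.1 j).natAbs := by
            intro j
            show (x.1 j + (Pi.single k 1 : κ → ℤ) j - y.1 j).natAbs + (if j = k then 1 else 0)
              = (x.1 j - y.1 j).natAbs
            rw [Pi.single_apply]; split_ifs with hj
            · subst hj; omega
            · omega
          have := Finset.sum_congr rfl (fun j (_ : j ∈ Finset.univ) => hs j)
          rw [Finset.sum_add_distrib] at this
          simp only [Finset.sum_ite_eq', Finset.mem_univ, if_true] at this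
          show (∑ j, ((x.1 + e k) j - y.1 j).natAbs) = d
          omega
      · -- step down
        have hmem : x.1 - e k ∈ Finset.Icc lo hi := by
          rw [Finset.mem_Icc]
          constructor
          · intro j
            have h1 : lo j ≤ x.1 j := hx.1 j
            have h2 : lo k ≤ y.1 k := hy.1 k
            show lo j ≤ x.1 j - (Pi.single k 1 : κ → ℤ) j
            rw [Pi.single_apply]; split_ifs with hj
            · subst hj; omega
            · omega
          · intro j
            have h1 : x.1 j ≤ hi j := hx.2 j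
            show x.1 j - (Pi.single k 1 : κ → ℤ) j ≤ hi j
            rw [Pi.single_apply]; split_ifs <;> omega
        refine Relation.ReflTransGen.head (b := ⟨x.1 - e k, hmem⟩) ?_ (ih _ _ ?_)
        · have := cond_pos hN ⟨x.1 - e k, hmem⟩ x k (by simp)
          rwa [cond_comm] at this
        · have hs : ∀ j, (((x.1 - e k) j - y.1 j).natAbs : ℕ) + (if j = k then 1 else 0)
              = (x.1 j - y.1 j).natAbs := by
            intro j
            show (x.1 j - (Pi.single k 1 : κ → ℤ) j - y.1 j).natAbs + (if j = k then 1 else 0)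
              = (x.1 j - y.1 j).natAbs
            rw [Pi.single_apply]; split_ifs with hj
            · subst hj; omega
            · omega
          have := Finset.sum_congr rfl (fun j (_ : j ∈ Finset.univ) => hs j)
          rw [Finset.sum_add_distrib] at this
          simp only [Finset.sum_ite_eq', Finset.mem_univ, if_true] at this
          show (∑ j, ((x.1 - e k) j - y.1 j).natAbs) = d
          omega
  exact key _ x y rfl

/-- M1: Laplace equation on a box. -/
theorem exists_potential
    (hN : ∀ k x, x ∈ Set.Icc lo hi → x + e k ∈ Set.Icc lo hi → 0 < N k x)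
    (q : (κ → ℤ) → ℝ) (hq : ∑ x ∈ Finset.Icc lo hi, q x = 0) :
    ∃ u : (κ → ℤ) → ℝ, ∀ x ∈ Finset.Icc lo hi,
      q x + ∑ k, (N k x * J lo hi u k x - N k (x - e k) * J lo hi u k (x - e k)) = 0 := by
  classical
  have hq' : ∑ x : Finset.Icc lo hi, (- q x.1) = 0 := by
    rw [Finset.sum_neg_distrib, Finset.sum_coe_sort (Finset.Icc lo hi) q, hq, neg_zero]
  obtain ⟨u, hu⟩ := exists_sol (c := cond lo hi N) (cond_comm lo hi N) (cond_nonneg hN)
    (box_conn hN) (fun x => - q x.1) hq'
  let U : (κ → ℤ) → ℝ := fun x => if h : x ∈ Finset.Icc lo hi then u ⟨x, h⟩ else 0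
  have hU : ∀ x : Finset.Icc lo hi, U x.1 = u x := fun x => by
    simp only [U, dif_pos x.2]
  refine ⟨U, fun x hx => ?_⟩
  have h := hu ⟨x, hx⟩
  have hsum : ∑ y, cond lo hi N ⟨x, hx⟩ y * (u y - u ⟨x, hx⟩)
      = ∑ k, (N k x * J lo hi U k x - N k (x - e k) * J lo hi U k (x - e k)) := by
    unfold cond
    simp only [Finset.sum_mul]
    rw [Finset.sum_comm]
    refine Finset.sum_congr rfl fun k _ => ?_
    simp only [add_mul, ite_mul, zero_mul]
    rw [Finset.sum_add_distrib]
    have hA : ∑ y : Finset.Icc lo hi, (if y.1 = x + e k then N k x * (u y - u ⟨x, hx⟩) else 0)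
        = N k x * J lo hi U k x := by
      by_cases hm : x + e k ∈ Finset.Icc lo hi
      · rw [Finset.sum_eq_single (⟨x + e k, hm⟩ : Finset.Icc lo hi)]
        · rw [if_pos rfl]
          unfold J
          rw [if_pos ⟨Finset.mem_Icc.1 hx, Finset.mem_Icc.1 hm⟩]
          have h1 := hU ⟨x + e k, hm⟩
          have h2 := hU ⟨x, hx⟩
          simp only at h1 h2
          rw [h1, h2]
        · intro y _ hy
          rw [if_neg]
          intro hc
          exact hy (Subtype.ext hc)
        · intro hc; exact absurd (Finset.mem_univ _) hc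
      · unfold J
        rw [if_neg (fun hc => hm (Finset.mem_Icc.2 hc.2)), mul_zero]
        refine Finset.sum_eq_zero fun y _ => ?_
        rw [if_neg]
        intro hc
        exact hm (hc ▸ y.2)
    have hB : ∑ y : Finset.Icc lo hi, (if x = y.1 + e k then N k y.1 * (u y - u ⟨x, hx⟩) else 0)
        = - (N k (x - e k) * J lo hi U k (x - e k)) := by
      by_cases hm : x - e k ∈ Finset.Icc lo hi
      · rw [Finset.sum_eq_single (⟨x - e k, hm⟩ : Finset.Icc lo hi)]
        · rw [if_pos (by simp)]
          unfold J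
          rw [if_pos ⟨Finset.mem_Icc.1 hm, by rw [sub_add_cancel]; exact Finset.mem_Icc.1 hx⟩]
          have h1 := hU ⟨x - e k, hm⟩
          have h2 := hU ⟨x, hx⟩
          simp only at h1 h2
          rw [sub_add_cancel, h1, h2]
          ring
        · intro y _ hy
          rw [if_neg]
          intro hc
          apply hy
          apply Subtype.ext
          show y.1 = x - e k
          exact eq_sub_of_add_eq hc.symm
        · intro hc; exact absurd (Finset.mem_univ _) hc
      · unfold J
        rw [if_neg (fun hc => hm (Finset.mem_Icc.2 hc.1)), mul_zero, neg_zero]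
        refine Finset.sum_eq_zero fun y _ => ?_
        rw [if_neg]
        intro hc
        apply hm
        have : x - e k = y.1 := by rw [hc]; simp
        rw [this]; exact y.2
    rw [hA, hB]
    ring
  rw [hsum] at h
  rw [h]
  ring

end Box

end Crest.Agent.R302.Lap
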