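import Crest.Agent.R302.MSP893A
import Crest.Agent.R302.Base151

/-!
R302 (helper342): LINK lemma, part A.

Poincaré inequality for the unit exchange walk of a weight `c : (V → ℤ) → ℝ` on a hyperplane
satisfying `AF` at every point, restricted to a box `[x, x+m]^L` of contents (the content of `b0` is
determined by the others).  No smoothness and no comparability of neighbouring weights is needed.
-/

set_option autoImplicit false
set_option linter.unusedSectionVars false

namespace Crest.Agent.R302.Link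

open Finset Lor T893

variable {V : Type*} [Fintype V] [DecidableEq V]

/-! ### monotonicity of `en` along an invariant -/

theorem en_mono_inv {E : Type*} [DecidableEq E] {m : ℕ} {Y X : E → V} {F : (E → ℤ) → V → ℝ}
    (I : List E → (E → ℤ) → (V → ℝ) → Prop)
    (hI : ∀ k cs x v, I (k :: cs) x v → ∀ s, s ≤ m →
      I cs (x + Pi.single k (s : ℤ)) (nxt m Y X F cs k x v s))
    {Φ Φ' : (E → ℤ) → (V → ℝ) → ℝ} (h : ∀ y v, I [] y v → Φ y v ≤ Φ' y v) :
    ∀ {cs : List E} {x : E → ℤ} {v : V → ℝ}, I cs x v →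
      en m Y X F Φ cs x v ≤ en m Y X F Φ' cs x v := by
  intro cs
  induction cs with
  | nil => intro x v hv; exact h x v hv
  | cons k cs ih =>
    intro x v hv
    rw [en_cons, en_cons]
    refine Finset.sum_le_sum fun s hs => ?_
    exact ih (hI k cs x v hv s (Nat.lt_succ_iff.1 (Finset.mem_range.1 hs)))

/-! ### the system -/

/-- the load of the contents `y` -/
def Pt (b0 : V) (β y : V → ℤ) : V → ℤ := β + y - (∑ v, y v) • ev b0

theorem sum_single (k : V) (s : ℤ) : ∑ v, (Pi.single k s : V → ℤ) v = s := by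
  simp

theorem Pt_single (b0 : V) (β y : V → ℤ) (k : V) (s : ℤ) :
    Pt b0 β (y + Pi.single k s) = Pt b0 β y + s • (ev k - ev b0) := by
  unfold Pt
  have h1 : ∑ v, (y + Pi.single k s : V → ℤ) v = ∑ v, y v + s := by
    simp [Finset.sum_add_distrib]
  rw [h1]
  have h2 : (Pi.single k s : V → ℤ) = s • ev k := by
    funext v
    simp only [ev, Pi.smul_apply, smul_eq_mul]
    by_cases hv : v = k
    · subst hv; simp
    · simp [Pi.single_apply, hv]
  rw [h2, smul_sub, add_smul]
  abel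

theorem Pt_one (b0 : V) (β y : V → ℤ) (k : V) :
    Pt b0 β (y + Pi.single k 1) = Pt b0 β y + ev k - ev b0 := by
  rw [Pt_single, one_smul]; abel

theorem Pt_sum (b0 : V) (β y : V → ℤ) : ∑ v, Pt b0 β y v = ∑ v, β v := by
  unfold Pt
  simp only [Pi.sub_apply, Pi.add_apply, Finset.sum_sub_distrib, Finset.sum_add_distrib,
    Pi.smul_apply, smul_eq_mul, ← Finset.mul_sum, sum_ev]
  ring

/-- one-token weight -/
def Fk (c : (V → ℤ) → ℝ) (b0 : V) (β : V → ℤ) (y : V → ℤ) (p : V) : ℝ :=
  c (Pt b0 β y - ev b0 + ev p)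

theorem Fk_b0 (c : (V → ℤ) → ℝ) (b0 : V) (β y : V → ℤ) : Fk c b0 β y b0 = c (Pt b0 β y) := by
  unfold Fk; congr 1; abel

theorem Fk_inv (c : (V → ℤ) → ℝ) (b0 : V) (β y : V → ℤ) (k : V) :
    Fk c b0 β y k = Fk c b0 β (y + Pi.single k 1) b0 := by
  rw [Fk_b0, Pt_one]; unfold Fk; congr 1; abel

/-- local exchange energy at the content `y` -/
noncomputable def Jl (c h : (V → ℤ) → ℝ) (b0 : V) (β y : V → ℤ) : ℝ :=
  ∑ p, ∑ q, min (Fk c b0 β y p) (Fk c b0 β y q) *
    (h (Pt b0 β y - ev b0 + ev p) - h (Pt b0 β y - ev b0 + ev q)) ^ 2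

theorem Jl_nonneg {c h : (V → ℤ) → ℝ} (hc : ∀ γ, 0 ≤ c γ) (b0 : V) (β y : V → ℤ) :
    0 ≤ Jl c h b0 β y :=
  Finset.sum_nonneg fun _ _ => Finset.sum_nonneg fun _ _ =>
    mul_nonneg (le_min (hc _) (hc _)) (sq_nonneg _)

/-! ### the concave weight -/

/-- concave parabola on `[τ, τ+M+2]`, zero outside -/
noncomputable def om (M : ℕ) (τ t : ℤ) : ℝ :=
  if τ ≤ t ∧ t ≤ τ + M + 2 then ((t : ℝ) - τ) * (τ + M + 2 - t) / 2 else 0

theorem om_nonneg (M : ℕ) (τ t : ℤ) : 0 ≤ om M τ t := by
  unfold om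
  split_ifs with h
  · have h1 : (0 : ℝ) ≤ (t : ℝ) - τ := by
      have : (τ : ℝ) ≤ t := by exact_mod_cast h.1
      linarith
    have h2 : (0 : ℝ) ≤ (τ : ℝ) + M + 2 - t := by
      have : (t : ℝ) ≤ (τ : ℝ) + M + 2 := by exact_mod_cast h.2
      linarith
    positivity
  · exact le_rfl

theorem om_le (M : ℕ) (τ t : ℤ) : om M τ t ≤ ((M : ℝ) + 2) ^ 2 / 2 := by
  unfold om
  split_ifs with h
  · have h1 : (0 : ℝ) ≤ (t : ℝ) - τ := by
      have : (τ : ℝ) ≤ t := by exact_mod_cast h.1
      linarith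
    have h2 : (0 : ℝ) ≤ (τ : ℝ) + M + 2 - t := by
      have : (t : ℝ) ≤ (τ : ℝ) + M + 2 := by exact_mod_cast h.2
      linarith
    have h3 : (t : ℝ) - τ ≤ M + 2 := by linarith
    have h4 : (τ : ℝ) + M + 2 - t ≤ M + 2 := by linarith
    have : ((t : ℝ) - τ) * (τ + M + 2 - t) ≤ (M + 2) * (M + 2) :=
      mul_le_mul h3 h4 h2 (by positivity)
    nlinarith
  · positivity

theorem om_zero (M : ℕ) (τ : ℤ) : om M τ τ = 0 := by
  unfold om
  split_ifs <;> simp

theorem om_diff (M : ℕ) (τ t : ℤ) (h1 : τ ≤ t) (h2 : t ≤ τ + M) :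
    om M τ t - 2 * om M τ (t + 1) + om M τ (t + 2) = -1 := by
  unfold om
  rw [if_pos ⟨h1, by omega⟩, if_pos ⟨by omega, by omega⟩, if_pos ⟨by omega, by omega⟩]
  push_cast
  ring

/-! ### pointwise inequality at a leaf -/

/-- two-token functional -/
noncomputable def Gk (c : (V → ℤ) → ℝ) (b0 : V) (β : V → ℤ) (p : V) (ω : ℤ → ℝ) (y : V → ℤ)
    (q q' : V) : ℝ :=
  ω ((Pt b0 β y - ev b0 + ev q + ev q') p) * c (Pt b0 β y - ev b0 - ev p + ev q + ev q')

theorem Gk_symm (c : (V → ℤ) → ℝ) (b0 : V) (β : V → ℤ) (p : V) (ω : ℤ → ℝ) (y : V → ℤ)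
    (q q' : V) : Gk c b0 β p ω y q q' = Gk c b0 β p ω y q' q := by
  unfold Gk
  rw [add_right_comm _ (ev q) (ev q'), add_right_comm _ (ev q) (ev q')]

theorem Gk_inv (c : (V → ℤ) → ℝ) (b0 : V) (β : V → ℤ) (p : V) (ω : ℤ → ℝ) (y : V → ℤ)
    (k q : V) : Gk c b0 β p ω y k q = Gk c b0 β p ω (y + Pi.single k 1) b0 q := by
  unfold Gk
  rw [Pt_one]
  congr 2
  · congr 1; abel
  · abel

theorem ev_apply' (p q : V) : (ev q : V → ℤ) p = if p = q then 1 else 0 := by
  simp [ev, Pi.single_apply]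

theorem leaf_form (c : (V → ℤ) → ℝ) (b0 : V) (β : V → ℤ) (p : V) (ω : ℤ → ℝ) (y : V → ℤ)
    (v : V → ℝ) (hbal : ∑ q, v q * Fk c b0 β y q = 0) :
    Q (fun q q' => Gk c b0 β p ω y q q') v v =
      ω ((Pt b0 β y - ev b0) p) *
        Q (fun q q' => c ((Pt b0 β y - ev b0 - ev p) + ev q + ev q')) v v +
      (ω ((Pt b0 β y - ev b0) p) - 2 * ω ((Pt b0 β y - ev b0) p + 1)
        + ω ((Pt b0 β y - ev b0) p + 2)) * (v p ^ 2 * Fk c b0 β y p) := by
  set t := (Pt b0 β y - ev b0) p with ht
  set A : V → V → ℝ := fun q q' => c ((Pt b0 β y - ev b0 - ev p) + ev q + ev q') with hA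
  have hGA : ∀ q q', Gk c b0 β p ω y q q' =
      (ω t + (if p = q then (ω (t + 1) - ω t) else 0) + (if p = q' then (ω (t + 1) - ω t) else 0)
        + (if p = q then (if p = q' then (ω t - 2 * ω (t + 1) + ω (t + 2)) else 0) else 0))
        * A q q' := by
    intro q q'
    unfold Gk
    have e : (Pt b0 β y - ev b0 + ev q + ev q') p =
        t + (if p = q then 1 else 0) + (if p = q' then 1 else 0) := by
      rw [ht]
      simp only [Pi.add_apply, Pi.sub_apply, ev_apply']
    rw [e]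
    by_cases h1 : p = q
    · by_cases h2 : p = q'
      · simp only [h1, h2, if_true]
        have : p = q := h1
        subst h1
        subst h2
        simp only [if_true]
        rw [show t + 1 + 1 = t + 2 by ring]
        ring
      · simp only [h1, if_true]
        subst h1
        simp only [if_neg h2, if_true]
        rw [add_zero]
        ring
    · by_cases h2 : p = q'
      · subst h2
        simp only [if_neg h1, if_true]
        rw [add_zero]
        ring
      · simp only [if_neg h1, if_neg h2, add_zero]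
        rfl
  have hrow : ∑ q, v q * A q p = 0 := by
    rw [← hbal]
    refine Finset.sum_congr rfl fun q _ => ?_
    rw [hA]
    unfold Fk
    congr 2
    abel
  have hAs : ∀ q q', A q q' = A q' q := by
    intro q q'
    rw [hA]
    show c _ = c _
    congr 1
    abel
  have hrow' : ∑ q, v q * A p q = 0 := by
    rw [← hrow]
    exact Finset.sum_congr rfl fun q _ => by rw [hAs]
  have hpp : A p p = Fk c b0 β y p := by
    rw [hA]
    unfold Fk
    show c _ = c _
    congr 1
    abel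
  unfold Q
  have e1 : ∀ q q', v q * v q' * Gk c b0 β p ω y q q' =
      ω t * (v q * v q' * A q q')
      + (if p = q then (ω (t + 1) - ω t) * (v q * (v q' * A q q')) else 0)
      + (if p = q' then (ω (t + 1) - ω t) * (v q' * (v q * A q q')) else 0)
      + (if p = q then (if p = q' then (ω t - 2 * ω (t + 1) + ω (t + 2)) *
          (v q * v q' * A q q') else 0) else 0) := by
    intro q q'
    rw [hGA]
    split_ifs <;> ring
  simp only [e1, Finset.sum_add_distrib, ← Finset.mul_sum]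
  have e2 : ∑ q, ∑ q', (if p = q then (ω (t + 1) - ω t) * (v q * (v q' * A q q')) else 0) = 0 := by
    rw [Finset.sum_comm]
    have : ∀ q', ∑ q, (if p = q then (ω (t + 1) - ω t) * (v q * (v q' * A q q')) else 0) =
        (ω (t + 1) - ω t) * v p * (v q' * A p q') := by
      intro q'
      rw [Finset.sum_ite_eq]
      simp only [Finset.mem_univ, if_true]
      ring
    simp only [this, ← Finset.mul_sum, hrow', mul_zero]
  have e3 : ∑ q, ∑ q', (if p = q' then (ω (t + 1) - ω t) * (v q' * (v q * A q q')) else 0) = 0 := by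
    have : ∀ q, ∑ q', (if p = q' then (ω (t + 1) - ω t) * (v q' * (v q * A q q')) else 0) =
        (ω (t + 1) - ω t) * v p * (v q * A q p) := by
      intro q
      rw [Finset.sum_ite_eq]
      simp only [Finset.mem_univ, if_true]
      ring
    simp only [this, ← Finset.mul_sum, hrow, mul_zero]
  have e4 : ∑ q, ∑ q', (if p = q then (if p = q' then (ω t - 2 * ω (t + 1) + ω (t + 2)) *
          (v q * v q' * A q q') else 0) else 0) =
      (ω t - 2 * ω (t + 1) + ω (t + 2)) * (v p ^ 2 * A p p) := by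
    rw [Finset.sum_eq_single p]
    · rw [Finset.sum_eq_single p]
      · simp only [if_true]; ring
      · intro b _ hb
        simp [Ne.symm hb]
      · intro h; exact absurd (Finset.mem_univ _) h
    · intro b _ hb
      simp [Ne.symm hb]
    · intro h; exact absurd (Finset.mem_univ _) h
  rw [e2, e3, e4, hpp]
  simp only [add_zero]

theorem leaf_ineq {c : (V → ℤ) → ℝ} (hAF : ∀ γ, AF (fun u v => c (γ + ev u + ev v)))
    (b0 : V) (β : V → ℤ) (p : V) (M : ℕ) (τ : ℤ) (y : V → ℤ) (v : V → ℝ)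
    (hpos : 0 < Fk c b0 β y p)
    (hbal : ∑ q, v q * Fk c b0 β y q = 0)
    (h1 : τ ≤ (Pt b0 β y - ev b0) p) (h2 : (Pt b0 β y - ev b0) p ≤ τ + M) :
    v p ^ 2 * Fk c b0 β y p ≤ - Q (fun q q' => Gk c b0 β p (om M τ) y q q') v v := by
  rw [leaf_form c b0 β p (om M τ) y v hbal, om_diff M τ _ h1 h2]
  set A : V → V → ℝ := fun q q' => c ((Pt b0 β y - ev b0 - ev p) + ev q + ev q') with hA
  have hneg : Q A v v ≤ 0 := by
    have hpp : Q A (Pi.single p 1) (Pi.single p 1) = Fk c b0 β y p := by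
      rw [Q_single_left, row_single, hA]
      unfold Fk
      show c _ = c _
      congr 1
      abel
    have hz : Q A v (Pi.single p 1) = 0 := by
      rw [Q_eq_row]
      rw [← hbal]
      refine Finset.sum_congr rfl fun q _ => ?_
      rw [row_single, hA]
      unfold Fk
      congr 2
      abel
    have := hAF (Pt b0 β y - ev b0 - ev p) v (Pi.single p 1) (by rw [hpp]; exact hpos.le)
    change Q A v v * Q A (Pi.single p 1) (Pi.single p 1) ≤ Q A v (Pi.single p 1) ^ 2 at this
    rw [hz, hpp] at this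
    by_contra hcon
    rw [not_le] at hcon
    have := mul_pos hcon hpos
    nlinarith
  have h0 := om_nonneg M τ ((Pt b0 β y - ev b0) p)
  nlinarith [mul_nonneg h0 (neg_nonneg.2 hneg)]

/-! ### invariant of the flow -/

/-- invariant: remaining cells are distinct and at their start value, contents are in the windows,
velocities are supported on `S0`, balance -/
def Inv (c : (V → ℤ) → ℝ) (b0 : V) (β : V → ℤ) (m : ℕ) (S0 : Finset V) (x0 : V → ℤ)
    (cs0 : List V) (cs : List V) (x : V → ℤ) (v : V → ℝ) : Prop :=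
  cs.Nodup ∧ (∀ k ∈ cs, k ∈ cs0 ∧ x k = x0 k) ∧ (∀ k, x0 k ≤ x k ∧ x k ≤ x0 k + m) ∧
    (∀ k, k ∉ cs0 → x k = x0 k) ∧ (∀ p, p ∉ S0 → v p = 0) ∧
    Bal m (Fk c b0 β) cs x v

variable {c : (V → ℤ) → ℝ} {b0 : V} {β : V → ℤ} {m : ℕ}

theorem Inv_step {S0 : Finset V} {x0 : V → ℤ} {cs0 : List V}
    (hpos : ∀ y, 0 < Fk c b0 β y b0) (hb0 : b0 ∈ S0) (hcs0 : ∀ k ∈ cs0, k ∈ S0)
    (k : V) (cs : List V) (x : V → ℤ) (v : V → ℝ)
    (h : Inv c b0 β m S0 x0 cs0 (k :: cs) x v) (s : ℕ) (hs : s ≤ m) :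
    Inv c b0 β m S0 x0 cs0 cs (x + Pi.single k (s : ℤ))
      (nxt m (fun _ => b0) (fun k => k) (Fk c b0 β) cs k x v s) := by
  obtain ⟨h1, h2, h3, h4, h5, h6⟩ := h
  have hk := h2 k List.mem_cons_self
  rw [List.nodup_cons] at h1
  refine ⟨h1.2, ?_, ?_, ?_, ?_, ?_⟩
  · intro j hj
    have hjk : j ≠ k := fun e => h1.1 (e ▸ hj)
    refine ⟨(h2 j (List.mem_cons_of_mem _ hj)).1, ?_⟩
    simp only [Pi.add_apply, Pi.single_apply, hjk, if_false, add_zero]
    exact (h2 j (List.mem_cons_of_mem _ hj)).2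
  · intro j
    by_cases hjk : j = k
    · subst hjk
      simp only [Pi.add_apply, Pi.single_eq_same]
      rw [hk.2]
      constructor
      · linarith [Int.natCast_nonneg s]
      · have : (s : ℤ) ≤ m := by exact_mod_cast hs
        linarith
    · simp only [Pi.add_apply, Pi.single_apply, hjk, if_false, add_zero]
      exact h3 j
  · intro j hj
    have hjk : j ≠ k := fun e => hj (e ▸ hk.1)
    simp only [Pi.add_apply, Pi.single_apply, hjk, if_false, add_zero]
    exact h4 j hj
  · intro p hp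
    have hpk : p ≠ k := fun e => hp (e ▸ hcs0 k hk.1)
    have hpb : p ≠ b0 := fun e => hp (e ▸ hb0)
    unfold nxt
    simp [hpk, hpb, h5 p hp]
  · exact bal_nxt (Y := fun _ => b0) (X := fun k => k) (fun y => hpos y)
      (fun y => Fk_inv c b0 β y k) s

/-! ### energy of one token -/

/-- energy of the token `p` -/
theorem token_energy (hc0 : ∀ γ, 0 ≤ c γ)
    (hAF : ∀ γ, AF (fun u v => c (γ + ev u + ev v)))
    (hpos : ∀ y p, 0 < Fk c b0 β y p)
    {S0 : Finset V} {x0 : V → ℤ} {cs : List V} (hb0 : b0 ∈ S0) (hcs0 : ∀ k ∈ cs, k ∈ S0)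
    {v : V → ℝ} (hI : Inv c b0 β m S0 x0 cs cs x0 v) (p : V) (M : ℕ) (τ : ℤ)
    (hτ : ∀ y : V → ℤ, (∀ k, x0 k ≤ y k ∧ y k ≤ x0 k + m) → (∀ k, k ∉ cs → y k = x0 k) →
      τ ≤ (Pt b0 β y - ev b0) p ∧ (Pt b0 β y - ev b0) p ≤ τ + M) :
    en m (fun _ => b0) (fun k => k) (Fk c b0 β)
      (fun y v => v p ^ 2 * Fk c b0 β y p) cs x0 v ≤
      - Q (fun q q' => csum m (fun y => Gk c b0 β p (om M τ) y q q') cs x0) v v := by
  have hbal : Bal m (Fk c b0 β) cs x0 v := hI.2.2.2.2.2
  have h1 : en m (fun _ => b0) (fun k => k) (Fk c b0 β)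
      (fun y v => v p ^ 2 * Fk c b0 β y p) cs x0 v ≤
      en m (fun _ => b0) (fun k => k) (Fk c b0 β)
      (fun y v => - 1 * Q (fun q q' => Gk c b0 β p (om M τ) y q q') v v) cs x0 v := by
    refine en_mono_inv (Inv c b0 β m S0 x0 cs)
      (fun k cs' x v h s hs => Inv_step (fun y => hpos y b0) hb0 hcs0 k cs' x v h s hs)
      ?_ hI
    intro y v hy
    obtain ⟨-, -, h3, h4, -, h6⟩ := hy
    have hb : ∑ q, v q * Fk c b0 β y q = 0 := h6
    have := leaf_ineq hAF b0 β p M τ y v (hpos y p) hb (hτ y h3 h4).1 (hτ y h3 h4).2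
    linarith
  refine h1.trans ?_
  rw [en_smul]
  have h2 := en_quad (m := m) (Y := fun _ => b0) (X := fun k => k) (F := Fk c b0 β)
    (G := Gk c b0 β p (om M τ)) (cs := cs) (x := x0) (v := v)
    (fun k _ y => hpos y b0) (fun k _ y => Fk_inv c b0 β y k)
    (fun y q q' => mul_nonneg (om_nonneg _ _ _) (hc0 _))
    (fun y q q' => Gk_symm c b0 β p _ y q q')
    (fun k _ y q => Gk_inv c b0 β p _ y k q) hbal
  linarith

/-! ### root term -/

theorem Q_root {A : V → V → ℝ} (hA : ∀ a b, A a b = A b a) (i b0 : V) (α γ : ℝ) :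
    Q A (fun p => (if p = b0 then α else 0) - (if p = i then γ else 0))
      (fun p => (if p = b0 then α else 0) - (if p = i then γ else 0)) =
      α ^ 2 * A b0 b0 - 2 * α * γ * A b0 i + γ ^ 2 * A i i := by
  unfold Q
  simp only [sub_mul, mul_sub, ite_mul, zero_mul, mul_ite, mul_zero, Finset.sum_sub_distrib,
    Finset.sum_ite_eq', Finset.sum_ite_eq, Finset.mem_univ, if_true]
  rw [hA i b0]
  ring

theorem csum_nonpos_of_fix {m : ℕ} {G : (V → ℤ) → ℝ} {k : V} {t : ℤ}
    (hG : ∀ y : V → ℤ, y k = t → G y ≤ 0) :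
    ∀ {cs : List V} {x : V → ℤ}, k ∉ cs → x k = t → csum m G cs x ≤ 0 := by
  intro cs
  induction cs with
  | nil => intro x _ hx; exact hG x hx
  | cons j cs ih =>
    intro x hk hx
    rw [csum_cons]
    refine Finset.sum_nonpos fun s _ => ih (fun h => hk (List.mem_cons_of_mem _ h)) ?_
    have : k ≠ j := fun e => hk (e ▸ List.mem_cons_self)
    simp [Pi.single_apply, this, hx]

theorem csum_shift_le {m : ℕ} {G G' : (V → ℤ) → ℝ} {k : V} {t : ℤ}
    (hG : ∀ y : V → ℤ, y k = t → G y ≤ 0) (hG' : ∀ y, 0 ≤ G' y)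
    (hGG : ∀ y : V → ℤ, G (y + Pi.single k 1) ≤ G' y) :
    ∀ {cs : List V} {x : V → ℤ}, cs.Nodup → k ∈ cs → x k = t →
      csum m G cs x ≤ csum m G' cs x := by
  intro cs
  induction cs with
  | nil => intro x _ hk; simp at hk
  | cons j cs ih =>
    intro x hnd hk hx
    rw [List.nodup_cons] at hnd
    by_cases hjk : k = j
    · subst hjk
      rw [csum_cons, csum_cons, Finset.sum_range_succ' _ m]
      have h0 : csum m G cs (x + Pi.single k ((0 : ℕ) : ℤ)) ≤ 0 :=
        csum_nonpos_of_fix hG hnd.1 (by simpa using hx)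
      have h1 : ∑ s ∈ range m, csum m G cs (x + Pi.single k ((s + 1 : ℕ) : ℤ)) ≤
          ∑ s ∈ range m, csum m G' cs (x + Pi.single k (s : ℤ)) := by
        refine Finset.sum_le_sum fun s _ => ?_
        rw [single_succ, ← add_assoc, ← csum_shift]
        exact csum_mono hGG _ _
      have h2 : ∑ s ∈ range m, csum m G' cs (x + Pi.single k (s : ℤ)) ≤
          ∑ s ∈ range (m + 1), csum m G' cs (x + Pi.single k (s : ℤ)) := by
        refine Finset.sum_le_sum_of_subset_of_nonneg ?_ fun s _ _ => csum_nonneg hG' _ _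
        exact Finset.range_subset_range.2 (Nat.le_succ m)
      linarith
    · rw [csum_cons, csum_cons]
      refine Finset.sum_le_sum fun s _ => ih hnd.2 ?_ ?_
      · rcases List.mem_cons.1 hk with h | h
        · exact absurd h hjk
        · exact h
      · simp [Pi.single_apply, hjk, hx]

theorem Pt_apply_ne (b0 : V) (β y : V → ℤ) {k : V} (hk : k ≠ b0) : Pt b0 β y k = β k + y k := by
  unfold Pt
  simp [ev_apply', hk]

theorem Pt_apply_b0 (b0 : V) (β y : V → ℤ) :
    Pt b0 β y b0 = β b0 + y b0 - ∑ v, y v := by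
  unfold Pt
  simp [ev_apply']

/-- partition function of the class `x` -/
noncomputable def Zc (c : (V → ℤ) → ℝ) (b0 : V) (β : V → ℤ) (m : ℕ) (cs : List V) (x : V → ℤ) : ℝ :=
  csum m (fun y => c (Pt b0 β y)) cs x

theorem csum_Fk_b0 (cs : List V) (x : V → ℤ) :
    csum m (fun y => Fk c b0 β y b0) cs x = Zc c b0 β m cs x := by
  unfold Zc
  exact csum_congr (fun y => Fk_b0 c b0 β y) cs x

theorem csum_Fk_i (i : V) (cs : List V) (x : V → ℤ) :
    csum m (fun y => Fk c b0 β y i) cs x = Zc c b0 β m cs (x + Pi.single i 1) := by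
  unfold Zc
  rw [← csum_shift]
  exact csum_congr (fun y => by rw [Fk_inv, Fk_b0]) cs x

theorem root_bound (hc0 : ∀ γ, 0 ≤ c γ) {i : V} {cs : List V} (hnd : cs.Nodup)
    (hi : i ∉ cs) (hib : i ≠ b0) (hb : b0 ∉ cs) {x0 : V → ℤ} {p : V}
    (hp : p = b0 ∨ p = i ∨ p ∈ cs) (M : ℕ) (τ : ℤ) (hτ : p ∈ cs → τ = β p + x0 p) :
    csum m (fun y => Gk c b0 β p (om M τ) y b0 i) cs x0 ≤
      ((M : ℝ) + 2) ^ 2 / 2 * max (Zc c b0 β m cs x0) (Zc c b0 β m cs (x0 + Pi.single i 1)) := by
  have hW : (0 : ℝ) ≤ ((M : ℝ) + 2) ^ 2 / 2 := by positivity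
  rcases hp with rfl | rfl | hp
  · refine le_trans (b := ((M : ℝ) + 2) ^ 2 / 2 * Zc c p β m cs (x0 + Pi.single i 1)) ?_
      (mul_le_mul_of_nonneg_left (le_max_right _ _) hW)
    rw [← csum_Fk_i, ← csum_smul]
    refine csum_mono (fun y => ?_) _ _
    unfold Gk
    have e : Pt p β y - ev p - ev p + ev p + ev i = Pt p β y - ev p + ev i := by abel
    rw [e]
    exact mul_le_mul_of_nonneg_right (om_le _ _ _) (hc0 _)
  · refine le_trans (b := ((M : ℝ) + 2) ^ 2 / 2 * Zc c b0 β m cs x0) ?_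
      (mul_le_mul_of_nonneg_left (le_max_left _ _) hW)
    rw [← csum_Fk_b0, ← csum_smul]
    refine csum_mono (fun y => ?_) _ _
    rw [Fk_b0]
    unfold Gk
    have e : Pt b0 β y - ev b0 - ev p + ev b0 + ev p = Pt b0 β y := by abel
    rw [e]
    exact mul_le_mul_of_nonneg_right (om_le _ _ _) (hc0 _)
  · refine le_trans (b := ((M : ℝ) + 2) ^ 2 / 2 * Zc c b0 β m cs (x0 + Pi.single i 1)) ?_
      (mul_le_mul_of_nonneg_left (le_max_right _ _) hW)
    rw [← csum_Fk_i, ← csum_smul]
    have hpb : p ≠ b0 := fun e => hb (e ▸ hp)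
    have hpi : p ≠ i := fun e => hi (e ▸ hp)
    refine csum_shift_le (k := p) (t := x0 p) ?_ (fun y => mul_nonneg hW (hc0 _)) ?_ hnd hp rfl
    · intro y hy
      unfold Gk
      have e : (Pt b0 β y - ev b0 + ev b0 + ev i) p = τ := by
        simp only [Pi.add_apply, Pi.sub_apply, ev_apply', hpb, hpi, if_false]
        rw [Pt_apply_ne _ _ _ hpb, hy, hτ hp]
        ring
      rw [e, om_zero, zero_mul]
    · intro y
      unfold Gk
      rw [Pt_one]
      have e : Pt b0 β y + ev p - ev b0 - ev b0 - ev p + ev b0 + ev i =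
          Pt b0 β y - ev b0 + ev i := by abel
      rw [e]
      exact mul_le_mul_of_nonneg_right (om_le _ _ _) (hc0 _)

/-! ### total energy -/

theorem Zc_pos (hpos : ∀ y p, 0 < Fk c b0 β y p) (cs : List V) (x : V → ℤ) :
    0 < Zc c b0 β m cs x := by
  rw [← csum_Fk_b0]
  exact csum_pos (fun y => hpos y b0) _ _

/-- the root velocity -/
noncomputable def vroot (b0 i : V) (za zb : ℝ) (p : V) : ℝ :=
  (if p = b0 then 1 / za else 0) - (if p = i then 1 / zb else 0)

theorem bal_root (hpos : ∀ y p, 0 < Fk c b0 β y p) (i : V) (cs : List V) (x0 : V → ℤ) :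
    Bal m (Fk c b0 β) cs x0
      (vroot b0 i (Zc c b0 β m cs x0) (Zc c b0 β m cs (x0 + Pi.single i 1))) := by
  unfold Bal vroot
  simp only [sub_mul, ite_mul, zero_mul, Finset.sum_sub_distrib, Finset.sum_ite_eq',
    Finset.mem_univ, if_true]
  rw [csum_Fk_b0, csum_Fk_i, one_div, one_div, inv_mul_cancel₀ (Zc_pos hpos _ _).ne',
    inv_mul_cancel₀ (Zc_pos hpos _ _).ne', sub_self]

theorem token_energy_le (hc0 : ∀ γ, 0 ≤ c γ)
    (hAF : ∀ γ, AF (fun u v => c (γ + ev u + ev v)))
    (hpos : ∀ y p, 0 < Fk c b0 β y p) {i : V} {cs : List V} (hnd : cs.Nodup)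
    (hi : i ∉ cs) (hib : i ≠ b0) (hb : b0 ∉ cs) (x0 : V → ℤ) (p : V) :
    min (Zc c b0 β m cs x0) (Zc c b0 β m cs (x0 + Pi.single i 1)) *
      en m (fun _ => b0) (fun k => k) (Fk c b0 β) (fun y v => v p ^ 2 * Fk c b0 β y p) cs x0
        (vroot b0 i (Zc c b0 β m cs x0) (Zc c b0 β m cs (x0 + Pi.single i 1))) ≤
      (((m * Fintype.card V : ℕ) : ℝ) + 2) ^ 2 := by
  set za := Zc c b0 β m cs x0 with hza
  set zb := Zc c b0 β m cs (x0 + Pi.single i 1) with hzb
  have hza0 : 0 < za := Zc_pos hpos _ _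
  have hzb0 : 0 < zb := Zc_pos hpos _ _
  have hmin0 : 0 < min za zb := lt_min hza0 hzb0
  set S0 : Finset V := insert b0 (insert i cs.toFinset) with hS0
  have hb0 : b0 ∈ S0 := by simp [hS0]
  have hcs0 : ∀ k ∈ cs, k ∈ S0 := by intro k hk; simp [hS0, hk]
  have hI : Inv c b0 β m S0 x0 cs cs x0 (vroot b0 i za zb) := by
    refine ⟨hnd, fun k hk => ⟨hk, rfl⟩, fun k => ⟨le_rfl, ?_⟩, fun k _ => rfl, ?_, ?_⟩
    · linarith [Int.natCast_nonneg m]
    · intro q hq
      have h1 : q ≠ b0 := fun e => hq (e ▸ hb0)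
      have h2 : q ≠ i := fun e => hq (by rw [e, hS0]; simp)
      simp [vroot, h1, h2]
    · exact bal_root hpos i cs x0
  by_cases hp : p = b0 ∨ p = i ∨ p ∈ cs
  · -- window of the content of `p`
    set M : ℕ := m * Fintype.card V with hM
    have hcard : 1 ≤ Fintype.card V := Fintype.card_pos_iff.2 ⟨b0⟩
    have hmM : (m : ℤ) ≤ (M : ℤ) := by
      have : m ≤ M := by rw [hM]; exact Nat.le_mul_of_pos_right m hcard
      exact_mod_cast this
    obtain ⟨τ, hτ, hτcs⟩ : ∃ τ : ℤ, (∀ y : V → ℤ, (∀ k, x0 k ≤ y k ∧ y k ≤ x0 k + m) →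
        (∀ k, k ∉ cs → y k = x0 k) →
        τ ≤ (Pt b0 β y - ev b0) p ∧ (Pt b0 β y - ev b0) p ≤ τ + M) ∧
        (p ∈ cs → τ = β p + x0 p) := by
      by_cases hpb : p = b0
      · subst hpb
        refine ⟨β p + x0 p - ∑ v, x0 v - 1 - M, ?_, fun h => absurd h hb⟩
        intro y hy hy'
        have e1 : (Pt p β y - ev p) p = β p + x0 p - ∑ v, y v - 1 := by
          rw [Pi.sub_apply, Pt_apply_b0, ev_apply', if_pos rfl, hy' p hb]
        have e2 : ∑ v, x0 v ≤ ∑ v, y v := Finset.sum_le_sum fun v _ => (hy v).1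
        have e3 : ∑ v, y v ≤ ∑ v, x0 v + M := by
          calc ∑ v, y v ≤ ∑ v, (x0 v + m) := Finset.sum_le_sum fun v _ => (hy v).2
            _ = ∑ v, x0 v + M := by
              rw [Finset.sum_add_distrib, Finset.sum_const, hM]
              simp [mul_comm]
        rw [e1]
        constructor <;> linarith
      · refine ⟨β p + x0 p, ?_, fun _ => rfl⟩
        intro y hy hy'
        have e1 : (Pt b0 β y - ev b0) p = β p + y p := by
          rw [Pi.sub_apply, Pt_apply_ne _ _ _ hpb, ev_apply', if_neg hpb, sub_zero]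
        rw [e1]
        have := hy p
        constructor <;> linarith
    have h1 := token_energy (m := m) hc0 hAF hpos hb0 hcs0 hI p M τ hτ
    have h2 := root_bound (m := m) (β := β) hc0 hnd hi hib hb (x0 := x0) hp M τ hτcs
    have h3 : - Q (fun q q' => csum m (fun y => Gk c b0 β p (om M τ) y q q') cs x0)
        (vroot b0 i za zb) (vroot b0 i za zb) ≤
        2 * (1 / za) * (1 / zb) * csum m (fun y => Gk c b0 β p (om M τ) y b0 i) cs x0 := by
      have := Q_root (A := fun q q' => csum m (fun y => Gk c b0 β p (om M τ) y q q') cs x0)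
        (fun q q' => csum_congr (fun y => Gk_symm c b0 β p _ y q q') cs x0) i b0 (1 / za) (1 / zb)
      unfold vroot
      rw [this]
      have n1 : 0 ≤ csum m (fun y => Gk c b0 β p (om M τ) y b0 b0) cs x0 :=
        csum_nonneg (fun y => mul_nonneg (om_nonneg _ _ _) (hc0 _)) _ _
      have n2 : 0 ≤ csum m (fun y => Gk c b0 β p (om M τ) y i i) cs x0 :=
        csum_nonneg (fun y => mul_nonneg (om_nonneg _ _ _) (hc0 _)) _ _
      have p1 : 0 ≤ (1 / za) ^ 2 * csum m (fun y => Gk c b0 β p (om M τ) y b0 b0) cs x0 := by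
        positivity
      have p2 : 0 ≤ (1 / zb) ^ 2 * csum m (fun y => Gk c b0 β p (om M τ) y i i) cs x0 := by
        positivity
      linarith
    have h4 := h1.trans h3
    have h5 : 2 * (1 / za) * (1 / zb) * csum m (fun y => Gk c b0 β p (om M τ) y b0 i) cs x0 ≤
        2 * (1 / za) * (1 / zb) * (((M : ℝ) + 2) ^ 2 / 2 * max za zb) :=
      mul_le_mul_of_nonneg_left h2 (by positivity)
    have h6 : min za zb * (2 * (1 / za) * (1 / zb) * (((M : ℝ) + 2) ^ 2 / 2 * max za zb)) =
        ((M : ℝ) + 2) ^ 2 := by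
      have : min za zb * max za zb = za * zb := min_mul_max za zb
      calc min za zb * (2 * (1 / za) * (1 / zb) * (((M : ℝ) + 2) ^ 2 / 2 * max za zb))
          = (min za zb * max za zb) * ((1 / za) * (1 / zb)) * ((M : ℝ) + 2) ^ 2 := by ring
        _ = ((M : ℝ) + 2) ^ 2 := by
          rw [this]; field_simp
    calc _ ≤ min za zb * (2 * (1 / za) * (1 / zb) * (((M : ℝ) + 2) ^ 2 / 2 * max za zb)) :=
          mul_le_mul_of_nonneg_left (h4.trans h5) hmin0.le
      _ = _ := h6
  · have hpS : p ∉ S0 := by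
      simp only [hS0, Finset.mem_insert, List.mem_toFinset]
      exact hp
    have h1 : en m (fun _ => b0) (fun k => k) (Fk c b0 β)
        (fun y v => v p ^ 2 * Fk c b0 β y p) cs x0 (vroot b0 i za zb) ≤
        en m (fun _ => b0) (fun k => k) (Fk c b0 β) (fun _ _ => (0 : ℝ)) cs x0
        (vroot b0 i za zb) := by
      refine en_mono_inv (Inv c b0 β m S0 x0 cs)
        (fun k cs' x v h s hs => Inv_step (fun y => hpos y b0) hb0 hcs0 k cs' x v h s hs)
        ?_ hI
      intro y v hy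
      have : v p = 0 := hy.2.2.2.2.1 p hpS
      rw [this]
      simp
    have h2 : en m (fun _ => b0) (fun k => k) (Fk c b0 β) (fun _ _ => (0 : ℝ)) cs x0
        (vroot b0 i za zb) = 0 := by
      have := en_smul (m := m) (Y := fun _ => b0) (X := fun k => k) (F := Fk c b0 β) 0
        (fun _ _ => (0 : ℝ)) cs x0 (vroot b0 i za zb)
      simpa using this
    have h3 := mul_le_mul_of_nonneg_left (h1.trans h2.le) hmin0.le
    rw [mul_zero] at h3
    exact h3.trans (by positivity)

/-! ### one stage -/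

theorem sq_le_of_forall {A B X : ℝ} (hA : 0 ≤ A) (hB : 0 ≤ B)
    (h : ∀ t : ℝ, 0 < t → 2 * |X| ≤ t * A + 1 / t * B) : X ^ 2 ≤ A * B := by
  by_contra hcon
  rw [not_le] at hcon
  have hX : 0 < |X| := by
    rw [abs_pos]
    rintro rfl
    have : 0 ≤ A * B := mul_nonneg hA hB
    nlinarith
  have hX2 : X ^ 2 = |X| ^ 2 := (sq_abs X).symm
  rcases hA.eq_or_lt with hA0 | hA0
  · have := h ((B + 1) / |X|) (by positivity)
    rw [← hA0, mul_zero, zero_add, one_div, inv_div] at this
    have h2 : |X| / (B + 1) * B ≤ |X| := by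
      rw [div_mul_eq_mul_div, div_le_iff₀ (by positivity)]
      nlinarith
    linarith
  · have := h (|X| / A) (by positivity)
    rw [div_mul_cancel₀ _ hA0.ne', one_div, inv_div] at this
    have h3 : |X| ≤ A / |X| * B := by linarith
    have h4 : |X| * |X| ≤ A * B := by
      have := mul_le_mul_of_nonneg_left h3 hX.le
      calc |X| * |X| ≤ |X| * (A / |X| * B) := this
        _ = A * B := by field_simp
    nlinarith

/-- variance of the tokens at a leaf -/
theorem leaf_cs (F h v : V → ℝ) (hF : ∀ p, 0 < F p) (hv : ∑ p, v p * F p = 0) {t : ℝ} (ht : 0 < t)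
    (b0 : V) :
    2 * |∑ p, v p * (F p * h p)| ≤
      t * ∑ p, v p ^ 2 * F p + 1 / t * (∑ p, ∑ q, min (F p) (F q) * (h p - h q) ^ 2 / 2) := by
  set S := ∑ p, F p with hS
  have hS0 : 0 < S := Finset.sum_pos (fun p _ => hF p) ⟨b0, Finset.mem_univ _⟩
  set hb := (∑ p, F p * h p) / S with hhb
  have e1 : ∑ p, v p * (F p * h p) = ∑ p, v p * (F p * (h p - hb)) := by
    have : ∀ p, v p * (F p * (h p - hb)) = v p * (F p * h p) - hb * (v p * F p) := by
      intro p; ring
    simp only [this, Finset.sum_sub_distrib, ← Finset.mul_sum, hv, mul_zero, sub_zero]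
  have e2 : ∑ p, F p * (h p - hb) ^ 2 ≤ ∑ p, ∑ q, min (F p) (F q) * (h p - h q) ^ 2 / 2 := by
    have e3 : S * ∑ p, F p * (h p - hb) ^ 2 = ∑ p, ∑ q, F p * F q * (h p - h q) ^ 2 / 2 := by
      have a1 : S * ∑ p, F p * (h p - hb) ^ 2 = S * ∑ p, F p * h p ^ 2 - (∑ p, F p * h p) ^ 2 := by
        have b1 : ∀ p, F p * (h p - hb) ^ 2 =
            F p * h p ^ 2 - 2 * hb * (F p * h p) + hb ^ 2 * F p := by intro p; ring
        simp only [b1, Finset.sum_add_distrib, Finset.sum_sub_distrib, ← Finset.mul_sum]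
        rw [← hS]
        have b2 : ∑ p, F p * h p = hb * S := by rw [hhb]; field_simp
        rw [b2]; ring
      have a2 : ∑ p, ∑ q, F p * F q * (h p - h q) ^ 2 / 2 =
          S * ∑ p, F p * h p ^ 2 - (∑ p, F p * h p) ^ 2 := by
        have b1 : ∀ p q, F p * F q * (h p - h q) ^ 2 / 2 =
            (F p * h p ^ 2) * F q / 2 - (F p * h p) * (F q * h q) +
              F p * (F q * h q ^ 2) / 2 := by
          intro p q; ring
        simp only [b1, Finset.sum_add_distrib, Finset.sum_sub_distrib, ← Finset.mul_sum,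
          ← Finset.sum_mul, ← Finset.sum_div]
        rw [← hS]; ring
      rw [a1, a2]
    have e4 : ∀ p q, F p * F q * (h p - h q) ^ 2 / 2 ≤
        S * (min (F p) (F q) * (h p - h q) ^ 2 / 2) := by
      intro p q
      have c1 : F p * F q ≤ S * min (F p) (F q) := by
        rcases le_total (F p) (F q) with hpq | hpq
        · rw [min_eq_left hpq]
          have : F q ≤ S := Finset.single_le_sum (f := F) (fun p _ => (hF p).le) (Finset.mem_univ q)
          nlinarith [hF p]
        · rw [min_eq_right hpq]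
          have : F p ≤ S := Finset.single_le_sum (f := F) (fun p _ => (hF p).le) (Finset.mem_univ p)
          nlinarith [hF q]
      have c2 : 0 ≤ (h p - h q) ^ 2 := sq_nonneg _
      nlinarith
    have e5 : S * ∑ p, F p * (h p - hb) ^ 2 ≤
        S * ∑ p, ∑ q, min (F p) (F q) * (h p - h q) ^ 2 / 2 := by
      rw [e3]
      calc ∑ p, ∑ q, F p * F q * (h p - h q) ^ 2 / 2
          ≤ ∑ p, ∑ q, S * (min (F p) (F q) * (h p - h q) ^ 2 / 2) :=
            Finset.sum_le_sum fun p _ => Finset.sum_le_sum fun q _ => e4 p q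
        _ = _ := by simp only [← Finset.mul_sum]
    exact le_of_mul_le_mul_left e5 hS0
  rw [e1]
  have e6 : 2 * |∑ p, v p * (F p * (h p - hb))| ≤
      ∑ p, (t * (v p ^ 2 * F p) + 1 / t * (F p * (h p - hb) ^ 2)) := by
    calc 2 * |∑ p, v p * (F p * (h p - hb))| ≤ 2 * ∑ p, |v p * (F p * (h p - hb))| := by
          have := Finset.abs_sum_le_sum_abs (fun p => v p * (F p * (h p - hb))) univ
          linarith
      _ = ∑ p, 2 * |v p * (F p * (h p - hb))| := by rw [Finset.mul_sum]
      _ ≤ _ := by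
        refine Finset.sum_le_sum fun p _ => ?_
        have hFp := hF p
        rw [abs_mul, abs_mul, abs_of_pos hFp]
        have k1 : 0 ≤ F p * (t * |v p| - |h p - hb|) ^ 2 := by positivity
        have k2 : F p * (t * |v p| - |h p - hb|) ^ 2 =
            t * (t * (v p ^ 2 * F p) + 1 / t * (F p * (h p - hb) ^ 2)
              - 2 * (|v p| * (F p * |h p - hb|))) := by
          have s1 : |v p| ^ 2 = v p ^ 2 := sq_abs _
          have s2 : |h p - hb| ^ 2 = (h p - hb) ^ 2 := sq_abs _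
          rw [← s1, ← s2]
          field_simp
          ring
        rw [k2] at k1
        have := nonneg_of_mul_nonneg_right k1 ht
        linarith
  refine e6.trans ?_
  rw [Finset.sum_add_distrib, ← Finset.mul_sum, ← Finset.mul_sum]
  have : 0 ≤ 1 / t := by positivity
  linarith [mul_le_mul_of_nonneg_left e2 this]

/-- weighted sum of `h` over the class `x` -/
noncomputable def S1 (c h : (V → ℤ) → ℝ) (b0 : V) (β : V → ℤ) (m : ℕ) (cs : List V)
    (x : V → ℤ) : ℝ :=
  csum m (fun y => c (Pt b0 β y) * h (Pt b0 β y)) cs x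

/-- constant of a stage -/
noncomputable def Kst (V : Type*) [Fintype V] (m : ℕ) : ℝ :=
  (Fintype.card V : ℝ) * (((m * Fintype.card V : ℕ) : ℝ) + 2) ^ 2 / 2

theorem Kst_nonneg (V : Type*) [Fintype V] (m : ℕ) : 0 ≤ Kst V m := by unfold Kst; positivity

theorem stage (hc0 : ∀ γ, 0 ≤ c γ)
    (hAF : ∀ γ, AF (fun u v => c (γ + ev u + ev v)))
    (hpos : ∀ y p, 0 < Fk c b0 β y p) {i : V} {cs : List V} (hnd : cs.Nodup)
    (hi : i ∉ cs) (hib : i ≠ b0) (hb : b0 ∉ cs) (x0 : V → ℤ) (h : (V → ℤ) → ℝ) :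
    min (Zc c b0 β m cs x0) (Zc c b0 β m cs (x0 + Pi.single i 1)) *
      (S1 c h b0 β m cs x0 / Zc c b0 β m cs x0 -
        S1 c h b0 β m cs (x0 + Pi.single i 1) / Zc c b0 β m cs (x0 + Pi.single i 1)) ^ 2 ≤
      Kst V m * csum m (fun y => Jl c h b0 β y) cs x0 := by
  set za := Zc c b0 β m cs x0 with hza
  set zb := Zc c b0 β m cs (x0 + Pi.single i 1) with hzb
  have hza0 : 0 < za := Zc_pos hpos _ _
  have hzb0 : 0 < zb := Zc_pos hpos _ _
  have hmin0 : 0 < min za zb := lt_min hza0 hzb0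
  set A := en m (fun _ => b0) (fun k => k) (Fk c b0 β) (fun y v => ∑ p, v p ^ 2 * Fk c b0 β y p)
    cs x0 (vroot b0 i za zb) with hA
  set B := csum m (fun y => Jl c h b0 β y) cs x0 with hB
  have hB0 : 0 ≤ B := csum_nonneg (fun y => Jl_nonneg hc0 _ _ _) _ _
  have hA0 : 0 ≤ A := en_nonneg (fun y v => Finset.sum_nonneg fun p _ =>
    mul_nonneg (sq_nonneg _) (hpos y p).le) _ _ _
  -- the transport identity
  have hX : en m (fun _ => b0) (fun k => k) (Fk c b0 β)
      (fun y v => ∑ p, v p * (Fk c b0 β y p * h (Pt b0 β y - ev b0 + ev p))) cs x0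
        (vroot b0 i za zb) = S1 c h b0 β m cs x0 / za - S1 c h b0 β m cs (x0 + Pi.single i 1) / zb := by
    rw [en_lin (m := m) (Y := fun _ => b0) (X := fun k => k) (F := Fk c b0 β)
      (G := fun y p => Fk c b0 β y p * h (Pt b0 β y - ev b0 + ev p)) (cs := cs) (x := x0)
      (v := vroot b0 i za zb) (fun k _ y => hpos y b0) (fun k _ y => Fk_inv c b0 β y k) ?_
      (bal_root hpos i cs x0)]
    · unfold vroot
      simp only [sub_mul, ite_mul, zero_mul, Finset.sum_sub_distrib, Finset.sum_ite_eq',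
        Finset.mem_univ, if_true]
      have e1 : csum m (fun y => Fk c b0 β y b0 * h (Pt b0 β y - ev b0 + ev b0)) cs x0 =
          S1 c h b0 β m cs x0 := by
        unfold S1
        refine csum_congr (fun y => ?_) cs x0
        rw [Fk_b0]
        congr 2
        abel
      have e2 : csum m (fun y => Fk c b0 β y i * h (Pt b0 β y - ev b0 + ev i)) cs x0 =
          S1 c h b0 β m cs (x0 + Pi.single i 1) := by
        unfold S1
        rw [← csum_shift]
        refine csum_congr (fun y => ?_) cs x0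
        rw [Fk_inv, Fk_b0, Pt_one]
        congr 2
        abel
      rw [e1, e2]
      ring
    · intro k _ y
      rw [Fk_inv, Pt_one]
      congr 2
      abel
  set X := S1 c h b0 β m cs x0 / za - S1 c h b0 β m cs (x0 + Pi.single i 1) / zb with hXdef
  have key : ∀ t : ℝ, 0 < t → 2 * |X| ≤ t * A + 1 / t * (B / 2) := by
    intro t ht
    have hin : ∀ (σ : ℝ), (σ = 1 ∨ σ = -1) →
        en m (fun _ => b0) (fun k => k) (Fk c b0 β)
        (fun y v => (2 * σ) * ∑ p, v p * (Fk c b0 β y p * h (Pt b0 β y - ev b0 + ev p))) cs x0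
        (vroot b0 i za zb) ≤
        en m (fun _ => b0) (fun k => k) (Fk c b0 β)
        (fun y v => t * (∑ p, v p ^ 2 * Fk c b0 β y p) + 1 / t * (Jl c h b0 β y / 2)) cs x0
        (vroot b0 i za zb) := by
      intro σ hσ
      refine en_mono (m := m) (Y := fun _ => b0) (X := fun k => k) (F := Fk c b0 β) (cs := cs)
        (fun k _ y => hpos y b0) (fun k _ y => Fk_inv c b0 β y k) ?_ (bal_root hpos i cs x0)
      intro y v hv
      have := leaf_cs (fun p => Fk c b0 β y p) (fun p => h (Pt b0 β y - ev b0 + ev p)) v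
        (fun p => hpos y p) hv ht b0
      have e : (∑ p, ∑ q, min (Fk c b0 β y p) (Fk c b0 β y q) *
          (h (Pt b0 β y - ev b0 + ev p) - h (Pt b0 β y - ev b0 + ev q)) ^ 2 / 2) =
          Jl c h b0 β y / 2 := by
        unfold Jl
        simp only [Finset.sum_div]
      rw [e] at this
      refine le_trans ?_ this
      rcases hσ with rfl | rfl
      · have := le_abs_self (∑ p, v p * (Fk c b0 β y p * h (Pt b0 β y - ev b0 + ev p)))
        linarith
      · have := neg_abs_le (∑ p, v p * (Fk c b0 β y p * h (Pt b0 β y - ev b0 + ev p)))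
        linarith
    have e2 : en m (fun _ => b0) (fun k => k) (Fk c b0 β)
        (fun y v => t * (∑ p, v p ^ 2 * Fk c b0 β y p) + 1 / t * (Jl c h b0 β y / 2)) cs x0
        (vroot b0 i za zb) = t * A + 1 / t * (B / 2) := by
      rw [en_add, en_smul, en_const, ← hA]
      congr 1
      rw [hB, csum_smul]
      congr 1
      rw [← mul_one_div, mul_comm, ← csum_smul]
      exact csum_congr (fun y => by ring) _ _
    have h1 := hin 1 (Or.inl rfl)
    have h2 := hin (-1) (Or.inr rfl)
    rw [e2, en_smul, hX] at h1 h2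
    rcases abs_cases X with ⟨hx, _⟩ | ⟨hx, _⟩ <;> rw [hx] <;> linarith
  have h1 := sq_le_of_forall hA0 (by positivity) key
  have h2 : min za zb * A ≤ (Fintype.card V : ℝ) * (((m * Fintype.card V : ℕ) : ℝ) + 2) ^ 2 := by
    rw [hA, en_sum, Finset.mul_sum]
    calc ∑ p, min za zb * en m (fun _ => b0) (fun k => k) (Fk c b0 β)
          (fun y v => v p ^ 2 * Fk c b0 β y p) cs x0 (vroot b0 i za zb)
        ≤ ∑ _p : V, (((m * Fintype.card V : ℕ) : ℝ) + 2) ^ 2 :=
          Finset.sum_le_sum fun p _ => token_energy_le hc0 hAF hpos hnd hi hib hb x0 p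
      _ = _ := by rw [Finset.sum_const, nsmul_eq_mul]; rfl
  calc min za zb * X ^ 2 ≤ min za zb * (A * (B / 2)) := mul_le_mul_of_nonneg_left h1 hmin0.le
    _ = (min za zb * A) * (B / 2) := by ring
    _ ≤ ((Fintype.card V : ℝ) * (((m * Fintype.card V : ℕ) : ℝ) + 2) ^ 2) * (B / 2) :=
      mul_le_mul_of_nonneg_right h2 (by positivity)
    _ = Kst V m * B := by unfold Kst; ring

/-! ### one-dimensional Poincaré inequality -/

theorem quasi {z : ℕ → ℝ} (hz : ∀ a, 0 < z a) (hlc : ∀ a, z a * z (a + 2) ≤ z (a + 1) ^ 2)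
    {a j b : ℕ} (haj : a ≤ j) (hjb : j ≤ b) : min (z a) (z b) ≤ z j := by
  have hstep : ∀ k, z (k + 1) < z k → z (k + 2) < z (k + 1) := by
    intro k hk
    have h1 := hlc k
    have h2 := hz k
    have h3 := hz (k + 1)
    by_contra hcon
    rw [not_lt] at hcon
    nlinarith
  have hdec : ∀ k, z (k + 1) < z k → ∀ n, z (k + 1 + n + 1) < z (k + 1 + n) := by
    intro k hk n
    induction n with
    | zero => exact hstep k hk
    | succ n ih => exact hstep (k + 1 + n) ih
  by_cases hall : ∀ k, a ≤ k → k < j → z k ≤ z (k + 1)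
  · refine (min_le_left _ _).trans ?_
    clear hjb
    induction j with
    | zero =>
      have : a = 0 := Nat.le_zero.1 haj
      rw [this]
    | succ j ih =>
      rcases Nat.lt_or_ge a (j + 1) with h | h
      · exact (ih (Nat.lt_succ_iff.1 h) fun k h1 h2 => hall k h1 (h2.trans (Nat.lt_succ_self j))).trans
          (hall j (Nat.lt_succ_iff.1 h) (Nat.lt_succ_self j))
      · have : a = j + 1 := le_antisymm haj h
        rw [this]
  · push Not at hall
    obtain ⟨k, hk1, hk2, hk3⟩ := hall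
    refine (min_le_right _ _).trans ?_
    obtain ⟨n, rfl⟩ := Nat.exists_eq_add_of_le (Nat.succ_le_of_lt hk2)
    obtain ⟨n', rfl⟩ := Nat.exists_eq_add_of_le hjb
    clear haj hk1 hk2 hjb
    induction n' with
    | zero => exact le_rfl
    | succ n' ih =>
      have := hdec k hk3 (n + n')
      have e : k + 1 + (n + n') = k + 1 + n + n' := by ring
      rw [e] at this
      have e2 : k.succ + n + (n' + 1) = k + 1 + n + n' + 1 := by
        rw [Nat.succ_eq_add_one]; ring
      rw [e2]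
      exact this.le.trans ih

theorem pair_bound {z : ℕ → ℝ} (hz : ∀ a, 0 < z a) (hlc : ∀ a, z a * z (a + 2) ≤ z (a + 1) ^ 2)
    (F : ℕ → ℝ) (m : ℕ) {a b : ℕ} (hab : a ≤ b) (hb : b ≤ m) :
    z a * z b * (F a - F b) ^ 2 ≤ (z a + z b) * (m *
      ∑ j ∈ range m, min (z j) (z (j + 1)) * (F j - F (j + 1)) ^ 2) := by
  have h1 : F a - F b = ∑ j ∈ Ico a b, (F j - F (j + 1)) := by
    rw [Finset.sum_Ico_eq_sum_range]
    have := Finset.sum_range_sub' (fun k => F (a + k)) (b - a)
    simp only [add_zero] at this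
    rw [Nat.add_sub_cancel' hab] at this
    rw [← this]
    rfl
  have h2 : (F a - F b) ^ 2 ≤ m * ∑ j ∈ Ico a b, (F j - F (j + 1)) ^ 2 := by
    rw [h1]
    refine (sq_sum_le_card_mul_sum_sq).trans ?_
    refine mul_le_mul_of_nonneg_right ?_ (Finset.sum_nonneg fun j _ => sq_nonneg _)
    rw [Nat.card_Ico]
    have : b - a ≤ m := (Nat.sub_le _ _).trans hb
    exact_mod_cast this
  have h3 : z a * z b = min (z a) (z b) * max (z a) (z b) := (min_mul_max _ _).symm
  have h4 : max (z a) (z b) ≤ z a + z b := by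
    rcases le_total (z a) (z b) with h | h
    · rw [max_eq_right h]; linarith [hz a]
    · rw [max_eq_left h]; linarith [hz b]
  have hmin : 0 < min (z a) (z b) := lt_min (hz a) (hz b)
  have h5 : min (z a) (z b) * ∑ j ∈ Ico a b, (F j - F (j + 1)) ^ 2 ≤
      ∑ j ∈ range m, min (z j) (z (j + 1)) * (F j - F (j + 1)) ^ 2 := by
    rw [Finset.mul_sum]
    calc ∑ j ∈ Ico a b, min (z a) (z b) * (F j - F (j + 1)) ^ 2
        ≤ ∑ j ∈ Ico a b, min (z j) (z (j + 1)) * (F j - F (j + 1)) ^ 2 := by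
          refine Finset.sum_le_sum fun j hj => ?_
          rw [Finset.mem_Ico] at hj
          refine mul_le_mul_of_nonneg_right (le_min ?_ ?_) (sq_nonneg _)
          · exact quasi hz hlc hj.1 hj.2.le
          · exact quasi hz hlc (hj.1.trans (Nat.le_succ j)) (Nat.succ_le_of_lt hj.2)
      _ ≤ _ := by
          refine Finset.sum_le_sum_of_subset_of_nonneg ?_ fun j _ _ =>
            mul_nonneg (le_min (hz _).le (hz _).le) (sq_nonneg _)
          intro j hj
          rw [Finset.mem_Ico] at hj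
          exact Finset.mem_range.2 (hj.2.trans_le hb)
  have h6 : 0 ≤ ∑ j ∈ Ico a b, (F j - F (j + 1)) ^ 2 := Finset.sum_nonneg fun j _ => sq_nonneg _
  calc z a * z b * (F a - F b) ^ 2 ≤
        z a * z b * (m * ∑ j ∈ Ico a b, (F j - F (j + 1)) ^ 2) :=
        mul_le_mul_of_nonneg_left h2 (mul_pos (hz a) (hz b)).le
    _ = max (z a) (z b) * (m * (min (z a) (z b) * ∑ j ∈ Ico a b, (F j - F (j + 1)) ^ 2)) := by
        rw [h3]; ring
    _ ≤ max (z a) (z b) * (m * ∑ j ∈ range m, min (z j) (z (j + 1)) * (F j - F (j + 1)) ^ 2) := by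
        refine mul_le_mul_of_nonneg_left (mul_le_mul_of_nonneg_left h5 (Nat.cast_nonneg _)) ?_
        exact (hz a).le.trans (le_max_left _ _)
    _ ≤ _ := by
        refine mul_le_mul_of_nonneg_right h4 (mul_nonneg (Nat.cast_nonneg _)
          (Finset.sum_nonneg fun j _ => mul_nonneg (le_min (hz _).le (hz _).le) (sq_nonneg _)))

theorem one_dim {z : ℕ → ℝ} (hz : ∀ a, 0 < z a) (hlc : ∀ a, z a * z (a + 2) ≤ z (a + 1) ^ 2)
    (F : ℕ → ℝ) (m : ℕ) :
    ∑ a ∈ range (m + 1), z a * F a ^ 2 -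
      (∑ a ∈ range (m + 1), z a * F a) ^ 2 / ∑ a ∈ range (m + 1), z a ≤
      ((m : ℝ) + 1) ^ 2 * ∑ j ∈ range m, min (z j) (z (j + 1)) * (F j - F (j + 1)) ^ 2 := by
  set S := ∑ a ∈ range (m + 1), z a with hS
  have hS0 : 0 < S := Finset.sum_pos (fun a _ => hz a) ⟨0, Finset.mem_range.2 (Nat.succ_pos m)⟩
  set D := ∑ j ∈ range m, min (z j) (z (j + 1)) * (F j - F (j + 1)) ^ 2 with hD
  have hD0 : 0 ≤ D := Finset.sum_nonneg fun j _ =>
    mul_nonneg (le_min (hz _).le (hz _).le) (sq_nonneg _)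
  have h1 : ∑ a ∈ range (m + 1), ∑ b ∈ range (m + 1), z a * z b * (F a - F b) ^ 2 / 2 =
      S * ∑ a ∈ range (m + 1), z a * F a ^ 2 - (∑ a ∈ range (m + 1), z a * F a) ^ 2 := by
    have b1 : ∀ a b, z a * z b * (F a - F b) ^ 2 / 2 =
        (z a * F a ^ 2) * z b / 2 - (z a * F a) * (z b * F b) + z a * (z b * F b ^ 2) / 2 := by
      intro a b; ring
    simp only [b1, Finset.sum_add_distrib, Finset.sum_sub_distrib, ← Finset.mul_sum,
      ← Finset.sum_mul, ← Finset.sum_div]
    rw [← hS]; ring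
  have h2 : ∀ a ∈ range (m + 1), ∀ b ∈ range (m + 1),
      z a * z b * (F a - F b) ^ 2 / 2 ≤ (z a + z b) * (m * D) / 2 := by
    intro a ha b hb
    rw [Finset.mem_range, Nat.lt_succ_iff] at ha hb
    rcases le_total a b with hab | hab
    · have := pair_bound hz hlc F m hab hb
      linarith
    · have := pair_bound hz hlc F m hab ha
      have e : z a * z b * (F a - F b) ^ 2 = z b * z a * (F b - F a) ^ 2 := by ring
      rw [e, add_comm (z a)]
      linarith
  have h3 : ∑ a ∈ range (m + 1), ∑ b ∈ range (m + 1), (z a + z b) * (m * D) / 2 =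
      S * (((m : ℝ) + 1) * m * D) := by
    have b1 : ∀ a b, (z a + z b) * (m * D) / 2 = z a * (m * D / 2) + z b * (m * D / 2) := by
      intro a b; ring
    simp only [b1, Finset.sum_add_distrib, Finset.sum_const, Finset.card_range, nsmul_eq_mul,
      ← Finset.sum_mul, ← Finset.mul_sum]
    rw [← hS]
    push_cast
    ring
  have h4 : S * ∑ a ∈ range (m + 1), z a * F a ^ 2 - (∑ a ∈ range (m + 1), z a * F a) ^ 2 ≤
      S * (((m : ℝ) + 1) * m * D) := by
    rw [← h1, ← h3]
    exact Finset.sum_le_sum fun a ha => Finset.sum_le_sum fun b hb => h2 a ha b hb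
  have h5 : ∑ a ∈ range (m + 1), z a * F a ^ 2 -
      (∑ a ∈ range (m + 1), z a * F a) ^ 2 / S ≤ ((m : ℝ) + 1) * m * D := by
    have e : ∑ a ∈ range (m + 1), z a * F a ^ 2 - (∑ a ∈ range (m + 1), z a * F a) ^ 2 / S =
        (S * ∑ a ∈ range (m + 1), z a * F a ^ 2 - (∑ a ∈ range (m + 1), z a * F a) ^ 2) / S := by
      field_simp
    rw [e, div_le_iff₀ hS0]
    linarith
  refine h5.trans ?_
  have : ((m : ℝ) + 1) * m ≤ ((m : ℝ) + 1) ^ 2 := by nlinarith [Nat.cast_nonneg (α := ℝ) m]
  exact mul_le_mul_of_nonneg_right this hD0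

/-! ### log-concavity of the class masses -/

theorem Zc_lc (hc0 : ∀ γ, 0 ≤ c γ)
    (hAF : ∀ γ, AF (fun u v => c (γ + ev u + ev v)))
    (hpos : ∀ y p, 0 < Fk c b0 β y p) {i : V} (hib : i ≠ b0) (cs : List V) (x0 : V → ℤ) :
    Zc c b0 β m cs x0 * Zc c b0 β m cs (x0 + Pi.single i 1 + Pi.single i 1) ≤
      Zc c b0 β m cs (x0 + Pi.single i 1) ^ 2 := by
  set za := Zc c b0 β m cs x0 with hza
  set zb := Zc c b0 β m cs (x0 + Pi.single i 1) with hzb
  set zc := Zc c b0 β m cs (x0 + Pi.single i 1 + Pi.single i 1) with hzc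
  have hza0 : 0 < za := Zc_pos hpos _ _
  have hzb0 : 0 < zb := Zc_pos hpos _ _
  have hbal := bal_root (m := m) hpos i cs x0
  set G : (V → ℤ) → V → V → ℝ := fun y q q' => c (Pt b0 β y - ev b0 - ev b0 + ev q + ev q') with hG
  have hGs : ∀ y q q', G y q q' = G y q' q := by
    intro y q q'
    simp only [hG]
    congr 1
    abel
  have h1 := en_quad (m := m) (Y := fun _ => b0) (X := fun k => k) (F := Fk c b0 β)
    (G := G) (cs := cs) (x := x0) (v := vroot b0 i za zb)
    (fun k _ y => hpos y b0) (fun k _ y => Fk_inv c b0 β y k)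
    (fun y q q' => hc0 _) hGs
    (fun k _ y q => by simp only [hG]; rw [Pt_one]; congr 1; abel) hbal
  have h2 : en m (fun _ => b0) (fun k => k) (Fk c b0 β) (fun y v => Q (fun p q => G y p q) v v)
      cs x0 (vroot b0 i za zb) ≤ 0 := by
    have h3 := en_mono (m := m) (Y := fun _ => b0) (X := fun k => k) (F := Fk c b0 β) (cs := cs)
      (Φ := fun y v => Q (fun p q => G y p q) v v) (Φ' := fun _ _ => (0 : ℝ))
      (fun k _ y => hpos y b0) (fun k _ y => Fk_inv c b0 β y k) ?_ hbal
    · have h4 : en m (fun _ => b0) (fun k => k) (Fk c b0 β) (fun _ _ => (0 : ℝ)) cs x0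
          (vroot b0 i za zb) = 0 := by
        have := en_smul (m := m) (Y := fun _ => b0) (X := fun k => k) (F := Fk c b0 β) 0
          (fun _ _ => (0 : ℝ)) cs x0 (vroot b0 i za zb)
        simpa using this
      exact h3.trans h4.le
    · intro y v hv
      have hpp : Q (fun p q => G y p q) (Pi.single b0 1) (Pi.single b0 1) = Fk c b0 β y b0 := by
        rw [Q_single_left, row_single]
        simp only [hG]
        unfold Fk
        congr 1
        abel
      have hz : Q (fun p q => G y p q) v (Pi.single b0 1) = 0 := by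
        rw [Q_eq_row, ← hv]
        refine Finset.sum_congr rfl fun q _ => ?_
        rw [row_single]
        simp only [hG]
        unfold Fk
        congr 2
        abel
      have h5 := hAF (Pt b0 β y - ev b0 - ev b0) v (Pi.single b0 1)
        (by change 0 ≤ Q (fun p q => G y p q) (Pi.single b0 1) (Pi.single b0 1)
            rw [hpp]; exact (hpos y b0).le)
      change Q (fun p q => G y p q) v v *
        Q (fun p q => G y p q) (Pi.single b0 1) (Pi.single b0 1) ≤
        Q (fun p q => G y p q) v (Pi.single b0 1) ^ 2 at h5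
      rw [hz, hpp] at h5
      by_contra hcon
      rw [not_le] at hcon
      have := mul_pos hcon (hpos y b0)
      nlinarith
  have h3 := h1.trans h2
  have h4 := Q_root (A := fun q q' => csum m (fun y => G y q q') cs x0)
    (fun q q' => csum_congr (fun y => hGs y q q') cs x0) i b0 (1 / za) (1 / zb)
  unfold vroot at h3
  rw [h4] at h3
  have e1 : csum m (fun y => G y b0 b0) cs x0 = za := by
    rw [hza]
    unfold Zc
    refine csum_congr (fun y => ?_) _ _
    simp only [hG]
    congr 1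
    abel
  have e2 : csum m (fun y => G y b0 i) cs x0 = zb := by
    rw [hzb, ← csum_Fk_i]
    refine csum_congr (fun y => ?_) _ _
    simp only [hG]
    unfold Fk
    congr 1
    abel
  have e3 : csum m (fun y => G y i i) cs x0 = zc := by
    rw [hzc]
    unfold Zc
    rw [add_assoc, ← csum_shift]
    refine csum_congr (fun y => ?_) _ _
    simp only [hG]
    rw [← add_assoc, Pt_one, Pt_one]
    congr 1
    abel
  rw [e1, e2, e3] at h3
  have h6 : (1 / za) ^ 2 * za - 2 * (1 / za) * (1 / zb) * zb + (1 / zb) ^ 2 * zc =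
      (za * zc - zb ^ 2) / (za * zb ^ 2) := by
    field_simp
    ring
  rw [h6] at h3
  have h7 : 0 < za * zb ^ 2 := by positivity
  have h8 : za * zc - zb ^ 2 ≤ 0 := by
    by_contra hcon
    rw [not_le] at hcon
    have := div_pos hcon h7
    linarith
  linarith

/-! ### the Poincaré inequality -/

/-- second moment -/
noncomputable def S2 (c h : (V → ℤ) → ℝ) (b0 : V) (β : V → ℤ) (m : ℕ) (cs : List V)
    (x : V → ℤ) : ℝ :=
  csum m (fun y => c (Pt b0 β y) * h (Pt b0 β y) ^ 2) cs x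

theorem link_var (hc0 : ∀ γ, 0 ≤ c γ)
    (hAF : ∀ γ, AF (fun u v => c (γ + ev u + ev v)))
    (hpos : ∀ y p, 0 < Fk c b0 β y p) (h : (V → ℤ) → ℝ) :
    ∀ (cs : List V) (x : V → ℤ), cs.Nodup → b0 ∉ cs →
      S2 c h b0 β m cs x - S1 c h b0 β m cs x ^ 2 / Zc c b0 β m cs x ≤
        ((m : ℝ) + 1) ^ 2 * Kst V m * cs.length * csum m (fun y => Jl c h b0 β y) cs x := by
  intro cs
  induction cs with
  | nil =>
    intro x _ _
    have hx : 0 < c (Pt b0 β x) := by
      have := hpos x b0
      rwa [Fk_b0] at this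
    simp only [S2, S1, Zc, csum_nil, List.length_nil, Nat.cast_zero, mul_zero, zero_mul]
    have : c (Pt b0 β x) * h (Pt b0 β x) ^ 2 -
        (c (Pt b0 β x) * h (Pt b0 β x)) ^ 2 / c (Pt b0 β x) = 0 := by
      field_simp
      ring
    rw [this]
  | cons i cs ih =>
    intro x hnd hb
    rw [List.nodup_cons] at hnd
    have hib : i ≠ b0 := fun e => hb (e ▸ List.mem_cons_self)
    have hb' : b0 ∉ cs := fun e => hb (List.mem_cons_of_mem _ e)
    set K := ((m : ℝ) + 1) ^ 2 * Kst V m with hK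
    have hK0 : 0 ≤ K := by rw [hK]; exact mul_nonneg (by positivity) (Kst_nonneg V m)
    set z : ℕ → ℝ := fun a => Zc c b0 β m cs (x + Pi.single i (a : ℤ)) with hz
    set F : ℕ → ℝ := fun a => S1 c h b0 β m cs (x + Pi.single i (a : ℤ)) /
      Zc c b0 β m cs (x + Pi.single i (a : ℤ)) with hF
    have hz0 : ∀ a, 0 < z a := fun a => Zc_pos hpos _ _
    have hsucc : ∀ a : ℕ, x + Pi.single i ((a + 1 : ℕ) : ℤ) =
        x + Pi.single i (a : ℤ) + Pi.single i 1 := by
      intro a; rw [single_succ, add_assoc]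
    have hlc : ∀ a, z a * z (a + 2) ≤ z (a + 1) ^ 2 := by
      intro a
      have := Zc_lc (m := m) hc0 hAF hpos hib cs (x + Pi.single i (a : ℤ))
      simp only [hz]
      rw [show a + 2 = (a + 1) + 1 from rfl, hsucc (a + 1), hsucc a]
      exact this
    have e1 : S1 c h b0 β m (i :: cs) x = ∑ a ∈ range (m + 1), z a * F a := by
      unfold S1
      rw [csum_cons]
      refine Finset.sum_congr rfl fun a _ => ?_
      simp only [hF, hz]
      rw [mul_div_cancel₀ _ (hz0 a).ne']
      rfl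
    have e2 : Zc c b0 β m (i :: cs) x = ∑ a ∈ range (m + 1), z a := by
      unfold Zc
      rw [csum_cons]
      rfl
    have e3 : S2 c h b0 β m (i :: cs) x =
        ∑ a ∈ range (m + 1), (S2 c h b0 β m cs (x + Pi.single i (a : ℤ)) -
          S1 c h b0 β m cs (x + Pi.single i (a : ℤ)) ^ 2 /
            Zc c b0 β m cs (x + Pi.single i (a : ℤ))) +
        ∑ a ∈ range (m + 1), z a * F a ^ 2 := by
      rw [← Finset.sum_add_distrib]
      unfold S2
      rw [csum_cons]
      refine Finset.sum_congr rfl fun a _ => ?_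
      simp only [hF, hz]
      have := (hz0 a).ne'
      simp only [hz] at this
      field_simp
      ring
    have e4 : csum m (fun y => Jl c h b0 β y) (i :: cs) x =
        ∑ a ∈ range (m + 1), csum m (fun y => Jl c h b0 β y) cs (x + Pi.single i (a : ℤ)) :=
      csum_cons _ _ _ _ _
    have h1 := one_dim hz0 hlc F m
    have h2 : ∑ a ∈ range (m + 1), (S2 c h b0 β m cs (x + Pi.single i (a : ℤ)) -
          S1 c h b0 β m cs (x + Pi.single i (a : ℤ)) ^ 2 /
            Zc c b0 β m cs (x + Pi.single i (a : ℤ))) ≤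
        K * cs.length * csum m (fun y => Jl c h b0 β y) (i :: cs) x := by
      rw [e4, Finset.mul_sum]
      exact Finset.sum_le_sum fun a _ => ih _ hnd.2 hb'
    have h3 : ∑ j ∈ range m, min (z j) (z (j + 1)) * (F j - F (j + 1)) ^ 2 ≤
        Kst V m * csum m (fun y => Jl c h b0 β y) (i :: cs) x := by
      rw [e4, Finset.mul_sum]
      calc ∑ j ∈ range m, min (z j) (z (j + 1)) * (F j - F (j + 1)) ^ 2
          ≤ ∑ j ∈ range m, Kst V m *
              csum m (fun y => Jl c h b0 β y) cs (x + Pi.single i (j : ℤ)) := by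
            refine Finset.sum_le_sum fun j _ => ?_
            have := stage (m := m) hc0 hAF hpos hnd.2 hnd.1 hib hb' (x + Pi.single i (j : ℤ)) h
            simp only [hz, hF]
            rw [hsucc j]
            exact this
        _ ≤ _ := by
            refine Finset.sum_le_sum_of_subset_of_nonneg
              (Finset.range_subset_range.2 (Nat.le_succ m)) fun j _ _ => ?_
            exact mul_nonneg (Kst_nonneg V m)
              (csum_nonneg (fun y => Jl_nonneg hc0 _ _ _) _ _)
    have h4 : ((m : ℝ) + 1) ^ 2 * ∑ j ∈ range m, min (z j) (z (j + 1)) * (F j - F (j + 1)) ^ 2 ≤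
        K * csum m (fun y => Jl c h b0 β y) (i :: cs) x := by
      rw [hK, mul_assoc]
      exact mul_le_mul_of_nonneg_left h3 (by positivity)
    rw [e3, e1, e2]
    have h5 := h1.trans h4
    have e5 : ((i :: cs).length : ℝ) = cs.length + 1 := by simp
    rw [e5]
    have : K * ((cs.length : ℝ) + 1) * csum m (fun y => Jl c h b0 β y) (i :: cs) x =
      K * cs.length * csum m (fun y => Jl c h b0 β y) (i :: cs) x +
      K * csum m (fun y => Jl c h b0 β y) (i :: cs) x := by ring
    linarith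

end Crest.Agent.R302.Link
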