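import Mathlib

/-!
# R302 (S0461), the one-dimensional step (helper675)

Pure real-number lemma used in the closure of the multi-scale Poincaré inequality
(helper893 #7262, steps (7), (8)).

`z 0, …, z m` is a positive sequence, `0 ≤ z (m+1)`, log-concave, `z (a+1) ≤ Q z a`.
`g` is centred: `∑ z g = 0`, `P a = ∑_{c<a} z c g c` (so `P (a+1)` is `T_a` of the paper),
`V = ∑ z g²`.

* `var_parts` : `V = ∑_{a<m} P (a+1) (g a - g (a+1))`
* `AB_le` : `∑_{a<m} P (a+1)² ((q a - q (a+1)) + (1 - q a)²) / z (a+1) ≤ (4Q+4) V`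
* `one_d` : the bound of the root term.
-/

set_option autoImplicit false

namespace Crest.Agent.R302.OneD

open Finset

/-- partial sums, `P a = ∑_{c<a} z c g c` -/
def P (z g : ℕ → ℝ) (a : ℕ) : ℝ := ∑ c ∈ range a, z c * g c

/-- ratio -/
noncomputable def q (z : ℕ → ℝ) (a : ℕ) : ℝ := z (a + 1) / z a

theorem P_zero (z g : ℕ → ℝ) : P z g 0 = 0 := by simp [P]

theorem P_succ (z g : ℕ → ℝ) (a : ℕ) : P z g (a + 1) = P z g a + z a * g a := by
  simp [P, sum_range_succ]

/-- summation by parts -/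
theorem parts (c X : ℕ → ℝ) (m : ℕ) :
    ∑ a ∈ range (m + 1), c a * (X (a + 1) - X a)
      = ∑ a ∈ range m, X (a + 1) * (c a - c (a + 1)) + c m * X (m + 1) - c 0 * X 0 := by
  induction m with
  | zero => simp; ring
  | succ m ih => rw [sum_range_succ, ih, sum_range_succ _ m]; ring

theorem var_parts {z g : ℕ → ℝ} {m : ℕ} (h0 : P z g (m + 1) = 0) :
    ∑ a ∈ range (m + 1), z a * g a ^ 2
      = ∑ a ∈ range m, P z g (a + 1) * (g a - g (a + 1)) := by
  have h := parts g (P z g) m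
  rw [h0, P_zero] at h
  have e : ∀ a, g a * (P z g (a + 1) - P z g a) = z a * g a ^ 2 := fun a => by
    rw [P_succ]; ring
  simp only [e] at h
  rw [h]; ring

section

variable {z g : ℕ → ℝ} {m : ℕ} {Q : ℝ}

theorem q_pos (hpos : ∀ a ≤ m, 0 < z a) {a : ℕ} (ha : a < m) : 0 < q z a :=
  div_pos (hpos _ ha) (hpos _ ha.le)

theorem q_nonneg (hpos : ∀ a ≤ m, 0 < z a) (hend : 0 ≤ z (m + 1)) {a : ℕ} (ha : a ≤ m) :
    0 ≤ q z a := by
  rcases ha.lt_or_eq with h | h
  · exact (q_pos hpos h).le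
  · subst h; exact div_nonneg hend (hpos _ le_rfl).le

theorem q_le (hpos : ∀ a ≤ m, 0 < z a) (hQ : ∀ a ≤ m, z (a + 1) ≤ Q * z a) {a : ℕ} (ha : a ≤ m) :
    q z a ≤ Q := by
  rw [q, div_le_iff₀ (hpos a ha)]; exact hQ a ha

theorem q_anti (hpos : ∀ a ≤ m, 0 < z a)
    (hlc : ∀ a < m, z a * z (a + 2) ≤ z (a + 1) ^ 2) {a : ℕ} (ha : a < m) :
    q z (a + 1) ≤ q z a := by
  unfold q
  rw [div_le_div_iff₀ (hpos _ ha) (hpos _ ha.le)]
  have := hlc a ha
  rw [show a + 1 + 1 = a + 2 from rfl]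
  nlinarith

/-- the identity behind `AB_le` -/
theorem ab_identity (hpos : ∀ a ≤ m, 0 < z a) (h0 : P z g (m + 1) = 0) :
    ∑ a ∈ range m, P z g (a + 1) ^ 2 * ((q z a - q z (a + 1)) + (1 - q z a) ^ 2) / z (a + 1)
      = - ∑ a ∈ range (m + 1), (1 - q z a) * g a * (P z g (a + 1) + P z g a) := by
  have h := parts (fun a => (1 - q z a) / z a) (fun a => P z g a ^ 2) m
  simp only [h0, P_zero] at h
  have e : ∀ a ∈ range (m + 1), (1 - q z a) * g a * (P z g (a + 1) + P z g a)
      = (1 - q z a) / z a * (P z g (a + 1) ^ 2 - P z g a ^ 2) := by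
    intro a ha
    have hz := (hpos a (by simpa [Nat.lt_succ_iff] using ha)).ne'
    rw [P_succ]
    field_simp
    ring
  rw [sum_congr rfl e, h]
  have e2 : ∀ a ∈ range m,
      P z g (a + 1) ^ 2 * ((q z a - q z (a + 1)) + (1 - q z a) ^ 2) / z (a + 1)
        = - (P z g (a + 1) ^ 2 * ((1 - q z a) / z a - (1 - q z (a + 1)) / z (a + 1))) := by
    intro a ha
    have ha' := mem_range.1 ha
    have hz := (hpos a ha'.le).ne'
    have hz1 := (hpos (a + 1) ha').ne'
    have hq : (1 - q z a) / z a = (1 - q z a) * q z a / z (a + 1) := by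
      rw [q]; field_simp
    rw [hq]
    field_simp
    ring
  rw [sum_congr rfl e2, sum_neg_distrib]
  ring

/-- `A + B ≤ (4Q+4) V` -/
theorem AB_le (hpos : ∀ a ≤ m, 0 < z a) (hend : 0 ≤ z (m + 1))
    (hlc : ∀ a < m, z a * z (a + 2) ≤ z (a + 1) ^ 2) (hQ1 : 1 ≤ Q)
    (hQ : ∀ a ≤ m, z (a + 1) ≤ Q * z a) (h0 : P z g (m + 1) = 0) :
    ∑ a ∈ range m, P z g (a + 1) ^ 2 * ((q z a - q z (a + 1)) + (1 - q z a) ^ 2) / z (a + 1)
      ≤ (4 * Q + 4) * ∑ a ∈ range (m + 1), z a * g a ^ 2 := by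
  set S := ∑ a ∈ range m,
    P z g (a + 1) ^ 2 * ((q z a - q z (a + 1)) + (1 - q z a) ^ 2) / z (a + 1) with hS
  set V := ∑ a ∈ range (m + 1), z a * g a ^ 2 with hV
  have hSt : ∀ a ∈ range m, 0 ≤
      P z g (a + 1) ^ 2 * ((q z a - q z (a + 1)) + (1 - q z a) ^ 2) / z (a + 1) := by
    intro a ha
    have ha' := mem_range.1 ha
    have h1 := q_anti hpos hlc ha'
    have h2 := hpos _ (show a + 1 ≤ m from ha')
    have h3 : 0 ≤ (q z a - q z (a + 1)) + (1 - q z a) ^ 2 := by
      nlinarith [sq_nonneg (1 - q z a)]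
    positivity
  have hS0 : 0 ≤ S := sum_nonneg hSt
  have hV0 : 0 ≤ V := sum_nonneg fun a ha => by
    have := hpos a (by simpa [Nat.lt_succ_iff] using ha)
    positivity
  set W := ∑ a ∈ range (m + 1), (1 - q z a) ^ 2 * (P z g (a + 1) + P z g a) ^ 2 / z a with hW
  -- Cauchy-Schwarz
  have hCS : S ^ 2 ≤ V * W := by
    have h1 : (∑ a ∈ range (m + 1), (1 - q z a) * g a * (P z g (a + 1) + P z g a)) ^ 2 ≤ V * W := by
      refine sum_sq_le_sum_mul_sum_of_sq_le_mul _ ?_ ?_ ?_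
      · intro a ha
        have := hpos a (by simpa [Nat.lt_succ_iff] using ha)
        positivity
      · intro a ha
        have := hpos a (by simpa [Nat.lt_succ_iff] using ha)
        positivity
      · intro a ha
        have := (hpos a (by simpa [Nat.lt_succ_iff] using ha)).ne'
        apply le_of_eq
        field_simp
    have h2 := ab_identity (g := g) hpos h0
    rw [← hS] at h2
    rw [h2, neg_sq]
    exact h1
  -- W ≤ (4Q+4) S
  have hW1 : W ≤ (4 * Q + 4) * S := by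
    have e1 : W ≤ ∑ a ∈ range (m + 1), (2 * ((1 - q z a) ^ 2 * P z g (a + 1) ^ 2 / z a)
        + 2 * ((1 - q z a) ^ 2 * P z g a ^ 2 / z a)) := by
      refine sum_le_sum fun a ha => ?_
      have hz := hpos a (by simpa [Nat.lt_succ_iff] using ha)
      have : (P z g (a + 1) + P z g a) ^ 2 ≤ 2 * P z g (a + 1) ^ 2 + 2 * P z g a ^ 2 := by
        nlinarith [sq_nonneg (P z g (a + 1) - P z g a)]
      calc (1 - q z a) ^ 2 * (P z g (a + 1) + P z g a) ^ 2 / z a
          ≤ (1 - q z a) ^ 2 * (2 * P z g (a + 1) ^ 2 + 2 * P z g a ^ 2) / z a := by gcongr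
        _ = _ := by ring
    refine e1.trans ?_
    rw [sum_add_distrib, sum_range_succ, h0, sum_range_succ', P_zero]
    simp only [ne_eq, OfNat.ofNat_ne_zero, not_false_eq_true, zero_pow, mul_zero, zero_div,
      add_zero]
    rw [← sum_add_distrib, hS, mul_sum]
    refine sum_le_sum fun a ha => ?_
    have ha' := mem_range.1 ha
    have hz := hpos a ha'.le
    have hz1 := hpos (a + 1) ha'
    have hq0 := q_nonneg hpos hend ha'.le
    have hq1 := q_le hpos hQ ha'.le
    have hq2 := q_anti hpos hlc ha'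
    have hq3 := q_nonneg hpos hend (show a + 1 ≤ m from ha')
    have hza : (1 - q z a) ^ 2 * P z g (a + 1) ^ 2 / z a
        = q z a * ((1 - q z a) ^ 2 * P z g (a + 1) ^ 2 / z (a + 1)) := by
      rw [q]; field_simp
    rw [hza]
    have key : 2 * (q z a * (1 - q z a) ^ 2) + 2 * (1 - q z (a + 1)) ^ 2
        ≤ (4 * Q + 4) * ((q z a - q z (a + 1)) + (1 - q z a) ^ 2) := by
      have hd : 0 ≤ q z a - q z (a + 1) := by linarith
      have hdQ : q z a - q z (a + 1) ≤ Q := by linarith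
      have h1 : (1 - q z (a + 1)) ^ 2 ≤ 2 * (1 - q z a) ^ 2 + 2 * Q * (q z a - q z (a + 1)) := by
        nlinarith [sq_nonneg ((1 - q z a) - (q z a - q z (a + 1)))]
      have h2 : q z a * (1 - q z a) ^ 2 ≤ Q * (1 - q z a) ^ 2 := by gcongr
      nlinarith [sq_nonneg (1 - q z a), mul_nonneg (by linarith : (0:ℝ) ≤ Q) (sq_nonneg (1 - q z a))]
    calc 2 * (q z a * ((1 - q z a) ^ 2 * P z g (a + 1) ^ 2 / z (a + 1)))
          + 2 * ((1 - q z (a + 1)) ^ 2 * P z g (a + 1) ^ 2 / z (a + 1))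
        = (2 * (q z a * (1 - q z a) ^ 2) + 2 * (1 - q z (a + 1)) ^ 2)
            * (P z g (a + 1) ^ 2 / z (a + 1)) := by ring
      _ ≤ ((4 * Q + 4) * ((q z a - q z (a + 1)) + (1 - q z a) ^ 2))
            * (P z g (a + 1) ^ 2 / z (a + 1)) := by gcongr
      _ = _ := by ring
  have hfin : S ^ 2 ≤ ((4 * Q + 4) * V) * S := by
    calc S ^ 2 ≤ V * W := hCS
      _ ≤ V * ((4 * Q + 4) * S) := by gcongr
      _ = _ := by ring
  rcases hS0.eq_or_lt with h | h
  · rw [← h]; positivity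
  · have : S * S ≤ ((4 * Q + 4) * V) * S := by rw [← pow_two]; exact hfin
    exact le_of_mul_le_mul_right this h

/-- modified ratio `q' a = q (a-1)`, `q' 0 = 1` -/
noncomputable def q' (z : ℕ → ℝ) (a : ℕ) : ℝ := if a = 0 then 1 else q z (a - 1)

theorem q'_nonneg (hpos : ∀ a ≤ m, 0 < z a) {a : ℕ} (ha : a ≤ m) : 0 ≤ q' z a := by
  unfold q'
  split_ifs with h
  · norm_num
  · have h1 : a - 1 < m := by omega
    exact (q_pos hpos h1).le

theorem q'_le (hpos : ∀ a ≤ m, 0 < z a) (hQ1 : 1 ≤ Q) (hQ : ∀ a ≤ m, z (a + 1) ≤ Q * z a)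
    {a : ℕ} (ha : a ≤ m) : q' z a ≤ Q := by
  unfold q'
  split_ifs with h
  · exact hQ1
  · exact q_le hpos hQ (by omega)

set_option maxHeartbeats 2000000 in
/-- the root term of the closure (helper893 #7262 (6), (7)) -/
theorem one_d {U : ℝ} {u : ℕ → ℝ} (hpos : ∀ a ≤ m, 0 < z a) (hend : 0 ≤ z (m + 1))
    (hlc : ∀ a < m, z a * z (a + 2) ≤ z (a + 1) ^ 2) (hQ1 : 1 ≤ Q)
    (hQ : ∀ a ≤ m, z (a + 1) ≤ Q * z a) (h0 : P z g (m + 1) = 0)
    (hu0 : ∀ a ≤ m + 1, 0 ≤ u a) (huU : ∀ a ≤ m + 1, u a ≤ U) :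
    ∑ a ∈ range m, P z g (a + 1) ^ 2 / z a
        * (-(u (a + 2) - 2 * u (a + 1) + u a)
            + u (a + 2) * (1 - z a * z (a + 2) / z (a + 1) ^ 2))
      ≤ (5 * Q + 4) * U * (∑ a ∈ range (m + 1), z a * g a ^ 2)
        + (4 * Q + 3) * √((∑ a ∈ range (m + 1), z a * g a ^ 2)
            * ∑ a ∈ range m, P z g (a + 1) ^ 2 * (u (a + 1) - u a) ^ 2 / z a) := by
  have hAB := AB_le (g := g) hpos hend hlc hQ1 hQ h0
  set V := ∑ a ∈ range (m + 1), z a * g a ^ 2 with hV
  set D := ∑ a ∈ range m, P z g (a + 1) ^ 2 * (u (a + 1) - u a) ^ 2 / z a with hD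
  have hU0 : 0 ≤ U := (hu0 0 (by omega)).trans (huU 0 (by omega))
  have hQ0 : 0 ≤ Q := by linarith
  have hV0 : 0 ≤ V := sum_nonneg fun a ha => by
    have := hpos a (by simpa [Nat.lt_succ_iff] using ha)
    positivity
  have hD0 : 0 ≤ D := sum_nonneg fun a ha => by
    have := hpos a (mem_range.1 ha).le
    positivity
  -- D over the longer range
  have hD' : ∑ a ∈ range (m + 1), P z g (a + 1) ^ 2 * (u (a + 1) - u a) ^ 2 / z a = D := by
    rw [sum_range_succ, h0]; simp [hD]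
  -- the second part
  have hS2 : ∑ a ∈ range m, P z g (a + 1) ^ 2 / z a
        * (u (a + 2) * (1 - z a * z (a + 2) / z (a + 1) ^ 2)) ≤ U * ((4 * Q + 4) * V) := by
    refine le_trans ?_ (mul_le_mul_of_nonneg_left hAB hU0)
    rw [mul_sum]
    refine sum_le_sum fun a ha => ?_
    have ha' := mem_range.1 ha
    have hz := hpos a ha'.le
    have hz1 := hpos (a + 1) ha'
    have hq2 := q_anti hpos hlc ha'
    have hq3 := q_pos hpos ha'
    have e1 : P z g (a + 1) ^ 2 / z a * (u (a + 2) * (1 - z a * z (a + 2) / z (a + 1) ^ 2))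
        = u (a + 2) * (P z g (a + 1) ^ 2 * (q z a - q z (a + 1)) / z (a + 1)) := by
      rw [q, q, show a + 1 + 1 = a + 2 from rfl]
      field_simp
    rw [e1]
    have h2 : 0 ≤ P z g (a + 1) ^ 2 * (q z a - q z (a + 1)) / z (a + 1) :=
      div_nonneg (mul_nonneg (sq_nonneg _) (by linarith)) hz1.le
    calc u (a + 2) * (P z g (a + 1) ^ 2 * (q z a - q z (a + 1)) / z (a + 1))
        ≤ U * (P z g (a + 1) ^ 2 * (q z a - q z (a + 1)) / z (a + 1)) := by
          gcongr
          exact huU _ (by omega)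
      _ ≤ U * (P z g (a + 1) ^ 2 * ((q z a - q z (a + 1)) + (1 - q z a) ^ 2) / z (a + 1)) := by
          gcongr
          nlinarith [sq_nonneg (1 - q z a)]
  -- the first part
  have hparts := parts (fun a => u (a + 1) - u a)
    (fun k => if k = 0 then 0 else P z g k ^ 2 / z (k - 1)) m
  simp only [Nat.succ_ne_zero, if_false, Nat.add_sub_cancel, h0, if_true, mul_zero, sub_zero,
    ne_eq, OfNat.ofNat_ne_zero, not_false_eq_true, zero_pow, zero_div, add_zero] at hparts
  have hS1 : ∑ a ∈ range m, P z g (a + 1) ^ 2 / z a * (-(u (a + 2) - 2 * u (a + 1) + u a))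
      = ∑ a ∈ range (m + 1), (u (a + 1) - u a) * ((1 - q' z a) * (P z g (a + 1) ^ 2 / z a)
          + 2 * q' z a * (g a * P z g (a + 1)) - q' z a * (z a * g a ^ 2)) := by
    have e1 : ∀ a ∈ range m, P z g (a + 1) ^ 2 / z a * (-(u (a + 2) - 2 * u (a + 1) + u a))
        = P z g (a + 1) ^ 2 / z a * ((u (a + 1) - u a) - (u (a + 1 + 1) - u (a + 1))) := by
      intro a _; ring
    rw [sum_congr rfl e1, ← hparts]
    refine sum_congr rfl fun a ha => ?_
    have ha' : a ≤ m := by simpa [Nat.lt_succ_iff] using ha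
    have hz := hpos a ha'
    congr 1
    rcases Nat.eq_zero_or_pos a with h | h
    · subst h
      have : P z g 1 = z 0 * g 0 := by rw [P_succ, P_zero, zero_add]
      simp [q', this]
      field_simp
      ring
    · obtain ⟨b, rfl⟩ : ∃ b, a = b + 1 := ⟨a - 1, by omega⟩
      have hzb := hpos b (by omega)
      simp only [Nat.succ_ne_zero, if_false, Nat.add_sub_cancel, q', q]
      rw [P_succ z g (b + 1)]
      field_simp
      ring
  -- three terms
  set A1 := ∑ a ∈ range (m + 1), (u (a + 1) - u a) * ((1 - q' z a) * (P z g (a + 1) ^ 2 / z a))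
    with hA1
  set A2 := ∑ a ∈ range (m + 1), (u (a + 1) - u a) * (2 * q' z a * (g a * P z g (a + 1))) with hA2
  set A3 := ∑ a ∈ range (m + 1), (u (a + 1) - u a) * (q' z a * (z a * g a ^ 2)) with hA3
  have hS1' : ∑ a ∈ range m, P z g (a + 1) ^ 2 / z a * (-(u (a + 2) - 2 * u (a + 1) + u a))
      = A1 + A2 - A3 := by
    rw [hS1, hA1, hA2, hA3, ← sum_add_distrib, ← sum_sub_distrib]
    exact sum_congr rfl fun a _ => by ring
  have hqq : ∀ a ≤ m, (1 - q' z a) ^ 2 ≤ Q ^ 2 := by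
    intro a ha
    have h1 := q'_nonneg hpos ha
    have h2 := q'_le hpos hQ1 hQ ha
    nlinarith
  -- H
  have hH : ∑ a ∈ range (m + 1), (1 - q' z a) ^ 2 * P z g (a + 1) ^ 2 / z a
      ≤ 2 * (Q + 2) ^ 2 * V := by
    have e1 : ∑ a ∈ range (m + 1), (1 - q' z a) ^ 2 * P z g (a + 1) ^ 2 / z a
        ≤ ∑ a ∈ range (m + 1), (2 * ((1 - q' z a) ^ 2 * P z g a ^ 2 / z a)
            + 2 * Q ^ 2 * (z a * g a ^ 2)) := by
      refine sum_le_sum fun a ha => ?_
      have ha' : a ≤ m := by simpa [Nat.lt_succ_iff] using ha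
      have hz := hpos a ha'
      have h1 : P z g (a + 1) ^ 2 ≤ 2 * P z g a ^ 2 + 2 * (z a * g a) ^ 2 := by
        rw [P_succ]; nlinarith [sq_nonneg (P z g a - z a * g a)]
      calc (1 - q' z a) ^ 2 * P z g (a + 1) ^ 2 / z a
          ≤ (1 - q' z a) ^ 2 * (2 * P z g a ^ 2 + 2 * (z a * g a) ^ 2) / z a := by gcongr
        _ = 2 * ((1 - q' z a) ^ 2 * P z g a ^ 2 / z a)
            + 2 * (1 - q' z a) ^ 2 * (z a * g a ^ 2) := by field_simp
        _ ≤ _ := by
          have := hqq a ha'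
          gcongr
    refine e1.trans ?_
    rw [sum_add_distrib, ← mul_sum, ← mul_sum, ← hV]
    have e2 : ∑ a ∈ range (m + 1), (1 - q' z a) ^ 2 * P z g a ^ 2 / z a
        ≤ (4 * Q + 4) * V := by
      rw [sum_range_succ', P_zero]
      simp only [ne_eq, OfNat.ofNat_ne_zero, not_false_eq_true, zero_pow, mul_zero, zero_div,
        add_zero]
      refine le_trans (sum_le_sum fun a ha => ?_) hAB
      have ha' := mem_range.1 ha
      have hz1 := hpos (a + 1) ha'
      have hq2 := q_anti hpos hlc ha'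
      have : q' z (a + 1) = q z a := by simp [q']
      rw [this]
      have h3 : (1 - q z a) ^ 2 * P z g (a + 1) ^ 2
          ≤ P z g (a + 1) ^ 2 * ((q z a - q z (a + 1)) + (1 - q z a) ^ 2) := by
        nlinarith [mul_nonneg (sq_nonneg (P z g (a + 1)))
          (by linarith : (0:ℝ) ≤ q z a - q z (a + 1))]
      gcongr
    calc 2 * ∑ a ∈ range (m + 1), (1 - q' z a) ^ 2 * P z g a ^ 2 / z a + 2 * Q ^ 2 * V
        ≤ 2 * ((4 * Q + 4) * V) + 2 * Q ^ 2 * V := by gcongr
      _ = _ := by ring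
  have hA1' : A1 ≤ (3 / 2 * (Q + 2)) * √(V * D) := by
    have h1 : A1 ^ 2 ≤ (2 * (Q + 2) ^ 2 * V) * D := by
      have h2 : A1 ^ 2 ≤ (∑ a ∈ range (m + 1), (1 - q' z a) ^ 2 * P z g (a + 1) ^ 2 / z a)
          * ∑ a ∈ range (m + 1), P z g (a + 1) ^ 2 * (u (a + 1) - u a) ^ 2 / z a := by
        rw [hA1]
        refine sum_sq_le_sum_mul_sum_of_sq_le_mul _ ?_ ?_ ?_
        · intro a ha
          have := hpos a (by simpa [Nat.lt_succ_iff] using ha)
          positivity
        · intro a ha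
          have := hpos a (by simpa [Nat.lt_succ_iff] using ha)
          positivity
        · intro a ha
          have := (hpos a (by simpa [Nat.lt_succ_iff] using ha)).ne'
          apply le_of_eq
          field_simp
      rw [hD'] at h2
      exact h2.trans (mul_le_mul_of_nonneg_right hH hD0)
    have h3 : (0:ℝ) ≤ (3 / 2 * (Q + 2)) * √(V * D) := by positivity
    refine (le_abs_self _).trans (abs_le_of_sq_le_sq ?_ h3)
    have hVD : 0 ≤ (Q + 2) ^ 2 * (V * D) := mul_nonneg (sq_nonneg _) (mul_nonneg hV0 hD0)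
    calc A1 ^ 2 ≤ (2 * (Q + 2) ^ 2 * V) * D := h1
      _ ≤ (3 / 2 * (Q + 2)) ^ 2 * (V * D) := by nlinarith [hVD]
      _ = ((3 / 2 * (Q + 2)) * √(V * D)) ^ 2 := by
          rw [mul_pow (3 / 2 * (Q + 2)) (√(V * D)), Real.sq_sqrt (mul_nonneg hV0 hD0)]
  have hA2' : A2 ≤ (2 * Q) * √(V * D) := by
    have h2 : A2 ^ 2 ≤ (∑ a ∈ range (m + 1), 4 * Q ^ 2 * (z a * g a ^ 2))
        * ∑ a ∈ range (m + 1), P z g (a + 1) ^ 2 * (u (a + 1) - u a) ^ 2 / z a := by
      rw [hA2]
      refine sum_sq_le_sum_mul_sum_of_sq_le_mul _ ?_ ?_ ?_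
      · intro a ha
        have := hpos a (by simpa [Nat.lt_succ_iff] using ha)
        positivity
      · intro a ha
        have := hpos a (by simpa [Nat.lt_succ_iff] using ha)
        positivity
      · intro a ha
        have ha' : a ≤ m := by simpa [Nat.lt_succ_iff] using ha
        have hz := hpos a ha'
        have h1 := q'_nonneg hpos ha'
        have h2 := q'_le hpos hQ1 hQ ha'
        have e : 4 * Q ^ 2 * (z a * g a ^ 2) * (P z g (a + 1) ^ 2 * (u (a + 1) - u a) ^ 2 / z a)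
            = (2 * Q * (g a * P z g (a + 1)) * (u (a + 1) - u a)) ^ 2 := by field_simp; ring
        rw [e]
        have h3 : q' z a ^ 2 ≤ Q ^ 2 := by nlinarith
        calc ((u (a + 1) - u a) * (2 * q' z a * (g a * P z g (a + 1)))) ^ 2
            = q' z a ^ 2 * (2 * (g a * P z g (a + 1)) * (u (a + 1) - u a)) ^ 2 := by ring
          _ ≤ Q ^ 2 * (2 * (g a * P z g (a + 1)) * (u (a + 1) - u a)) ^ 2 := by gcongr
          _ = _ := by ring
    rw [hD', ← mul_sum, ← hV] at h2
    refine (le_abs_self _).trans (abs_le_of_sq_le_sq ?_ (by positivity))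
    calc A2 ^ 2 ≤ 4 * Q ^ 2 * V * D := h2
      _ = ((2 * Q) * √(V * D)) ^ 2 := by
          rw [mul_pow (2 * Q) (√(V * D)), Real.sq_sqrt (mul_nonneg hV0 hD0)]; ring
  have hA3' : -A3 ≤ Q * U * V := by
    rw [hA3, ← sum_neg_distrib, hV, mul_sum]
    refine sum_le_sum fun a ha => ?_
    have ha' : a ≤ m := by simpa [Nat.lt_succ_iff] using ha
    have hz := hpos a ha'
    have h1 := q'_nonneg hpos ha'
    have h2 := q'_le hpos hQ1 hQ ha'
    have h3 : u a - u (a + 1) ≤ U := by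
      have := hu0 (a + 1) (by omega)
      have := huU a (by omega)
      linarith
    have h4 : (u a - u (a + 1)) * q' z a ≤ Q * U := by
      calc (u a - u (a + 1)) * q' z a ≤ U * q' z a := by gcongr
        _ ≤ U * Q := by gcongr
        _ = _ := by ring
    calc -((u (a + 1) - u a) * (q' z a * (z a * g a ^ 2)))
        = ((u a - u (a + 1)) * q' z a) * (z a * g a ^ 2) := by ring
      _ ≤ (Q * U) * (z a * g a ^ 2) := by gcongr
  have hsplit : ∑ a ∈ range m, P z g (a + 1) ^ 2 / z a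
        * (-(u (a + 2) - 2 * u (a + 1) + u a)
            + u (a + 2) * (1 - z a * z (a + 2) / z (a + 1) ^ 2))
      = (A1 + A2 - A3) + ∑ a ∈ range m, P z g (a + 1) ^ 2 / z a
        * (u (a + 2) * (1 - z a * z (a + 2) / z (a + 1) ^ 2)) := by
    rw [← hS1', ← sum_add_distrib]
    exact sum_congr rfl fun a _ => by ring
  rw [hsplit]
  have hs0 : 0 ≤ √(V * D) := Real.sqrt_nonneg _
  nlinarith [mul_nonneg hQ0 hs0]

end

/-! ## The form of helper142 / helper893 #7466: exact identity, no log-concavity -/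

section form2

variable (z F : ℕ → ℝ) (m : ℕ)

/-- mean of `F` with respect to `z 0, …, z m` -/
noncomputable def mu : ℝ :=
  (∑ a ∈ range (m + 1), z a * F a) / ∑ a ∈ range (m + 1), z a

/-- partial sums of the centred function -/
noncomputable def T (a : ℕ) : ℝ := ∑ c ∈ range (a + 1), z c * (F c - mu z F m)

/-- (unnormalised) variance -/
noncomputable def V : ℝ := ∑ a ∈ range (m + 1), z a * (F a - mu z F m) ^ 2

variable {z F m}

theorem T_eq_P (a : ℕ) : T z F m a = P z (fun c => F c - mu z F m) (a + 1) := rfl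

theorem sum_pos' (hpos : ∀ a ≤ m, 0 < z a) : 0 < ∑ a ∈ range (m + 1), z a :=
  sum_pos (fun a ha => hpos a (by simpa [Nat.lt_succ_iff] using ha)) ⟨0, by simp⟩

theorem T_last (hpos : ∀ a ≤ m, 0 < z a) : T z F m m = 0 := by
  have h := (sum_pos' hpos).ne'
  have : T z F m m = ∑ c ∈ range (m + 1), z c * F c
      - (∑ c ∈ range (m + 1), z c) * mu z F m := by
    rw [T, sum_mul, ← sum_sub_distrib]
    exact sum_congr rfl fun c _ => by ring
  rw [this, mu, mul_div_cancel₀ _ h, sub_self]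

theorem T_succ (a : ℕ) : T z F m (a + 1) = T z F m a + z (a + 1) * (F (a + 1) - mu z F m) := by
  rw [T, T, sum_range_succ]

theorem V_nonneg (hpos : ∀ a ≤ m, 0 < z a) : 0 ≤ V z F m :=
  sum_nonneg fun a ha => by
    have := hpos a (by simpa [Nat.lt_succ_iff] using ha)
    positivity

/-- (i) -/
theorem V_eq (hpos : ∀ a ≤ m, 0 < z a) :
    V z F m = ∑ a ∈ range m, T z F m a * (F a - F (a + 1)) := by
  rw [V, var_parts (g := fun c => F c - mu z F m) (T_last hpos)]
  exact sum_congr rfl fun a _ => by rw [← T_eq_P]; ring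

/-- the exact identity of helper142 #7348, section 3 -/
theorem one_d_id {g r : ℕ → ℝ} (hpos : ∀ a ≤ m, 0 < z a) (h0 : P z g (m + 1) = 0) :
    ∑ a ∈ range m, P z g (a + 1) ^ 2
        * (-(r a) / z a ^ 2 + 2 * r (a + 1) / (z a * z (a + 1)) - r (a + 2) / z (a + 1) ^ 2)
      = ∑ a ∈ range (m + 1), r a * g a ^ 2
        + 2 * ∑ a ∈ range m, g a * P z g (a + 1) * (r (a + 1) / z (a + 1) - r a / z a)
        - ∑ a ∈ range m, r (a + 1) * (P z g (a + 1) / z (a + 1) - P z g a / z a) ^ 2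
        - r (m + 1) * (P z g m / z m) ^ 2 := by
  have key : ∀ k ≤ m, ∑ a ∈ range k, P z g (a + 1) ^ 2
        * (-(r a) / z a ^ 2 + 2 * r (a + 1) / (z a * z (a + 1)) - r (a + 2) / z (a + 1) ^ 2)
      = ∑ a ∈ range k, r a * g a ^ 2
        + 2 * ∑ a ∈ range k, g a * P z g (a + 1) * (r (a + 1) / z (a + 1) - r a / z a)
        - ∑ a ∈ range k, r (a + 1) * (P z g (a + 1) / z (a + 1) - P z g a / z a) ^ 2
        + (r k * P z g k ^ 2 / z k ^ 2 - r (k + 1) * (P z g k / z k) ^ 2) := by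
    intro k
    induction k with
    | zero => intro _; simp [P_zero]
    | succ k ih =>
      intro hk
      have hz := (hpos k (by omega)).ne'
      have hz1 := (hpos (k + 1) hk).ne'
      rw [sum_range_succ, ih (by omega), sum_range_succ, sum_range_succ, sum_range_succ,
        P_succ z g k]
      field_simp
      ring
  have h1 := key m le_rfl
  have hz := (hpos m le_rfl).ne'
  have h2 : P z g m = -(z m * g m) := by
    have := P_succ z g m
    linarith
  rw [h1, sum_range_succ (fun a => r a * g a ^ 2)]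
  have h3 : r m * P z g m ^ 2 / z m ^ 2 = r m * g m ^ 2 := by
    rw [h2]; field_simp
  rw [h3]
  ring

/-- (ii), general centred `g` -/
theorem one_d_g {g r : ℕ → ℝ} {U : ℝ} (hpos : ∀ a ≤ m, 0 < z a) (h0 : P z g (m + 1) = 0)
    (hr0 : ∀ a ≤ m + 1, 0 ≤ r a) (hrU : ∀ a ≤ m, r a ≤ U * z a) :
    ∑ a ∈ range m, P z g (a + 1) ^ 2
        * (-(r a) / z a ^ 2 + 2 * r (a + 1) / (z a * z (a + 1)) - r (a + 2) / z (a + 1) ^ 2)
      ≤ U * (∑ a ∈ range (m + 1), z a * g a ^ 2)
        + 2 * (√(∑ a ∈ range (m + 1), z a * g a ^ 2)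
          * √(∑ a ∈ range m, P z g (a + 1) ^ 2 * (r (a + 1) / z (a + 1) - r a / z a) ^ 2 / z a)) := by
  rw [one_d_id hpos h0]
  have h1 : ∑ a ∈ range (m + 1), r a * g a ^ 2 ≤ U * ∑ a ∈ range (m + 1), z a * g a ^ 2 := by
    rw [mul_sum]
    refine sum_le_sum fun a ha => ?_
    have := hrU a (by simpa [Nat.lt_succ_iff] using ha)
    calc r a * g a ^ 2 ≤ (U * z a) * g a ^ 2 := by gcongr
      _ = _ := by ring
  have h2 : ∑ a ∈ range m, g a * P z g (a + 1) * (r (a + 1) / z (a + 1) - r a / z a)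
      ≤ √(∑ a ∈ range (m + 1), z a * g a ^ 2)
          * √(∑ a ∈ range m, P z g (a + 1) ^ 2
              * (r (a + 1) / z (a + 1) - r a / z a) ^ 2 / z a) := by
    have h3 : ∑ a ∈ range m, z a * g a ^ 2 ≤ ∑ a ∈ range (m + 1), z a * g a ^ 2 := by
      rw [sum_range_succ]
      have := hpos m le_rfl
      have : 0 ≤ z m * g m ^ 2 := by positivity
      linarith
    have h4 : (0:ℝ) ≤ √(∑ a ∈ range m, P z g (a + 1) ^ 2
              * (r (a + 1) / z (a + 1) - r a / z a) ^ 2 / z a) := Real.sqrt_nonneg _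
    refine le_trans ?_ (mul_le_mul_of_nonneg_right (Real.sqrt_le_sqrt h3) h4)
    have hn1 : 0 ≤ ∑ a ∈ range m, z a * g a ^ 2 := sum_nonneg fun a ha => by
      have := hpos a (mem_range.1 ha).le
      positivity
    rw [← Real.sqrt_mul hn1]
    refine Real.le_sqrt_of_sq_le ?_
    refine sum_sq_le_sum_mul_sum_of_sq_le_mul _ ?_ ?_ ?_
    · intro a ha
      have := hpos a (mem_range.1 ha).le
      positivity
    · intro a ha
      have := hpos a (mem_range.1 ha).le
      positivity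
    · intro a ha
      have := (hpos a (mem_range.1 ha).le).ne'
      apply le_of_eq
      field_simp
  have h3 : 0 ≤ ∑ a ∈ range m, r (a + 1) * (P z g (a + 1) / z (a + 1) - P z g a / z a) ^ 2 :=
    sum_nonneg fun a ha => mul_nonneg (hr0 _ (by have := mem_range.1 ha; omega)) (sq_nonneg _)
  have h4 : 0 ≤ r (m + 1) * (P z g m / z m) ^ 2 := mul_nonneg (hr0 _ le_rfl) (sq_nonneg _)
  linarith

/-- (ii) of helper893 #7466 -/
theorem one_d' {r : ℕ → ℝ} {U : ℝ} (hpos : ∀ a ≤ m, 0 < z a)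
    (hr0 : ∀ a ≤ m + 1, 0 ≤ r a) (hrU : ∀ a ≤ m, r a ≤ U * z a) :
    ∑ a ∈ range m, T z F m a ^ 2
        * (-(r a) / z a ^ 2 + 2 * r (a + 1) / (z a * z (a + 1)) - r (a + 2) / z (a + 1) ^ 2)
      ≤ U * V z F m + 2 * (√(V z F m)
          * √(∑ a ∈ range m, T z F m a ^ 2 * (r (a + 1) / z (a + 1) - r a / z a) ^ 2 / z a)) :=
  one_d_g (g := fun c => F c - mu z F m) hpos (T_last hpos) hr0 hrU

theorem mu_le {A : ℝ} (hpos : ∀ a ≤ m, 0 < z a) (hF : ∀ a ≤ m, F a ≤ A) : mu z F m ≤ A := by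
  rw [mu, div_le_iff₀ (sum_pos' hpos), mul_sum]
  refine sum_le_sum fun a ha => ?_
  have ha' : a ≤ m := by simpa [Nat.lt_succ_iff] using ha
  have := hpos a ha'
  nlinarith [hF a ha']

theorem le_mu {A : ℝ} (hpos : ∀ a ≤ m, 0 < z a) (hF : ∀ a ≤ m, A ≤ F a) : A ≤ mu z F m := by
  rw [mu, le_div_iff₀ (sum_pos' hpos), mul_sum]
  refine sum_le_sum fun a ha => ?_
  have ha' : a ≤ m := by simpa [Nat.lt_succ_iff] using ha
  have := hpos a ha'
  nlinarith [hF a ha']

theorem abs_sub_mu_le {A : ℝ} (hpos : ∀ a ≤ m, 0 < z a) (hF : ∀ a ≤ m, |F a| ≤ A) {a : ℕ}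
    (ha : a ≤ m) : |F a - mu z F m| ≤ 2 * A := by
  have h1 := mu_le hpos fun a ha => (abs_le.1 (hF a ha)).2
  have h2 := le_mu hpos fun a ha => (abs_le.1 (hF a ha)).1
  have h3 := abs_le.1 (hF a ha)
  rw [abs_le]
  constructor <;> linarith

/-- log-concave and ratio `≥ 1` at `a`: nondecreasing before -/
theorem le_of_left (hpos : ∀ a ≤ m, 0 < z a) (hlc : ∀ a, a + 2 ≤ m → z a * z (a + 2) ≤ z (a + 1) ^ 2)
    {a : ℕ} (ha : a + 1 ≤ m) (h : z a ≤ z (a + 1)) : ∀ k ≤ a, z (a - k) ≤ z a := by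
  have key : ∀ k ≤ a, z (a - k) ≤ z (a - k + 1) ∧ z (a - k) ≤ z a := by
    intro k
    induction k with
    | zero => intro _; exact ⟨by simpa using h, by simp⟩
    | succ k ih =>
      intro hk
      obtain ⟨h1, h2⟩ := ih (by omega)
      obtain ⟨b, hb⟩ : ∃ b, a - k = b + 1 := ⟨a - k - 1, by omega⟩
      have hb' : a - (k + 1) = b := by omega
      rw [hb] at h1 h2
      rw [hb']
      have h3 := hlc b (by omega)
      have hz := hpos b (by omega)
      have hz1 := hpos (b + 1) (by omega)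
      have hz2 := hpos (b + 2) (by omega)
      have h4 : z b ≤ z (b + 1) := by
        have : z b * z (b + 1) ≤ z (b + 1) * z (b + 1) := by
          calc z b * z (b + 1) ≤ z b * z (b + 2) := by
                exact mul_le_mul_of_nonneg_left h1 hz.le
            _ ≤ z (b + 1) ^ 2 := h3
            _ = _ := by ring
        exact le_of_mul_le_mul_right this hz1
      exact ⟨h4, h4.trans h2⟩
  exact fun k hk => (key k hk).2

theorem le_of_right (hpos : ∀ a ≤ m, 0 < z a)
    (hlc : ∀ a, a + 2 ≤ m → z a * z (a + 2) ≤ z (a + 1) ^ 2)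
    {a : ℕ} (h : z (a + 1) ≤ z a) : ∀ k, a + k ≤ m → z (a + k) ≤ z a := by
  have key : ∀ k, a + k + 1 ≤ m → z (a + k + 1) ≤ z (a + k) ∧ z (a + k + 1) ≤ z a := by
    intro k
    induction k with
    | zero => intro _; exact ⟨h, h⟩
    | succ k ih =>
      intro hk
      obtain ⟨h1, h2⟩ := ih (by omega)
      have h3 := hlc (a + k) (by omega)
      have hz := hpos (a + k) (by omega)
      have hz1 := hpos (a + k + 1) (by omega)
      have hz2 := hpos (a + k + 2) (by omega)
      have h4 : z (a + k + 2) ≤ z (a + k + 1) := by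
        have : z (a + k) * z (a + k + 2) ≤ z (a + k) * z (a + k + 1) := by
          calc z (a + k) * z (a + k + 2) ≤ z (a + k + 1) ^ 2 := h3
            _ = z (a + k + 1) * z (a + k + 1) := by ring
            _ ≤ z (a + k) * z (a + k + 1) := mul_le_mul_of_nonneg_right h1 hz1.le
        exact le_of_mul_le_mul_left this hz
      exact ⟨h4, h4.trans h2⟩
  intro k hk
  rcases Nat.eq_zero_or_pos k with h | h
  · simp [h]
  · obtain ⟨j, rfl⟩ : ∃ j, k = j + 1 := ⟨k - 1, by omega⟩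
    exact (key j hk).2

/-- (iii), absolute value form -/
theorem abs_T_le {A : ℝ} (hpos : ∀ a ≤ m, 0 < z a)
    (hlc : ∀ a, a + 2 ≤ m → z a * z (a + 2) ≤ z (a + 1) ^ 2) (hF : ∀ a ≤ m, |F a| ≤ A)
    {a : ℕ} (ha : a ≤ m) : |T z F m a| ≤ 2 * A * (m + 1) * z a := by
  have hA : 0 ≤ A := (abs_nonneg _).trans (hF 0 (by omega))
  have hza := hpos a ha
  rcases ha.eq_or_lt with h | h
  · subst h
    rw [T_last hpos, abs_zero]
    positivity
  rcases le_total (z a) (z (a + 1)) with h1 | h1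
  · -- left side
    have h2 := le_of_left hpos hlc h h1
    calc |T z F m a| ≤ ∑ c ∈ range (a + 1), |z c * (F c - mu z F m)| := abs_sum_le_sum_abs _ _
      _ ≤ ∑ _c ∈ range (a + 1), 2 * A * z a := by
          refine sum_le_sum fun c hc => ?_
          have hc' : c ≤ a := by simpa [Nat.lt_succ_iff] using hc
          have h3 := h2 (a - c) (by omega)
          rw [show a - (a - c) = c by omega] at h3
          have h4 := hpos c (by omega)
          have h5 := abs_sub_mu_le hpos hF (show c ≤ m by omega)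
          rw [abs_mul, abs_of_pos h4]
          calc z c * |F c - mu z F m| ≤ z a * (2 * A) := by gcongr
            _ = _ := by ring
      _ = 2 * A * (a + 1) * z a := by
          rw [sum_const, card_range, nsmul_eq_mul]; push_cast; ring
      _ ≤ 2 * A * (m + 1) * z a := by gcongr
  · have h2 := le_of_right hpos hlc h1
    have h6 : T z F m a = -∑ k ∈ range (m - a), z (a + 1 + k) * (F (a + 1 + k) - mu z F m) := by
      have h7 := T_last (F := F) hpos
      have h8 : T z F m m = T z F m a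
          + ∑ k ∈ range (m - a), z (a + 1 + k) * (F (a + 1 + k) - mu z F m) := by
        rw [T, T, show m + 1 = (a + 1) + (m - a) by omega, sum_range_add]
      linarith
    rw [h6, abs_neg]
    calc |∑ k ∈ range (m - a), z (a + 1 + k) * (F (a + 1 + k) - mu z F m)|
        ≤ ∑ k ∈ range (m - a), |z (a + 1 + k) * (F (a + 1 + k) - mu z F m)| :=
          abs_sum_le_sum_abs _ _
      _ ≤ ∑ _k ∈ range (m - a), 2 * A * z a := by
          refine sum_le_sum fun k hk => ?_
          have hk' := mem_range.1 hk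
          have h3 := h2 (1 + k) (by omega)
          rw [← add_assoc] at h3
          have h4 := hpos (a + 1 + k) (by omega)
          have h5 := abs_sub_mu_le hpos hF (show a + 1 + k ≤ m by omega)
          rw [abs_mul, abs_of_pos h4]
          calc z (a + 1 + k) * |F (a + 1 + k) - mu z F m| ≤ z a * (2 * A) := by gcongr
            _ = _ := by ring
      _ = 2 * A * ((m - a : ℕ) : ℝ) * z a := by
          rw [sum_const, card_range, nsmul_eq_mul]; ring
      _ ≤ 2 * A * (m + 1) * z a := by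
          gcongr
          have : ((m - a : ℕ) : ℝ) ≤ (m : ℝ) := by exact_mod_cast Nat.sub_le m a
          linarith

/-- (iii) of helper893 #7466 -/
theorem T_sq_le {A : ℝ} (hpos : ∀ a ≤ m, 0 < z a)
    (hlc : ∀ a, a + 2 ≤ m → z a * z (a + 2) ≤ z (a + 1) ^ 2) (hF : ∀ a ≤ m, |F a| ≤ A)
    {a : ℕ} (ha : a ≤ m) : T z F m a ^ 2 ≤ 4 * A ^ 2 * (m + 1) ^ 2 * z a ^ 2 := by
  have h := abs_T_le hpos hlc hF ha
  calc T z F m a ^ 2 = |T z F m a| ^ 2 := (sq_abs _).symm
    _ ≤ (2 * A * (m + 1) * z a) ^ 2 := by gcongr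
    _ = _ := by ring

end form2

end Crest.Agent.R302.OneD
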