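import Crest.Agent.R302.MSP893A
import Crest.Agent.R302.OneD675

/-!
# R302 (S0461), the martingale over the stages (helper675)

`csum m G cs x` is helper893's sum over the contents in `[0,m]` of the cells `cs`.

* `var_step`  : the exact variance decomposition over the first cell
* `martingale`: stage bounds add up
* `csum_eq_box`: `csum` over all cells is the sum over a box
-/

set_option autoImplicit false

namespace Crest.Agent.R302.Mart

open Finset T893

variable {E : Type*} [DecidableEq E]

/-- unnormalised variance of `f` with respect to `w` over the cells `L` -/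
noncomputable def Var (m : ℕ) (w f : (E → ℤ) → ℝ) (L : List E) (x : E → ℤ) : ℝ :=
  csum m (fun y => w y * f y ^ 2) L x
    - (csum m (fun y => w y * f y) L x) ^ 2 / csum m w L x

/-- the weights of the stage -/
def zs (m : ℕ) (w : (E → ℤ) → ℝ) (i : E) (cs : List E) (x : E → ℤ) (a : ℕ) : ℝ :=
  csum m w cs (x + Pi.single i (a : ℤ))

/-- the conditional expectations of the stage -/
noncomputable def fs (m : ℕ) (w f : (E → ℤ) → ℝ) (i : E) (cs : List E) (x : E → ℤ) (a : ℕ) : ℝ :=
  csum m (fun y => w y * f y) cs (x + Pi.single i (a : ℤ)) / zs m w i cs x a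

variable {m : ℕ} {w f : (E → ℤ) → ℝ}

theorem zs_pos (hw : ∀ y, 0 < w y) (i : E) (cs : List E) (x : E → ℤ) (a : ℕ) :
    0 < zs m w i cs x a := csum_pos hw cs _

/-- exact decomposition of the variance -/
theorem var_step (hw : ∀ y, 0 < w y) (i : E) (cs : List E) (x : E → ℤ) :
    Var m w f (i :: cs) x
      = ∑ a ∈ range (m + 1), Var m w f cs (x + Pi.single i (a : ℤ))
        + OneD.V (zs m w i cs x) (fs m w f i cs x) m := by
  have hz : ∀ a, 0 < zs m w i cs x a := zs_pos hw i cs x
  have hzf : ∀ a, zs m w i cs x a * fs m w f i cs x a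
      = csum m (fun y => w y * f y) cs (x + Pi.single i (a : ℤ)) := by
    intro a
    rw [fs, mul_div_cancel₀ _ (hz a).ne']
  have hZ : 0 < ∑ a ∈ range (m + 1), zs m w i cs x a :=
    OneD.sum_pos' fun a _ => hz a
  have hV : OneD.V (zs m w i cs x) (fs m w f i cs x) m
      = ∑ a ∈ range (m + 1), zs m w i cs x a * fs m w f i cs x a ^ 2
        - (∑ a ∈ range (m + 1), zs m w i cs x a * fs m w f i cs x a) ^ 2
          / ∑ a ∈ range (m + 1), zs m w i cs x a := by
    set μ := OneD.mu (zs m w i cs x) (fs m w f i cs x) m with hμ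
    have hmu : (∑ a ∈ range (m + 1), zs m w i cs x a) * μ
        = ∑ a ∈ range (m + 1), zs m w i cs x a * fs m w f i cs x a := by
      rw [hμ, OneD.mu, mul_div_cancel₀ _ hZ.ne']
    rw [OneD.V, ← hμ, ← hmu]
    have e : ∀ a ∈ range (m + 1), zs m w i cs x a * (fs m w f i cs x a - μ) ^ 2
        = zs m w i cs x a * fs m w f i cs x a ^ 2
          - 2 * μ * (zs m w i cs x a * fs m w f i cs x a) + μ ^ 2 * zs m w i cs x a :=
      fun a _ => by ring
    rw [sum_congr rfl e, sum_add_distrib, sum_sub_distrib, ← mul_sum, ← mul_sum, ← hmu]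
    field_simp
    ring
  rw [hV, Var, csum_cons, csum_cons, csum_cons]
  have e1 : ∀ a ∈ range (m + 1), Var m w f cs (x + Pi.single i (a : ℤ))
      = csum m (fun y => w y * f y ^ 2) cs (x + Pi.single i (a : ℤ))
        - zs m w i cs x a * fs m w f i cs x a ^ 2 := by
    intro a _
    have h1 := (hz a).ne'
    rw [Var, ← hzf a]
    change _ - _ / zs m w i cs x a = _
    field_simp
  rw [sum_congr rfl e1, sum_sub_distrib]
  have e2 : ∑ a ∈ range (m + 1), zs m w i cs x a * fs m w f i cs x a
      = ∑ a ∈ range (m + 1), csum m (fun y => w y * f y) cs (x + Pi.single i (a : ℤ)) :=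
    sum_congr rfl fun a _ => hzf a
  rw [e2]
  simp only [zs]
  ring

/-- the stage bounds add up -/
theorem martingale (hw : ∀ y, 0 < w y) (g : E → (E → ℤ) → ℝ) (L : List E)
    (h : ∀ i cs, (i :: cs) <:+ L → ∀ x : E → ℤ,
      OneD.V (fun a => csum m w cs (x + Pi.single i (a : ℤ)))
          (fun a => csum m (fun y => w y * f y) cs (x + Pi.single i (a : ℤ))
            / csum m w cs (x + Pi.single i (a : ℤ))) m
        ≤ ∑ a ∈ range (m + 1), csum m (g i) cs (x + Pi.single i (a : ℤ))) (x : E → ℤ) :
    csum m (fun y => w y * f y ^ 2) L x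
      - (csum m (fun y => w y * f y) L x) ^ 2 / csum m w L x
        ≤ (L.map fun j => csum m (g j) L x).sum := by
  induction L generalizing x with
  | nil =>
    have := (hw x).ne'
    simp only [csum_nil, List.map_nil, List.sum_nil]
    apply le_of_eq
    field_simp
    ring
  | cons i cs ih =>
    have ih' := ih fun j cs' hs => h j cs' (hs.trans (List.suffix_cons i cs))
    have h1 := h i cs (List.suffix_refl _) x
    have h2 := var_step (m := m) (f := f) hw i cs x
    rw [Var] at h2
    rw [h2, List.map_cons, List.sum_cons, csum_cons m (g i)]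
    have h3 : ∑ a ∈ range (m + 1), Var m w f cs (x + Pi.single i (a : ℤ))
        ≤ (cs.map fun j => csum m (g j) (i :: cs) x).sum := by
      calc ∑ a ∈ range (m + 1), Var m w f cs (x + Pi.single i (a : ℤ))
          ≤ ∑ a ∈ range (m + 1), (cs.map fun j => csum m (g j) cs (x + Pi.single i (a : ℤ))).sum :=
            sum_le_sum fun a _ => by
              rw [Var]; exact ih' _
        _ = (cs.map fun j => csum m (g j) (i :: cs) x).sum := by
            clear ih ih' h h1 h2
            have : ∀ l : List E, ∑ a ∈ range (m + 1),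
                (l.map fun j => csum m (g j) cs (x + Pi.single i (a : ℤ))).sum
                  = (l.map fun j => csum m (g j) (i :: cs) x).sum := by
              intro l
              induction l with
              | nil => simp
              | cons j l ihl =>
                simp only [List.map_cons, List.sum_cons, sum_add_distrib, ihl]
                rw [csum_cons]
            exact this cs
    exact add_comm (∑ a ∈ range (m + 1), Var m w f cs (x + Pi.single i (a : ℤ))) _ ▸
      add_le_add h1 h3

/-! ### the box -/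

section Box

variable [Fintype E]

/-- the box of the cells `L` -/
noncomputable def box (m : ℕ) (L : List E) (x : E → ℤ) : Finset (E → ℤ) :=
  Fintype.piFinset fun e => if e ∈ L then Icc (x e) (x e + m) else {x e}

theorem csum_eq_box_list (m : ℕ) (G : (E → ℤ) → ℝ) (L : List E) (hL : L.Nodup) (x : E → ℤ) :
    csum m G L x = ∑ y ∈ box m L x, G y := by
  induction L generalizing x with
  | nil =>
    rw [csum_nil]
    have : box m [] x = {x} := by
      ext y
      simp [box, funext_iff]
    rw [this, sum_singleton]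
  | cons k cs ih =>
    obtain ⟨hk, hcs⟩ := List.nodup_cons.1 hL
    rw [csum_cons, sum_congr rfl fun s _ => ih hcs _, sum_sigma']
    refine sum_bij' (fun p _ => p.2) (fun y _ => ⟨(y k - x k).toNat, y⟩) ?_ ?_ ?_ ?_ ?_
    · rintro ⟨s, y⟩ hp
      simp only [mem_sigma, mem_range, box, Fintype.mem_piFinset] at hp ⊢
      intro e
      have he := hp.2 e
      by_cases hek : e = k
      · subst hek
        simp only [hk, if_false, Pi.add_apply, Pi.single_eq_same, mem_singleton] at he
        simp only [List.mem_cons, true_or, if_true, mem_Icc]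
        omega
      · simpa [hek] using he
    · intro y hy
      simp only [mem_sigma, mem_range, box, Fintype.mem_piFinset] at hy ⊢
      have hyk := hy k
      simp only [List.mem_cons, true_or, if_true, mem_Icc] at hyk
      refine ⟨by omega, fun e => ?_⟩
      by_cases hek : e = k
      · subst hek
        simp only [hk, if_false, Pi.add_apply, Pi.single_eq_same, mem_singleton]
        omega
      · have he := hy e
        simpa [hek] using he
    · rintro ⟨s, y⟩ hp
      simp only [mem_sigma, mem_range, box, Fintype.mem_piFinset] at hp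
      have he := hp.2 k
      simp only [hk, if_false, Pi.add_apply, Pi.single_eq_same, mem_singleton] at he
      simp only [Sigma.mk.injEq, heq_eq_eq, and_true]
      omega
    · intro y _
      rfl
    · rintro ⟨s, y⟩ _
      rfl

/-- `csum` over all cells is the sum over the box `∏ [x e, x e + m]` -/
theorem csum_eq_box (m : ℕ) (G : (E → ℤ) → ℝ) (L : List E) (hL : L.Nodup) (hall : ∀ e, e ∈ L)
    (x : E → ℤ) :
    csum m G L x = ∑ y ∈ Fintype.piFinset fun e => Icc (x e) (x e + m), G y := by
  rw [csum_eq_box_list m G L hL x]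
  congr 1
  simp [box, hall]

/-- `∑ w (f - mean)² = ∑ w f² - (∑ w f)² / ∑ w` -/
theorem var_eq {ι : Type*} (B : Finset ι) (hB : B.Nonempty) (w f : ι → ℝ) (hw : ∀ y, 0 < w y) :
    ∑ y ∈ B, w y * (f y - (∑ y ∈ B, w y * f y) / ∑ y ∈ B, w y) ^ 2
      = ∑ y ∈ B, w y * f y ^ 2 - (∑ y ∈ B, w y * f y) ^ 2 / ∑ y ∈ B, w y := by
  have hZ : 0 < ∑ y ∈ B, w y := sum_pos (fun y _ => hw y) hB
  set μ := (∑ y ∈ B, w y * f y) / ∑ y ∈ B, w y with hμ
  have hmu : ∑ y ∈ B, w y * f y = (∑ y ∈ B, w y) * μ := by
    rw [hμ, mul_div_cancel₀ _ hZ.ne']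
  have e : ∀ y ∈ B, w y * (f y - μ) ^ 2 = w y * f y ^ 2 - 2 * μ * (w y * f y) + μ ^ 2 * w y :=
    fun a _ => by ring
  rw [sum_congr rfl e, sum_add_distrib, sum_sub_distrib, ← mul_sum, ← mul_sum, hmu]
  field_simp
  ring

/-- the martingale bound in box form: all cells, `B = ∏ [x e, x e + m]` -/
theorem martingale_box (hw : ∀ y, 0 < w y) (g : E → (E → ℤ) → ℝ) (L : List E)
    (hL : L.Nodup) (hall : ∀ e, e ∈ L)
    (h : ∀ i cs, (i :: cs) <:+ L → ∀ x : E → ℤ,
      OneD.V (fun a => csum m w cs (x + Pi.single i (a : ℤ)))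
          (fun a => csum m (fun y => w y * f y) cs (x + Pi.single i (a : ℤ))
            / csum m w cs (x + Pi.single i (a : ℤ))) m
        ≤ ∑ a ∈ range (m + 1), csum m (g i) cs (x + Pi.single i (a : ℤ))) (x : E → ℤ)
    (B : Finset (E → ℤ)) (hB : B = Fintype.piFinset fun e => Icc (x e) (x e + m)) :
    ∑ y ∈ B, w y * (f y - (∑ y ∈ B, w y * f y) / ∑ y ∈ B, w y) ^ 2
      ≤ ∑ e, ∑ y ∈ B, g e y := by
  have hne : B.Nonempty := by
    rw [hB]
    exact ⟨x, by simp⟩
  have h1 := martingale hw g L h x
  rw [var_eq B hne w f hw, hB]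
  rw [csum_eq_box m _ L hL hall, csum_eq_box m _ L hL hall, csum_eq_box m _ L hL hall] at h1
  refine h1.trans (le_of_eq ?_)
  have h2 : L.toFinset = univ := by
    ext e
    simp [hall e]
  rw [← h2, List.sum_toFinset _ hL]
  congr 1
  refine List.map_congr_left fun j _ => ?_
  rw [csum_eq_box m _ L hL hall]

end Box

end Crest.Agent.R302.Mart
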