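import Crest.Agent.R302.Link342
import Crest.Agent.R302.Lz151
import Crest.Agent.R302.Mart675
import Crest.Agent.R302.Macro541
import Crest.Agent.R302.Ann425B

/-!
R302 (helper342): LINK for hard supports.  `link_fin`: for a finitely supported weight `c` which is
a limit of positive weights with the Alexandrov-Fenchel property (class `LA`, contains the bounded
Lorentzian weights `Lz`) the unit exchange walk satisfies a Poincaré inequality with a constant depending only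
on the dimension and the side of a box containing the support.
-/

set_option autoImplicit false
set_option linter.unusedSectionVars false

namespace Crest.Agent.R302.Link

open Finset Lor T893 Mart Macro

variable {V : Type*} [Fintype V] [DecidableEq V]

/-- the cells: all vertices but `b0` -/
noncomputable def csb (b0 : V) : List V := (univ.erase b0).toList

theorem csb_nodup (b0 : V) : (csb b0).Nodup := Finset.nodup_toList _

theorem mem_csb {b0 k : V} : k ∈ csb b0 ↔ k ≠ b0 := by simp [csb]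

theorem csb_length (b0 : V) : ((csb b0).length : ℝ) ≤ Fintype.card V := by
  have : (csb b0).length ≤ Fintype.card V := by
    rw [csb, Finset.length_toList]
    exact (Finset.card_le_univ _)
  exact_mod_cast this

/-- the box of contents -/
noncomputable def bx (m : ℕ) (b0 : V) (lo : V → ℤ) : Finset (V → ℤ) := Mart.box m (csb b0) lo

theorem mem_bx {m : ℕ} {b0 : V} {lo y : V → ℤ} :
    y ∈ bx m b0 lo ↔ y b0 = lo b0 ∧ ∀ k, k ≠ b0 → lo k ≤ y k ∧ y k ≤ lo k + m := by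
  unfold bx Mart.box
  rw [Fintype.mem_piFinset]
  constructor
  · intro h
    refine ⟨?_, fun k hk => ?_⟩
    · have := h b0
      rw [if_neg (by simp [mem_csb])] at this
      exact mem_singleton.1 this
    · have := h k
      rw [if_pos (mem_csb.2 hk)] at this
      exact mem_Icc.1 this
  · rintro ⟨h1, h2⟩ k
    by_cases hk : k = b0
    · subst hk
      rw [if_neg (by simp [mem_csb]), mem_singleton]
      exact h1
    · rw [if_pos (mem_csb.2 hk), mem_Icc]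
      exact h2 k hk

theorem Pt_inj {m : ℕ} {b0 : V} {lo β : V → ℤ} {y y' : V → ℤ} (hy : y ∈ bx m b0 lo)
    (hy' : y' ∈ bx m b0 lo) (h : Pt b0 β y = Pt b0 β y') : y = y' := by
  rw [mem_bx] at hy hy'
  funext k
  by_cases hk : k = b0
  · subst hk; rw [hy.1, hy'.1]
  · have := congrFun h k
    rw [Pt_apply_ne b0 β y hk, Pt_apply_ne b0 β y' hk] at this
    linarith

/-- positive case, sums over the box -/
theorem link_pos {c : (V → ℤ) → ℝ} {d : ℤ} (hc0 : ∀ γ, 0 ≤ c γ)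
    (hAF : ∀ γ, AF (fun u v => c (γ + ev u + ev v)))
    (hpos : ∀ γ, ∑ v, γ v = d → 0 < c γ) (h : (V → ℤ) → ℝ) (b0 : V) (lo : V → ℤ) (m : ℕ) :
    ∑ y ∈ bx m b0 lo, c (Pt b0 (d • ev b0) y) * h (Pt b0 (d • ev b0) y) ^ 2
      - (∑ y ∈ bx m b0 lo, c (Pt b0 (d • ev b0) y) * h (Pt b0 (d • ev b0) y)) ^ 2
        / ∑ y ∈ bx m b0 lo, c (Pt b0 (d • ev b0) y) ≤
      ((m : ℝ) + 1) ^ 2 * Kst V m * Fintype.card V
        * ∑ y ∈ bx m b0 lo, Jl c h b0 (d • ev b0) y := by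
  have hs : ∀ y, ∑ v, Pt b0 (d • ev b0) y v = d := by
    intro y
    rw [Pt_sum]
    simp [ev_apply']
  have hp : ∀ y p, 0 < Fk c b0 (d • ev b0) y p := by
    intro y p
    unfold Fk
    apply hpos
    have := hs y
    simp only [Pi.add_apply, Pi.sub_apply, Finset.sum_add_distrib, Finset.sum_sub_distrib, this,
      sum_ev]
    ring
  have h1 := link_var (m := m) hc0 hAF hp h (csb b0) lo (csb_nodup b0) (by simp [mem_csb])
  unfold S2 S1 Zc at h1
  rw [csum_eq_box_list m _ _ (csb_nodup b0), csum_eq_box_list m _ _ (csb_nodup b0),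
    csum_eq_box_list m _ _ (csb_nodup b0), csum_eq_box_list m _ _ (csb_nodup b0)] at h1
  refine h1.trans ?_
  refine mul_le_mul_of_nonneg_right ?_ (Finset.sum_nonneg fun y _ => Jl_nonneg hc0 _ _ _)
  refine mul_le_mul_of_nonneg_left (csb_length b0) ?_
  exact mul_nonneg (by positivity) (Kst_nonneg V m)

/-- weights of degree `d` which are limits of positive weights with the Alexandrov-Fenchel
property -/
structure LA (d : ℤ) (c : (V → ℤ) → ℝ) : Prop where
  nonneg : ∀ β, 0 ≤ c β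
  deg : ∀ β, c β ≠ 0 → ∑ v, β v = d
  ex : ∃ cn : ℕ → (V → ℤ) → ℝ, (∀ n γ, 0 ≤ cn n γ) ∧
    (∀ n, ∀ γ, AF (fun u v => cn n (γ + ev u + ev v))) ∧
    (∀ n γ, ∑ v, γ v = d → 0 < cn n γ) ∧
    ∀ γ, ∑ v, γ v = d → Filter.Tendsto (fun n => cn n γ) Filter.atTop (nhds (c γ))

/-- bounded Lorentzian weights -/
theorem _root_.Crest.Agent.R302.Lor.Lz.la {c : (V → ℤ) → ℝ} {d : ℤ} (hc : Lz d c) {C : ℝ}
    (hC : ∀ β, c β ≤ C) : LA d c := by
  refine ⟨hc.nonneg, hc.deg, ?_⟩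
  have hε : ∀ n : ℕ, (0 : ℝ) < 1 / ((n : ℝ) + 1) := fun n => by positivity
  by_cases hz : ∀ β, c β = 0
  · refine ⟨fun n _ => 1 / ((n : ℝ) + 1), fun n _ => (hε n).le, fun n γ => ?_, fun n _ _ => hε n,
      fun γ _ => ?_⟩
    · intro x y _
      have h : ∀ a b : V → ℝ, Q (fun _ _ : V => 1 / ((n : ℝ) + 1)) a b
          = 1 / ((n : ℝ) + 1) * ((∑ i, a i) * ∑ i, b i) := by
        intro a b
        unfold Q
        rw [Finset.sum_mul_sum, Finset.mul_sum]
        refine Finset.sum_congr rfl fun i _ => ?_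
        rw [Finset.mul_sum]
        exact Finset.sum_congr rfl fun j _ => by ring
      rw [h, h, h]
      apply le_of_eq
      ring
    · rw [hz γ]
      exact tendsto_one_div_add_atTop_nhds_zero_nat
  · push Not at hz
    obtain ⟨ξ, hξ⟩ := hz
    have hξ : 0 < c ξ := lt_of_le_of_ne (hc.nonneg _) (Ne.symm hξ)
    choose c' hc'1 hc'2 hc'3 hc'4 using fun n : ℕ => hc.perturb hC hξ (hε n)
    refine ⟨c', fun n => (hc'1 n).nonneg, fun n γ => (hc'1 n).af [] (by simp) γ, hc'2,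
      fun γ _ => ?_⟩
    have h1 : Filter.Tendsto (fun n : ℕ => c γ + 1 / ((n : ℝ) + 1)) Filter.atTop
        (nhds (c γ + 0)) := tendsto_const_nhds.add tendsto_one_div_add_atTop_nhds_zero_nat
    rw [add_zero] at h1
    exact tendsto_of_tendsto_of_tendsto_of_le_of_le tendsto_const_nhds h1
      (fun n => hc'3 n γ) (fun n => hc'4 n γ)

/-- hard supports, sums over the box -/
theorem link_box {c : (V → ℤ) → ℝ} {d : ℤ} (hc : LA d c)
    (h : (V → ℤ) → ℝ) (b0 : V) (lo : V → ℤ) (m : ℕ) :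
    ∑ y ∈ bx m b0 lo, c (Pt b0 (d • ev b0) y) * h (Pt b0 (d • ev b0) y) ^ 2
      - (∑ y ∈ bx m b0 lo, c (Pt b0 (d • ev b0) y) * h (Pt b0 (d • ev b0) y)) ^ 2
        / ∑ y ∈ bx m b0 lo, c (Pt b0 (d • ev b0) y) ≤
      ((m : ℝ) + 1) ^ 2 * Kst V m * Fintype.card V
        * ∑ y ∈ bx m b0 lo, Jl c h b0 (d • ev b0) y := by
  have hK : 0 ≤ ((m : ℝ) + 1) ^ 2 * Kst V m * Fintype.card V := by
    have := Kst_nonneg V m
    positivity
  by_cases hz : ∑ y ∈ bx m b0 lo, c (Pt b0 (d • ev b0) y) = 0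
  · have h0 : ∀ y ∈ bx m b0 lo, c (Pt b0 (d • ev b0) y) = 0 :=
      (Finset.sum_eq_zero_iff_of_nonneg fun y _ => hc.nonneg _).1 hz
    have h1 : ∑ y ∈ bx m b0 lo, c (Pt b0 (d • ev b0) y) * h (Pt b0 (d • ev b0) y) ^ 2 = 0 :=
      Finset.sum_eq_zero fun y hy => by rw [h0 y hy, zero_mul]
    rw [h1, hz, div_zero, sub_zero]
    exact mul_nonneg hK (Finset.sum_nonneg fun y _ => Jl_nonneg hc.nonneg _ _ _)
  · have hs : ∀ y, ∑ v, Pt b0 (d • ev b0) y v = d := by
      intro y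
      rw [Pt_sum]
      simp [ev_apply']
    have hs' : ∀ (y : V → ℤ) (p : V), ∑ v, (Pt b0 (d • ev b0) y - ev b0 + ev p) v = d := by
      intro y p
      simp only [Pi.add_apply, Pi.sub_apply, Finset.sum_add_distrib, Finset.sum_sub_distrib, hs y,
        sum_ev]
      ring
    obtain ⟨cn, h0, hAF, hpos, hlim⟩ := hc.ex
    have hL : Filter.Tendsto (fun n =>
        ∑ y ∈ bx m b0 lo, cn n (Pt b0 (d • ev b0) y) * h (Pt b0 (d • ev b0) y) ^ 2
        - (∑ y ∈ bx m b0 lo, cn n (Pt b0 (d • ev b0) y) * h (Pt b0 (d • ev b0) y)) ^ 2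
          / ∑ y ∈ bx m b0 lo, cn n (Pt b0 (d • ev b0) y)) Filter.atTop
        (nhds (∑ y ∈ bx m b0 lo, c (Pt b0 (d • ev b0) y) * h (Pt b0 (d • ev b0) y) ^ 2
        - (∑ y ∈ bx m b0 lo, c (Pt b0 (d • ev b0) y) * h (Pt b0 (d • ev b0) y)) ^ 2
          / ∑ y ∈ bx m b0 lo, c (Pt b0 (d • ev b0) y))) := by
      refine Filter.Tendsto.sub ?_ (Filter.Tendsto.div (Filter.Tendsto.pow ?_ 2) ?_ hz)
      · exact tendsto_finsetSum _ fun y _ => (hlim _ (hs y)).mul tendsto_const_nhds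
      · exact tendsto_finsetSum _ fun y _ => (hlim _ (hs y)).mul tendsto_const_nhds
      · exact tendsto_finsetSum _ fun y _ => hlim _ (hs y)
    have hR : Filter.Tendsto (fun n => ((m : ℝ) + 1) ^ 2 * Kst V m * Fintype.card V
        * ∑ y ∈ bx m b0 lo, Jl (cn n) h b0 (d • ev b0) y) Filter.atTop
        (nhds (((m : ℝ) + 1) ^ 2 * Kst V m * Fintype.card V
        * ∑ y ∈ bx m b0 lo, Jl c h b0 (d • ev b0) y)) := by
      refine Filter.Tendsto.mul tendsto_const_nhds ?_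
      refine tendsto_finsetSum _ fun y _ => ?_
      unfold Jl Fk
      refine tendsto_finsetSum _ fun p _ => tendsto_finsetSum _ fun q _ => ?_
      exact ((hlim _ (hs' y p)).min (hlim _ (hs' y q))).mul tendsto_const_nhds
    exact le_of_tendsto_of_tendsto' hL hR fun n =>
      link_pos (h0 n) (hAF n) (hpos n) h b0 lo m

/-- total constant of LINK -/
noncomputable def KL (V : Type*) [Fintype V] (m : ℕ) : ℝ :=
  ((m : ℝ) + 1) ^ 2 * Kst V m * Fintype.card V

theorem KL_nonneg (V : Type*) [Fintype V] (m : ℕ) : 0 ≤ KL V m := by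
  have := Kst_nonneg V m
  unfold KL; positivity

theorem sum_box_eq {G : (V → ℤ) → ℝ} {Λ : Finset (V → ℤ)} {m : ℕ} {b0 : V} {lo : V → ℤ} {d : ℤ}
    (hG1 : ∀ γ, G γ ≠ 0 → γ ∈ Λ) (hG2 : ∀ γ, G γ ≠ 0 → ∑ v, γ v = d)
    (hG3 : ∀ γ, G γ ≠ 0 → ∀ k, lo k ≤ γ k ∧ γ k ≤ lo k + m) :
    ∑ y ∈ bx m b0 lo, G (Pt b0 (d • ev b0) y) = ∑ γ ∈ Λ, G γ := by
  have h1 : ∑ y ∈ bx m b0 lo, G (Pt b0 (d • ev b0) y)
      = ∑ γ ∈ (bx m b0 lo).image (Pt b0 (d • ev b0)), G γ := by
    rw [Finset.sum_image]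
    intro y hy y' hy' h
    exact Pt_inj hy hy' h
  rw [h1]
  have h2 : ∀ γ, G γ ≠ 0 → γ ∈ (bx m b0 lo).image (Pt b0 (d • ev b0)) := by
    intro γ hγ
    rw [mem_image]
    refine ⟨fun k => if k = b0 then lo b0 else γ k, ?_, ?_⟩
    · rw [mem_bx]
      refine ⟨by simp, fun k hk => ?_⟩
      simp only [if_neg hk]
      exact hG3 γ hγ k
    · funext k
      have hdk : (d • ev b0 : V → ℤ) k = if k = b0 then d else 0 := by
        simp [ev_apply']
      by_cases hk : k = b0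
      · subst hk
        rw [Pt_apply_b0, hdk, if_pos rfl]
        have h3 := hG2 γ hγ
        rw [← Finset.add_sum_erase _ _ (mem_univ k)] at h3 ⊢
        have h4 : ∑ x ∈ univ.erase k, (if x = k then lo k else γ x) = ∑ x ∈ univ.erase k, γ x :=
          Finset.sum_congr rfl fun x hx => by rw [if_neg (ne_of_mem_erase hx)]
        rw [h4]
        simp only [if_true]
        linarith
      · rw [Pt_apply_ne _ _ _ hk, hdk, if_neg hk, if_neg hk, zero_add]
  calc ∑ γ ∈ (bx m b0 lo).image (Pt b0 (d • ev b0)), G γ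
      = ∑ γ ∈ (bx m b0 lo).image (Pt b0 (d • ev b0)) ∪ Λ, G γ := by
        refine Finset.sum_subset subset_union_left fun γ _ hγ => ?_
        by_contra h
        exact hγ (h2 γ h)
    _ = ∑ γ ∈ Λ, G γ := by
        refine (Finset.sum_subset subset_union_right fun γ _ hγ => ?_).symm
        by_contra h
        exact hγ (hG1 γ h)

theorem Jl_sum_le {c h : (V → ℤ) → ℝ} (hc : ∀ γ, 0 ≤ c γ) {Λ : Finset (V → ℤ)}
    (hΛ : ∀ γ, c γ ≠ 0 → γ ∈ Λ) (b0 : V) (lo β : V → ℤ) (m : ℕ) :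
    ∑ y ∈ bx m b0 lo, Jl c h b0 β y ≤ ∑ p, ∑ q, Dm Λ c (ev q - ev p) 1 h := by
  unfold Jl
  rw [Finset.sum_comm]
  refine Finset.sum_le_sum fun p _ => ?_
  rw [Finset.sum_comm]
  refine Finset.sum_le_sum fun q _ => ?_
  unfold Dm
  simp only [one_smul]
  set T : (V → ℤ) → ℝ := fun γ => min (c γ) (c (γ + (ev q - ev p)))
    * (h (γ + (ev q - ev p)) - h γ) ^ 2 with hT
  have hT0 : ∀ γ, 0 ≤ T γ := fun γ => mul_nonneg (le_min (hc _) (hc _)) (sq_nonneg _)
  have h1 : ∀ y, min (Fk c b0 β y p) (Fk c b0 β y q)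
      * (h (Pt b0 β y - ev b0 + ev p) - h (Pt b0 β y - ev b0 + ev q)) ^ 2
      = T (Pt b0 β y - ev b0 + ev p) := by
    intro y
    simp only [hT, Fk]
    rw [show Pt b0 β y - ev b0 + ev p + (ev q - ev p) = Pt b0 β y - ev b0 + ev q by abel]
    ring
  rw [Finset.sum_congr rfl fun y _ => h1 y]
  have h2 : ∑ y ∈ bx m b0 lo, T (Pt b0 β y - ev b0 + ev p)
      = ∑ γ ∈ (bx m b0 lo).image (fun y => Pt b0 β y - ev b0 + ev p), T γ := by
    rw [Finset.sum_image]
    intro y hy y' hy' hh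
    refine Pt_inj hy hy' (β := β) ?_
    have := hh
    simp only at this
    exact sub_left_injective (add_left_injective _ this)
  rw [h2]
  set F := Λ.filter (fun x => x + (ev q - ev p) ∈ Λ) with hF
  have h3 : ∀ γ, T γ ≠ 0 → γ ∈ F := by
    intro γ hγ
    rw [hF, mem_filter]
    have hmin : min (c γ) (c (γ + (ev q - ev p))) ≠ 0 := by
      intro h0; exact hγ (by simp only [hT, h0, zero_mul])
    constructor
    · refine hΛ _ fun h0 => hmin ?_
      rw [h0]; exact min_eq_left (hc _)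
    · refine hΛ _ fun h0 => hmin ?_
      rw [h0]; exact min_eq_right (hc _)
  calc ∑ γ ∈ (bx m b0 lo).image (fun y => Pt b0 β y - ev b0 + ev p), T γ
      ≤ ∑ γ ∈ (bx m b0 lo).image (fun y => Pt b0 β y - ev b0 + ev p) ∪ F, T γ :=
        Finset.sum_le_sum_of_subset_of_nonneg subset_union_left fun γ _ _ => hT0 γ
    _ = ∑ γ ∈ F, T γ := by
        refine (Finset.sum_subset subset_union_right fun γ _ hγ => ?_).symm
        by_contra h
        exact hγ (h3 γ h)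

omit [Fintype V] in
theorem vr_eq {Λ : Finset (V → ℤ)} {c : (V → ℤ) → ℝ} (hc : ∀ γ, 0 ≤ c γ) (h : (V → ℤ) → ℝ) :
    vr Λ c h = ∑ γ ∈ Λ, c γ * h γ ^ 2 - (∑ γ ∈ Λ, c γ * h γ) ^ 2 / ∑ γ ∈ Λ, c γ := by
  by_cases hz : ∑ γ ∈ Λ, c γ = 0
  · have h0 : ∀ y ∈ Λ, c y = 0 := (Finset.sum_eq_zero_iff_of_nonneg fun y _ => hc _).1 hz
    rw [hz, div_zero, sub_zero]
    unfold vr S
    rw [Finset.sum_eq_zero fun y hy => by rw [h0 y hy, zero_mul],
      Finset.sum_eq_zero fun y hy => by rw [h0 y hy, zero_mul]]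
  · unfold vr mn S
    set Z := ∑ γ ∈ Λ, c γ with hZ
    set μ := (∑ γ ∈ Λ, c γ * h γ) / Z with hμ
    have hmu : ∑ γ ∈ Λ, c γ * h γ = Z * μ := by rw [hμ, mul_div_cancel₀ _ hz]
    have e : ∀ γ ∈ Λ, c γ * (h γ - μ) ^ 2
        = c γ * h γ ^ 2 - 2 * μ * (c γ * h γ) + μ ^ 2 * c γ := fun γ _ => by ring
    rw [Finset.sum_congr rfl e, Finset.sum_add_distrib, Finset.sum_sub_distrib, ← Finset.mul_sum,
      ← Finset.mul_sum, ← hZ, hmu]
    field_simp
    ring

/-- **LINK**: Poincaré inequality for the unit exchange walk of a finitely supported Lorentzian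
weight. -/
theorem link_fin {c : (V → ℤ) → ℝ} {d : ℤ} (hc : LA d c) {Λ : Finset (V → ℤ)}
    (hΛ : ∀ γ, c γ ≠ 0 → γ ∈ Λ) {lo : V → ℤ} {m : ℕ}
    (hbox : ∀ γ, c γ ≠ 0 → ∀ k, lo k ≤ γ k ∧ γ k ≤ lo k + m) (h : (V → ℤ) → ℝ) :
    vr Λ c h ≤ KL V m * ∑ p, ∑ q, Dm Λ c (ev q - ev p) 1 h := by
  rcases isEmpty_or_nonempty V with hV | ⟨⟨b0⟩⟩
  · -- one point
    have hle : vr Λ c h = 0 := by
      rw [vr_eq hc.nonneg]
      have : ∀ γ : V → ℤ, γ = 0 := fun γ => Subsingleton.elim _ _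
      have e2 : ∑ γ ∈ Λ, c γ * h γ ^ 2 = h 0 ^ 2 * ∑ γ ∈ Λ, c γ := by
        rw [Finset.mul_sum]
        exact Finset.sum_congr rfl fun γ _ => by rw [this γ]; ring
      have e1 : ∑ γ ∈ Λ, c γ * h γ = h 0 * ∑ γ ∈ Λ, c γ := by
        rw [Finset.mul_sum]
        exact Finset.sum_congr rfl fun γ _ => by rw [this γ]; ring
      rw [e1, e2]
      by_cases hz : ∑ γ ∈ Λ, c γ = 0
      · rw [hz]; simp
      · field_simp
        ring
    rw [hle]
    simp
  · have h1 := link_box hc h b0 lo m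
    rw [sum_box_eq (G := fun γ => c γ * h γ ^ 2) (Λ := Λ)
        (fun γ hγ => hΛ γ (left_ne_zero_of_mul hγ)) (fun γ hγ => hc.deg γ (left_ne_zero_of_mul hγ))
        (fun γ hγ => hbox γ (left_ne_zero_of_mul hγ)),
      sum_box_eq (G := fun γ => c γ * h γ) (Λ := Λ)
        (fun γ hγ => hΛ γ (left_ne_zero_of_mul hγ)) (fun γ hγ => hc.deg γ (left_ne_zero_of_mul hγ))
        (fun γ hγ => hbox γ (left_ne_zero_of_mul hγ)),
      sum_box_eq (G := c) (Λ := Λ) hΛ hc.deg hbox, ← vr_eq hc.nonneg] at h1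
    refine h1.trans ?_
    exact mul_le_mul_of_nonneg_left (Jl_sum_le hc.nonneg hΛ b0 lo _ m) (KL_nonneg V m)

/-! ### windows -/

/-- log-concave approximation of the indicator of `|t - s| ≤ K` -/
noncomputable def wn (K : ℕ) (s : ℤ) (n : ℕ) (t : ℤ) : ℝ := (1 / 2) ^ (n * ((t - s).natAbs - K))

omit [Fintype V] [DecidableEq V] in
theorem wn_pos (K : ℕ) (s : ℤ) (n : ℕ) (t : ℤ) : 0 < wn K s n t := by unfold wn; positivity

theorem wn_lc (K : ℕ) (s : ℤ) (n : ℕ) (t : ℤ) :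
    wn K s n t * wn K s n (t + 2) ≤ wn K s n (t + 1) ^ 2 := by
  unfold wn
  rw [← pow_add, ← pow_mul]
  apply pow_le_pow_of_le_one (by norm_num) (by norm_num)
  rw [← mul_add, mul_assoc]
  exact Nat.mul_le_mul_left _ (by omega)

theorem wn_lim (K : ℕ) (s t : ℤ) : Filter.Tendsto (fun n => wn K s n t) Filter.atTop
    (nhds (if |t - s| ≤ (K : ℤ) then 1 else 0)) := by
  by_cases h : |t - s| ≤ (K : ℤ)
  · rw [if_pos h]
    have h0 : (t - s).natAbs - K = 0 := by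
      rw [Int.abs_eq_natAbs] at h
      omega
    unfold wn
    simp [h0]
  · rw [if_neg h]
    have h0 : 0 < (t - s).natAbs - K := by
      rw [Int.abs_eq_natAbs] at h
      omega
    unfold wn
    have h1 : Filter.Tendsto (fun n : ℕ => ((1 / 2 : ℝ) ^ ((t - s).natAbs - K)) ^ n) Filter.atTop
        (nhds 0) := by
      apply tendsto_pow_atTop_nhds_zero_of_lt_one (by positivity)
      exact pow_lt_one₀ (by norm_num) (by norm_num) h0.ne'
    refine h1.congr fun n => ?_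
    rw [← pow_mul, mul_comm]

/-- the window around `s` of half-side `K` -/
def Near (K : ℕ) (s β : V → ℤ) : Prop := ∀ k, |β k - s k| ≤ (K : ℤ)

open Classical in
/-- restriction to a window -/
noncomputable def cut (K : ℕ) (s : V → ℤ) (c : (V → ℤ) → ℝ) (β : V → ℤ) : ℝ :=
  if Near K s β then c β else 0

theorem cut_le {c : (V → ℤ) → ℝ} (hc : ∀ β, 0 ≤ c β) (K : ℕ) (s β : V → ℤ) :
    cut K s c β ≤ c β := by
  unfold cut; split_ifs
  · exact le_rfl
  · exact hc β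

theorem cut_nonneg {c : (V → ℤ) → ℝ} (hc : ∀ β, 0 ≤ c β) (K : ℕ) (s β : V → ℤ) :
    0 ≤ cut K s c β := by
  unfold cut; split_ifs
  · exact hc β
  · exact le_rfl

theorem LA.cut {c : (V → ℤ) → ℝ} {d : ℤ} (hc : LA d c) (K : ℕ) (s : V → ℤ) :
    LA d (cut K s c) := by
  classical
  refine ⟨cut_nonneg hc.nonneg K s, fun β hβ => hc.deg β fun h0 => hβ ?_, ?_⟩
  · unfold Link.cut; rw [h0]; simp
  · obtain ⟨cn, h0, hAF, hpos, hlim⟩ := hc.ex
    have hw : ∀ n (β : V → ℤ), 0 < ∏ v, wn K (s v) n (β v) := fun n β =>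
      Finset.prod_pos fun v _ => wn_pos _ _ _ _
    refine ⟨fun n β => cn n β * ∏ v, wn K (s v) n (β v), fun n β => mul_nonneg (h0 n β) (hw n β).le,
      fun n β => ?_, fun n β hβ => mul_pos (hpos n β hβ) (hw n β), fun β hβ => ?_⟩
    · exact AnnBox.af_mul_sep (h0 n) (hAF n) (ω := fun v => wn K (s v) n)
        (fun v k => wn_pos _ _ _ _) (fun v k => wn_lc _ _ _ _) β
    · have h1 := (hlim β hβ).mul (tendsto_finsetProd (univ : Finset V) fun v _ =>
        wn_lim K (s v) (β v))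
      have h2 : c β * ∏ v, (if |β v - s v| ≤ (K : ℤ) then (1 : ℝ) else 0) = Link.cut K s c β := by
        unfold Link.cut Near
        by_cases hn : ∀ k, |β k - s k| ≤ (K : ℤ)
        · rw [if_pos hn, Finset.prod_congr rfl fun v _ => if_pos (hn v)]
          simp
        · rw [if_neg hn]
          push Not at hn
          obtain ⟨k, hk⟩ := hn
          rw [Finset.prod_eq_zero (mem_univ k) (if_neg (not_le.2 hk)), mul_zero]
      rw [h2] at h1
      exact h1

omit [Fintype V] [DecidableEq V] in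
/-- restriction of the weight costs only the removed mass -/
theorem vr_restrict {Y : Type*} {Λ : Finset Y} {c c' : Y → ℝ} (h0 : ∀ y ∈ Λ, 0 ≤ c' y)
    (hle : ∀ y ∈ Λ, c' y ≤ c y) {f : Y → ℝ} {M : ℝ} (hf : ∀ y, |f y| ≤ M) (hM : 0 ≤ M) :
    vr Λ c f ≤ vr Λ c' f + 4 * M ^ 2 * ∑ y ∈ Λ, (c y - c' y) := by
  set t := mn Λ c' f with ht
  have htM : |t| ≤ M := by
    rw [ht]
    unfold mn S
    by_cases hz : ∑ y ∈ Λ, c' y = 0
    · rw [hz, div_zero, abs_zero]; exact hM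
    · have hZ : 0 < ∑ y ∈ Λ, c' y := lt_of_le_of_ne (Finset.sum_nonneg h0) (Ne.symm hz)
      rw [abs_div, abs_of_pos hZ, div_le_iff₀ hZ, Finset.mul_sum]
      refine (Finset.abs_sum_le_sum_abs _ _).trans (Finset.sum_le_sum fun y hy => ?_)
      rw [abs_mul, abs_of_nonneg (h0 y hy), mul_comm]
      exact mul_le_mul_of_nonneg_right (hf _) (h0 y hy)
  have h1 : vr Λ c f ≤ ∑ y ∈ Λ, c y * (f y - t) ^ 2 := by
    by_cases hz : ∑ y ∈ Λ, c y = 0
    · have hc0 : ∀ y ∈ Λ, c y = 0 := (Finset.sum_eq_zero_iff_of_nonneg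
        fun y hy => (h0 y hy).trans (hle y hy)).1 hz
      unfold vr S
      rw [Finset.sum_eq_zero fun y hy => by rw [hc0 y hy, zero_mul],
        Finset.sum_eq_zero fun y hy => by rw [hc0 y hy, zero_mul]]
    · exact vr_le hz (fun y hy => (h0 y hy).trans (hle y hy)) f t
  have h2 : ∑ y ∈ Λ, c y * (f y - t) ^ 2
      = vr Λ c' f + ∑ y ∈ Λ, (c y - c' y) * (f y - t) ^ 2 := by
    unfold vr S
    rw [← ht, ← Finset.sum_add_distrib]
    exact Finset.sum_congr rfl fun y _ => by ring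
  have h3 : ∑ y ∈ Λ, (c y - c' y) * (f y - t) ^ 2 ≤ 4 * M ^ 2 * ∑ y ∈ Λ, (c y - c' y) := by
    rw [Finset.mul_sum]
    refine Finset.sum_le_sum fun y hy => ?_
    have h4 : (f y - t) ^ 2 ≤ 4 * M ^ 2 := by
      have h5 := hf y
      have h6 : |f y - t| ≤ 2 * M := (abs_sub _ _).trans (by linarith)
      have h7 := abs_nonneg (f y - t)
      nlinarith [sq_abs (f y - t)]
    have h5 : 0 ≤ c y - c' y := sub_nonneg.2 (hle y hy)
    nlinarith
  linarith

omit [Fintype V] [DecidableEq V] in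
theorem Dm_mono {G : Type*} [AddCommGroup G] [DecidableEq G] {Λ : Finset G} {c c' : G → ℝ}
    (hle : ∀ y, c' y ≤ c y) (e : G) (s : ℕ) (f : G → ℝ) : Dm Λ c' e s f ≤ Dm Λ c e s f := by
  unfold Dm
  exact Finset.sum_le_sum fun y _ =>
    mul_le_mul_of_nonneg_right (min_le_min (hle _) (hle _)) (sq_nonneg _)

/-- LINK for the weight restricted to a window -/
theorem link_cut {c : (V → ℤ) → ℝ} {d : ℤ} (hc : LA d c) {Λ : Finset (V → ℤ)}
    (hΛ : ∀ γ, c γ ≠ 0 → γ ∈ Λ) (K : ℕ) (s : V → ℤ) (h : (V → ℤ) → ℝ) :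
    vr Λ (cut K s c) h ≤ KL V (2 * K) * ∑ p, ∑ q, Dm Λ (cut K s c) (ev q - ev p) 1 h := by
  have h0 : ∀ γ, cut K s c γ ≠ 0 → Near K s γ ∧ c γ ≠ 0 := by
    intro γ hγ
    unfold cut at hγ
    by_cases hn : Near K s γ
    · rw [if_pos hn] at hγ; exact ⟨hn, hγ⟩
    · rw [if_neg hn] at hγ; exact absurd rfl hγ
  refine link_fin (hc.cut K s) (lo := fun k => s k - K) (m := 2 * K)
    (fun γ hγ => hΛ γ (h0 γ hγ).2) (fun γ hγ k => ?_) h
  have h1 := abs_le.1 ((h0 γ hγ).1 k)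
  push_cast
  constructor <;> linarith [h1.1, h1.2]

open Classical in
/-- **LINK, windowed**: the constant depends only on the window -/
theorem link_win {c : (V → ℤ) → ℝ} {d : ℤ} (hc : LA d c) {Λ : Finset (V → ℤ)}
    (hΛ : ∀ γ, c γ ≠ 0 → γ ∈ Λ) (K : ℕ) (s : V → ℤ) {h : (V → ℤ) → ℝ} {M : ℝ}
    (hM : 0 ≤ M) (hh : ∀ γ, |h γ| ≤ M) :
    vr Λ c h ≤ KL V (2 * K) * ∑ p, ∑ q, Dm Λ c (ev q - ev p) 1 h
      + 4 * M ^ 2 * ∑ γ ∈ Λ.filter (fun γ => ¬ Near K s γ), c γ := by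
  have h1 := vr_restrict (Λ := Λ) (fun y _ => cut_nonneg hc.nonneg K s y)
    (fun y _ => cut_le hc.nonneg K s y) hh hM
  have h2 := link_cut hc hΛ K s h
  have h3 : ∑ p : V, ∑ q : V, Dm Λ (cut K s c) (ev q - ev p) 1 h
      ≤ ∑ p, ∑ q, Dm Λ c (ev q - ev p) 1 h :=
    Finset.sum_le_sum fun p _ => Finset.sum_le_sum fun q _ =>
      Dm_mono (cut_le hc.nonneg K s) _ _ _
  have h4 : ∑ y ∈ Λ, (c y - cut K s c y) = ∑ γ ∈ Λ.filter (fun γ => ¬ Near K s γ), c γ := by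
    rw [Finset.sum_filter]
    refine Finset.sum_congr rfl fun y _ => ?_
    unfold cut
    by_cases hn : Near K s y
    · rw [if_pos hn, if_neg (not_not.2 hn), sub_self]
    · rw [if_neg hn, if_pos hn, sub_zero]
  rw [h4] at h1
  have h5 := mul_le_mul_of_nonneg_left h3 (KL_nonneg V (2 * K))
  linarith

end Crest.Agent.R302.Link
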