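import Crest.Agent.R302.Joint342
import Crest.Agent.R302.Hard674
import Crest.Agent.R302.Inst532D
import Crest.Agent.R302.Stage536

/-!
R302 (helper342): LINK and JOINT for the official soft sides (helper532's `Inst.Side`).

* `la_lw` : the link weight `β ↦ S.lw θ μ x β` is in the class `LA` (limits of positive weights with
  the Alexandrov-Fenchel property), from helper674's `approx_FFp`;
* `linkHyp` : the link hypothesis of `Joint.joint`;
* `mar_nu` : the marginal of `nu` is `W₁ W₂`;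
* `nu_cmp` : comparability of `nu` along `x`-moves;
* `side_joint` : MACRO + JOINT for a pair of sides.
-/

set_option autoImplicit false
set_option linter.unusedSectionVars false

namespace Crest.Agent.R302.LInst

open Finset Crest.Agent.R302.Lor Crest.Agent.R302.Inst Crest.Agent.R302.Link
open Crest.Agent.R302.Macro
open Crest.Agent.R302.Inst.Side (Gauge tcost fcost tcost_neg fcost_neg)
open Crest.Agent.R302.Tree (RTree)
open Crest.Agent.R302.Tree.RTree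

variable {E : Type*} [Fintype E] [DecidableEq E]

/-! ### the rooted tree of one side -/

/-- the rooted tree of one side: thin elements hang on the root `none` -/
def tr (T : MP3.Forest E) : RTree (Option E) where
  par := fun p => match p with
    | none => none
    | some e => T.par e
  root := none
  dep := fun p => match p with
    | none => 0
    | some e => T.dep e + 1
  dep_lt := by
    rintro (_ | e) hq
    · exact absurd rfl hq
    · rcases h : T.par e with _ | b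
      · simp [h]
      · simpa [h] using T.dep_lt e b h

/-- lift to `Option E` -/
def lift (x : E → ℤ) : Option E → ℤ := fun p => match p with
  | none => 0
  | some e => x e

theorem lift_injective : Function.Injective (lift (E := E)) := fun x y h => by
  funext e; exact congrFun h (some e)

theorem lift_add (x y : E → ℤ) : lift (x + y) = lift x + lift y := by
  funext p; rcases p with _ | e <;> simp [lift]

theorem lift_sub (x y : E → ℤ) : lift (x - y) = lift x - lift y := by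
  funext p; rcases p with _ | e <;> simp [lift]

theorem lift_ev (a : E) : lift (ev a) = ev (some a) := by
  funext p
  rcases p with _ | e
  · simp [lift, ev]
  · simp [lift, ev, Pi.single_apply]

theorem sum_lift (x : E → ℤ) (A : Finset (Option E)) :
    ∑ p ∈ A, lift x p = ∑ e ∈ univ.filter (fun e => some e ∈ A), x e := by
  have h1 : ∑ p ∈ A, lift x p = ∑ p, if p ∈ A then lift x p else 0 := by
    rw [← Finset.sum_filter, Finset.filter_mem_eq_inter, Finset.univ_inter]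
  rw [h1, Fintype.sum_option, Finset.sum_filter]
  simp [lift]

theorem sum_lift_univ (x : E → ℤ) : ∑ p, lift x p = ∑ e, x e := by
  rw [Fintype.sum_option]
  simp [lift]

theorem desc_tr (T : MP3.Forest E) (a : E) (q : Option E) :
    (tr T).Desc (some a) q ↔ ∃ b, q = some b ∧ T.Le b a := by
  constructor
  · intro h
    induction h with
    | refl => exact ⟨a, rfl, MP3.Forest.Le.refl T a⟩
    | step q hq _ ih =>
      obtain ⟨b', hb', hle⟩ := ih
      rcases q with _ | e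
      · exact absurd rfl hq
      · exact ⟨e, rfl, (MP3.Forest.Le.of_par hb').trans hle⟩
  · rintro ⟨b, rfl, h⟩
    unfold MP3.Forest.Le at h
    induction h using Relation.ReflTransGen.head_induction_on with
    | refl => exact RTree.Desc.refl
    | head hx _ ih =>
      refine RTree.Desc.step _ (by simp [tr]) ?_
      simpa [tr, hx] using ih

theorem icut_lift (T : MP3.Forest E) (x : E → ℤ) (a : E) :
    AFC.icut (tr T) (lift x) (some a) = bs T x a := by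
  unfold AFC.icut bs
  rw [sum_lift]
  refine Finset.sum_congr ?_ fun _ _ => rfl
  ext b
  rw [mem_filter, RTree.mem_desc, desc_tr, MP3.Forest.mem_sub]
  simp

/-! ### the lifted submodular function -/

/-- lifted rank function -/
def rl (r : Finset E → ℤ) (A : Finset (Option E)) : ℤ := r (univ.filter (fun e => some e ∈ A))

theorem rl_subM {r : Finset E → ℤ} {R : ℤ} (hr : Facet.SubM r R) : Facet.SubM (rl r) R where
  sub A B := by
    unfold rl
    have h1 : univ.filter (fun e : E => some e ∈ A ∪ B)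
        = univ.filter (fun e => some e ∈ A) ∪ univ.filter (fun e => some e ∈ B) := by
      ext e; simp
    have h2 : univ.filter (fun e : E => some e ∈ A ∩ B)
        = univ.filter (fun e => some e ∈ A) ∩ univ.filter (fun e => some e ∈ B) := by
      ext e; simp
    rw [h1, h2]
    exact hr.sub _ _
  empty := by
    unfold rl
    have : univ.filter (fun e : E => some e ∈ (∅ : Finset (Option E))) = ∅ := by ext e; simp
    rw [this]; exact hr.empty
  univ := by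
    unfold rl
    have : univ.filter (fun e : E => some e ∈ (Finset.univ : Finset (Option E))) = Finset.univ := by
      ext e; simp
    rw [this]; exact hr.univ

theorem memJ_rl {r : Finset E → ℤ} {R : ℤ} (hr : Facet.SubM r R) (z' : Option E → ℤ) :
    Facet.MemJ (rl r) R z' ↔ ∃ z, Facet.MemJ r R z ∧ lift z = z' := by
  constructor
  · rintro ⟨h1, h2⟩
    have hn : z' none ≤ 0 := by
      have := h1 {none}
      rw [sum_singleton] at this
      have e : rl r {none} = 0 := by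
        unfold rl
        have : univ.filter (fun e : E => some e ∈ ({none} : Finset (Option E))) = ∅ := by
          ext e; simp
        rw [this]; exact hr.empty
      rwa [e] at this
    have hs : ∑ e, z' (some e) ≤ R := by
      have := h1 (univ.erase none)
      have e : rl r (univ.erase none) = R := by
        unfold rl
        have : univ.filter (fun e : E => some e ∈ (Finset.univ : Finset (Option E)).erase none)
            = Finset.univ := by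
          ext e; simp
        rw [this]; exact hr.univ
      rw [e] at this
      have h3 : ∑ a ∈ univ.erase none, z' a = ∑ e, z' (some e) := by
        have := Finset.add_sum_erase univ z' (mem_univ none)
        rw [Fintype.sum_option] at this
        linarith
      linarith
    have h2' := h2
    rw [Fintype.sum_option] at h2'
    have h0 : z' none = 0 := by linarith
    have hz : lift (fun e => z' (some e)) = z' := by
      funext p; rcases p with _ | e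
      · simp [lift, h0]
      · simp [lift]
    refine ⟨fun e => z' (some e), ⟨fun A => ?_, by linarith⟩, hz⟩
    have h4 := h1 (A.map Function.Embedding.some)
    have e1 : rl r (A.map Function.Embedding.some) = r A := by
      unfold rl
      congr 1
      ext e; simp
    rw [e1, Finset.sum_map] at h4
    exact h4
  · rintro ⟨z, ⟨h1, h2⟩, rfl⟩
    refine ⟨fun A => ?_, by rw [sum_lift_univ]; exact h2⟩
    rw [sum_lift]
    exact h1 _

/-! ### the loads -/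

variable {S : Side E}

theorem load_add (x : E → ℤ) (β : S.Blk → ℤ) (u : S.Blk) :
    S.load x (β + ev u) = S.load x β + ev (u : E) := by
  funext a
  unfold Side.load
  rw [Pi.add_apply]
  by_cases h : S.T.par a = none
  · simp only [dif_pos h, Pi.add_apply]
    have : (ev u : S.Blk → ℤ) ⟨a, h⟩ = (ev (u : E) : E → ℤ) a := by
      simp only [ev_apply']
      by_cases hu : a = (u : E)
      · rw [if_pos hu, if_pos (Subtype.ext hu)]
      · rw [if_neg hu, if_neg (fun h' => hu (congrArg Subtype.val h'))]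
    rw [this]
    ring
  · simp only [dif_neg h]
    have : (ev (u : E) : E → ℤ) a = 0 := by
      rw [ev_apply', if_neg]
      intro hu
      exact h (hu ▸ u.2)
    rw [this, add_zero]

theorem sum_thin (T : MP3.Forest E) (x : E → ℤ) :
    ∑ e, x e = ∑ r : {a : E // T.par a = none}, bs T x r := by
  have h1 := MP3.Forest.tele_all (F := T) (fun c => (x c : ℝ)) (fun _ => 1)
  have h2 : ∀ b, (∑ c ∈ T.sub b, (x c : ℝ)) * ((1 : ℝ) - (T.par b).elim 0 (fun _ => 1))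
      = if T.par b = none then ((bs T x b : ℤ) : ℝ) else 0 := by
    intro b
    rcases h : T.par b with _ | c
    · simp [bs]
    · simp
  simp only [mul_one, h2] at h1
  have h3 : ((∑ e, x e : ℤ) : ℝ) = ((∑ r : {a : E // T.par a = none}, bs T x r : ℤ) : ℝ) := by
    push_cast
    rw [h1, ← Finset.sum_filter]
    exact Finset.sum_subtype _ (fun a => by simp) (fun a => ((bs T x a : ℤ) : ℝ))
  exact_mod_cast h3

theorem sum_load (x : E → ℤ) (β : S.Blk → ℤ) : ∑ e, S.load x β e = ∑ r, β r := by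
  rw [sum_thin S.T]
  refine Finset.sum_congr rfl fun r _ => ?_
  rw [Side.bs_load, dif_pos r.2]

theorem sum_blk (z : E → ℤ) : ∑ r, S.blk z r = ∑ e, z e := (sum_thin S.T z).symm

/-! ### the link weight is in the class `LA` -/

variable {r : Finset E → ℤ} {R : ℤ} {ω : E → ℤ → ℝ}

theorem ff_support {x : E → ℤ} {β : S.Blk → ℤ} (h : S.ff x β ≠ 0) : ∃ z ∈ S.J, S.blk z = β := by
  by_contra hne
  push Not at hne
  apply h
  unfold Side.ff
  refine Finset.sum_eq_zero fun z hz => ?_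
  have h1 := hne z hz
  have h2 : ∃ r : S.Blk, S.blk z r ≠ β r := by
    by_contra h3
    push Not at h3
    exact h1 (funext h3)
  obtain ⟨r, hr⟩ := h2
  have h3 : S.fk x β z r = 0 := by
    unfold Side.fk
    rw [dif_pos r.2, if_neg]
    exact hr
  rw [Finset.prod_eq_zero (mem_univ (r : E)) h3, mul_zero]

theorem ff_eq_FFp (h : Shape S r R ω) (ps : List (Option E))
    (hps : ∀ p, p ∈ ps ↔ ∃ a, p = some a ∧ S.T.par a ≠ none) (x : E → ℤ) (β : S.Blk → ℤ) :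
    S.ff x β = AFC.FFp (tr S.T)
      (fun p t => match p with
        | none => 1
        | some a => if S.T.par a = none then 1 else S.κ a (-t)) ps (S.J.image lift)
      (AFC.sep (fun p k => match p with
        | none => 1
        | some a => ω a k)) (lift (S.load x β)) := by
  classical
  unfold Side.ff AFC.FFp
  rw [Finset.sum_image fun z _ z' _ hzz => lift_injective hzz]
  refine Finset.sum_congr rfl fun z hz => ?_
  have e1 : AFC.sep (fun (p : Option E) (k : ℤ) => match p with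
        | none => (1 : ℝ)
        | some a => ω a k) (lift z) = S.g z := by
    rw [h.wt z hz]
    unfold AFC.sep
    rw [Fintype.prod_option]
    simp [lift]
  rw [e1]
  congr 1
  have e2 : ∀ G : Option E → ℝ, ∏ q ∈ univ.erase (tr S.T).root, G q = ∏ a, G (some a) := by
    intro G
    have : (univ.erase (tr S.T).root : Finset (Option E)) = univ.map Function.Embedding.some := by
      ext p
      rcases p with _ | a
      · simp [tr]
      · simp [tr]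
    rw [this, Finset.prod_map]
    rfl
  rw [e2]
  refine Finset.prod_congr rfl fun a _ => ?_
  rw [← lift_sub, icut_lift, bs_sub, Side.bs_load]
  unfold Side.fk
  by_cases ha : S.T.par a = none
  · have hnp : some a ∉ ps := by
      rw [hps]
      rintro ⟨b, hb, hb'⟩
      exact hb' ((Option.some.inj hb) ▸ ha)
    rw [dif_pos ha, dif_pos ha, if_neg hnp]
    refine if_congr ?_ rfl rfl
    constructor
    · intro h1; rw [h1, sub_self]
    · intro h1; linarith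
  · rw [dif_neg ha, dif_neg ha, if_pos ((hps _).2 ⟨a, rfl, ha⟩)]
    simp only [if_neg ha]
    congr 1
    ring

theorem theta_lc {θ : ℝ} (h0 : 0 < θ) (h1 : θ ≤ 1) (t k : ℤ) :
    θ ^ (k - t).natAbs * θ ^ (k + 2 - t).natAbs ≤ (θ ^ (k + 1 - t).natAbs) ^ 2 := by
  rw [← pow_add, ← pow_mul]
  exact pow_le_pow_of_le_one h0.le h1 (by omega)

/-- **the link weight is a limit of positive AF weights** -/
theorem la_lw (h : Shape S r R ω) {θ : ℝ} (h0 : 0 < θ) (h1 : θ ≤ 1) {μ : E → ℝ}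
    (hμ : ∀ a, 0 < μ a) (x : E → ℤ) : LA R (S.lw θ μ x) := by
  classical
  have hθμ : ∀ (β : S.Blk → ℤ),
      0 < (∏ r : S.Blk, θ ^ (β r - bs S.T x r).natAbs) * ∏ r : S.Blk, μ r ^ β r := fun β =>
    mul_pos (Finset.prod_pos fun r _ => pow_pos h0 _) (Finset.prod_pos fun r _ => zpow_pos (hμ _) _)
  have hff0 : ∀ β, 0 ≤ S.ff x β := by
    intro β
    unfold Side.ff
    refine Finset.sum_nonneg fun z hz => mul_nonneg ?_ (Finset.prod_nonneg fun a _ => ?_)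
    · rw [h.wt z hz]; exact Finset.prod_nonneg fun v _ => ((h.ωlc v).1 _).le
    · unfold Side.fk
      split_ifs with h2 h3
      · exact zero_le_one
      · exact le_rfl
      · exact ((h.κlc a h2).1 _).le
  refine ⟨fun β => mul_nonneg (hθμ β).le (hff0 β), fun β hβ => ?_, ?_⟩
  · obtain ⟨z, hz, rfl⟩ := ff_support (right_ne_zero_of_mul hβ)
    rw [sum_blk]
    exact ((h.mem z).1 hz).2
  · set f : Option E → ℤ → ℝ := fun p t => match p with
        | none => 1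
        | some a => if S.T.par a = none then 1 else S.κ a (-t) with hf
    set ω' : Option E → ℤ → ℝ := fun p k => match p with
        | none => 1
        | some a => ω a k with hω'
    set ps : List (Option E) := ((univ.filter (fun a => S.T.par a ≠ none)).map
      Function.Embedding.some).toList with hps
    have hmem : ∀ p, p ∈ ps ↔ ∃ a, p = some a ∧ S.T.par a ≠ none := by
      intro p
      rw [hps, Finset.mem_toList, Finset.mem_map]
      constructor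
      · rintro ⟨a, ha, rfl⟩
        exact ⟨a, rfl, (mem_filter.1 ha).2⟩
      · rintro ⟨a, rfl, ha⟩
        exact ⟨a, mem_filter.2 ⟨mem_univ _, ha⟩, rfl⟩
    have hfpos : ∀ p t, 0 < f p t := by
      intro p t
      rcases p with _ | a
      · simp [hf]
      · simp only [hf]
        split_ifs with ha
        · exact zero_lt_one
        · exact (h.κlc a ha).1 _
    have hflc : ∀ p t, f p (t - 1) * f p (t + 1) ≤ f p t ^ 2 := by
      intro p t
      rcases p with _ | a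
      · simp [hf]
      · simp only [hf]
        split_ifs with ha
        · norm_num
        · have := (h.κlc a ha).2 (-t - 1)
          rw [show -t - 1 + 2 = -t + 1 by ring, show -t - 1 + 1 = -t by ring] at this
          rw [show -(t - 1) = -t + 1 by ring, show -(t + 1) = -t - 1 by ring]
          linarith
    have hJ' : ∀ z', z' ∈ S.J.image lift ↔ Facet.MemJ (rl r) R z' := by
      intro z'
      rw [memJ_rl h.sub, Finset.mem_image]
      constructor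
      · rintro ⟨z, hz, rfl⟩; exact ⟨z, (h.mem z).1 hz, rfl⟩
      · rintro ⟨z, hz, rfl⟩; exact ⟨z, (h.mem z).2 hz, rfl⟩
    obtain ⟨ck, hck, hlim⟩ := AFC.approx_FFp (T := tr S.T) hfpos hflc (rl_subM h.sub)
      (ω := ω') (by
        intro p k
        rcases p with _ | a
        · simp [hω']
        · exact (h.ωlc a).1 k) (by
        intro p k
        rcases p with _ | a
        · simp [hω']
        · exact (h.ωlc a).2 k) hJ' (ps := ps) (Finset.nodup_toList _) (by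
        intro p hp
        obtain ⟨a, rfl, _⟩ := (hmem p).1 hp
        simp [tr])
    -- the separable factor on the blocks
    set ωB : S.Blk → ℤ → ℝ := fun r k => θ ^ (k - bs S.T x r).natAbs * μ r ^ k with hωB
    have hωBpos : ∀ r k, 0 < ωB r k := fun r k => mul_pos (pow_pos h0 _) (zpow_pos (hμ _) _)
    have hωBlc : ∀ r k, ωB r k * ωB r (k + 2) ≤ ωB r (k + 1) ^ 2 := by
      intro r k
      have e1 := theta_lc h0 h1 (bs S.T x r) k
      have e2 : μ r ^ k * μ r ^ (k + 2) = (μ r ^ (k + 1)) ^ 2 := by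
        rw [← zpow_natCast, ← zpow_mul, ← zpow_add₀ (hμ r).ne']
        congr 1
        push_cast; ring
      have e3 : 0 < (μ r ^ (k + 1)) ^ 2 := pow_pos (zpow_pos (hμ _) _) 2
      calc ωB r k * ωB r (k + 2) = (θ ^ (k - bs S.T x r).natAbs * θ ^ (k + 2 - bs S.T x r).natAbs)
            * (μ r ^ k * μ r ^ (k + 2)) := by simp only [hωB]; ring
        _ ≤ (θ ^ (k + 1 - bs S.T x r).natAbs) ^ 2 * (μ r ^ (k + 1)) ^ 2 := by
            rw [e2]; exact mul_le_mul_of_nonneg_right e1 e3.le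
        _ = ωB r (k + 1) ^ 2 := by simp only [hωB]; ring
    have hsepB : ∀ β : S.Blk → ℤ, ∏ r, ωB r (β r)
        = (∏ r : S.Blk, θ ^ (β r - bs S.T x r).natAbs) * ∏ r : S.Blk, μ r ^ β r := by
      intro β
      simp only [hωB, Finset.prod_mul_distrib]
    have hH : ∀ n, ∀ β : S.Blk → ℤ,
        AF (fun u v => ck n (lift (S.load x (β + ev u + ev v)))) := by
      intro n β
      have hAF := (hck n).2 (lift (S.load x β))
      refine hAF.pull (k := 1) zero_le_one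
        (fun y p => match p with
          | none => 0
          | some a => if ha : S.T.par a = none then y ⟨a, ha⟩ else 0) ?_
      intro y y'
      rw [one_mul]
      unfold Q
      rw [Fintype.sum_option]
      simp only [zero_mul, Finset.sum_const_zero, zero_add]
      have e4 : ∀ G : E → ℝ, (∀ a, S.T.par a ≠ none → G a = 0) →
          ∑ a, G a = ∑ r : S.Blk, G r := by
        intro G hG
        rw [← Finset.sum_subtype (univ.filter (fun a => S.T.par a = none)) (fun a => by simp) G,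
          Finset.sum_filter]
        refine Finset.sum_congr rfl fun a _ => ?_
        split_ifs with ha
        · rfl
        · exact hG a ha
      rw [e4]
      · refine Finset.sum_congr rfl fun u _ => ?_
        rw [Fintype.sum_option]
        simp only [mul_zero, zero_mul, zero_add]
        rw [e4]
        · refine Finset.sum_congr rfl fun v _ => ?_
          rw [dif_pos u.2, dif_pos v.2, load_add, load_add, lift_add, lift_add, lift_ev, lift_ev]
        · intro a ha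
          rw [dif_neg ha]; ring
      · intro a ha
        simp only [dif_neg ha, zero_mul, Finset.sum_const_zero]
    refine ⟨fun n β => ck n (lift (S.load x β)) * ∏ r, ωB r (β r), fun n β => ?_, fun n β => ?_,
      fun n β _ => ?_, fun β hβ => ?_⟩
    · exact mul_nonneg ((hck n).1 _).le (Finset.prod_nonneg fun r _ => (hωBpos r _).le)
    · exact AnnBox.af_mul_sep (c := fun β => ck n (lift (S.load x β)))
        (fun β => ((hck n).1 _).le) (hH n) hωBpos hωBlc β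
    · exact mul_pos ((hck n).1 _) (Finset.prod_pos fun r _ => hωBpos r _)
    · have h5 := (hlim (lift (S.load x β)) (by rw [sum_lift_univ, sum_load]; exact hβ)).mul_const
        (∏ r, ωB r (β r))
      rw [← ff_eq_FFp h ps hmem x β] at h5
      have e5 : S.ff x β * ∏ r, ωB r (β r) = S.lw θ μ x β := by
        rw [hsepB]; unfold Side.lw; ring
      rw [e5] at h5
      exact h5

/-! ### the link hypothesis, the marginal, comparability -/

theorem linkHyp (h : Shape S r R ω) {θ : ℝ} (h0 : 0 < θ) (h1 : θ ≤ 1) {μ : E → ℝ}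
    (hμ : ∀ a, 0 < μ a) (B : Finset (E → ℤ)) {Λ : Finset (S.Blk → ℤ)}
    (hΛ : ∀ z ∈ S.J, S.blk z ∈ Λ) : Joint.LinkHyp B (fun x => S.lw θ μ x) Λ where
  la := fun x _ => ⟨R, la_lw h h0 h1 hμ x⟩
  supp := fun x _ β hβ => by
    obtain ⟨z, hz, rfl⟩ := ff_support (right_ne_zero_of_mul hβ)
    exact hΛ z hz

variable {S₁ S₂ : Side E} {b₁ b₂ D₁ D₂ : E → ℝ} {θ : ℝ} {μ : E → ℝ} {β₀ : ℝ}

/-- the joint weight in the coordinates of `Joint` -/
noncomputable def jnu (S₁ S₂ : Side E) (θ : ℝ) (μ : E → ℝ) :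
    (E → ℤ) × ((S₁.Blk → ℤ) × (S₂.Blk → ℤ)) → ℝ :=
  Joint.nu (fun x => S₁.lw θ μ x) (fun x => S₂.lw θ (fun e => (μ e)⁻¹) x)

theorem jnu_eq (x : E → ℤ) (β₁ : S₁.Blk → ℤ) (β₂ : S₂.Blk → ℤ) :
    jnu S₁ S₂ θ μ (x, (β₁, β₂)) = Inst.nu S₁ S₂ θ μ x β₁ β₂ := rfl

theorem gauge_inv (h : Gauge S₁ μ) : Gauge S₁ (fun e => (μ e)⁻¹) :=
  ⟨fun a => inv_pos.2 (h.1 a), fun a b hab => by simp only [h.2 a b hab]⟩

/-- the marginal -/
theorem mar_jnu (hG₁ : Gauge S₁ μ) (hG₂ : Gauge S₂ μ) {Λ₁ : Finset (S₁.Blk → ℤ)}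
    {Λ₂ : Finset (S₂.Blk → ℤ)} (hΛ₁ : ∀ z ∈ S₁.J, S₁.blk z ∈ Λ₁) (hΛ₂ : ∀ z ∈ S₂.J, S₂.blk z ∈ Λ₂)
    (x : E → ℤ) : Joint.mar (Λ₁ ×ˢ Λ₂) (jnu S₁ S₂ θ μ) x
      = S₁.W θ μ x * S₂.W θ (fun e => (μ e)⁻¹) x := by
  rw [S₁.W_eq_sum_lw θ hG₁ x Λ₁ hΛ₁, S₂.W_eq_sum_lw θ (gauge_inv hG₂) x Λ₂ hΛ₂,
    Finset.sum_mul_sum]
  unfold Joint.mar
  rw [Finset.sum_product]
  rfl

/-- cost of a move in the ratio of weights -/
noncomputable def rat (S₁ S₂ : Side E) (θ : ℝ) (b₁ b₂ : E → ℝ) (c : E → ℤ) : ℝ :=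
  (θ⁻¹) ^ (tcost S₁.T c + tcost S₂.T c) * Real.exp (fcost S₁.T b₁ c + fcost S₂.T b₂ c)

theorem tcost_nsmul (T : MP3.Forest E) (s : ℕ) (c : E → ℤ) : tcost T (s • c) = s * tcost T c := by
  classical
  unfold tcost
  rw [Finset.mul_sum]
  refine Finset.sum_congr rfl fun a _ => ?_
  rw [show s • c = (s : ℤ) • c by simp, bs_smul, Int.natAbs_mul, Int.natAbs_natCast]

theorem fcost_nsmul (T : MP3.Forest E) (b : E → ℝ) (s : ℕ) (c : E → ℤ) :
    fcost T b (s • c) = s * fcost T b c := by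
  classical
  unfold fcost
  rw [Finset.mul_sum]
  refine Finset.sum_congr rfl fun a _ => ?_
  rw [show s • c = (s : ℤ) • c by simp, bs_smul, Int.natAbs_mul, Int.natAbs_natCast]
  push_cast
  ring

theorem fcost_nonneg {T : MP3.Forest E} {b : E → ℝ} (hb : ∀ a, T.par a ≠ none → 0 ≤ b a)
    (c : E → ℤ) : 0 ≤ fcost T b c := by
  classical
  unfold fcost
  refine Finset.sum_nonneg fun a ha => mul_nonneg (hb a (mem_filter.1 ha).2) (Nat.cast_nonneg _)

theorem rat_mono (h : Pair S₁ S₂ b₁ D₁ b₂ D₂ θ μ β₀) {s l : ℕ} (hsl : s ≤ l) (c : E → ℤ) :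
    rat S₁ S₂ θ b₁ b₂ (s • c) ≤ rat S₁ S₂ θ b₁ b₂ (l • c) := by
  have hi : 1 ≤ θ⁻¹ := (one_le_inv₀ h.θ0).2 h.θ1
  have f1 := fcost_nonneg (T := S₁.T) (b := b₁) (fun a ha => (h.ok₁.ke a ha).b_nonneg) c
  have f2 := fcost_nonneg (T := S₂.T) (b := b₂) (fun a ha => (h.ok₂.ke a ha).b_nonneg) c
  have hsl' : (s : ℝ) ≤ l := by exact_mod_cast hsl
  unfold rat
  simp only [tcost_nsmul, fcost_nsmul]
  refine mul_le_mul (pow_le_pow_right₀ hi ?_) (Real.exp_le_exp.2 ?_) (Real.exp_pos _).le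
    (by positivity)
  · exact Nat.add_le_add (Nat.mul_le_mul_right _ hsl) (Nat.mul_le_mul_right _ hsl)
  · nlinarith

theorem one_le_rat (h : Pair S₁ S₂ b₁ D₁ b₂ D₂ θ μ β₀) (c : E → ℤ) :
    1 ≤ rat S₁ S₂ θ b₁ b₂ c := by
  have h1 := rat_mono h (Nat.zero_le 1) c
  have h2 : rat S₁ S₂ θ b₁ b₂ ((0 : ℕ) • c) = 1 := by
    unfold rat
    simp only [tcost_nsmul, fcost_nsmul]
    simp
  rw [h2, one_smul] at h1
  exact h1

/-- comparability of the joint weight along `x`-moves -/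
theorem jnu_le (h : Pair S₁ S₂ b₁ D₁ b₂ D₂ θ μ β₀) (x c : E → ℤ)
    (y : (S₁.Blk → ℤ) × (S₂.Blk → ℤ)) :
    jnu S₁ S₂ θ μ (x, y) ≤ rat S₁ S₂ θ b₁ b₂ c * jnu S₁ S₂ θ μ (x + c, y) := by
  have h1 := h.ok₁.ok.lw_le h.θ0 h.θ1 h.μ0 (x + c) (-c) y.1
  have h2 := h.ok₂.ok.lw_le h.θ0 h.θ1 h.μi (x + c) (-c) y.2
  rw [add_neg_cancel_right, tcost_neg, fcost_neg] at h1 h2
  have p1 := h.ok₁.ok.lw_nonneg h.θ0 h.μ0 x y.1
  have p2 := h.ok₂.ok.lw_nonneg h.θ0 h.μi x y.2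
  have p3 := p1.trans h1
  calc jnu S₁ S₂ θ μ (x, y)
      = S₁.lw θ μ x y.1 * S₂.lw θ (fun e => (μ e)⁻¹) x y.2 := rfl
    _ ≤ ((θ⁻¹) ^ tcost S₁.T c * Real.exp (fcost S₁.T b₁ c) * S₁.lw θ μ (x + c) y.1)
        * ((θ⁻¹) ^ tcost S₂.T c * Real.exp (fcost S₂.T b₂ c)
          * S₂.lw θ (fun e => (μ e)⁻¹) (x + c) y.2) := mul_le_mul h1 h2 p2 p3
    _ = rat S₁ S₂ θ b₁ b₂ c * jnu S₁ S₂ θ μ (x + c, y) := by
        unfold rat jnu Joint.nu
        rw [pow_add, Real.exp_add]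
        ring

/-- comparability of the marginal -/
theorem W_le (h : Pair S₁ S₂ b₁ D₁ b₂ D₂ θ μ β₀) (x c : E → ℤ) :
    S₁.W θ μ x * S₂.W θ (fun e => (μ e)⁻¹) x
      ≤ rat S₁ S₂ θ b₁ b₂ c * (S₁.W θ μ (x + c) * S₂.W θ (fun e => (μ e)⁻¹) (x + c)) := by
  have h1 := h.ok₁.W_le h.θ0 h.θ1 h.μ0 (x + c) (-c)
  have h2 := h.ok₂.W_le h.θ0 h.θ1 h.μi (x + c) (-c)
  rw [add_neg_cancel_right, tcost_neg, fcost_neg] at h1 h2
  have p1 := (h.W₁_pos x).le
  have p2 := (h.W₂_pos x).le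
  have p3 := p1.trans h1
  calc S₁.W θ μ x * S₂.W θ (fun e => (μ e)⁻¹) x
      ≤ ((θ⁻¹) ^ tcost S₁.T c * Real.exp (fcost S₁.T b₁ c) * S₁.W θ μ (x + c))
        * ((θ⁻¹) ^ tcost S₂.T c * Real.exp (fcost S₂.T b₂ c)
          * S₂.W θ (fun e => (μ e)⁻¹) (x + c)) := mul_le_mul h1 h2 p2 p3
    _ = _ := by
        unfold rat
        rw [pow_add, Real.exp_add]
        ring

/-- mass of the states with more than `K` tokens moved at some block -/
noncomputable def farS (S₁ S₂ : Side E) (θ : ℝ) (μ : E → ℝ) (B : Finset (E → ℤ))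
    (Λ₁ : Finset (S₁.Blk → ℤ)) (Λ₂ : Finset (S₂.Blk → ℤ)) (K : ℕ) : ℝ :=
  Joint.far B Λ₁ Λ₂ S₁.blk S₂.blk K (jnu S₁ S₂ θ μ)

/-- **JOINT for the official sides.**  From an inequality for the marginal `W₁ W₂` in terms of
(macro) moves `c j`, lengths `l j`, to the joint weight; `R j ≥` ratio along `l j • c j`. -/
theorem side_joint (h : Pair S₁ S₂ b₁ D₁ b₂ D₂ θ μ β₀)
    {r₁ r₂ : Finset E → ℤ} {R₁ R₂ : ℤ} {ω₁ ω₂ : E → ℤ → ℝ}
    (hS₁ : Shape S₁ r₁ R₁ ω₁) (hS₂ : Shape S₂ r₂ R₂ ω₂) (hG₁ : Gauge S₁ μ) (hG₂ : Gauge S₂ μ)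
    {Λ₁ : Finset (S₁.Blk → ℤ)} {Λ₂ : Finset (S₂.Blk → ℤ)}
    (hΛ₁ : ∀ z ∈ S₁.J, S₁.blk z ∈ Λ₁) (hΛ₂ : ∀ z ∈ S₂.J, S₂.blk z ∈ Λ₂) (Kw : ℕ)
    {B : Finset (E → ℤ)} {ι : Type*} [Fintype ι] {c : ι → E → ℤ} {l : ι → ℕ} (hl : ∀ j, 1 ≤ l j)
    {R : ι → ℝ} (hR : ∀ j, rat S₁ S₂ θ b₁ b₂ (l j • c j) ≤ R j)
    {K : ι → ℝ} (hK : ∀ j, 0 ≤ K j) {ε M : ℝ} (hM : 0 ≤ M)
    (hx : ∀ g : (E → ℤ) → ℝ, (∀ x, |g x| ≤ M) →
      vr B (fun x => S₁.W θ μ x * S₂.W θ (fun e => (μ e)⁻¹) x) g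
      ≤ ∑ j, K j * aDm B (fun x => S₁.W θ μ x * S₂.W θ (fun e => (μ e)⁻¹) x) (c j) (l j) g
        + ε * M ^ 2)
    {f : (E → ℤ) × ((S₁.Blk → ℤ) × (S₂.Blk → ℤ)) → ℝ} (hf : ∀ p, |f p| ≤ M) :
    vr (B ×ˢ (Λ₁ ×ˢ Λ₂)) (jnu S₁ S₂ θ μ) f
      ≤ ∑ j, 3 * K j * R j * aDm (B ×ˢ (Λ₁ ×ˢ Λ₂)) (jnu S₁ S₂ θ μ) (c j, 0) (l j) f
        + (1 + ∑ j, 6 * K j * R j)
          * (KL S₁.Blk (2 * Kw) * Joint.E₁ B Λ₁ Λ₂ (jnu S₁ S₂ θ μ) f
            + KL S₂.Blk (2 * Kw) * Joint.E₂ B Λ₁ Λ₂ (jnu S₁ S₂ θ μ) f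
            + 4 * M ^ 2 * farS S₁ S₂ θ μ B Λ₁ Λ₂ Kw)
        + ε * M ^ 2 := by
  have hR1 : ∀ j, 1 ≤ R j := fun j => (one_le_rat h _).trans (hR j)
  have hRp : ∀ j, 0 < R j := fun j => zero_lt_one.trans_le (hR1 j)
  have hjn : ∀ p, 0 ≤ jnu S₁ S₂ θ μ p := fun p =>
    mul_nonneg (h.ok₁.ok.lw_nonneg h.θ0 h.μ0 _ _) (h.ok₂.ok.lw_nonneg h.θ0 h.μi _ _)
  have hmar : Joint.mar (Λ₁ ×ˢ Λ₂) (jnu S₁ S₂ θ μ)
      = fun x => S₁.W θ μ x * S₂.W θ (fun e => (μ e)⁻¹) x :=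
    funext fun x => mar_jnu hG₁ hG₂ hΛ₁ hΛ₂ x
  have key := Joint.joint (a₁ := fun x => S₁.lw θ μ x)
    (a₂ := fun x => S₂.lw θ (fun e => (μ e)⁻¹) x) (B := B)
    (linkHyp hS₁ h.θ0 h.θ1 h.μ0 B hΛ₁) (linkHyp hS₂ h.θ0 h.θ1 h.μi B hΛ₂)
    S₁.blk S₂.blk Kw (c := c) (ε := ε) hl
    (δ := fun j => (R j)⁻¹) (fun j => inv_pos.2 (hRp j)) (fun j => inv_le_one_of_one_le₀ (hR1 j))
    ?_ hK hM ?_ hf
  · simp only [div_inv_eq_mul] at key
    exact key
  · intro j s hs x _ _ y _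
    have h1 := jnu_le h x (s • c j) y
    have h2 := (rat_mono h hs (c j)).trans (hR j)
    rw [inv_mul_le_iff₀ (hRp j)]
    exact h1.trans (mul_le_mul_of_nonneg_right h2 (hjn _))
  · intro g hg
    have h3 := hx g hg
    rw [← hmar] at h3
    exact h3

/-! ### the stage -/

theorem Dm_zero {G : Type*} [AddCommGroup G] [DecidableEq G] (B : Finset G) (w f : G → ℝ)
    (s : ℕ) : Dm B w 0 s f = 0 := by
  unfold Dm
  refine Finset.sum_eq_zero fun x _ => ?_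
  rw [smul_zero, add_zero, sub_self]
  ring

theorem list_fin {α : Type*} (L : List α) (F : α → ℝ) :
    (L.map F).sum = ∑ j : Fin L.length, F (L.get j) := by
  rw [← List.sum_ofFn]
  congr 1
  conv_lhs => rw [← List.ofFn_get L]
  rw [List.map_ofFn]
  rfl

theorem sum_pairs_le {V : Type*} [Fintype V] [DecidableEq V] (lk : List (V × V))
    (h : ∀ p q, p ≠ q → (p, q) ∈ lk) (G : V × V → ℝ) (G0 : ∀ p, G (p, p) = 0)
    (Gnn : ∀ x, 0 ≤ G x) : ∑ p, ∑ q, G (q, p) ≤ (lk.map G).sum := by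
  have h1 : ∑ p, ∑ q, G (q, p) = ∑ x : V × V, G x := by
    rw [Fintype.sum_prod_type]
    exact Finset.sum_comm
  have h2 : ∑ x : V × V, G x = ∑ x ∈ lk.toFinset, G x := by
    refine (Finset.sum_subset (Finset.subset_univ _) fun x _ hx => ?_).symm
    rw [List.mem_toFinset] at hx
    by_contra hne
    apply hx
    obtain ⟨a, b⟩ := x
    refine h a b ?_
    rintro rfl
    exact hne (G0 _)
  have hd : lk.toFinset = lk.dedup.toFinset := by ext x; simp
  rw [h1, h2, hd, List.sum_toFinset _ (List.nodup_dedup lk)]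
  refine List.Sublist.sum_le_sum ((List.dedup_sublist lk).map G) ?_
  intro a ha
  obtain ⟨x, _, rfl⟩ := List.mem_map.1 ha
  exact Gnn x

open Crest.Agent.R302.Stage in
/-- **S1 from S1x**: the joint Poincaré inequality with defect for one stage, in terms of the list
of directions `D.cs`.  `Rm` bounds all ratios along the `x`-directions. -/
theorem stage_joint (D : SD E) (h : Pair D.S₁w D.S₂ b₁ D₁ b₂ D₂ D.θ D.μ β₀)
    {r₁ r₂ : Finset E → ℤ} {R₁ R₂ : ℤ} {ω₁ ω₂ : E → ℤ → ℝ}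
    (hS₁ : Shape D.S₁w r₁ R₁ ω₁) (hS₂ : Shape D.S₂ r₂ R₂ ω₂) (hG₁ : Gauge D.S₁w D.μ)
    (hG₂ : Gauge D.S₂ D.μ)
    (hL₁ : ∀ z ∈ D.S₁.J, ∀ r, |D.S₁.blk z r| ≤ D.Lb) (hL₂ : ∀ z ∈ D.S₂.J, ∀ r, |D.S₂.blk z r| ≤ D.Lb)
    (hk₁ : ∀ p q : D.S₁.Blk, p ≠ q → (p, q) ∈ D.lk₁) (hk₂ : ∀ p q : D.S₂.Blk, p ≠ q → (p, q) ∈ D.lk₂)
    (Kw : ℕ) {Rm : ℝ} (hRm : 0 ≤ Rm) (hR : ∀ p ∈ D.mv, rat D.S₁w D.S₂ D.θ b₁ b₂ (2 ^ p.2 • p.1) ≤ Rm)
    {K ε M : ℝ} (hK : 0 ≤ K) (hM : 0 ≤ M)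
    (hx : ∀ g : (E → ℤ) → ℝ, (∀ x, |g x| ≤ M) →
      vr (Fintype.piFinset fun e => Icc (D.c e - D.M) (D.c e + D.M))
        (fun x => D.S₁w.W D.θ D.μ x * D.S₂.W D.θ (fun e => (D.μ e)⁻¹) x) g
      ≤ K * (D.mv.map fun p => aDm (Fintype.piFinset fun e => Icc (D.c e - D.M) (D.c e + D.M))
          (fun x => D.S₁w.W D.θ D.μ x * D.S₂.W D.θ (fun e => (D.μ e)⁻¹) x) p.1 (2 ^ p.2) g).sum
        + ε * M ^ 2)
    {f : St D → ℝ} (hf : ∀ p, |f p| ≤ M) :
    vr D.bx D.nuG f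
      ≤ (3 * K * Rm + (1 + 6 * K * Rm * D.mv.length)
            * (KL D.S₁.Blk (2 * Kw) + KL D.S₂.Blk (2 * Kw)))
          * (D.cs.map fun p => aDm D.bx D.nuG p.1 (2 ^ p.2) f).sum
        + (ε + 4 * (1 + 6 * K * Rm * D.mv.length)
            * farS D.S₁w D.S₂ D.θ D.μ (Fintype.piFinset fun e => Icc (D.c e - D.M) (D.c e + D.M))
              (Fintype.piFinset fun _ => Icc (-(D.Lb : ℤ)) D.Lb)
              (Fintype.piFinset fun _ => Icc (-(D.Lb : ℤ)) D.Lb) Kw) * M ^ 2 := by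
  classical
  set B := Fintype.piFinset fun e => Icc (D.c e - D.M) (D.c e + D.M) with hB
  set Λ₁ : Finset (D.S₁.Blk → ℤ) := Fintype.piFinset fun _ => Icc (-(D.Lb : ℤ)) D.Lb with hΛ₁
  set Λ₂ : Finset (D.S₂.Blk → ℤ) := Fintype.piFinset fun _ => Icc (-(D.Lb : ℤ)) D.Lb with hΛ₂
  have hmem₁ : ∀ z ∈ D.S₁w.J, D.S₁w.blk z ∈ Λ₁ := fun z hz =>
    Fintype.mem_piFinset.2 fun r => mem_Icc.2 (abs_le.1 (hL₁ z hz r))
  have hmem₂ : ∀ z ∈ D.S₂.J, D.S₂.blk z ∈ Λ₂ := fun z hz =>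
    Fintype.mem_piFinset.2 fun r => mem_Icc.2 (abs_le.1 (hL₂ z hz r))
  have hν : D.nuG = jnu D.S₁w D.S₂ D.θ D.μ := funext fun σ => SD.nuG_eq σ
  have hbx : D.bx = B ×ˢ (Λ₁ ×ˢ Λ₂) := rfl
  have hjn : ∀ p, 0 ≤ jnu D.S₁w D.S₂ D.θ D.μ p := fun p =>
    mul_nonneg (h.ok₁.ok.lw_nonneg h.θ0 h.μ0 _ _) (h.ok₂.ok.lw_nonneg h.θ0 h.μi _ _)
  have key := side_joint h hS₁ hS₂ hG₁ hG₂ hmem₁ hmem₂ Kw (B := B)
    (ι := Fin D.mv.length) (c := fun j => (D.mv.get j).1) (l := fun j => 2 ^ (D.mv.get j).2)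
    (fun j => Nat.one_le_two_pow) (R := fun _ => Rm) (fun j => hR _ (List.get_mem _ _))
    (K := fun _ => K) (fun _ => hK) (ε := ε) hM
    (by
      intro g hg
      refine (hx g hg).trans (le_of_eq ?_)
      rw [list_fin, Finset.mul_sum]) hf
  -- the three parts of the list of directions
  set A₀ := (D.mv.map fun p => aDm (B ×ˢ (Λ₁ ×ˢ Λ₂)) (jnu D.S₁w D.S₂ D.θ D.μ)
    ((p.1, 0) : (E → ℤ) × ((D.S₁w.Blk → ℤ) × (D.S₂.Blk → ℤ))) (2 ^ p.2) f).sum with hA₀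
  set A₁ := (D.lk₁.map fun p => Dm (B ×ˢ (Λ₁ ×ˢ Λ₂)) (jnu D.S₁w D.S₂ D.θ D.μ)
    ((0, (ev p.1 - ev p.2, 0)) : (E → ℤ) × ((D.S₁w.Blk → ℤ) × (D.S₂.Blk → ℤ))) 1 f).sum with hA₁
  set A₂ := (D.lk₂.map fun p => Dm (B ×ˢ (Λ₁ ×ˢ Λ₂)) (jnu D.S₁w D.S₂ D.θ D.μ)
    ((0, (0, ev p.1 - ev p.2)) : (E → ℤ) × ((D.S₁w.Blk → ℤ) × (D.S₂.Blk → ℤ))) 1 f).sum with hA₂
  have hcs : (D.cs.map fun p => aDm D.bx D.nuG p.1 (2 ^ p.2) f).sum = A₀ + (A₁ + A₂) := by
    unfold SD.cs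
    rw [List.map_append, List.map_append, List.sum_append, List.sum_append, List.map_map,
      List.map_map, List.map_map]
    congr 1
    · rw [hA₀, hν]
      rfl
    · congr 1
      · rw [hA₁, hν]
        congr 1
        refine List.map_congr_left fun p _ => ?_
        exact Joint.aDm_one (B ×ˢ (Λ₁ ×ˢ Λ₂)) (jnu D.S₁w D.S₂ D.θ D.μ)
          ((0, (ev p.1 - ev p.2, 0)) : (E → ℤ) × ((D.S₁w.Blk → ℤ) × (D.S₂.Blk → ℤ))) f
      · rw [hA₂, hν]
        congr 1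
        refine List.map_congr_left fun p _ => ?_
        exact Joint.aDm_one (B ×ˢ (Λ₁ ×ˢ Λ₂)) (jnu D.S₁w D.S₂ D.θ D.μ)
          ((0, (0, ev p.1 - ev p.2)) : (E → ℤ) × ((D.S₁w.Blk → ℤ) × (D.S₂.Blk → ℤ))) f
  have hDm0 : ∀ (e : (E → ℤ) × ((D.S₁w.Blk → ℤ) × (D.S₂.Blk → ℤ))) (s : ℕ),
      0 ≤ Dm (B ×ˢ (Λ₁ ×ˢ Λ₂)) (jnu D.S₁w D.S₂ D.θ D.μ) e s f := fun e s =>
    Dm_nonneg (fun x _ => hjn x) s f
  have hDmz : ∀ (e : (E → ℤ) × ((D.S₁w.Blk → ℤ) × (D.S₂.Blk → ℤ))), e = 0 →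
      Dm (B ×ˢ (Λ₁ ×ˢ Λ₂)) (jnu D.S₁w D.S₂ D.θ D.μ) e 1 f = 0 := by
    rintro e rfl
    exact Dm_zero _ _ _ _
  have hz₁ : ∀ p : D.S₁w.Blk,
      ((0, (ev p - ev p, 0)) : (E → ℤ) × ((D.S₁w.Blk → ℤ) × (D.S₂.Blk → ℤ))) = 0 := fun p => by
    rw [sub_self]; rfl
  have hz₂ : ∀ p : D.S₂.Blk,
      ((0, (0, ev p - ev p)) : (E → ℤ) × ((D.S₁w.Blk → ℤ) × (D.S₂.Blk → ℤ))) = 0 := fun p => by
    rw [sub_self]; rfl
  have hA₀0 : 0 ≤ A₀ := by
    refine List.sum_nonneg ?_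
    intro a ha
    obtain ⟨p, _, rfl⟩ := List.mem_map.1 ha
    exact aDm_nonneg (fun x _ => hjn x) _ f
  have hE₁ : Joint.E₁ B Λ₁ Λ₂ (jnu D.S₁w D.S₂ D.θ D.μ) f ≤ A₁ :=
    sum_pairs_le D.lk₁ hk₁ (fun p => Dm (B ×ˢ (Λ₁ ×ˢ Λ₂)) (jnu D.S₁w D.S₂ D.θ D.μ)
      ((0, (ev p.1 - ev p.2, 0)) : (E → ℤ) × ((D.S₁w.Blk → ℤ) × (D.S₂.Blk → ℤ))) 1 f)
      (fun p => hDmz _ (hz₁ p)) (fun x => hDm0 _ _)
  have hE₂ : Joint.E₂ B Λ₁ Λ₂ (jnu D.S₁w D.S₂ D.θ D.μ) f ≤ A₂ :=
    sum_pairs_le D.lk₂ hk₂ (fun p => Dm (B ×ˢ (Λ₁ ×ˢ Λ₂)) (jnu D.S₁w D.S₂ D.θ D.μ)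
      ((0, (0, ev p.1 - ev p.2)) : (E → ℤ) × ((D.S₁w.Blk → ℤ) × (D.S₂.Blk → ℤ))) 1 f)
      (fun p => hDmz _ (hz₂ p)) (fun x => hDm0 _ _)
  have hA₁0 : 0 ≤ A₁ := by
    refine List.sum_nonneg ?_
    intro a ha
    obtain ⟨p, _, rfl⟩ := List.mem_map.1 ha
    exact hDm0 _ _
  have hA₂0 : 0 ≤ A₂ := by
    refine List.sum_nonneg ?_
    intro a ha
    obtain ⟨p, _, rfl⟩ := List.mem_map.1 ha
    exact hDm0 _ _
  rw [hcs]
  have hfin : ∑ j : Fin D.mv.length, 3 * K * Rm * aDm (B ×ˢ (Λ₁ ×ˢ Λ₂)) (jnu D.S₁w D.S₂ D.θ D.μ)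
      (((D.mv.get j).1, 0) : (E → ℤ) × ((D.S₁w.Blk → ℤ) × (D.S₂.Blk → ℤ)))
        (2 ^ (D.mv.get j).2) f = 3 * K * Rm * A₀ := by
    rw [hA₀, list_fin, Finset.mul_sum]
  have hconst : ∑ _j : Fin D.mv.length, 6 * K * Rm = 6 * K * Rm * D.mv.length := by
    rw [Finset.sum_const, card_univ, Fintype.card_fin, nsmul_eq_mul]; ring
  have key2 : vr D.bx D.nuG f ≤ 3 * K * Rm * A₀ + (1 + 6 * K * Rm * D.mv.length)
      * (KL D.S₁.Blk (2 * Kw) * Joint.E₁ B Λ₁ Λ₂ (jnu D.S₁w D.S₂ D.θ D.μ) f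
        + KL D.S₂.Blk (2 * Kw) * Joint.E₂ B Λ₁ Λ₂ (jnu D.S₁w D.S₂ D.θ D.μ) f
        + 4 * M ^ 2 * farS D.S₁w D.S₂ D.θ D.μ B Λ₁ Λ₂ Kw) + ε * M ^ 2 := by
    rw [← hfin, ← hconst, hν]
    exact key
  have k1 := KL_nonneg D.S₁.Blk (2 * Kw)
  have k2 := KL_nonneg D.S₂.Blk (2 * Kw)
  set L : ℝ := 1 + 6 * K * Rm * D.mv.length with hL
  have hL0 : 0 ≤ L := by positivity
  have s1 : KL D.S₁.Blk (2 * Kw) * Joint.E₁ B Λ₁ Λ₂ (jnu D.S₁w D.S₂ D.θ D.μ) f
      ≤ KL D.S₁.Blk (2 * Kw) * A₁ := mul_le_mul_of_nonneg_left hE₁ k1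
  have s2 : KL D.S₂.Blk (2 * Kw) * Joint.E₂ B Λ₁ Λ₂ (jnu D.S₁w D.S₂ D.θ D.μ) f
      ≤ KL D.S₂.Blk (2 * Kw) * A₂ := mul_le_mul_of_nonneg_left hE₂ k2
  have s3 : L * (KL D.S₁.Blk (2 * Kw) * Joint.E₁ B Λ₁ Λ₂ (jnu D.S₁w D.S₂ D.θ D.μ) f
        + KL D.S₂.Blk (2 * Kw) * Joint.E₂ B Λ₁ Λ₂ (jnu D.S₁w D.S₂ D.θ D.μ) f
        + 4 * M ^ 2 * farS D.S₁w D.S₂ D.θ D.μ B Λ₁ Λ₂ Kw)
      ≤ L * (KL D.S₁.Blk (2 * Kw) * A₁ + KL D.S₂.Blk (2 * Kw) * A₂
        + 4 * M ^ 2 * farS D.S₁w D.S₂ D.θ D.μ B Λ₁ Λ₂ Kw) :=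
    mul_le_mul_of_nonneg_left (by linarith) hL0
  have s4 : KL D.S₁.Blk (2 * Kw) * A₁ + KL D.S₂.Blk (2 * Kw) * A₂
      ≤ (KL D.S₁.Blk (2 * Kw) + KL D.S₂.Blk (2 * Kw)) * (A₀ + (A₁ + A₂)) := by
    nlinarith [mul_nonneg k1 hA₀0, mul_nonneg k1 hA₂0, mul_nonneg k2 hA₀0, mul_nonneg k2 hA₁0]
  have s5 := mul_le_mul_of_nonneg_left s4 hL0
  have s6 : 3 * K * Rm * A₀ ≤ 3 * K * Rm * (A₀ + (A₁ + A₂)) := by
    have : 0 ≤ 3 * K * Rm := by positivity
    nlinarith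
  have fin : vr D.bx D.nuG f ≤ (3 * K * Rm + L * (KL D.S₁.Blk (2 * Kw) + KL D.S₂.Blk (2 * Kw)))
      * (A₀ + (A₁ + A₂)) + (ε + 4 * L * farS D.S₁w D.S₂ D.θ D.μ B Λ₁ Λ₂ Kw) * M ^ 2 := by
   calc vr D.bx D.nuG f ≤ _ := key2
    _ ≤ 3 * K * Rm * (A₀ + (A₁ + A₂)) + L * ((KL D.S₁.Blk (2 * Kw) + KL D.S₂.Blk (2 * Kw))
          * (A₀ + (A₁ + A₂))) + L * (4 * M ^ 2 * farS D.S₁w D.S₂ D.θ D.μ B Λ₁ Λ₂ Kw)
          + ε * M ^ 2 := by
        rw [mul_add, mul_add] at s3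
        rw [mul_add, mul_add] at s3
        linarith
    _ = _ := by ring
  exact fin

end Crest.Agent.R302.LInst
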