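import Crest.Agent.R302.LoopOPT675
import Crest.Agent.R302.Loop272C

/-!
# R302: the outer loop as an `OPTF` function, part B (helper675)

* `OPTF.loop_inv` : the loop with general invariants;
* closure of helper272's list coded gauge update `Loop.newGaugeL`.
-/

set_option autoImplicit false
set_option linter.dupNamespace false
set_option linter.unusedSectionVars false

namespace Crest.Agent.R302.ORAM

open Crest.Agent.Lib.PT Crest.Agent.R309.Tape Crest.Agent.R309.PTX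

variable {α β γ δ σ : Type} [PTCode α] [PTCode β] [PTCode γ] [PTCode δ] [PTCode σ]

section loop

variable {S G : Type} [PTCode S] [PTCode G]

/-- the state invariant -/
def StInv' (InvG : ℕ → G → Prop) (InvS : ℕ → S → Prop) (N : ℕ) (i : ℕ) (s : ℕ × G × List S) :
    Prop :=
  s.1 = i ∧ InvG i s.2.1 ∧ s.2.2.length ≤ N ∧ ∀ x ∈ s.2.2, InvS i x

theorem StInv'.stage {A : Loop.Sys S G} {InvG : ℕ → G → Prop} {InvS : ℕ → S → Prop} {N i : ℕ}
    {s : ℕ × G × List S} (h : StInv' InvG InvS N i s)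
    (hG0 : ∀ i g, InvG i g → InvG (i + 1) g)
    (hG : ∀ i x g ys l, InvG i g → InvS i x → (∀ y ∈ ys, InvS i y) → ys.length ≤ A.K →
      InvG (i + 1) (A.gup i x g ys l))
    (hS : ∀ i x g y l, InvG (i + 1) g → InvS i x → InvS i y → InvS (i + 1) (A.run i x g y l))
    (l : List Bool) : StInv' InvG InvS N (i + 1) (Loop.stage A s l) := by
  obtain ⟨h1, h2, h3, h4⟩ := h
  rw [stage_eq]
  rcases hs : s.2.2 with _ | ⟨c, rest⟩
  · exact ⟨by simp [h1], hG0 _ _ h2, by simp, by simp⟩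
  · rw [hs] at h3 h4
    have hc : InvS i c := h4 c (by simp)
    have hr : ∀ y ∈ rest, InvS i y := fun y hy => h4 y (by simp [hy])
    have hg : InvG (i + 1) (A.gup s.1 c s.2.1 (rest.take A.K) (l.take A.ρ1)) := by
      rw [h1]
      exact hG i c s.2.1 _ _ h2 hc (fun y hy => hr y (List.mem_of_mem_take hy))
        (List.length_take_le _ _)
    refine ⟨by simp [h1], hg, ?_, ?_⟩
    · simp only [Loop.length_mapRun, List.length_drop]
      simp only [List.length_cons] at h3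
      omega
    · intro y hy
      simp only at hy
      obtain ⟨x, hx, l', rfl⟩ := mem_mapRun hy
      rw [h1] at hg ⊢
      exact hS i c _ x l' hg hc (hr x (List.mem_of_mem_drop hx))

theorem StInv'.runSteps {A : Loop.Sys S G} {InvG : ℕ → G → Prop} {InvS : ℕ → S → Prop} {N i : ℕ}
    {s : ℕ × G × List S} (h : StInv' InvG InvS N i s)
    (hG0 : ∀ i g, InvG i g → InvG (i + 1) g)
    (hG : ∀ i x g ys l, InvG i g → InvS i x → (∀ y ∈ ys, InvS i y) → ys.length ≤ A.K →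
      InvG (i + 1) (A.gup i x g ys l))
    (hS : ∀ i x g y l, InvG (i + 1) g → InvS i x → InvS i y → InvS (i + 1) (A.run i x g y l))
    (r k : ℕ) (l : List Bool) :
    StInv' InvG InvS N (i + k) (R309.Tape.runSteps (Loop.stage A) r k s l) := by
  induction k with
  | zero => exact h
  | succ k ih =>
    rw [runSteps_succ']
    exact ih.stage hG0 hG hS _

/-- **the loop is `OPTF`**, version with invariants -/
theorem OPTF.loop_inv {A : Inst → γ → Loop.Sys S G}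
    (hrun : OPTF (fun I (p : γ × ℕ × S × G × S × List Bool) =>
      (A I p.1).run p.2.1 p.2.2.1 p.2.2.2.1 p.2.2.2.2.1 p.2.2.2.2.2))
    (hgup : OPTF (fun I (p : γ × ℕ × S × G × List S × List Bool) =>
      (A I p.1).gup p.2.1 p.2.2.1 p.2.2.2.1 p.2.2.2.2.1 p.2.2.2.2.2))
    (hρ : OPTF (fun I c => (A I c).ρ)) (hρ1 : OPTF (fun I c => (A I c).ρ1))
    (hK : OPTF (fun I c => (A I c).K))
    (InvG : Inst → γ → ℕ → G → Prop) (InvS : Inst → γ → ℕ → S → Prop)
    (hG0 : ∀ I c i g, InvG I c i g → InvG I c (i + 1) g)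
    (hG : ∀ I c i x g ys l, InvG I c i g → InvS I c i x → (∀ y ∈ ys, InvS I c i y) →
      ys.length ≤ (A I c).K → InvG I c (i + 1) ((A I c).gup i x g ys l))
    (hS : ∀ I c i x g y l, InvG I c (i + 1) g → InvS I c i x → InvS I c i y →
      InvS I c (i + 1) ((A I c).run i x g y l))
    {T r : Inst → γ → ℕ} (hT : OPTU T) (hr : OPTF r) {x0 : Inst → γ → S} (hx0 : OPTF x0)
    {g0 : Inst → γ → G} (hg0 : OPTF g0) {N : Inst → γ → ℕ} (hN : OPTU N)
    {t : Inst → γ → List Bool} (ht : OPTF t)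
    (h0G : ∀ I c, InvG I c 0 (g0 I c)) (h0S : ∀ I c, InvS I c 0 (x0 I c))
    {BS BG : Inst → γ → ℕ} (hBS : OPB BS) (hBG : OPB BG)
    (hszG : ∀ I c i g, i ≤ T I c → InvG I c i g → sz g ≤ BG I c)
    (hszS : ∀ I c i x, i ≤ T I c → InvS I c i x → sz x ≤ BS I c) :
    OPTF (fun I c => R309.Tape.runSteps (Loop.stage (A I c)) (r I c) (T I c)
      (0, g0 I c, List.replicate (N I c) (x0 I c)) (t I c)) := by
  have h0 : OPTF (fun I c => ((0 : ℕ), g0 I c, List.replicate (N I c) (x0 I c))) :=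
    (OPTF.const 0).prodMk (hg0.prodMk (OPTF.replicate hN hx0))
  refine OPTF.runSteps (f := fun I c => Loop.stage (A I c))
    (OPTF.stage hrun hgup hρ hρ1 hK) hr hT h0 ht
    (B := fun I c => 2 * T I c + 1 + (2 * BG I c + 1 + N I c * (2 * BS I c + 1))) ?_ ?_
  · exact (((OPB.const 2).mul hT.opb).add (OPB.const 1)).add
      ((((OPB.const 2).mul hBG).add (OPB.const 1)).add
        (hN.opb.mul (((OPB.const 2).mul hBS).add (OPB.const 1))))
  · intro I c i hi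
    have hinit : StInv' (InvG I c) (InvS I c) (N I c) 0
        ((0 : ℕ), g0 I c, List.replicate (N I c) (x0 I c)) := by
      refine ⟨rfl, h0G I c, by simp, ?_⟩
      intro x hx
      simp only at hx
      rw [List.eq_of_mem_replicate hx]
      exact h0S I c
    have h := hinit.runSteps (A := A I c) (hG0 I c) (hG I c) (hS I c) (r I c) i (t I c)
    rw [zero_add] at h
    obtain ⟨h1, h2, h3, h4⟩ := h
    set s := R309.Tape.runSteps (Loop.stage (A I c)) (r I c) i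
      (0, g0 I c, List.replicate (N I c) (x0 I c)) (t I c) with hs
    have e1 : sz s = 2 * sz s.1 + 1 + (2 * sz s.2.1 + 1 + sz s.2.2) := by
      rw [sz_prod, sz_prod]
    have h5 := sz_list_le (m := BS I c) (fun x hx => hszS I c i x hi (h4 x hx))
    have h6 : sz s.1 ≤ T I c := (sz_nat_le _).trans (by omega)
    have h7 := hszG I c i _ hi h2
    have h8 : s.2.2.length * (2 * BS I c + 1) ≤ N I c * (2 * BS I c + 1) :=
      Nat.mul_le_mul_right _ h3
    omega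

/-- the sampler, version with invariants -/
theorem OPTF.loop_sampler_inv {A : Inst → γ → Loop.Sys S G}
    (hrun : OPTF (fun I (p : γ × ℕ × S × G × S × List Bool) =>
      (A I p.1).run p.2.1 p.2.2.1 p.2.2.2.1 p.2.2.2.2.1 p.2.2.2.2.2))
    (hgup : OPTF (fun I (p : γ × ℕ × S × G × List S × List Bool) =>
      (A I p.1).gup p.2.1 p.2.2.1 p.2.2.2.1 p.2.2.2.2.1 p.2.2.2.2.2))
    (hρ : OPTF (fun I c => (A I c).ρ)) (hρ1 : OPTF (fun I c => (A I c).ρ1))
    (hK : OPTU (fun I c => (A I c).K))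
    (InvG : Inst → γ → ℕ → G → Prop) (InvS : Inst → γ → ℕ → S → Prop)
    (hG0 : ∀ I c i g, InvG I c i g → InvG I c (i + 1) g)
    (hG : ∀ I c i x g ys l, InvG I c i g → InvS I c i x → (∀ y ∈ ys, InvS I c i y) →
      ys.length ≤ (A I c).K → InvG I c (i + 1) ((A I c).gup i x g ys l))
    (hS : ∀ I c i x g y l, InvG I c (i + 1) g → InvS I c i x → InvS I c i y →
      InvS I c (i + 1) ((A I c).run i x g y l))
    {T r : Inst → γ → ℕ} (hT : OPTU T) (hr : OPTF r) {x0 d : Inst → γ → S} (hx0 : OPTF x0)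
    (hd : OPTF d) {g0 : Inst → γ → G} (hg0 : OPTF g0)
    {t : Inst → γ → List Bool} (ht : OPTF t)
    (h0G : ∀ I c, InvG I c 0 (g0 I c)) (h0S : ∀ I c, InvS I c 0 (x0 I c))
    {BS BG : Inst → γ → ℕ} (hBS : OPB BS) (hBG : OPB BG)
    (hszG : ∀ I c i g, i ≤ T I c → InvG I c i g → sz g ≤ BG I c)
    (hszS : ∀ I c i x, i ≤ T I c → InvS I c i x → sz x ≤ BS I c) :
    OPTF (fun I c => (R309.Tape.runSteps (Loop.stage (A I c)) (r I c) (T I c)
      (0, g0 I c, List.replicate (Loop.popSize (A I c) 1 (T I c)) (x0 I c)) (t I c)).2.2.headD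
        (d I c)) := by
  have h := OPTF.loop_inv hrun hgup hρ hρ1 hK.toOPTF InvG InvS hG0 hG hS hT hr hx0 hg0
    (OPTU.popSize hK 1 hT) ht h0G h0S hBS hBG hszG hszS
  refine (OPTF.optionGetD (OPTF.head? (OPTF.snd (OPTF.snd h))) hd).of_eq fun I c => ?_
  rw [List.headD_eq_head?_getD]

end loop

/-! ### the gauge update -/

theorem lmax_eq_maxL (l : List ℕ) : Loop.lmax l = maxL l := rfl

/-- the entries of the gauge grow by at most `k` in size per stage -/
def GInv (n M0 k len0 : ℕ) (i : ℕ) (g : List ℤ) : Prop :=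
  g.length ≤ max n len0 ∧ ∀ z ∈ g, sz z ≤ M0 + i * k

theorem GInv.succ {n M0 k len0 i : ℕ} {g : List ℤ} (h : GInv n M0 k len0 i g) :
    GInv n M0 k len0 (i + 1) g := by
  refine ⟨h.1, fun z hz => (h.2 z hz).trans ?_⟩
  have : (i + 1) * k = i * k + k := by ring
  omega

theorem GInv.init (n k : ℕ) (g : List ℤ) : GInv n (sz g + 3) k g.length 0 g :=
  ⟨le_max_right _ _, fun z hz => (sz_mem_le hz).trans (by omega)⟩

theorem GInv.sz_le {n M0 k len0 i T : ℕ} {g : List ℤ} (h : GInv n M0 k len0 i g) (hi : i ≤ T) :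
    sz g ≤ (n + len0) * (2 * (M0 + T * k) + 1) := by
  have h1 : i * k ≤ T * k := Nat.mul_le_mul_right _ hi
  have h2 := sz_list_le (m := M0 + T * k) (fun x hx => (h.2 x hx).trans (by omega))
  have h3 : g.length ≤ n + len0 := h.1.trans (max_le (by omega) (by omega))
  exact h2.trans (Nat.mul_le_mul_right _ h3)

theorem loop_incL_le {n D K : ℕ} {c : ℕ → ℕ} (h : ∀ u, c u ≤ K) : Loop.incL n D c ≤ K + 1 :=
  incL_le (n := n) (D := D) (c := fun u _ => c u) (fun u _ => h u) 0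

theorem GInv.newGaugeL {Ω : Type*} {n m K M0 len0 i : ℕ} (hM : 3 ≤ M0) {rep : ℕ → ℕ}
    {ev : ℕ → ℕ → Ω → Bool} {g : List ℤ} {ys : List Ω} (h : GInv n M0 (K + 1) len0 i g)
    (hys : ys.length ≤ K) :
    GInv n M0 (K + 1) len0 (i + 1) (Loop.newGaugeL n m K rep ev g ys) := by
  refine ⟨by simp [Loop.newGaugeL], fun z hz => ?_⟩
  rw [Loop.newGaugeL, List.mem_map] at hz
  obtain ⟨v, _, rfl⟩ := hz
  have h1 : sz (g.getD (rep v) 0) ≤ M0 + i * (K + 1) := by
    rw [List.getD_eq_getElem?_getD]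
    rcases hh : g[rep v]? with _ | a
    · rw [Option.getD_none]
      have : sz (0 : ℤ) = 3 := by simp [sz_int]
      omega
    · exact h.2 a (List.mem_of_getElem? hh)
  have h2 := sz_int_add_le (g.getD (rep v) 0)
    (Loop.incL n (K / 2 ^ m) fun u => Loop.cnt (ev (rep u) (rep v)) ys)
  have h3 : Loop.incL n (K / 2 ^ m) (fun u => Loop.cnt (ev (rep u) (rep v)) ys) ≤ K + 1 :=
    loop_incL_le fun u => (List.countP_le_length).trans hys
  have h4 : (i + 1) * (K + 1) = i * (K + 1) + (K + 1) := by ring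
  omega

/-- helper272's gauge update is `OPTF` -/
theorem OPTF.loopNewGaugeL {n m K : Inst → γ → ℕ} {rep : Inst → γ → ℕ → ℕ}
    {ev : Inst → γ → ℕ → ℕ → α → Bool} {g : Inst → γ → List ℤ} {ys : Inst → γ → List α}
    (hn : OPTU n) (hm : OPTU m) (hK : OPTF K)
    (hrep : OPTF (fun I (p : γ × ℕ) => rep I p.1 p.2))
    (hev : OPTF (fun I (p : γ × ℕ × ℕ × α) => ev I p.1 p.2.1 p.2.2.1 p.2.2.2)) (hg : OPTF g)
    (hys : OPTF ys) :
    OPTF (fun I c =>
      Loop.newGaugeL (n I c) (m I c) (K I c) (rep I c) (ev I c) (g I c) (ys I c)) := by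
  have c1 : ∀ {δ : Type} [PTCode δ] {f : Inst → γ → δ}, OPTF f →
      OPTF (fun I (q : γ × ℕ) => f I q.1) := fun hf => OPTF.comp hf (OPTF.fst OPTF.id)
  have c2 : ∀ {δ : Type} [PTCode δ] {f : Inst → γ → δ}, OPTF f →
      OPTF (fun I (q : (γ × ℕ) × ℕ) => f I q.1.1) := fun hf =>
    OPTF.comp hf (OPTF.fst (OPTF.fst OPTF.id))
  have n1 : OPTU (fun I (q : γ × ℕ) => n I q.1) := OPTU.comp hn (OPTF.fst OPTF.id)
  have hD : OPTF (fun I c => K I c / 2 ^ m I c) := OPTF.natDiv hK (OPTF.natTwoPow hm)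
  have hcnt : OPTU (fun I (q : (γ × ℕ) × ℕ) =>
      Loop.cnt (ev I q.1.1 (rep I q.1.1 q.2) (rep I q.1.1 q.1.2)) (ys I q.1.1)) := by
    refine OPTU.countP (P := fun I (q : (γ × ℕ) × ℕ) y =>
      ev I q.1.1 (rep I q.1.1 q.2) (rep I q.1.1 q.1.2) y) ?_ (c2 hys)
    refine OPTF.comp (g := fun I (p : γ × ℕ × ℕ × α) => ev I p.1 p.2.1 p.2.2.1 p.2.2.2)
      (f := fun I (q : ((γ × ℕ) × ℕ) × α) =>
        (q.1.1.1, rep I q.1.1.1 q.1.2, rep I q.1.1.1 q.1.1.2, q.2)) hev ?_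
    refine OPTF.prodMk (OPTF.of_ptf (by pt_solve)) (OPTF.prodMk ?_ (OPTF.prodMk ?_ ?_))
    · exact OPTF.comp (g := fun I (p : γ × ℕ) => rep I p.1 p.2)
        (f := fun _ (q : ((γ × ℕ) × ℕ) × α) => (q.1.1.1, q.1.2)) hrep (OPTF.of_ptf (by pt_solve))
    · exact OPTF.comp (g := fun I (p : γ × ℕ) => rep I p.1 p.2)
        (f := fun _ (q : ((γ × ℕ) × ℕ) × α) => (q.1.1.1, q.1.1.2)) hrep (OPTF.of_ptf (by pt_solve))
    · exact OPTF.of_ptf (by pt_solve)
  have hinc : OPTF (fun I (q : γ × ℕ) => Loop.incL (n I q.1) (K I q.1 / 2 ^ m I q.1)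
      (fun u => Loop.cnt (ev I q.1 (rep I q.1 u) (rep I q.1 q.2)) (ys I q.1))) := by
    unfold Loop.incL
    simp only [lmax_eq_maxL]
    refine OPTF.maxL (OPTF.map (OPTF.range n1) ?_)
    refine (OPTU.clog (OPTF.natDiv (OPTF.natAdd hcnt.toOPTF (OPTF.natSub
      (OPTF.natMul (OPTF.const 4) (c2 hD)) (OPTF.const 1))) (OPTF.natMul (OPTF.const 4) (c2 hD)))).toOPTF
  unfold Loop.newGaugeL
  refine OPTF.map (OPTF.range hn) ?_
  exact OPTF.intAdd (OPTF.getD (c1 hg) hrep (OPTF.const 0)) (OPTF.intNatCast hinc)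

/-! ### the chain -/

section chain

variable {S Ω : Type} [PTCode S] [PTCode Ω] {C : Inst → γ → Loop.Chain S Ω} {n : Inst → γ → ℕ}

theorem OPTF.chain_run
    (hM : OPTF (fun I (p : γ × ℕ × List ℤ × S × List Bool) =>
      (C I p.1).runM p.2.1 p.2.2.1 p.2.2.2.1 p.2.2.2.2))
    (hout : OPTF (fun I (p : γ × ℕ × Ω) => (C I p.1).out p.2.1 p.2.2)) :
    OPTF (fun I (p : γ × ℕ × S × List ℤ × S × List Bool) =>
      ((C I p.1).sys (n I p.1)).run p.2.1 p.2.2.1 p.2.2.2.1 p.2.2.2.2.1 p.2.2.2.2.2) := by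
  have h1 : OPTF (fun I (p : γ × ℕ × S × List ℤ × S × List Bool) =>
      (C I p.1).runM p.2.1 p.2.2.2.1 p.2.2.2.2.1 p.2.2.2.2.2) :=
    OPTF.comp (g := fun I (p : γ × ℕ × List ℤ × S × List Bool) =>
      (C I p.1).runM p.2.1 p.2.2.1 p.2.2.2.1 p.2.2.2.2)
      (f := fun _ (p : γ × ℕ × S × List ℤ × S × List Bool) =>
        (p.1, p.2.1, p.2.2.2.1, p.2.2.2.2.1, p.2.2.2.2.2)) hM (OPTF.of_ptf (by pt_solve))
  have h2 : OPTF (fun I (p : γ × ℕ × S × List ℤ × S × List Bool) =>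
      (C I p.1).out p.2.1 ((C I p.1).runM p.2.1 p.2.2.2.1 p.2.2.2.2.1 p.2.2.2.2.2)) :=
    OPTF.comp (g := fun I (p : γ × ℕ × Ω) => (C I p.1).out p.2.1 p.2.2)
      (f := fun I (p : γ × ℕ × S × List ℤ × S × List Bool) =>
        (p.1, p.2.1, (C I p.1).runM p.2.1 p.2.2.2.1 p.2.2.2.2.1 p.2.2.2.2.2)) hout
      ((OPTF.of_ptf (by pt_solve)).prodMk ((OPTF.of_ptf (by pt_solve)).prodMk h1))
  exact OPTF.optionGetD h2 (OPTF.of_ptf (by pt_solve))

/-- the argument type of the gauge update -/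
local notation "Γ" => γ × ℕ × S × List ℤ × List S × List Bool

theorem OPTF.chain_gup (hn : OPTU n)
    (hE : OPTF (fun I (p : γ × ℕ × List ℤ × S × List Bool) =>
      (C I p.1).runE p.2.1 p.2.2.1 p.2.2.2.1 p.2.2.2.2))
    (hev : OPTF (fun I (p : γ × ℕ × ℕ × ℕ × Ω) =>
      (C I p.1).ev p.2.1 p.2.2.1 p.2.2.2.1 p.2.2.2.2))
    (hrep : OPTF (fun I (p : γ × ℕ × ℕ) => (C I p.1).rep p.2.1 p.2.2))
    (hρE : OPTF (fun I c => (C I c).ρE)) (hm : OPTU (fun I c => (C I c).m))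
    (hK : OPTF (fun I c => (C I c).D * 2 ^ (C I c).m)) :
    OPTF (fun I (p : γ × ℕ × S × List ℤ × List S × List Bool) =>
      ((C I p.1).sys (n I p.1)).gup p.2.1 p.2.2.1 p.2.2.2.1 p.2.2.2.2.1 p.2.2.2.2.2) := by
  have hc : ∀ {δ : Type} [PTCode δ] {f : Inst → γ → δ}, OPTF f →
      OPTF (fun I (q : Γ) => f I q.1) := fun hf => OPTF.comp hf (OPTF.of_ptf (by pt_solve))
  have hn' : OPTU (fun I (q : Γ) => n I q.1) := OPTU.comp hn (OPTF.of_ptf (by pt_solve))
  have hm' : OPTU (fun I (q : Γ) => (C I q.1).m) := by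
    have := OPTU.comp (n := fun I c => (C I c).m) (f := fun (_ : Inst) (q : Γ) => q.1) hm
      (OPTF.of_ptf (by pt_solve))
    exact this
  have hmap : OPTF (fun I (q : Γ) => Loop.mapRun ((C I q.1).runE q.2.1 q.2.2.2.1) (C I q.1).ρE
      q.2.2.2.2.1 q.2.2.2.2.2) := by
    refine OPTF.mapRun (f := fun I (q : Γ) => (C I q.1).runE q.2.1 q.2.2.2.1) ?_ (hc hρE)
      (OPTF.of_ptf (by pt_solve)) (OPTF.of_ptf (by pt_solve))
    exact OPTF.comp (g := fun I (p : γ × ℕ × List ℤ × S × List Bool) =>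
      (C I p.1).runE p.2.1 p.2.2.1 p.2.2.2.1 p.2.2.2.2)
      (f := fun _ (q : (Γ) × S × List Bool) => (q.1.1, q.1.2.1, q.1.2.2.2.1, q.2.1, q.2.2)) hE
      (OPTF.of_ptf (by pt_solve))
  refine OPTF.loopNewGaugeL (n := fun I (q : Γ) => n I q.1) (m := fun I q => (C I q.1).m)
    (K := fun I q => (C I q.1).D * 2 ^ (C I q.1).m) (rep := fun I q => (C I q.1).rep q.2.1)
    (ev := fun I q => (C I q.1).ev q.2.1) (g := fun _ q => q.2.2.2.1)
    (ys := fun I q => Loop.mapRun ((C I q.1).runE q.2.1 q.2.2.2.1) (C I q.1).ρE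
      q.2.2.2.2.1 q.2.2.2.2.2) hn' hm' (hc hK) ?_ ?_ (OPTF.of_ptf (by pt_solve)) hmap
  · exact OPTF.comp (g := fun I (p : γ × ℕ × ℕ) => (C I p.1).rep p.2.1 p.2.2)
      (f := fun _ (q : (Γ) × ℕ) => (q.1.1, q.1.2.1, q.2)) hrep (OPTF.of_ptf (by pt_solve))
  · exact OPTF.comp (g := fun I (p : γ × ℕ × ℕ × ℕ × Ω) =>
      (C I p.1).ev p.2.1 p.2.2.1 p.2.2.2.1 p.2.2.2.2)
      (f := fun _ (q : (Γ) × ℕ × ℕ × Ω) => (q.1.1, q.1.2.1, q.2.1, q.2.2.1, q.2.2.2)) hev
      (OPTF.of_ptf (by pt_solve))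

/-- **helper272's sampler `Loop.chain_sampler` is `OPTF`** -/
theorem OPTF.chain_sampler (hn : OPTU n)
    (hE : OPTF (fun I (p : γ × ℕ × List ℤ × S × List Bool) =>
      (C I p.1).runE p.2.1 p.2.2.1 p.2.2.2.1 p.2.2.2.2))
    (hM : OPTF (fun I (p : γ × ℕ × List ℤ × S × List Bool) =>
      (C I p.1).runM p.2.1 p.2.2.1 p.2.2.2.1 p.2.2.2.2))
    (hout : OPTF (fun I (p : γ × ℕ × Ω) => (C I p.1).out p.2.1 p.2.2))
    (hev : OPTF (fun I (p : γ × ℕ × ℕ × ℕ × Ω) =>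
      (C I p.1).ev p.2.1 p.2.2.1 p.2.2.2.1 p.2.2.2.2))
    (hrep : OPTF (fun I (p : γ × ℕ × ℕ) => (C I p.1).rep p.2.1 p.2.2))
    (hρE : OPTF (fun I c => (C I c).ρE)) (hρM : OPTF (fun I c => (C I c).ρM))
    (hm : OPTU (fun I c => (C I c).m)) (hK : OPTU (fun I c => (C I c).D * 2 ^ (C I c).m))
    (InvS : Inst → γ → ℕ → S → Prop)
    (hS : ∀ I c i g x y l, InvS I c i x → InvS I c i y →
      InvS I c (i + 1) (((C I c).out i ((C I c).runM i g y l)).getD x))
    {T r : Inst → γ → ℕ} (hT : OPTU T) (hr : OPTF r) {x0 d : Inst → γ → S} (hx0 : OPTF x0)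
    (hd : OPTF d) {g0 : Inst → γ → List ℤ} (hg0 : OPTF g0)
    {t : Inst → γ → List Bool} (ht : OPTF t)
    (h0S : ∀ I c, InvS I c 0 (x0 I c)) {BS : Inst → γ → ℕ} (hBS : OPB BS)
    (hszS : ∀ I c i x, i ≤ T I c → InvS I c i x → sz x ≤ BS I c) :
    OPTF (fun I c => (R309.Tape.runSteps (Loop.stage ((C I c).sys (n I c))) (r I c) (T I c)
      (0, g0 I c, List.replicate (Loop.popSize ((C I c).sys (n I c)) 1 (T I c)) (x0 I c))
        (t I c)).2.2.headD (d I c)) := by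
  refine OPTF.loop_sampler_inv (A := fun I c => (C I c).sys (n I c)) (OPTF.chain_run hM hout)
    (OPTF.chain_gup hn hE hev hrep hρE hm hK.toOPTF) hρM (OPTF.natMul hK.toOPTF hρE) hK
    (fun I c => GInv (n I c) (sz (g0 I c) + 3) ((C I c).D * 2 ^ (C I c).m + 1) (g0 I c).length)
    InvS (fun I c i g h => h.succ) ?_ (fun I c i x g y l _ hx hy => hS I c i g x y l hx hy)
    hT hr hx0 hd hg0 ht (fun I c => GInv.init _ _ _) h0S hBS
    (BG := fun I c => (n I c + (g0 I c).length) * (2 * ((sz (g0 I c) + 3) +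
      T I c * ((C I c).D * 2 ^ (C I c).m + 1)) + 1)) ?_ (fun I c i g hi h => h.sz_le hi) hszS
  · intro I c i x g ys l hg _ _ hys
    exact hg.newGaugeL (by omega) (by rw [Loop.length_mapRun]; exact hys)
  · exact (hn.opb.add (OPTU.length hg0).opb).mul ((((OPB.const 2).mul
      ((hg0.bound.add (OPB.const 3)).add (hT.opb.mul (hK.opb.add (OPB.const 1)))))).add
        (OPB.const 1))

end chain

end Crest.Agent.R302.ORAM
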