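import Mathlib

/-!
R302, multi-scale Poincare inequality MSP', part 1 (helper142).
Global potential-flow (Bochner) inequality and transport identity on a box of the lattice
`Fin n → ℤ` (blueprint: helper142's post on R302, sections 1 and 3).
-/

set_option autoImplicit false

namespace Crest.Agent.R302.MP

open Finset

/-- the lattice -/
abbrev Lat (n : ℕ) := Fin n → ℤ

/-- nodes: `inl a` is the node `X_a`, `inr a` is the node `Y_a`. -/
abbrev Node (n : ℕ) := Fin n ⊕ Fin n

variable {n : ℕ}

/-- unit vector -/
def ev (a : Fin n) : Lat n := Pi.single a 1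

/-- X-part of the load of a node -/
def aX : Node n → Lat n
  | Sum.inl a => ev a
  | Sum.inr _ => 0

/-- Y-part of the load of a node -/
def aY : Node n → Lat n
  | Sum.inl _ => 0
  | Sum.inr a => ev a

@[simp] lemma aX_inl (a : Fin n) : aX (Sum.inl a) = ev a := rfl
@[simp] lemma aX_inr (a : Fin n) : aX (Sum.inr a) = (0 : Lat n) := rfl
@[simp] lemma aY_inl (a : Fin n) : aY (Sum.inl a) = (0 : Lat n) := rfl
@[simp] lemma aY_inr (a : Fin n) : aY (Sum.inr a) = ev a := rfl

/-- one-node kernel at `x` with base shift `s` -/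
def K1 (K : Lat n → Lat n → ℝ) (s x : Lat n) (u : Node n) : ℝ :=
  K (x + aX u) (x + s - aY u)

/-- two-node kernel at `x` with base shift `s` -/
def K2 (K : Lat n → Lat n → ℝ) (s x : Lat n) (u v : Node n) : ℝ :=
  K (x + aX u + aX v) (x + s - aY u - aY v)

/-- quadratic form of the two-node kernel -/
def QF (K : Lat n → Lat n → ℝ) (s x : Lat n) (v w : Node n → ℝ) : ℝ :=
  ∑ a, ∑ b, v a * w b * K2 K s x a b

lemma K2_comm (K : Lat n → Lat n → ℝ) (s x : Lat n) (u v : Node n) :
    K2 K s x u v = K2 K s x v u := by
  unfold K2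
  congr 1
  · abel
  · abel

lemma QF_comm (K : Lat n → Lat n → ℝ) (s x : Lat n) (v w : Node n → ℝ) :
    QF K s x v w = QF K s x w v := by
  unfold QF
  rw [Finset.sum_comm]
  refine Finset.sum_congr rfl fun a _ => Finset.sum_congr rfl fun b _ => ?_
  rw [K2_comm K s x b a]; ring

lemma QF_add_self (K : Lat n → Lat n → ℝ) (s x : Lat n) (v w : Node n → ℝ) :
    QF K s x (v + w) (v + w) = QF K s x v v + 2 * QF K s x v w + QF K s x w w := by
  have h1 : QF K s x (v + w) (v + w)
      = QF K s x v v + QF K s x v w + (QF K s x w v + QF K s x w w) := by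
    simp only [QF, Pi.add_apply, ← Finset.sum_add_distrib]
    refine Finset.sum_congr rfl fun a _ => Finset.sum_congr rfl fun b _ => ?_
    ring
  rw [h1, QF_comm K s x w v]; ring

/-- the box -/
noncomputable def box (lo hi : Lat n) : Finset (Lat n) := Fintype.piFinset fun k => Finset.Icc (lo k) (hi k)

lemma mem_box {lo hi x : Lat n} : x ∈ box lo hi ↔ ∀ k, lo k ≤ x k ∧ x k ≤ hi k := by
  simp [box, Fintype.mem_piFinset]

lemma box_corner {lo hi x : Lat n} {k m : Fin n} (hkm : k ≠ m)
    (h1 : x + ev k ∈ box lo hi) (h2 : x + ev m ∈ box lo hi) :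
    x + ev k + ev m ∈ box lo hi := by
  rw [mem_box] at *
  intro j
  have a := h1 j
  have b := h2 j
  simp only [Pi.add_apply, ev] at *
  by_cases hj : j = m
  · subst hj
    have : (Pi.single k (1 : ℤ) : Lat n) j = 0 := by simp [Pi.single_apply, hkm.symm]
    rw [this] at a ⊢
    simpa using b
  · have : (Pi.single m (1 : ℤ) : Lat n) j = 0 := by simp [Pi.single_apply, hj]
    rw [this] at b ⊢
    simpa using a

lemma box_mid {lo hi x : Lat n} {k m : Fin n}
    (h0 : x ∈ box lo hi) (h2 : x + ev m + ev k ∈ box lo hi) :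
    x + ev k ∈ box lo hi := by
  rw [mem_box] at *
  intro j
  have a := h0 j
  have b := h2 j
  simp only [Pi.add_apply, ev] at *
  have e1 : 0 ≤ (Pi.single k (1 : ℤ) : Lat n) j := by
    by_cases h : j = k <;> simp [Pi.single_apply, h]
  have e2 : 0 ≤ (Pi.single m (1 : ℤ) : Lat n) j := by
    by_cases h : j = m <;> simp [Pi.single_apply, h]
  omega

/-- shift lemma -/
lemma sum_shift (B : Finset (Lat n)) (w : Lat n) (f : Lat n → ℝ)
    (hf : ∀ x, f x ≠ 0 → x ∈ B ∧ x + w ∈ B) :
    ∑ x ∈ B, f (x - w) = ∑ x ∈ B, f x := by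
  classical
  have h1 : ∑ x ∈ B, f (x - w) = ∑ x ∈ B.filter (fun x => x - w ∈ B), f (x - w) := by
    rw [Finset.sum_filter]
    refine Finset.sum_congr rfl fun x hx => ?_
    split_ifs with h
    · rfl
    · by_contra hne
      exact h (hf _ hne).1
  have h2 : ∑ x ∈ B, f x = ∑ x ∈ B.filter (fun x => x + w ∈ B), f x := by
    rw [Finset.sum_filter]
    refine Finset.sum_congr rfl fun x hx => ?_
    split_ifs with h
    · rfl
    · by_contra hne
      exact h (hf _ hne).2
  rw [h1, h2]
  refine Finset.sum_nbij' (fun x => x - w) (fun x => x + w) ?_ ?_ ?_ ?_ ?_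
  · intro x hx
    simp only [Finset.mem_filter] at hx ⊢
    refine ⟨hx.2, by simpa using hx.1⟩
  · intro x hx
    simp only [Finset.mem_filter] at hx ⊢
    refine ⟨hx.2, by simpa using hx.1⟩
  · intro x hx; simp
  · intro x hx; simp
  · intro x hx; rfl

/-- gradient of a potential on the box (zero on edges leaving the box) -/
noncomputable def J (B : Finset (Lat n)) (u : Lat n → ℝ) (k : Fin n) (x : Lat n) : ℝ := by
  classical
  exact if x ∈ B ∧ x + ev k ∈ B then u (x + ev k) - u x else 0

lemma J_ne {B : Finset (Lat n)} {u : Lat n → ℝ} {k : Fin n} {x : Lat n}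
    (h : J B u k x ≠ 0) : x ∈ B ∧ x + ev k ∈ B := by
  classical
  unfold J at h
  by_contra hc
  simp [hc] at h

/-- the hop part of the velocity vector -/
noncomputable def hop (B : Finset (Lat n)) (u : Lat n → ℝ) (x : Lat n) : Node n → ℝ
  | Sum.inl k => J B u k x
  | Sum.inr k => - J B u k (x - ev k)

lemma K2_shift_inl_inr (K : Lat n → Lat n → ℝ) (s x : Lat n) (u : Node n) (k : Fin n) :
    K2 K s (x - ev k) u (Sum.inl k) = K2 K s x u (Sum.inr k) := by
  unfold K2
  simp only [aX_inl, aX_inr, aY_inl, aY_inr]
  congr 1 <;> abel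

lemma K1_shift (K : Lat n → Lat n → ℝ) (s x : Lat n) (k : Fin n) :
    K1 K s (x - ev k) (Sum.inl k) = K1 K s x (Sum.inr k) := by
  unfold K1
  simp only [aX_inl, aX_inr, aY_inl, aY_inr]
  congr 1 <;> abel

/-- the linear telescoping: hop vectors are orthogonal to every function of the load -/
lemma hop_lin (B : Finset (Lat n)) (u : Lat n → ℝ) (G : Lat n → Node n → ℝ)
    (hG : ∀ x k, G (x - ev k) (Sum.inl k) = G x (Sum.inr k)) :
    ∑ x ∈ B, ∑ a, hop B u x a * G x a = 0 := by
  have h : ∀ x, ∑ a, hop B u x a * G x a
      = ∑ k, (J B u k x * G x (Sum.inl k) - J B u k (x - ev k) * G (x - ev k) (Sum.inl k)) := by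
    intro x
    rw [Fintype.sum_sum_type, ← Finset.sum_add_distrib]
    refine Finset.sum_congr rfl fun k _ => ?_
    simp only [hop, hG]
    ring
  simp only [h]
  rw [Finset.sum_comm]
  refine Finset.sum_eq_zero fun k _ => ?_
  rw [Finset.sum_sub_distrib, sub_eq_zero]
  symm
  refine sum_shift B (ev k) (fun x => J B u k x * G x (Sum.inl k)) ?_
  intro x hx
  exact J_ne (left_ne_zero_of_mul hx)

lemma QF_cross (B : Finset (Lat n)) (u : Lat n → ℝ) (K : Lat n → Lat n → ℝ) (s : Lat n)
    (r : Node n → ℝ) :
    ∑ x ∈ B, QF K s x r (hop B u x) = 0 := by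
  have h : ∀ x, QF K s x r (hop B u x)
      = ∑ b, hop B u x b * (∑ a, r a * K2 K s x a b) := by
    intro x
    unfold QF
    rw [Finset.sum_comm]
    refine Finset.sum_congr rfl fun b _ => ?_
    rw [Finset.mul_sum]
    refine Finset.sum_congr rfl fun a _ => ?_
    ring
  simp only [h]
  refine hop_lin B u (fun x b => ∑ a, r a * K2 K s x a b) ?_
  intro x k
  refine Finset.sum_congr rfl fun a _ => ?_
  rw [K2_shift_inl_inr]

/-- plaquette identity for a pair of directions, inequality form -/
lemma pair_nonneg {lo hi : Lat n} (u : Lat n → ℝ) (K : Lat n → Lat n → ℝ) (s : Lat n)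
    (hK : ∀ a b, 0 ≤ K a b) (k m : Fin n) :
    0 ≤ ∑ x ∈ box lo hi,
      (J (box lo hi) u k x * J (box lo hi) u m x * K2 K s x (Sum.inl k) (Sum.inl m)
        - J (box lo hi) u k x * J (box lo hi) u m (x - ev m) * K2 K s x (Sum.inl k) (Sum.inr m)
        - J (box lo hi) u k (x - ev k) * J (box lo hi) u m x * K2 K s x (Sum.inr k) (Sum.inl m)
        + J (box lo hi) u k (x - ev k) * J (box lo hi) u m (x - ev m)
            * K2 K s x (Sum.inr k) (Sum.inr m)) := by
  classical
  set B := box lo hi with hB
  set W : Lat n → ℝ := fun x => K2 K s x (Sum.inl k) (Sum.inl m) with hW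
  have hW0 : ∀ x, 0 ≤ W x := fun x => hK _ _
  by_cases hkm : k = m
  · subst hkm
    -- diagonal case
    have e2 : ∀ x, K2 K s x (Sum.inl k) (Sum.inr k) = W (x - ev k) := by
      intro x; simp only [hW]; rw [K2_shift_inl_inr]
    have e3 : ∀ x, K2 K s x (Sum.inr k) (Sum.inl k) = W (x - ev k) := by
      intro x; rw [K2_comm]; exact e2 x
    have e4 : ∀ x, K2 K s x (Sum.inr k) (Sum.inr k) = W (x - ev k - ev k) := by
      intro x
      rw [← K2_shift_inl_inr K s x (Sum.inr k) k, K2_comm, ← K2_shift_inl_inr]
    simp only [e2, e3, e4]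
    -- terms
    have t1 : ∑ x ∈ B, J B u k x * J B u k x * W x
        = ∑ x ∈ B, J B u k (x - ev k) * J B u k (x - ev k) * W (x - ev k) := by
      symm
      refine sum_shift B (ev k) (fun x => J B u k x * J B u k x * W x) ?_
      intro x hx
      exact J_ne (left_ne_zero_of_mul (left_ne_zero_of_mul hx))
    have t4 : ∑ x ∈ B, J B u k (x - ev k) * J B u k (x - ev k) * W (x - ev k - ev k)
        = ∑ x ∈ B, J B u k x * J B u k x * W (x - ev k) := by
      have := sum_shift B (ev k) (fun x => J B u k x * J B u k x * W (x - ev k)) ?_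
      · simpa using this
      · intro x hx
        exact J_ne (left_ne_zero_of_mul (left_ne_zero_of_mul hx))
    have : ∑ x ∈ B, (J B u k x * J B u k x * W x
        - J B u k x * J B u k (x - ev k) * W (x - ev k)
        - J B u k (x - ev k) * J B u k x * W (x - ev k)
        + J B u k (x - ev k) * J B u k (x - ev k) * W (x - ev k - ev k))
        = ∑ x ∈ B, W (x - ev k) * (J B u k x - J B u k (x - ev k)) ^ 2 := by
      rw [Finset.sum_add_distrib, Finset.sum_sub_distrib, Finset.sum_sub_distrib, t1, t4,
        ← Finset.sum_sub_distrib, ← Finset.sum_sub_distrib, ← Finset.sum_add_distrib]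
      refine Finset.sum_congr rfl fun x _ => ?_
      ring
    rw [this]
    exact Finset.sum_nonneg fun x _ => mul_nonneg (hW0 _) (sq_nonneg _)
  · have e2 : ∀ x, K2 K s x (Sum.inl k) (Sum.inr m) = W (x - ev m) := by
      intro x; simp only [hW]; rw [K2_shift_inl_inr]
    have e3 : ∀ x, K2 K s x (Sum.inr k) (Sum.inl m) = W (x - ev k) := by
      intro x; simp only [hW]
      rw [K2_comm K s (x - ev k), K2_shift_inl_inr, K2_comm]
    have e4 : ∀ x, K2 K s x (Sum.inr k) (Sum.inr m) = W (x - (ev k + ev m)) := by
      intro x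
      rw [← K2_shift_inl_inr K s x (Sum.inr k) m, e3]
      congr 1; abel
    simp only [e2, e3, e4]
    have t2 : ∑ x ∈ B, J B u k x * J B u m (x - ev m) * W (x - ev m)
        = ∑ x ∈ B, J B u k (x + ev m) * J B u m x * W x := by
      have := sum_shift B (ev m) (fun x => J B u k (x + ev m) * J B u m x * W x) ?_
      · simpa using this
      · intro x hx
        exact J_ne (right_ne_zero_of_mul (left_ne_zero_of_mul hx))
    have t3 : ∑ x ∈ B, J B u k (x - ev k) * J B u m x * W (x - ev k)
        = ∑ x ∈ B, J B u k x * J B u m (x + ev k) * W x := by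
      have := sum_shift B (ev k) (fun x => J B u k x * J B u m (x + ev k) * W x) ?_
      · simpa using this
      · intro x hx
        exact J_ne (left_ne_zero_of_mul (left_ne_zero_of_mul hx))
    have t4 : ∑ x ∈ B, J B u k (x - ev k) * J B u m (x - ev m) * W (x - (ev k + ev m))
        = ∑ x ∈ B.filter (fun x => x + (ev k + ev m) ∈ B),
            J B u k (x + ev m) * J B u m (x + ev k) * W x := by
      have h := sum_shift B (ev k + ev m)
        (fun x => if x ∈ B ∧ x + (ev k + ev m) ∈ B then
          J B u k (x + ev m) * J B u m (x + ev k) * W x else 0) ?_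
      · have l : ∑ x ∈ B, J B u k (x - ev k) * J B u m (x - ev m) * W (x - (ev k + ev m))
            = ∑ x ∈ B, (fun x => if x ∈ B ∧ x + (ev k + ev m) ∈ B then
          J B u k (x + ev m) * J B u m (x + ev k) * W x else 0) (x - (ev k + ev m)) := by
          refine Finset.sum_congr rfl fun x hx => ?_
          have a1 : x - (ev k + ev m) + ev m = x - ev k := by abel
          have a2 : x - (ev k + ev m) + ev k = x - ev m := by abel
          simp only [a1, a2]
          split_ifs with hh
          · rfl
          · by_contra hne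
            apply hh
            refine ⟨?_, by simpa using hx⟩
            have b1 := J_ne (left_ne_zero_of_mul (left_ne_zero_of_mul hne))
            have b2 := J_ne (right_ne_zero_of_mul (left_ne_zero_of_mul hne))
            -- x - e_k ∈ B, x ∈ B, x - e_m ∈ B => x - e_k - e_m ∈ B
            have c1 := b1.1
            have c2 := b2.1
            rw [hB, mem_box] at c1 c2 ⊢
            intro j
            have d1 := c1 j
            have d2 := c2 j
            simp only [Pi.sub_apply, Pi.add_apply, ev] at d1 d2 ⊢
            by_cases hj : j = m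
            · subst hj
              have : (Pi.single k (1 : ℤ) : Lat n) j = 0 := by
                simp [Pi.single_apply, Ne.symm hkm]
              rw [this] at d1 ⊢
              simpa using d2
            · have : (Pi.single m (1 : ℤ) : Lat n) j = 0 := by simp [Pi.single_apply, hj]
              rw [this] at d2 ⊢
              simpa using d1
        rw [l, h, Finset.sum_filter]
        refine Finset.sum_congr rfl fun x hx => ?_
        simp only [hx, true_and]
      · intro x hx
        by_contra hc
        rw [if_neg hc] at hx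
        exact hx rfl
    have t4' : ∑ x ∈ B, J B u k (x - ev k) * J B u m (x - ev m) * W (x - (ev k + ev m))
        = ∑ x ∈ B, J B u k (x + ev m) * J B u m (x + ev k) * W x := by
      rw [t4, Finset.sum_filter]
      refine Finset.sum_congr rfl fun x hx => ?_
      split_ifs with hh
      · rfl
      · by_contra hne
        apply hh
        have b1 := (J_ne (left_ne_zero_of_mul (left_ne_zero_of_mul (Ne.symm hne)))).2
        have : x + (ev k + ev m) = x + ev m + ev k := by abel
        rw [this]; exact b1
    have key : ∑ x ∈ B, (J B u k x * J B u m x * W x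
        - J B u k x * J B u m (x - ev m) * W (x - ev m)
        - J B u k (x - ev k) * J B u m x * W (x - ev k)
        + J B u k (x - ev k) * J B u m (x - ev m) * W (x - (ev k + ev m)))
        = ∑ x ∈ B, W x * ((J B u k (x + ev m) - J B u k x) * (J B u m (x + ev k) - J B u m x)) := by
      rw [Finset.sum_add_distrib, Finset.sum_sub_distrib, Finset.sum_sub_distrib, t2, t3, t4',
        ← Finset.sum_sub_distrib, ← Finset.sum_sub_distrib, ← Finset.sum_add_distrib]
      refine Finset.sum_congr rfl fun x _ => ?_
      ring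
    rw [key]
    refine Finset.sum_nonneg fun x hx => mul_nonneg (hW0 _) ?_
    by_cases h1 : x + ev k ∈ B
    · by_cases h2 : x + ev m ∈ B
      · have h3 : x + ev k + ev m ∈ B := box_corner hkm h1 h2
        have h3' : x + ev m + ev k ∈ B := by
          have : x + ev m + ev k = x + ev k + ev m := by abel
          rw [this]; exact h3
        have a1 : J B u k (x + ev m) = u (x + ev m + ev k) - u (x + ev m) := by
          unfold J; rw [if_pos ⟨h2, h3'⟩]
        have a2 : J B u k x = u (x + ev k) - u x := by
          unfold J; rw [if_pos ⟨hx, h1⟩]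
        have a3 : J B u m (x + ev k) = u (x + ev k + ev m) - u (x + ev k) := by
          unfold J; rw [if_pos ⟨h1, h3⟩]
        have a4 : J B u m x = u (x + ev m) - u x := by
          unfold J; rw [if_pos ⟨hx, h2⟩]
        rw [a1, a2, a3, a4]
        have : x + ev m + ev k = x + ev k + ev m := by abel
        rw [this]
        have e : (u (x + ev k + ev m) - u (x + ev m) - (u (x + ev k) - u x))
            * (u (x + ev k + ev m) - u (x + ev k) - (u (x + ev m) - u x))
            = (u (x + ev k + ev m) - u (x + ev m) - (u (x + ev k) - u x)) ^ 2 := by ring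
        rw [e]; exact sq_nonneg _
      · -- x + e_m ∉ B
        have a3 : J B u m (x + ev k) = 0 := by
          by_contra hne
          have := (J_ne hne).2
          exact h2 (box_mid hx this)
        have a4 : J B u m x = 0 := by
          by_contra hne
          exact h2 (J_ne hne).2
        rw [a3, a4]; simp
    · have a1 : J B u k (x + ev m) = 0 := by
        by_contra hne
        have := (J_ne hne).2
        exact h1 (box_mid hx this)
      have a2 : J B u k x = 0 := by
        by_contra hne
        exact h1 (J_ne hne).2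
      rw [a1, a2]; simp

/-- BOCHNER INEQUALITY: the hop part only increases the quadratic form. -/
theorem bochner {lo hi : Lat n} (u : Lat n → ℝ) (K : Lat n → Lat n → ℝ) (s : Lat n)
    (hK : ∀ a b, 0 ≤ K a b) (r : Node n → ℝ) :
    ∑ x ∈ box lo hi, QF K s x r r
      ≤ ∑ x ∈ box lo hi, QF K s x (r + hop (box lo hi) u x) (r + hop (box lo hi) u x) := by
  have h1 : ∑ x ∈ box lo hi, QF K s x (r + hop (box lo hi) u x) (r + hop (box lo hi) u x)
      = ∑ x ∈ box lo hi, QF K s x r r
        + ∑ x ∈ box lo hi, QF K s x (hop (box lo hi) u x) (hop (box lo hi) u x) := by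
    simp only [QF_add_self]
    rw [Finset.sum_add_distrib, Finset.sum_add_distrib, ← Finset.mul_sum, QF_cross]
    ring
  rw [h1]
  have h2 : 0 ≤ ∑ x ∈ box lo hi, QF K s x (hop (box lo hi) u x) (hop (box lo hi) u x) := by
    have h : ∀ x, QF K s x (hop (box lo hi) u x) (hop (box lo hi) u x)
        = ∑ k, ∑ m, (J (box lo hi) u k x * J (box lo hi) u m x
            * K2 K s x (Sum.inl k) (Sum.inl m)
        - J (box lo hi) u k x * J (box lo hi) u m (x - ev m) * K2 K s x (Sum.inl k) (Sum.inr m)
        - J (box lo hi) u k (x - ev k) * J (box lo hi) u m x * K2 K s x (Sum.inr k) (Sum.inl m)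
        + J (box lo hi) u k (x - ev k) * J (box lo hi) u m (x - ev m)
            * K2 K s x (Sum.inr k) (Sum.inr m)) := by
      intro x
      unfold QF
      rw [Fintype.sum_sum_type, ← Finset.sum_add_distrib]
      refine Finset.sum_congr rfl fun k _ => ?_
      rw [Fintype.sum_sum_type, Fintype.sum_sum_type, ← Finset.sum_add_distrib,
        ← Finset.sum_add_distrib, ← Finset.sum_add_distrib]
      refine Finset.sum_congr rfl fun m _ => ?_
      simp only [hop]
      ring
    simp only [h]
    rw [Finset.sum_comm]
    refine Finset.sum_nonneg fun k _ => ?_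
    rw [Finset.sum_comm]
    exact Finset.sum_nonneg fun m _ => pair_nonneg u K s hK k m
  linarith

end Crest.Agent.R302.MP
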