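import Crest.Agent.R302.MP1
import Crest.Agent.R302.Lap541

/-!
R302, multi-scale Poincare inequality MSP', part 2 (helper142).
Exact transport on a slice, root form.
-/

set_option autoImplicit false

namespace Crest.Agent.R302.MP

open Finset

variable {n : ℕ}

/-- sharper version of `hop_lin`: the closure hypothesis is only needed on the edges of the box -/
lemma hop_lin' (B : Finset (Lat n)) (u : Lat n → ℝ) (G : Lat n → Node n → ℝ)
    (hG : ∀ x k, x - ev k ∈ B → x ∈ B → G (x - ev k) (Sum.inl k) = G x (Sum.inr k)) :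
    ∑ x ∈ B, ∑ a, hop B u x a * G x a = 0 := by
  have h : ∀ x, ∑ a, hop B u x a * G x a
      = ∑ k, (J B u k x * G x (Sum.inl k) - J B u k (x - ev k) * G (x - ev k) (Sum.inl k)) := by
    intro x
    rw [Fintype.sum_sum_type, ← Finset.sum_add_distrib]
    refine Finset.sum_congr rfl fun k _ => ?_
    simp only [hop]
    by_cases hJ : J B u k (x - ev k) = 0
    · rw [hJ]; ring
    · have h1 := J_ne hJ
      rw [hG x k h1.1 (by simpa using h1.2)]
      ring
  simp only [h]
  rw [Finset.sum_comm]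
  refine Finset.sum_eq_zero fun k _ => ?_
  rw [Finset.sum_sub_distrib, sub_eq_zero]
  symm
  refine sum_shift B (ev k) (fun x => J B u k x * G x (Sum.inl k)) ?_
  intro x hx
  exact J_ne (left_ne_zero_of_mul hx)

/-- slice of the box with coordinate `i` pinned to `c` -/
noncomputable def slice (lo hi : Lat n) (i : Fin n) (c : ℤ) : Finset (Lat n) :=
  box (Function.update lo i c) (Function.update hi i c)

lemma mem_slice {lo hi : Lat n} {i : Fin n} {c : ℤ} {x : Lat n} :
    x ∈ slice lo hi i c ↔ x i = c ∧ ∀ k, k ≠ i → lo k ≤ x k ∧ x k ≤ hi k := by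
  unfold slice
  rw [mem_box]
  constructor
  · intro h
    refine ⟨?_, ?_⟩
    · have := h i
      simp only [Function.update_self] at this
      omega
    · intro k hk
      have := h k
      simpa [Function.update_of_ne hk] using this
  · rintro ⟨h1, h2⟩ k
    by_cases hk : k = i
    · subst hk; simp [h1]
    · simpa [Function.update_of_ne hk] using h2 k hk

lemma slice_shift {lo hi : Lat n} {i : Fin n} {c : ℤ} {x : Lat n} :
    x + ev i ∈ slice lo hi i (c + 1) ↔ x ∈ slice lo hi i c := by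
  rw [mem_slice, mem_slice]
  constructor
  · rintro ⟨h1, h2⟩
    refine ⟨by simp [ev] at h1; exact h1, fun k hk => ?_⟩
    have := h2 k hk
    simpa [ev, Pi.single_apply, hk] using this
  · rintro ⟨h1, h2⟩
    refine ⟨by simp [ev, h1], fun k hk => ?_⟩
    simpa [ev, Pi.single_apply, hk] using h2 k hk

lemma sum_slice_shift (lo hi : Lat n) (i : Fin n) (c : ℤ) (f : Lat n → ℝ) :
    ∑ x ∈ slice lo hi i c, f (x + ev i) = ∑ x ∈ slice lo hi i (c + 1), f x := by
  refine Finset.sum_nbij' (fun x => x + ev i) (fun x => x - ev i) ?_ ?_ ?_ ?_ ?_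
  · intro x hx; exact slice_shift.2 hx
  · intro x hx
    apply slice_shift.1
    simpa using hx
  · intro x _; simp
  · intro x _; simp
  · intro x _; rfl

/-- the root vector `Y_i / Z - X_i / Z'` -/
noncomputable def rootv (i : Fin n) (Z Z' : ℝ) : Node n → ℝ
  | Sum.inl k => if k = i then - (1 / Z') else 0
  | Sum.inr k => if k = i then 1 / Z else 0

lemma sum_rootv (i : Fin n) (Z Z' : ℝ) (g : Node n → ℝ) :
    ∑ p, rootv i Z Z' p * g p = 1 / Z * g (Sum.inr i) - 1 / Z' * g (Sum.inl i) := by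
  rw [Fintype.sum_sum_type]
  simp only [rootv, ite_mul, zero_mul, Finset.sum_ite_eq', Finset.mem_univ, if_true]
  ring

lemma box_eq_Icc (lo hi : Lat n) : box lo hi = Finset.Icc lo hi := by
  ext x
  rw [mem_box, Finset.mem_Icc, Pi.le_def, Pi.le_def]
  constructor
  · intro h; exact ⟨fun k => (h k).1, fun k => (h k).2⟩
  · rintro ⟨h1, h2⟩ k; exact ⟨h1 k, h2 k⟩

lemma J_eq_Lap (lo hi : Lat n) (u : Lat n → ℝ) (k : Fin n) (x : Lat n) :
    J (box lo hi) u k x = Lap.J lo hi u k x := by
  classical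
  unfold J Lap.J
  have h : (x ∈ box lo hi ∧ x + ev k ∈ box lo hi)
      ↔ (x ∈ Set.Icc lo hi ∧ x + Lap.e k ∈ Set.Icc lo hi) := by
    rw [box_eq_Icc, Finset.mem_Icc, Finset.mem_Icc, Set.mem_Icc, Set.mem_Icc]
    rfl
  by_cases hc : x ∈ box lo hi ∧ x + ev k ∈ box lo hi
  · rw [if_pos hc, if_pos (h.1 hc)]; rfl
  · rw [if_neg hc, if_neg (fun h' => hc (h.2 h'))]

/-- existence of the balancing potential on a slice. -/
lemma exists_flow {K : Lat n → Lat n → ℝ} (hK : ∀ a b, 0 < K a b) (lo hi : Lat n) (i : Fin n)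
    (c : ℤ) (hc : (slice lo hi i c).Nonempty) :
    ∃ u : Lat n → ℝ, ∀ x ∈ slice lo hi i c,
      ∑ p, (rootv i (∑ y ∈ slice lo hi i c, K y y) (∑ y ∈ slice lo hi i (c + 1), K y y)
        + hop (slice lo hi i c) u x) p * K1 K (ev i) x p = 0 := by
  set Z := ∑ y ∈ slice lo hi i c, K y y with hZ
  set Z' := ∑ y ∈ slice lo hi i (c + 1), K y y with hZ'
  have hZp : 0 < Z := Finset.sum_pos (fun y _ => hK y y) hc
  have hZp' : 0 < Z' := by
    refine Finset.sum_pos (fun y _ => hK y y) ?_
    obtain ⟨x, hx⟩ := hc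
    exact ⟨x + ev i, slice_shift.2 hx⟩
  set q : Lat n → ℝ := fun x => ∑ p, rootv i Z Z' p * K1 K (ev i) x p with hq
  have hq' : ∀ x, q x = 1 / Z * K x x - 1 / Z' * K (x + ev i) (x + ev i) := by
    intro x
    simp only [hq]
    rw [sum_rootv]
    simp [K1]
  have hq0 : ∑ x ∈ slice lo hi i c, q x = 0 := by
    simp only [hq']
    rw [Finset.sum_sub_distrib, ← Finset.mul_sum, ← Finset.mul_sum,
      sum_slice_shift lo hi i c (fun x => K x x), ← hZ, ← hZ']
    field_simp
    ring
  set lo' := Function.update lo i c with hlo'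
  set hi' := Function.update hi i c with hhi'
  have hsl : slice lo hi i c = box lo' hi' := rfl
  obtain ⟨u, hu⟩ := Lap.exists_potential (lo := lo') (hi := hi')
    (N := fun k x => K1 K (ev i) x (Sum.inl k)) (fun k x _ _ => hK _ _) q (by
      rw [← box_eq_Icc]; exact hq0)
  refine ⟨u, fun x hx => ?_⟩
  have h := hu x (by rw [← box_eq_Icc]; exact hx)
  have e : ∑ p, (rootv i Z Z' + hop (slice lo hi i c) u x) p * K1 K (ev i) x p
      = q x + ∑ p, hop (slice lo hi i c) u x p * K1 K (ev i) x p := by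
    simp only [hq, Pi.add_apply, add_mul, Finset.sum_add_distrib]
  rw [e, ← h]
  congr 1
  rw [Fintype.sum_sum_type, ← Finset.sum_add_distrib]
  refine Finset.sum_congr rfl fun k _ => ?_
  simp only [hop, hsl, J_eq_Lap]
  have := K1_shift K (ev i) x k
  have e2 : x - Lap.e k = x - ev k := rfl
  rw [e2, this]
  ring

/-- root form of the two-node kernel -/
lemma QF_rootv (K : Lat n → Lat n → ℝ) (i : Fin n) (Z Z' : ℝ) (x : Lat n) :
    QF K (ev i + ev i) x (rootv i Z Z') (rootv i Z Z')
      = 1 / Z ^ 2 * K x x - 2 / (Z * Z') * K (x + ev i) (x + ev i)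
        + 1 / Z' ^ 2 * K (x + ev i + ev i) (x + ev i + ev i) := by
  have h : QF K (ev i + ev i) x (rootv i Z Z') (rootv i Z Z')
      = ∑ a, rootv i Z Z' a * (∑ b, rootv i Z Z' b * K2 K (ev i + ev i) x a b) := by
    unfold QF
    refine Finset.sum_congr rfl fun a _ => ?_
    rw [Finset.mul_sum]
    refine Finset.sum_congr rfl fun b _ => ?_
    ring
  rw [h]
  simp only [sum_rootv]
  have e1 : K2 K (ev i + ev i) x (Sum.inr i) (Sum.inr i) = K x x := by
    unfold K2; simp only [aX_inr, aY_inr]; congr 1 <;> abel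
  have e2 : K2 K (ev i + ev i) x (Sum.inr i) (Sum.inl i) = K (x + ev i) (x + ev i) := by
    unfold K2; simp only [aX_inr, aY_inr, aX_inl, aY_inl]; congr 1 <;> abel
  have e3 : K2 K (ev i + ev i) x (Sum.inl i) (Sum.inr i) = K (x + ev i) (x + ev i) := by
    unfold K2; simp only [aX_inr, aY_inr, aX_inl, aY_inl]; congr 1 <;> abel
  have e4 : K2 K (ev i + ev i) x (Sum.inl i) (Sum.inl i)
      = K (x + ev i + ev i) (x + ev i + ev i) := by
    unfold K2; simp only [aX_inl, aY_inl]; congr 1 <;> abel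
  rw [e1, e2, e3, e4]
  simp only [div_eq_mul_inv, mul_inv, inv_pow]
  ring

/-- the flow of one slice: balance, transport, Bochner inequality -/
theorem exists_velocity {K0 : Lat n → Lat n → ℝ} (hK0 : ∀ a b, 0 < K0 a b) (lo hi : Lat n)
    (i : Fin n) (c : ℤ) (hc : (slice lo hi i c).Nonempty) :
    ∃ v : Lat n → Node n → ℝ,
      (∀ x ∈ slice lo hi i c, ∑ p, v x p * K1 K0 (ev i) x p = 0) ∧
      (∀ g : Lat n → Node n → ℝ,
        (∀ x k, x - ev k ∈ slice lo hi i c → x ∈ slice lo hi i c →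
          g (x - ev k) (Sum.inl k) = g x (Sum.inr k)) →
        ∑ x ∈ slice lo hi i c, ∑ p, v x p * K1 K0 (ev i) x p * g x p
          = 1 / (∑ y ∈ slice lo hi i c, K0 y y) * ∑ x ∈ slice lo hi i c, K0 x x * g x (Sum.inr i)
            - 1 / (∑ y ∈ slice lo hi i (c + 1), K0 y y)
              * ∑ x ∈ slice lo hi i c, K0 (x + ev i) (x + ev i) * g x (Sum.inl i)) ∧
      (∀ K : Lat n → Lat n → ℝ, (∀ a b, 0 ≤ K a b) →
        1 / (∑ y ∈ slice lo hi i c, K0 y y) ^ 2 * (∑ x ∈ slice lo hi i c, K x x)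
          - 2 / ((∑ y ∈ slice lo hi i c, K0 y y) * (∑ y ∈ slice lo hi i (c + 1), K0 y y))
            * (∑ x ∈ slice lo hi i (c + 1), K x x)
          + 1 / (∑ y ∈ slice lo hi i (c + 1), K0 y y) ^ 2
            * (∑ x ∈ slice lo hi i (c + 2), K x x)
        ≤ ∑ x ∈ slice lo hi i c, QF K (ev i + ev i) x (v x) (v x)) := by
  obtain ⟨u, hu⟩ := exists_flow hK0 lo hi i c hc
  set Z := ∑ y ∈ slice lo hi i c, K0 y y with hZ
  set Z' := ∑ y ∈ slice lo hi i (c + 1), K0 y y with hZ'
  refine ⟨fun x => rootv i Z Z' + hop (slice lo hi i c) u x, hu, ?_, ?_⟩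
  · intro g hg
    have h1 : ∀ x, ∑ p, (rootv i Z Z' + hop (slice lo hi i c) u x) p * K1 K0 (ev i) x p * g x p
        = (∑ p, rootv i Z Z' p * (K1 K0 (ev i) x p * g x p))
          + ∑ p, hop (slice lo hi i c) u x p * (K1 K0 (ev i) x p * g x p) := by
      intro x
      rw [← Finset.sum_add_distrib]
      refine Finset.sum_congr rfl fun p _ => ?_
      simp only [Pi.add_apply]
      ring
    simp only [h1]
    rw [Finset.sum_add_distrib]
    have h2 : ∑ x ∈ slice lo hi i c, ∑ p, hop (slice lo hi i c) u x p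
        * (K1 K0 (ev i) x p * g x p) = 0 := by
      refine hop_lin' _ u (fun x p => K1 K0 (ev i) x p * g x p) ?_
      intro x k hx1 hx2
      rw [K1_shift, hg x k hx1 hx2]
    rw [h2, add_zero]
    simp only [sum_rootv]
    rw [Finset.sum_sub_distrib, ← Finset.mul_sum, ← Finset.mul_sum]
    have e1 : ∀ x, K1 K0 (ev i) x (Sum.inr i) = K0 x x := by
      intro x; unfold K1; simp only [aX_inr, aY_inr]; congr 1 <;> abel
    have e2 : ∀ x, K1 K0 (ev i) x (Sum.inl i) = K0 (x + ev i) (x + ev i) := by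
      intro x; unfold K1; simp only [aX_inl, aY_inl]; congr 1; abel
    simp only [e1, e2]
  · intro K hK
    have h := bochner (lo := Function.update lo i c) (hi := Function.update hi i c) u K
      (ev i + ev i) hK (rootv i Z Z')
    refine le_trans (le_of_eq ?_) h
    have h3 : ∀ f : Lat n → ℝ, ∑ x ∈ slice lo hi i (c + 2), f x
        = ∑ x ∈ slice lo hi i c, f (x + ev i + ev i) := by
      intro f
      rw [sum_slice_shift lo hi i c (fun x => f (x + ev i)),
        sum_slice_shift lo hi i (c + 1) f]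
      congr 2
      ring
    rw [h3, ← sum_slice_shift lo hi i c (fun x => K x x)]
    have h4 : ∑ x ∈ box (Function.update lo i c) (Function.update hi i c),
        QF K (ev i + ev i) x (rootv i Z Z') (rootv i Z Z')
        = ∑ x ∈ slice lo hi i c, (1 / Z ^ 2 * K x x - 2 / (Z * Z') * K (x + ev i) (x + ev i)
        + 1 / Z' ^ 2 * K (x + ev i + ev i) (x + ev i + ev i)) :=
      Finset.sum_congr rfl fun x _ => QF_rootv K i Z Z' x
    rw [h4, Finset.sum_add_distrib, Finset.sum_sub_distrib, ← Finset.mul_sum, ← Finset.mul_sum,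
      ← Finset.mul_sum]

end Crest.Agent.R302.MP
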