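import Crest.Agent.R302.MP2
import Crest.Agent.R302.OneD675

/-!
R302, multi-scale Poincare inequality MSP', part 3 (helper142): the stage theorem.
The pointwise inequality (M3) enters as the hypothesis `Pt`, the forest routing as `rout`.
-/

set_option autoImplicit false

namespace Crest.Agent.R302.MP

open Finset

variable {n : ℕ}

/-- data of one stage: kernel, transport weight, routing (fluxes and differences), scales -/
structure Stage (n : ℕ) where
  /-- product kernel `F₁' ⊗ F₂'` -/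
  K0 : Lat n → Lat n → ℝ
  /-- auxiliary weight `ω` -/
  om : Lat n → Lat n → ℝ
  /-- fluxes through the clusters -/
  Phi : (Node n → ℝ) → Node n → ℝ
  /-- differences along the forest edges -/
  D : (Node n → ℝ) → Node n → ℝ
  /-- windows -/
  L : Node n → ℝ
  /-- upper bound of `ω` -/
  U : ℝ
  /-- constant of the pointwise inequality -/
  kap : ℝ
  K0_pos : ∀ a b, 0 < K0 a b
  om_nonneg : ∀ a b, 0 ≤ om a b
  om_le : ∀ a b, om a b ≤ U
  L_pos : ∀ j, 0 < L j
  kap_pos : 0 < kap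
  rout : ∀ w g : Node n → ℝ, ∑ p, w p * g p = ∑ j, Phi w j * D g j

namespace Stage

variable (S : Stage n)

/-- the full two-node kernel `ω F₁' F₂'` -/
def W (a b : Lat n) : ℝ := S.om a b * S.K0 a b

/-- pointwise inequality (M3) at coordinate `i` -/
def Pt (i : Fin n) : Prop := ∀ (x : Lat n) (v : Node n → ℝ),
  ∑ p, v p * K1 S.K0 (ev i) x p = 0 →
  S.kap * ∑ j, S.Phi (fun p => v p * K1 S.K0 (ev i) x p) j ^ 2 / S.L j ^ 2
    ≤ S.K0 x x * (- QF S.W (ev i + ev i) x v v)

/-- first order increments of `ω` -/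
def Inc (i : Fin n) : Prop := ∀ (x : Lat n) (j : Node n),
  |S.D (fun p => S.om (x + aX p) (x + ev i - aY p) - S.om x (x + ev i)) j| ≤ 2 / S.L j

/-- the constant -/
noncomputable def C : ℝ := 2 / S.kap * (S.U + 16 * n / S.kap)

lemma U_nonneg : 0 ≤ S.U := (S.om_nonneg 0 0).trans (S.om_le 0 0)

lemma C_nonneg : 0 ≤ S.C := by
  have := S.kap_pos
  have := S.U_nonneg
  unfold C
  positivity

lemma W_nonneg (a b : Lat n) : 0 ≤ S.W a b := mul_nonneg (S.om_nonneg a b) (S.K0_pos a b).le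

end Stage

/-- abstract closure of the quadratic inequality -/
lemma closure_real {X V kap U N : ℝ} (hX : 0 ≤ X) (hV : 0 ≤ V) (hk : 0 < kap) (hN : 0 ≤ N)
    (h : kap * X ≤ U * V + 2 * (√V * √(8 * N * X))) :
    X ≤ 2 / kap * (U + 16 * N / kap) * V := by
  have h1 : 2 * (√V * √(8 * N * X)) ≤ kap / 2 * X + 16 * N / kap * V := by
    rw [← Real.sqrt_mul hV]
    have e : V * (8 * N * X) = (kap / 2 * X) * (16 * N / kap * V) := by
      field_simp; ring
    rw [e]
    have ha : 0 ≤ kap / 2 * X := by positivity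
    have hb : 0 ≤ 16 * N / kap * V := by positivity
    have := Real.sqrt_mul ha (16 * N / kap * V)
    rw [this]
    nlinarith [sq_nonneg (√(kap / 2 * X) - √(16 * N / kap * V)), Real.sq_sqrt ha, Real.sq_sqrt hb]
  have h2 : kap / 2 * X ≤ (U + 16 * N / kap) * V := by linarith
  have h3 : X = 2 / kap * (kap / 2 * X) := by field_simp
  rw [h3, mul_assoc]
  exact mul_le_mul_of_nonneg_left h2 (by positivity)

/-- Cauchy-Schwarz in the form needed twice -/
lemma cs_two {ι : Type*} (s : Finset ι) (J : Finset (Node n)) (a b w : ι → Node n → ℝ)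
    (hw : ∀ x ∈ s, ∀ j ∈ J, 0 < w x j) :
    (∑ x ∈ s, ∑ j ∈ J, a x j * b x j) ^ 2
      ≤ (∑ x ∈ s, ∑ j ∈ J, a x j ^ 2 / w x j) * (∑ x ∈ s, ∑ j ∈ J, w x j * b x j ^ 2) := by
  rw [← Finset.sum_product', ← Finset.sum_product', ← Finset.sum_product']
  have h := Finset.sum_mul_sq_le_sq_mul_sq (s ×ˢ J)
    (fun p : ι × Node n => a p.1 p.2 / √(w p.1 p.2)) (fun p => √(w p.1 p.2) * b p.1 p.2)
  have e1 : ∀ p ∈ s ×ˢ J, a p.1 p.2 / √(w p.1 p.2) * (√(w p.1 p.2) * b p.1 p.2)
      = a p.1 p.2 * b p.1 p.2 := by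
    intro p hp
    rw [Finset.mem_product] at hp
    have := Real.sqrt_pos.2 (hw p.1 hp.1 p.2 hp.2)
    field_simp
  have e2 : ∀ p ∈ s ×ˢ J, (a p.1 p.2 / √(w p.1 p.2)) ^ 2 = a p.1 p.2 ^ 2 / w p.1 p.2 := by
    intro p hp
    rw [Finset.mem_product] at hp
    rw [div_pow, Real.sq_sqrt (hw p.1 hp.1 p.2 hp.2).le]
  have e3 : ∀ p ∈ s ×ˢ J, (√(w p.1 p.2) * b p.1 p.2) ^ 2 = w p.1 p.2 * b p.1 p.2 ^ 2 := by
    intro p hp
    rw [Finset.mem_product] at hp
    rw [mul_pow, Real.sq_sqrt (hw p.1 hp.1 p.2 hp.2).le]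
  rw [Finset.sum_congr rfl e1, Finset.sum_congr rfl e2, Finset.sum_congr rfl e3] at h
  exact h

section stage

variable (S : Stage n) (lo hi : Lat n) (i : Fin n)

/-- slice mass -/
noncomputable def zz (a : ℕ) : ℝ := ∑ x ∈ slice lo hi i (lo i + a), S.K0 x x

/-- slice mean -/
noncomputable def FF (f : Lat n → ℝ) (a : ℕ) : ℝ :=
  (∑ x ∈ slice lo hi i (lo i + a), S.K0 x x * f x) / zz S lo hi i a

/-- slice mass of `ω π` -/
noncomputable def rr (a : ℕ) : ℝ := ∑ x ∈ slice lo hi i (lo i + a), S.om x x * S.K0 x x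

/-- energy of the difference functions at a point -/
noncomputable def En (f : Lat n → ℝ) (phi : Node n → Lat n) (x : Lat n) : ℝ :=
  ∑ j, S.L j ^ 2 * S.D (fun p => f (x + phi p) - f x) j ^ 2

lemma slice_nonempty (hbox : ∀ k, lo k ≤ hi k) (c : ℤ) : (slice lo hi i c).Nonempty := by
  refine ⟨Function.update lo i c, ?_⟩
  rw [mem_slice]
  refine ⟨by simp, fun k hk => ?_⟩
  rw [Function.update_of_ne hk]
  exact ⟨le_rfl, hbox k⟩

variable {S lo hi i}

lemma zz_pos (hbox : ∀ k, lo k ≤ hi k) (a : ℕ) : 0 < zz S lo hi i a :=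
  Finset.sum_pos (fun y _ => S.K0_pos y y) (slice_nonempty lo hi i hbox _)

lemma rr_nonneg (a : ℕ) : 0 ≤ rr S lo hi i a :=
  Finset.sum_nonneg fun x _ => mul_nonneg (S.om_nonneg x x) (S.K0_pos x x).le

lemma rr_le (a : ℕ) : rr S lo hi i a ≤ S.U * zz S lo hi i a := by
  unfold rr zz
  rw [Finset.mul_sum]
  exact Finset.sum_le_sum fun x _ => mul_le_mul_of_nonneg_right (S.om_le x x) (S.K0_pos x x).le

/-- one slice: flux energy `y`, with its three properties -/
theorem slice_flux (hbox : ∀ k, lo k ≤ hi k) (hpin : ∀ k, k < i → lo k = hi k)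
    (hPt : S.Pt i) (hInc : S.Inc i) (f : Lat n → ℝ) (phi : Node n → Lat n)
    (hphi0 : phi (Sum.inr i) = 0) (hphi1 : phi (Sum.inl i) = ev i)
    (hphi : ∀ k, i < k → phi (Sum.inl k) = phi (Sum.inr k) + ev k) (a : ℕ) :
    ∃ y : ℝ, 0 ≤ y ∧
      S.kap * y ≤ -(rr S lo hi i a) / zz S lo hi i a ^ 2
        + 2 * rr S lo hi i (a + 1) / (zz S lo hi i a * zz S lo hi i (a + 1))
        - rr S lo hi i (a + 2) / zz S lo hi i (a + 1) ^ 2 ∧
      (rr S lo hi i (a + 1) / zz S lo hi i (a + 1) - rr S lo hi i a / zz S lo hi i a) ^ 2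
        ≤ 8 * n * zz S lo hi i a * y ∧
      (FF S lo hi i f a - FF S lo hi i f (a + 1)) ^ 2
        ≤ y * ∑ x ∈ slice lo hi i (lo i + a), S.K0 x x * En S f phi x := by
  obtain ⟨v, hE, hT, hB⟩ := exists_velocity S.K0_pos lo hi i (lo i + a)
    (slice_nonempty lo hi i hbox _)
  have hc1 : lo i + (a : ℤ) + 1 = lo i + ((a + 1 : ℕ) : ℤ) := by push_cast; ring
  have hc2 : lo i + (a : ℤ) + 2 = lo i + ((a + 2 : ℕ) : ℤ) := by push_cast; ring
  have hz : ∑ y ∈ slice lo hi i (lo i + a), S.K0 y y = zz S lo hi i a := rfl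
  have hz1 : ∑ y ∈ slice lo hi i (lo i + (a : ℤ) + 1), S.K0 y y = zz S lo hi i (a + 1) := by
    rw [hc1]; rfl
  rw [hz, hz1] at hT
  simp only [hz, hz1] at hB
  have zp := zz_pos (S := S) (i := i) hbox a
  have zp1 := zz_pos (S := S) (i := i) hbox (a + 1)
  set B := slice lo hi i (lo i + a) with hBdef
  set w : Lat n → Node n → ℝ := fun x p => v x p * K1 S.K0 (ev i) x p with hw
  set y : ℝ := ∑ x ∈ B, ∑ j, S.Phi (w x) j ^ 2 / (S.L j ^ 2 * S.K0 x x) with hy
  have hLK : ∀ x j, 0 < S.L j ^ 2 * S.K0 x x := fun x j => by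
    have := S.L_pos j
    have := S.K0_pos x x
    positivity
  have hy0 : 0 ≤ y := Finset.sum_nonneg fun x _ => Finset.sum_nonneg fun j _ =>
    div_nonneg (sq_nonneg _) (hLK x j).le
  refine ⟨y, hy0, ?_, ?_, ?_⟩
  · -- (1)
    have h1 : S.kap * y ≤ ∑ x ∈ B, - QF S.W (ev i + ev i) x (v x) (v x) := by
      rw [hy, Finset.mul_sum]
      refine Finset.sum_le_sum fun x hx => ?_
      have := hPt x (v x) (hE x hx)
      have hk := S.K0_pos x x
      have e : ∑ j, S.Phi (w x) j ^ 2 / (S.L j ^ 2 * S.K0 x x)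
          = (∑ j, S.Phi (w x) j ^ 2 / S.L j ^ 2) / S.K0 x x := by
        rw [Finset.sum_div]
        refine Finset.sum_congr rfl fun j _ => ?_
        rw [div_div]
      rw [e, ← mul_div_assoc, div_le_iff₀ hk]
      linarith
    have h2 := hB S.W S.W_nonneg
    rw [Finset.sum_neg_distrib] at h1
    have e0 : ∑ x ∈ B, S.W x x = rr S lo hi i a := rfl
    have e1 : ∑ x ∈ slice lo hi i (lo i + (a : ℤ) + 1), S.W x x = rr S lo hi i (a + 1) := by
      rw [hc1]; rfl
    have e2 : ∑ x ∈ slice lo hi i (lo i + (a : ℤ) + 2), S.W x x = rr S lo hi i (a + 2) := by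
      rw [hc2]; rfl
    rw [e0, e1, e2] at h2
    refine le_trans h1 (le_of_le_of_eq (neg_le_neg h2) ?_)
    field_simp
    ring
  · -- (2)
    have h := hT (fun x p => S.om (x + aX p) (x + ev i - aY p)) (by
      intro x k _ _
      simp only [aX_inl, aX_inr, aY_inl, aY_inr]
      congr 1 <;> abel)
    have hR : 1 / zz S lo hi i a * ∑ x ∈ B, S.K0 x x
          * S.om (x + aX (Sum.inr i)) (x + ev i - aY (Sum.inr i))
        - 1 / zz S lo hi i (a + 1) * ∑ x ∈ B, S.K0 (x + ev i) (x + ev i)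
          * S.om (x + aX (Sum.inl i)) (x + ev i - aY (Sum.inl i))
        = rr S lo hi i a / zz S lo hi i a - rr S lo hi i (a + 1) / zz S lo hi i (a + 1) := by
      have e1 : ∑ x ∈ B, S.K0 x x * S.om (x + aX (Sum.inr i)) (x + ev i - aY (Sum.inr i))
          = rr S lo hi i a := by
        refine Finset.sum_congr rfl fun x _ => ?_
        simp only [aX_inr, aY_inr, add_zero, add_sub_cancel_right]
        ring
      have e2 : ∑ x ∈ B, S.K0 (x + ev i) (x + ev i)
          * S.om (x + aX (Sum.inl i)) (x + ev i - aY (Sum.inl i)) = rr S lo hi i (a + 1) := by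
        have := sum_slice_shift lo hi i (lo i + a) (fun x => S.om x x * S.K0 x x)
        rw [hc1] at this
        rw [show rr S lo hi i (a + 1) = ∑ x ∈ slice lo hi i (lo i + ((a + 1 : ℕ) : ℤ)),
          S.om x x * S.K0 x x from rfl, ← this]
        refine Finset.sum_congr rfl fun x _ => ?_
        simp only [aX_inl, aY_inl, sub_zero]
        ring
      rw [e1, e2]; ring
    rw [hR] at h
    set dl : Lat n → Node n → ℝ := fun x j =>
      S.D (fun p => S.om (x + aX p) (x + ev i - aY p) - S.om x (x + ev i)) j with hdl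
    have hL : ∑ x ∈ B, ∑ p, v x p * K1 S.K0 (ev i) x p * S.om (x + aX p) (x + ev i - aY p)
        = ∑ x ∈ B, ∑ j, S.Phi (w x) j * dl x j := by
      refine Finset.sum_congr rfl fun x hx => ?_
      have h0 := hE x hx
      have := S.rout (w x) (fun p => S.om (x + aX p) (x + ev i - aY p) - S.om x (x + ev i))
      simp only [hdl]
      rw [← this]
      simp only [mul_sub, Finset.sum_sub_distrib, ← Finset.sum_mul, hw]
      rw [h0]; ring
    rw [hL] at h
    have hcs := cs_two B Finset.univ (fun x j => S.Phi (w x) j) dl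
      (fun x j => S.L j ^ 2 * S.K0 x x) (fun x _ j _ => hLK x j)
    rw [h] at hcs
    have hb : ∑ x ∈ B, ∑ j, S.L j ^ 2 * S.K0 x x * dl x j ^ 2 ≤ 8 * n * zz S lo hi i a := by
      have : ∀ x ∈ B, ∑ j, S.L j ^ 2 * S.K0 x x * dl x j ^ 2 ≤ 8 * n * S.K0 x x := by
        intro x _
        have hj : ∀ j ∈ (Finset.univ : Finset (Node n)),
            S.L j ^ 2 * S.K0 x x * dl x j ^ 2 ≤ 4 * S.K0 x x := by
          intro j _
          have h1 := hInc x j
          have hLj := S.L_pos j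
          have hk := S.K0_pos x x
          have h2 : dl x j ^ 2 ≤ (2 / S.L j) ^ 2 := by
            rw [← sq_abs (dl x j)]
            exact pow_le_pow_left₀ (abs_nonneg _) h1 2
          calc S.L j ^ 2 * S.K0 x x * dl x j ^ 2
              ≤ S.L j ^ 2 * S.K0 x x * (2 / S.L j) ^ 2 :=
                mul_le_mul_of_nonneg_left h2 (by positivity)
            _ = 4 * S.K0 x x := by field_simp; ring
        refine (Finset.sum_le_card_nsmul _ _ _ hj).trans (le_of_eq ?_)
        rw [Finset.card_univ, nsmul_eq_mul]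
        simp only [Fintype.card_sum, Fintype.card_fin]
        push_cast; ring
      refine (Finset.sum_le_sum this).trans (le_of_eq ?_)
      rw [← Finset.mul_sum, hz]
    have e : (rr S lo hi i (a + 1) / zz S lo hi i (a + 1) - rr S lo hi i a / zz S lo hi i a) ^ 2
        = (rr S lo hi i a / zz S lo hi i a - rr S lo hi i (a + 1) / zz S lo hi i (a + 1)) ^ 2 := by
      ring
    rw [e]
    refine hcs.trans ?_
    calc (∑ x ∈ B, ∑ j, S.Phi (w x) j ^ 2 / (S.L j ^ 2 * S.K0 x x))
          * ∑ x ∈ B, ∑ j, S.L j ^ 2 * S.K0 x x * dl x j ^ 2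
        ≤ y * (8 * n * zz S lo hi i a) := mul_le_mul_of_nonneg_left hb hy0
      _ = 8 * n * zz S lo hi i a * y := by ring
  · -- (3)
    have h := hT (fun x p => f (x + phi p)) (by
      intro x k hx1 hx2
      have hk : i < k := by
        rw [hBdef, mem_slice] at hx1 hx2
        by_contra hc
        rcases eq_or_lt_of_le (not_lt.1 hc) with h1 | h1
        · subst h1
          have a1 := hx1.1
          have a2 := hx2.1
          simp [ev] at a1
          omega
        · have a1 := (hx1.2 k h1.ne).1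
          have a2 := (hx2.2 k h1.ne).2
          have a3 := hpin k h1
          simp [ev] at a1
          omega
      have := hphi k hk
      rw [this]
      congr 1; abel)
    have hR : 1 / zz S lo hi i a * ∑ x ∈ B, S.K0 x x * f (x + phi (Sum.inr i))
        - 1 / zz S lo hi i (a + 1) * ∑ x ∈ B, S.K0 (x + ev i) (x + ev i)
          * f (x + phi (Sum.inl i))
        = FF S lo hi i f a - FF S lo hi i f (a + 1) := by
      have e1 : ∑ x ∈ B, S.K0 x x * f (x + phi (Sum.inr i)) = ∑ x ∈ B, S.K0 x x * f x := by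
        rw [hphi0]; simp
      have e2 : ∑ x ∈ B, S.K0 (x + ev i) (x + ev i) * f (x + phi (Sum.inl i))
          = ∑ x ∈ slice lo hi i (lo i + ((a + 1 : ℕ) : ℤ)), S.K0 x x * f x := by
        have := sum_slice_shift lo hi i (lo i + a) (fun x => S.K0 x x * f x)
        rw [hc1] at this
        rw [← this, hphi1]
      rw [e1, e2]
      unfold FF
      ring
    rw [hR] at h
    set dl : Lat n → Node n → ℝ := fun x j =>
      S.D (fun p => f (x + phi p) - f x) j with hdl
    have hL : ∑ x ∈ B, ∑ p, v x p * K1 S.K0 (ev i) x p * f (x + phi p)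
        = ∑ x ∈ B, ∑ j, S.Phi (w x) j * dl x j := by
      refine Finset.sum_congr rfl fun x hx => ?_
      have h0 := hE x hx
      have := S.rout (w x) (fun p => f (x + phi p) - f x)
      simp only [hdl]
      rw [← this]
      simp only [mul_sub, Finset.sum_sub_distrib, ← Finset.sum_mul, hw]
      rw [h0]; ring
    rw [hL] at h
    have hcs := cs_two B Finset.univ (fun x j => S.Phi (w x) j) dl
      (fun x j => S.L j ^ 2 * S.K0 x x) (fun x _ j _ => hLK x j)
    rw [h] at hcs
    refine hcs.trans (le_of_eq ?_)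
    congr 1
    refine Finset.sum_congr rfl fun x _ => ?_
    unfold En
    rw [Finset.mul_sum]
    refine Finset.sum_congr rfl fun j _ => ?_
    simp only [hdl]
    ring

/-- THE STAGE THEOREM -/
theorem stage_ineq (hbox : ∀ k, lo k ≤ hi k) (hpin : ∀ k, k < i → lo k = hi k)
    (hPt : S.Pt i) (hInc : S.Inc i) (f : Lat n → ℝ) (phi : Node n → Lat n)
    (hphi0 : phi (Sum.inr i) = 0) (hphi1 : phi (Sum.inl i) = ev i)
    (hphi : ∀ k, i < k → phi (Sum.inl k) = phi (Sum.inr k) + ev k) (m : ℕ) :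
    OneD.V (zz S lo hi i) (FF S lo hi i f) m
      ≤ S.C * ∑ a ∈ range m, ∑ x ∈ slice lo hi i (lo i + a), S.K0 x x * En S f phi x := by
  classical
  choose y hy0 hy1 hy2 hy3 using
    slice_flux (S := S) hbox hpin hPt hInc f phi hphi0 hphi1 hphi
  set z := zz S lo hi i with hz
  set F := FF S lo hi i f with hF
  set r := rr S lo hi i with hr
  have hpos : ∀ a ≤ m, 0 < z a := fun a _ => zz_pos hbox a
  have zp : ∀ a, 0 < z a := fun a => zz_pos hbox a
  set T := OneD.T z F m with hT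
  set V := OneD.V z F m with hV
  have hV0 : 0 ≤ V := OneD.V_nonneg hpos
  set X : ℝ := ∑ a ∈ range m, T a ^ 2 * y a with hX
  have hX0 : 0 ≤ X := Finset.sum_nonneg fun a _ => mul_nonneg (sq_nonneg _) (hy0 a)
  have h1 := OneD.one_d' (z := z) (F := F) (m := m) (r := r) (U := S.U) hpos
    (fun a _ => rr_nonneg a) (fun a _ => rr_le a)
  have h2 : S.kap * X ≤ ∑ a ∈ range m, T a ^ 2
        * (-(r a) / z a ^ 2 + 2 * r (a + 1) / (z a * z (a + 1)) - r (a + 2) / z (a + 1) ^ 2) := by
    rw [hX, Finset.mul_sum]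
    refine Finset.sum_le_sum fun a _ => ?_
    have := mul_le_mul_of_nonneg_left (hy1 a) (sq_nonneg (T a))
    calc S.kap * (T a ^ 2 * y a) = T a ^ 2 * (S.kap * y a) := by ring
      _ ≤ _ := this
  have h3 : ∑ a ∈ range m, T a ^ 2 * (r (a + 1) / z (a + 1) - r a / z a) ^ 2 / z a
      ≤ 8 * n * X := by
    rw [hX, Finset.mul_sum]
    refine Finset.sum_le_sum fun a _ => ?_
    rw [div_le_iff₀ (zp a)]
    have := mul_le_mul_of_nonneg_left (hy2 a) (sq_nonneg (T a))
    calc T a ^ 2 * (r (a + 1) / z (a + 1) - r a / z a) ^ 2 ≤ T a ^ 2 * (8 * n * z a * y a) := this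
      _ = 8 * n * (T a ^ 2 * y a) * z a := by ring
  have h4 : S.kap * X ≤ S.U * V + 2 * (√V * √(8 * n * X)) := by
    refine (h2.trans h1).trans ?_
    have := Real.sqrt_le_sqrt h3
    have hs : 0 ≤ √V := Real.sqrt_nonneg _
    have := mul_le_mul_of_nonneg_left this hs
    linarith
  have h5 : X ≤ S.C * V := closure_real hX0 hV0 S.kap_pos (Nat.cast_nonneg n) h4
  -- the final Cauchy-Schwarz
  set E : ℕ → ℝ := fun a => ∑ x ∈ slice lo hi i (lo i + a), S.K0 x x * En S f phi x with hE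
  have hE0 : ∀ a, 0 ≤ E a := fun a => Finset.sum_nonneg fun x _ =>
    mul_nonneg (S.K0_pos x x).le (Finset.sum_nonneg fun j _ => by positivity)
  have h6 : V ≤ ∑ a ∈ range m, |T a| * |F a - F (a + 1)| := by
    rw [hV, OneD.V_eq hpos]
    refine Finset.sum_le_sum fun a _ => ?_
    rw [← abs_mul]; exact le_abs_self _
  have h7 : V ^ 2 ≤ X * ∑ a ∈ range m, E a := by
    have h8 : V ≤ ∑ a ∈ range m, (|T a| * √(y a)) * √(E a) := by
      refine h6.trans (Finset.sum_le_sum fun a _ => ?_)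
      have : |F a - F (a + 1)| ≤ √(y a) * √(E a) := by
        rw [← Real.sqrt_mul (hy0 a)]
        exact Real.abs_le_sqrt (hy3 a)
      calc |T a| * |F a - F (a + 1)| ≤ |T a| * (√(y a) * √(E a)) :=
            mul_le_mul_of_nonneg_left this (abs_nonneg _)
        _ = _ := by ring
    have h9 := Finset.sum_mul_sq_le_sq_mul_sq (range m) (fun a => |T a| * √(y a))
      (fun a => √(E a))
    have h10 : V ^ 2 ≤ (∑ a ∈ range m, (|T a| * √(y a)) * √(E a)) ^ 2 :=
      pow_le_pow_left₀ hV0 h8 2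
    refine (h10.trans h9).trans (le_of_eq ?_)
    congr 1
    · refine Finset.sum_congr rfl fun a _ => ?_
      rw [mul_pow, sq_abs, Real.sq_sqrt (hy0 a)]
    · refine Finset.sum_congr rfl fun a _ => ?_
      rw [Real.sq_sqrt (hE0 a)]
  have hEs : 0 ≤ ∑ a ∈ range m, E a := Finset.sum_nonneg fun a _ => hE0 a
  have h11 : V ^ 2 ≤ S.C * V * ∑ a ∈ range m, E a :=
    h7.trans (mul_le_mul_of_nonneg_right h5 hEs)
  rcases hV0.eq_or_lt with h0 | h0
  · rw [← h0]
    exact mul_nonneg S.C_nonneg hEs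
  · have : V * V ≤ V * (S.C * ∑ a ∈ range m, E a) := by
      calc V * V = V ^ 2 := by ring
        _ ≤ _ := h11
        _ = _ := by ring
    exact le_of_mul_le_mul_left this h0

end stage

end Crest.Agent.R302.MP
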