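import Crest.Agent.R302.Forest928

/-!
# R302, M3: pointwise inequality, part a: one side (helper928)

`nb H x y = - x^T H y` with `H` negative semidefinite, `Gam H x y = (Σ x)(Σ y) - nb H x y
= x^T (1+H) y`.  One side of the pointwise inequality of helper142's MSP' (post 7348, section 2).
-/

set_option linter.unusedSectionVars false
set_option linter.unusedVariables false
set_option autoImplicit false

namespace Crest.Agent.R302.MP3

open Finset

section lin

variable {E : Type*} [Fintype E] [DecidableEq E]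

/-- `N(x,y) = - x^T H y` -/
def nb (H : E → E → ℝ) (x y : E → ℝ) : ℝ := -∑ c, ∑ d, x c * y d * H c d

/-- `Γ(x,y) = x^T (1+H) y` -/
def Gam (H : E → E → ℝ) (x y : E → ℝ) : ℝ := ∑ c, ∑ d, x c * y d * (1 + H c d)

/-- restriction of a vector to a set -/
def res (S : Finset E) (x : E → ℝ) : E → ℝ := fun c => if c ∈ S then x c else 0

@[simp] lemma res_mem {S : Finset E} {x : E → ℝ} {c : E} (h : c ∈ S) : res S x c = x c := by
  simp [res, h]

lemma sum_res (S : Finset E) (x : E → ℝ) : ∑ c, res S x c = ∑ c ∈ S, x c := by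
  simp [res]

lemma sum_res_mul (S : Finset E) (x g : E → ℝ) : ∑ c, res S x c * g c = ∑ c ∈ S, x c * g c := by
  simp [res]

lemma Gam_eq (H : E → E → ℝ) (x y : E → ℝ) : Gam H x y = (∑ c, x c) * (∑ d, y d) - nb H x y := by
  unfold Gam nb
  rw [sub_neg_eq_add, Finset.sum_mul_sum, ← Finset.sum_add_distrib]
  refine Finset.sum_congr rfl fun c _ => ?_
  rw [← Finset.sum_add_distrib]
  refine Finset.sum_congr rfl fun d _ => ?_
  ring

lemma nb_comm {H : E → E → ℝ} (hs : ∀ a b, H a b = H b a) (x y : E → ℝ) :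
    nb H x y = nb H y x := by
  unfold nb
  rw [Finset.sum_comm]
  congr 1
  refine Finset.sum_congr rfl fun c _ => Finset.sum_congr rfl fun d _ => ?_
  rw [hs d c]; ring

lemma nb_single_left (H : E → E → ℝ) (c : E) (y : E → ℝ) :
    nb H (Pi.single c 1) y = -∑ d, y d * H c d := by
  unfold nb
  rw [Finset.sum_eq_single c]
  · simp only [Pi.single_eq_same, one_mul]
  · intro b _ hb
    refine Finset.sum_eq_zero fun d _ => ?_
    rw [Pi.single_eq_of_ne hb]; ring
  · intro h; exact absurd (Finset.mem_univ c) h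

lemma nb_eq_left (H : E → E → ℝ) (x y : E → ℝ) :
    nb H x y = ∑ c, x c * nb H (Pi.single c 1) y := by
  simp only [nb_single_left]
  unfold nb
  rw [← Finset.sum_neg_distrib]
  refine Finset.sum_congr rfl fun c _ => ?_
  rw [mul_neg, Finset.mul_sum]
  congr 1
  refine Finset.sum_congr rfl fun d _ => ?_
  ring

lemma nb_add_left (H : E → E → ℝ) (x x' y : E → ℝ) :
    nb H (x + x') y = nb H x y + nb H x' y := by
  rw [nb_eq_left H (x + x'), nb_eq_left H x, nb_eq_left H x', ← Finset.sum_add_distrib]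
  refine Finset.sum_congr rfl fun c _ => ?_
  simp only [Pi.add_apply]; ring

lemma nb_smul_left (H : E → E → ℝ) (r : ℝ) (x y : E → ℝ) :
    nb H (r • x) y = r * nb H x y := by
  rw [nb_eq_left H (r • x), nb_eq_left H x, Finset.mul_sum]
  refine Finset.sum_congr rfl fun c _ => ?_
  simp only [Pi.smul_apply, smul_eq_mul]; ring

/-- Cauchy-Schwarz for the negative semidefinite matrix `H` -/
lemma nb_cs {H : E → E → ℝ} (hs : ∀ a b, H a b = H b a) (hn : ∀ x : E → ℝ, 0 ≤ nb H x x)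
    (x y : E → ℝ) : nb H x y ^ 2 ≤ nb H x x * nb H y y := by
  have key : ∀ r : ℝ, 0 ≤ nb H y y * (r * r) + (2 * nb H x y) * r + nb H x x := by
    intro r
    have h := hn (x + r • y)
    have e : nb H (x + r • y) (x + r • y)
        = nb H y y * (r * r) + (2 * nb H x y) * r + nb H x x := by
      rw [nb_add_left, nb_smul_left, nb_comm hs x (x + r • y), nb_comm hs y (x + r • y),
        nb_add_left, nb_add_left, nb_smul_left, nb_smul_left, nb_comm hs y x]
      ring
    rw [e] at h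
    exact h
  have := discrim_le_zero key
  unfold discrim at this
  nlinarith

lemma nb_single (H : E → E → ℝ) (a : E) : nb H (Pi.single a 1) (Pi.single a 1) = -H a a := by
  rw [nb_eq_left, Finset.sum_eq_single a]
  · rw [Pi.single_eq_same, one_mul]
    unfold nb
    rw [Finset.sum_eq_single a, Finset.sum_eq_single a]
    · simp
    · intro b _ hb; rw [Pi.single_eq_of_ne hb]; ring
    · intro h; exact absurd (Finset.mem_univ a) h
    · intro b _ hb
      refine Finset.sum_eq_zero fun d _ => ?_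
      rw [Pi.single_eq_of_ne hb]; ring
    · intro h; exact absurd (Finset.mem_univ a) h
  · intro b _ hb; rw [Pi.single_eq_of_ne hb]; ring
  · intro h; exact absurd (Finset.mem_univ a) h

lemma nb_single_two (H : E → E → ℝ) (a b : E) :
    nb H (Pi.single a 1) (Pi.single b 1) = -H a b := by
  unfold nb
  rw [Finset.sum_eq_single a, Finset.sum_eq_single b]
  · simp
  · intro d _ hd; rw [Pi.single_eq_of_ne hd]; ring
  · intro h; exact absurd (Finset.mem_univ b) h
  · intro c _ hc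
    refine Finset.sum_eq_zero fun d _ => ?_
    rw [Pi.single_eq_of_ne hc]; ring
  · intro h; exact absurd (Finset.mem_univ a) h

/-- `Γ(x,y)^2 ≤ ((Σx)^2 + N x)((Σy)^2 + N y)` -/
lemma Gam_sq_le {H : E → E → ℝ} (hs : ∀ a b, H a b = H b a) (hn : ∀ x : E → ℝ, 0 ≤ nb H x x)
    (x y : E → ℝ) :
    Gam H x y ^ 2 ≤ ((∑ c, x c) ^ 2 + nb H x x) * ((∑ c, y c) ^ 2 + nb H y y) := by
  rw [Gam_eq]
  set a := ∑ c, x c
  set b := ∑ c, y c
  have h := nb_cs hs hn x y
  have hx := hn x
  have hy := hn y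
  set C := nb H x x
  set D := nb H y y
  set m := nb H x y
  -- (ab - m)^2 ≤ (a^2+C)(b^2+D) : -2abm ≤ a^2 D + b^2 C
  have h2 : 0 ≤ a ^ 2 * D + b ^ 2 * C + 2 * a * b * m := by
    have h3 : (a * b * m) ^ 2 ≤ (a ^ 2 * D) * (b ^ 2 * C) := by
      have : (a * b * m) ^ 2 = (a * b) ^ 2 * m ^ 2 := by ring
      rw [this]
      have : (a ^ 2 * D) * (b ^ 2 * C) = (a * b) ^ 2 * (C * D) := by ring
      rw [this]
      exact mul_le_mul_of_nonneg_left h (sq_nonneg _)
    have p1 : 0 ≤ a ^ 2 * D := mul_nonneg (sq_nonneg _) hy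
    have p2 : 0 ≤ b ^ 2 * C := mul_nonneg (sq_nonneg _) hx
    have h4 : (2 * (a * b * m)) ^ 2 ≤ (a ^ 2 * D + b ^ 2 * C) ^ 2 := by
      nlinarith [sq_nonneg (a ^ 2 * D - b ^ 2 * C)]
    have h5 := abs_le_of_sq_le_sq' h4 (add_nonneg p1 p2)
    linarith [h5.1]
  nlinarith

end lin

/-- One side of the data at a lattice point. -/
structure Side (E : Type*) [Fintype E] [DecidableEq E] where
  F : Forest E
  H : E → E → ℝ
  symm : ∀ a b, H a b = H b a
  nsd : ∀ x : E → ℝ, 0 ≤ nb H x x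
  θ : ℝ
  θ_pos : 0 < θ
  θ_le : θ ≤ 1
  diag : ∀ a, -H a a ≤ 1 - θ
  t : E → ℝ
  t_pos : ∀ a, 0 < t a
  edge : ∀ a b, F.par a = some b → -(H a a) + 2 * H a b - H b b ≤ 2 / (t a) ^ 2
  L : E → ℝ
  k0 : ℝ
  k0_ge : 1 ≤ k0
  L_le : ∀ a b, F.par a = some b → L a ≤ k0 * t a
  L_ge : ∀ a, 4096 * (Fintype.card E : ℝ) ^ 2 * k0 / θ ^ 2 ≤ L a
  e : E → ℝ
  e_nonneg : ∀ a, 0 ≤ e a
  e_le : ∀ a, e a ≤ 1 / (L a) ^ 2

namespace Side

variable {E : Type*} [Fintype E] [DecidableEq E] (S : Side E)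

/-- `n = |E|` as a real number -/
noncomputable def n : ℝ := (Fintype.card E : ℝ)

/-- the lower bound for the windows -/
noncomputable def K : ℝ := 4096 * (Fintype.card E : ℝ) ^ 2 * S.k0 / S.θ ^ 2

/-- flux through the subtree of `a` -/
noncomputable def s (x : E → ℝ) (a : E) : ℝ := ∑ c ∈ S.F.sub a, x c

/-- `D = Σ s_a^2 / L_a^2` -/
noncomputable def D (x : E → ℝ) : ℝ := ∑ a, (S.s x a) ^ 2 / (S.L a) ^ 2

/-- error level -/
noncomputable def err (x : E → ℝ) : ℝ := 6 * (Fintype.card E : ℝ) * S.k0 ^ 2 / S.θ * S.D x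

/-- restriction to the subtree -/
noncomputable def rs (x : E → ℝ) (a : E) : E → ℝ := res (S.F.sub a) x

lemma n_ge (a : E) : (1 : ℝ) ≤ (Fintype.card E : ℝ) := by
  have : Nonempty E := ⟨a⟩
  exact_mod_cast Fintype.card_pos

lemma K_ge (a : E) : 4096 ≤ S.K := by
  have h1 := n_ge a
  have h2 := S.k0_ge
  have h3 := S.θ_pos
  have h4 := S.θ_le
  unfold K
  rw [le_div_iff₀ (by positivity)]
  have : S.θ ^ 2 ≤ 1 := by nlinarith
  have h5 : (1 : ℝ) ≤ (Fintype.card E : ℝ) ^ 2 := by nlinarith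
  have h6 : (1 : ℝ) ≤ (Fintype.card E : ℝ) ^ 2 * S.k0 := by nlinarith
  nlinarith

lemma K_pos (a : E) : 0 < S.K := by linarith [S.K_ge a]

lemma L_ge' (a : E) : S.K ≤ S.L a := S.L_ge a

lemma L_pos (a : E) : 0 < S.L a := lt_of_lt_of_le (S.K_pos a) (S.L_ge' a)

lemma D_nonneg (x : E → ℝ) : 0 ≤ S.D x :=
  Finset.sum_nonneg fun a _ => div_nonneg (sq_nonneg _) (sq_nonneg _)

lemma err_nonneg (x : E → ℝ) : 0 ≤ S.err x := by
  unfold err
  have := S.θ_pos
  have := S.D_nonneg x
  have := S.k0_ge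
  positivity

lemma s_sq_le (x : E → ℝ) (a : E) : (S.s x a) ^ 2 / (S.L a) ^ 2 ≤ S.D x :=
  Finset.single_le_sum (f := fun a => (S.s x a) ^ 2 / (S.L a) ^ 2)
    (fun a _ => div_nonneg (sq_nonneg _) (sq_nonneg _)) (Finset.mem_univ a)

/-- **(P1)** -/
lemma P1 (x : E → ℝ) (a : E) :
    nb S.H (S.rs x a) (S.rs x a) ≤ (1 - S.θ / 2) * (S.s x a) ^ 2 + S.err x := by
  classical
  set r := S.rs x a with hr
  set R := nb S.H r r with hR
  have hR0 : 0 ≤ R := S.nsd r
  have hθ := S.θ_pos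
  have hθ1 := S.θ_le
  have hn1 := n_ge a
  set g : E → ℝ := fun c => nb S.H (Pi.single c 1) r with hg
  have h1 : R = S.s x a * g a
      + ∑ b ∈ (S.F.sub a).erase a, S.s x b * (g b - g (S.F.parD b)) := by
    have e1 : R = ∑ c ∈ S.F.sub a, x c * g c := by
      rw [hR, nb_eq_left]
      exact sum_res_mul (S.F.sub a) x g
    rw [e1, Forest.tele]
    rfl
  set P := S.s x a * g a with hP
  set Q := ∑ b ∈ (S.F.sub a).erase a, S.s x b * (g b - g (S.F.parD b)) with hQ
  have hPsq : P ^ 2 ≤ (1 - S.θ) * (S.s x a) ^ 2 * R := by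
    have h := nb_cs S.symm S.nsd (Pi.single a 1) r
    rw [nb_single] at h
    have h2 : g a ^ 2 ≤ (1 - S.θ) * R := by
      refine h.trans ?_
      exact mul_le_mul_of_nonneg_right (S.diag a) hR0
    have : P ^ 2 = (S.s x a) ^ 2 * g a ^ 2 := by rw [hP]; ring
    rw [this]
    nlinarith [sq_nonneg (S.s x a), mul_le_mul_of_nonneg_left h2 (sq_nonneg (S.s x a))]
  -- the increments
  have hstep : ∀ b ∈ (S.F.sub a).erase a, (S.s x b * (g b - g (S.F.parD b))) ^ 2
      ≤ 2 * S.k0 ^ 2 * ((S.s x b) ^ 2 / (S.L b) ^ 2) * R := by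
    intro b hb
    rw [mem_erase, Forest.mem_sub] at hb
    rcases hpb : S.F.par b with _ | p
    · exfalso
      rcases Forest.le_iff.1 hb.2 with h | ⟨z, hz, -⟩
      · exact hb.1 h
      · rw [hpb] at hz; cases hz
    · have hpD : S.F.parD b = p := by simp [Forest.parD, hpb]
      rw [hpD]
      have hu : g b - g p = nb S.H (Pi.single b 1 - Pi.single p 1) r := by
        have : (Pi.single b 1 - Pi.single p 1 : E → ℝ)
            = Pi.single b 1 + (-1 : ℝ) • Pi.single p 1 := by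
          ext c; simp [sub_eq_add_neg]
        rw [this, nb_add_left, nb_smul_left]
        simp only [hg]; ring
      have hNu : nb S.H (Pi.single b 1 - Pi.single p 1) (Pi.single b 1 - Pi.single p 1)
          = -(S.H b b) + 2 * S.H b p - S.H p p := by
        have : (Pi.single b 1 - Pi.single p 1 : E → ℝ)
            = Pi.single b 1 + (-1 : ℝ) • Pi.single p 1 := by
          ext c; simp [sub_eq_add_neg]
        rw [this, nb_add_left, nb_smul_left,
          nb_comm S.symm (Pi.single b 1), nb_comm S.symm (Pi.single p 1), nb_add_left,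
          nb_add_left, nb_smul_left, nb_smul_left, nb_single, nb_single, nb_single_two,
          nb_single_two, S.symm p b]
        ring
      have h := nb_cs S.symm S.nsd (Pi.single b 1 - Pi.single p 1) r
      rw [hNu, ← hu] at h
      have ht := S.t_pos b
      have hLt := S.L_le b p hpb
      have hL := S.L_pos b
      have hk : 0 < S.k0 := by linarith [S.k0_ge]
      have h2 : 2 / (S.t b) ^ 2 ≤ 2 * S.k0 ^ 2 / (S.L b) ^ 2 := by
        rw [div_le_div_iff₀ (by positivity) (by positivity)]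
        have : (S.L b) ^ 2 ≤ (S.k0 * S.t b) ^ 2 := by
          apply pow_le_pow_left₀ hL.le hLt
        nlinarith
      have h3 : (g b - g p) ^ 2 ≤ 2 * S.k0 ^ 2 / (S.L b) ^ 2 * R := by
        refine h.trans ?_
        exact mul_le_mul_of_nonneg_right ((S.edge b p hpb).trans h2) hR0
      calc (S.s x b * (g b - g p)) ^ 2 = (S.s x b) ^ 2 * (g b - g p) ^ 2 := by ring
        _ ≤ (S.s x b) ^ 2 * (2 * S.k0 ^ 2 / (S.L b) ^ 2 * R) :=
            mul_le_mul_of_nonneg_left h3 (sq_nonneg _)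
        _ = 2 * S.k0 ^ 2 * ((S.s x b) ^ 2 / (S.L b) ^ 2) * R := by ring
  have hQsq : Q ^ 2 ≤ 2 * (Fintype.card E : ℝ) * S.k0 ^ 2 * S.D x * R := by
    have h1 : Q ^ 2 ≤ (((S.F.sub a).erase a).card : ℝ)
        * ∑ b ∈ (S.F.sub a).erase a, (S.s x b * (g b - g (S.F.parD b))) ^ 2 := by
      have := sq_sum_le_card_mul_sum_sq (s := (S.F.sub a).erase a)
        (f := fun b => S.s x b * (g b - g (S.F.parD b)))
      exact_mod_cast this
    have h2 : ∑ b ∈ (S.F.sub a).erase a, (S.s x b * (g b - g (S.F.parD b))) ^ 2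
        ≤ 2 * S.k0 ^ 2 * S.D x * R := by
      refine (Finset.sum_le_sum hstep).trans ?_
      rw [← Finset.sum_mul, ← Finset.mul_sum]
      refine mul_le_mul_of_nonneg_right ?_ hR0
      refine mul_le_mul_of_nonneg_left ?_ (by positivity)
      exact Finset.sum_le_sum_of_subset_of_nonneg (Finset.subset_univ _)
        (fun b _ _ => div_nonneg (sq_nonneg _) (sq_nonneg _))
    have h3 : (((S.F.sub a).erase a).card : ℝ) ≤ (Fintype.card E : ℝ) := by
      exact_mod_cast Finset.card_le_univ _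
    have h4 : 0 ≤ 2 * S.k0 ^ 2 * S.D x * R := by
      have := S.D_nonneg x
      positivity
    calc Q ^ 2 ≤ _ := h1
      _ ≤ (Fintype.card E : ℝ) * (2 * S.k0 ^ 2 * S.D x * R) :=
          mul_le_mul h3 h2 (Finset.sum_nonneg fun b _ => sq_nonneg _) (by positivity)
      _ = _ := by ring
  -- combine
  have hD := S.D_nonneg x
  by_cases hR1 : R = 0
  · rw [hR1]
    have h1 := S.err_nonneg x
    have h2 : 0 ≤ (1 - S.θ / 2) * (S.s x a) ^ 2 :=
      mul_nonneg (by linarith) (sq_nonneg _)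
    linarith
  · have hRpos : 0 < R := lt_of_le_of_ne hR0 (Ne.symm hR1)
    have hsq : R ^ 2 ≤ (1 + S.θ / 2) * P ^ 2 + (1 + 2 / S.θ) * Q ^ 2 := by
      rw [h1]
      have : 0 ≤ (S.θ / 2) * (P - (2 / S.θ) * Q) ^ 2 := by positivity
      have e : (S.θ / 2) * (P - (2 / S.θ) * Q) ^ 2
          = (S.θ / 2) * P ^ 2 - 2 * P * Q + (2 / S.θ) * Q ^ 2 := by
        field_simp
        ring
      rw [e] at this
      nlinarith
    have hc1 : (1 + S.θ / 2) * P ^ 2 ≤ (1 - S.θ / 2) * (S.s x a) ^ 2 * R := by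
      have h1 : (1 + S.θ / 2) * P ^ 2 ≤ (1 + S.θ / 2) * ((1 - S.θ) * (S.s x a) ^ 2 * R) :=
        mul_le_mul_of_nonneg_left hPsq (by linarith)
      have h2 : 0 ≤ (S.s x a) ^ 2 * R := mul_nonneg (sq_nonneg _) hR0
      nlinarith [mul_nonneg (sq_nonneg S.θ) h2]
    have hc2 : (1 + 2 / S.θ) * Q ^ 2 ≤ S.err x * R := by
      have h1 : (1 + 2 / S.θ) ≤ 3 / S.θ := by
        rw [le_div_iff₀ hθ]
        field_simp
        linarith
      have h2 : (1 + 2 / S.θ) * Q ^ 2 ≤ 3 / S.θ * (2 * (Fintype.card E : ℝ) * S.k0 ^ 2 * S.D x * R) :=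
        mul_le_mul h1 hQsq (sq_nonneg _) (by positivity)
      refine h2.trans (le_of_eq ?_)
      unfold err
      ring
    have : R * R ≤ ((1 - S.θ / 2) * (S.s x a) ^ 2 + S.err x) * R := by
      nlinarith
    exact le_of_mul_le_mul_right this hRpos

end Side

end Crest.Agent.R302.MP3
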