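import Crest.Agent.R302.MP3a928

/-!
# R302, M3: pointwise inequality, part b: the one-sided inequalities (helper928)
-/

set_option linter.unusedSectionVars false
set_option linter.unusedVariables false
set_option autoImplicit false

namespace Crest.Agent.R302.MP3

open Finset

namespace Side

variable {E : Type*} [Fintype E] [DecidableEq E] (S : Side E)

lemma res_res (A B : Finset E) (x : E → ℝ) : res A (res B x) = res (B ∩ A) x := by
  ext c
  unfold res
  by_cases h1 : c ∈ A <;> by_cases h2 : c ∈ B <;> simp [h1, h2]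

/-- the matrix with potentials -/
noncomputable def Hp (c d : E) : ℝ :=
  (1 + S.H c d) * (1 - ∑ a, if c ∈ S.F.sub a ∧ d ∈ S.F.sub a then S.e a else 0) - 1

lemma nb_Hp (x y : E → ℝ) :
    nb S.Hp x y = nb S.H x y + ∑ a, S.e a * Gam S.H (S.rs x a) (S.rs y a) := by
  have h1 : ∑ a, S.e a * Gam S.H (S.rs x a) (S.rs y a)
      = ∑ c, ∑ d, x c * y d * ((1 + S.H c d)
        * ∑ a, if c ∈ S.F.sub a ∧ d ∈ S.F.sub a then S.e a else 0) := by
    simp only [Gam, Finset.mul_sum]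
    rw [Finset.sum_comm]
    refine Finset.sum_congr rfl fun c _ => ?_
    rw [Finset.sum_comm]
    refine Finset.sum_congr rfl fun d _ => ?_
    refine Finset.sum_congr rfl fun a _ => ?_
    unfold rs res
    by_cases hc : c ∈ S.F.sub a <;> by_cases hd : d ∈ S.F.sub a <;> simp [hc, hd]
    ring
  rw [h1]
  unfold nb Hp
  rw [← Finset.sum_neg_distrib, ← Finset.sum_neg_distrib, ← Finset.sum_add_distrib]
  refine Finset.sum_congr rfl fun c _ => ?_
  rw [← Finset.sum_neg_distrib, ← Finset.sum_neg_distrib, ← Finset.sum_add_distrib]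
  refine Finset.sum_congr rfl fun d _ => ?_
  ring

lemma Gam_Hp (x y : E → ℝ) :
    Gam S.Hp x y = Gam S.H x y - ∑ a, S.e a * Gam S.H (S.rs x a) (S.rs y a) := by
  rw [Gam_eq, Gam_eq, nb_Hp]; ring

lemma err_le (x : E → ℝ) (a : E) :
    S.err x ≤ S.θ ^ 3 / (10 ^ 6 * (Fintype.card E : ℝ) ^ 3) * (S.L a) ^ 2 * S.D x := by
  have hn := n_ge a
  have hθ := S.θ_pos
  have hk := S.k0_ge
  have hD := S.D_nonneg x
  have hL : S.K ^ 2 ≤ (S.L a) ^ 2 := pow_le_pow_left₀ (S.K_pos a).le (S.L_ge' a) 2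
  have hL' : (16777216 * (Fintype.card E : ℝ) ^ 4 * S.k0 ^ 2 / S.θ ^ 4) ≤ (S.L a) ^ 2 := by
    refine le_trans (le_of_eq ?_) hL
    unfold K
    field_simp
    ring
  have hc : 0 ≤ S.θ ^ 3 / (10 ^ 6 * (Fintype.card E : ℝ) ^ 3) := by positivity
  have h1 := mul_le_mul_of_nonneg_right (mul_le_mul_of_nonneg_left hL' hc) hD
  refine le_trans ?_ h1
  unfold err
  refine mul_le_mul_of_nonneg_right ?_ hD
  have : S.θ ^ 3 / (10 ^ 6 * (Fintype.card E : ℝ) ^ 3)
      * (16777216 * (Fintype.card E : ℝ) ^ 4 * S.k0 ^ 2 / S.θ ^ 4)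
      = (16777216 / 10 ^ 6) * ((Fintype.card E : ℝ) * S.k0 ^ 2 / S.θ) := by
    field_simp
  rw [this]
  have h2 : 6 * (Fintype.card E : ℝ) * S.k0 ^ 2 / S.θ
      = 6 * ((Fintype.card E : ℝ) * S.k0 ^ 2 / S.θ) := by ring
  rw [h2]
  refine mul_le_mul_of_nonneg_right (by norm_num) (by positivity)

lemma err_le' (x : E → ℝ) (a : E) : S.err x ≤ (S.L a) ^ 2 * S.D x := by
  have h := S.err_le x a
  have hn := n_ge a
  have hθ := S.θ_pos
  have hθ1 := S.θ_le
  have hD := S.D_nonneg x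
  have h1 : S.θ ^ 3 / (10 ^ 6 * (Fintype.card E : ℝ) ^ 3) ≤ 1 := by
    rw [div_le_one (by positivity)]
    have h2 : S.θ ^ 3 ≤ 1 := pow_le_one₀ hθ.le hθ1
    have h3 : (1 : ℝ) ≤ (Fintype.card E : ℝ) ^ 3 := one_le_pow₀ hn
    nlinarith
  have h2 : 0 ≤ (S.L a) ^ 2 * S.D x := by positivity
  calc S.err x ≤ S.θ ^ 3 / (10 ^ 6 * (Fintype.card E : ℝ) ^ 3) * ((S.L a) ^ 2 * S.D x) := by
        rw [← mul_assoc]; exact h
    _ ≤ 1 * ((S.L a) ^ 2 * S.D x) := mul_le_mul_of_nonneg_right h1 h2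
    _ = _ := one_mul _

lemma s_sq_le' (x : E → ℝ) (a : E) : (S.s x a) ^ 2 ≤ (S.L a) ^ 2 * S.D x := by
  have h := S.s_sq_le x a
  have hL := S.L_pos a
  rw [div_le_iff₀ (by positivity)] at h
  linarith

lemma N_rs_le (x : E → ℝ) (a : E) :
    nb S.H (S.rs x a) (S.rs x a) ≤ (S.s x a) ^ 2 + S.err x := by
  have h := S.P1 x a
  have := S.θ_pos
  nlinarith [sq_nonneg (S.s x a)]

lemma N_rs_le' (x : E → ℝ) (a : E) :
    nb S.H (S.rs x a) (S.rs x a) ≤ 2 * ((S.L a) ^ 2 * S.D x) := by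
  have h := S.N_rs_le x a
  have h1 := S.err_le' x a
  have h2 := S.s_sq_le' x a
  linarith

/-- both the mass and the energy of `ξ` on `A ∩ A'` are small -/
lemma inter_le (x : E → ℝ) (a a' : E) :
    (∑ c, res (S.F.sub a ∩ S.F.sub a') x c) ^ 2
        ≤ 2 * S.D x / S.K ^ 2 * ((S.L a) ^ 2 * (S.L a') ^ 2) ∧
    nb S.H (res (S.F.sub a ∩ S.F.sub a') x) (res (S.F.sub a ∩ S.F.sub a') x)
        ≤ 2 * S.D x / S.K ^ 2 * ((S.L a) ^ 2 * (S.L a') ^ 2) := by
  have hD := S.D_nonneg x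
  have hK := S.K_pos a
  have hLa := S.L_pos a
  have hLa' := S.L_pos a'
  have hKa : S.K ^ 2 ≤ (S.L a) ^ 2 := pow_le_pow_left₀ hK.le (S.L_ge' a) 2
  have hKa' : S.K ^ 2 ≤ (S.L a') ^ 2 := pow_le_pow_left₀ hK.le (S.L_ge' a') 2
  have b1 : 2 * ((S.L a) ^ 2 * S.D x) ≤ 2 * S.D x / S.K ^ 2 * ((S.L a) ^ 2 * (S.L a') ^ 2) := by
    have : 2 * S.D x / S.K ^ 2 * ((S.L a) ^ 2 * (S.L a') ^ 2)
        = 2 * ((S.L a) ^ 2 * S.D x) * ((S.L a') ^ 2 / S.K ^ 2) := by ring
    rw [this]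
    have h1 : 1 ≤ (S.L a') ^ 2 / S.K ^ 2 := by
      rw [le_div_iff₀ (by positivity)]; linarith
    have h2 : 0 ≤ 2 * ((S.L a) ^ 2 * S.D x) := by positivity
    nlinarith
  have b2 : 2 * ((S.L a') ^ 2 * S.D x) ≤ 2 * S.D x / S.K ^ 2 * ((S.L a) ^ 2 * (S.L a') ^ 2) := by
    have : 2 * S.D x / S.K ^ 2 * ((S.L a) ^ 2 * (S.L a') ^ 2)
        = 2 * ((S.L a') ^ 2 * S.D x) * ((S.L a) ^ 2 / S.K ^ 2) := by ring
    rw [this]
    have h1 : 1 ≤ (S.L a) ^ 2 / S.K ^ 2 := by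
      rw [le_div_iff₀ (by positivity)]; linarith
    have h2 : 0 ≤ 2 * ((S.L a') ^ 2 * S.D x) := by positivity
    nlinarith
  have b0 : 0 ≤ 2 * S.D x / S.K ^ 2 * ((S.L a) ^ 2 * (S.L a') ^ 2) := by positivity
  rcases Forest.sub_inter (F := S.F) a a' with h | h | h
  · rw [h, sum_res]
    constructor
    · have := S.s_sq_le' x a
      have h2 : 0 ≤ (S.L a) ^ 2 * S.D x := by positivity
      exact (show (∑ c ∈ S.F.sub a, x c) ^ 2 ≤ _ by
        change (S.s x a) ^ 2 ≤ _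
        linarith)
    · exact (S.N_rs_le' x a).trans b1
  · rw [h, sum_res]
    constructor
    · have := S.s_sq_le' x a'
      have h2 : 0 ≤ (S.L a') ^ 2 * S.D x := by positivity
      exact (show (∑ c ∈ S.F.sub a', x c) ^ 2 ≤ _ by
        change (S.s x a') ^ 2 ≤ _
        linarith)
    · exact (S.N_rs_le' x a').trans b2
  · rw [h]
    have hz : res (∅ : Finset E) x = 0 := by ext c; simp [res]
    rw [hz]
    constructor
    · simpa using b0
    · have : nb S.H (0 : E → ℝ) 0 = 0 := by simp [nb]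
      rw [this]; exact b0

lemma sum_rs (x : E → ℝ) (a : E) : ∑ c, S.rs x a c = S.s x a := sum_res _ _

lemma rs_rs (x : E → ℝ) (a a' : E) : S.rs (S.rs x a) a' = res (S.F.sub a ∩ S.F.sub a') x :=
  res_res _ _ _

/-- cross term of first order -/
lemma cross1 (x : E → ℝ) (a a' : E) :
    |Gam S.H (res (S.F.sub a ∩ S.F.sub a') x) (S.rs x a')|
      ≤ 4 * S.D x / S.K * (S.L a * (S.L a') ^ 2) := by
  have hD := S.D_nonneg x
  have hK := S.K_pos a
  have hLa := S.L_pos a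
  have hLa' := S.L_pos a'
  have h := Gam_sq_le S.symm S.nsd (res (S.F.sub a ∩ S.F.sub a') x) (S.rs x a')
  obtain ⟨h1, h2⟩ := S.inter_le x a a'
  have h3 := S.s_sq_le' x a'
  have h4 := S.N_rs_le' x a'
  rw [S.sum_rs] at h
  have h5 : (∑ c, res (S.F.sub a ∩ S.F.sub a') x c) ^ 2
      + nb S.H (res (S.F.sub a ∩ S.F.sub a') x) (res (S.F.sub a ∩ S.F.sub a') x)
      ≤ 4 * S.D x / S.K ^ 2 * ((S.L a) ^ 2 * (S.L a') ^ 2) := by
    have : 4 * S.D x / S.K ^ 2 * ((S.L a) ^ 2 * (S.L a') ^ 2)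
      = 2 * (2 * S.D x / S.K ^ 2 * ((S.L a) ^ 2 * (S.L a') ^ 2)) := by ring
    linarith
  have h6 : (S.s x a') ^ 2 + nb S.H (S.rs x a') (S.rs x a') ≤ 4 * ((S.L a') ^ 2 * S.D x) := by
    have : 0 ≤ (S.L a') ^ 2 * S.D x := by positivity
    linarith
  have h7 : 0 ≤ (S.s x a') ^ 2 + nb S.H (S.rs x a') (S.rs x a') :=
    add_nonneg (sq_nonneg _) (S.nsd _)
  have h8 : (Gam S.H (res (S.F.sub a ∩ S.F.sub a') x) (S.rs x a')) ^ 2
      ≤ (4 * S.D x / S.K * (S.L a * (S.L a') ^ 2)) ^ 2 := by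
    refine h.trans ((mul_le_mul h5 h6 h7 (by positivity)).trans (le_of_eq ?_))
    field_simp
  exact abs_le_of_sq_le_sq h8 (by positivity)

/-- cross term of second order -/
lemma cross2 (x : E → ℝ) (a a' : E) :
    |Gam S.H (res (S.F.sub a ∩ S.F.sub a') x) (res (S.F.sub a ∩ S.F.sub a') x)|
      ≤ 2 * S.D x / S.K ^ 2 * ((S.L a) ^ 2 * (S.L a') ^ 2) := by
  obtain ⟨h1, h2⟩ := S.inter_le x a a'
  have h3 := S.nsd (res (S.F.sub a ∩ S.F.sub a') x)
  rw [Gam_eq, abs_le]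
  constructor
  · nlinarith [sq_nonneg (∑ c, res (S.F.sub a ∩ S.F.sub a') x c)]
  · nlinarith

lemma sum_N_rs (x : E → ℝ) : ∑ a, nb S.H (S.rs x a) (S.rs x a) / (S.L a) ^ 2 ≤ 2 * S.D x := by
  have hD := S.D_nonneg x
  have h1 : ∀ a ∈ (Finset.univ : Finset E), nb S.H (S.rs x a) (S.rs x a) / (S.L a) ^ 2
      ≤ (S.s x a) ^ 2 / (S.L a) ^ 2 + 1 / (Fintype.card E : ℝ) * S.D x := by
    intro a _
    have hL := S.L_pos a
    have hn := n_ge a
    have hθ := S.θ_pos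
    have hθ1 := S.θ_le
    rw [div_le_iff₀ (by positivity), add_mul, div_mul_cancel₀ _ (by positivity)]
    have h2 := S.N_rs_le x a
    have h3 := S.err_le x a
    have h4 : S.θ ^ 3 / (10 ^ 6 * (Fintype.card E : ℝ) ^ 3) ≤ 1 / (Fintype.card E : ℝ) := by
      rw [div_le_div_iff₀ (by positivity) (by positivity)]
      have h5 : S.θ ^ 3 ≤ 1 := pow_le_one₀ hθ.le hθ1
      have h6 : (1 : ℝ) ≤ (Fintype.card E : ℝ) ^ 2 := one_le_pow₀ hn
      have h7 : (Fintype.card E : ℝ) ≤ (Fintype.card E : ℝ) ^ 3 := by nlinarith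
      nlinarith
    have h5 : 0 ≤ (S.L a) ^ 2 * S.D x := by positivity
    have h6 := mul_le_mul_of_nonneg_right h4 h5
    nlinarith
  refine (Finset.sum_le_sum h1).trans ?_
  rw [Finset.sum_add_distrib, Finset.sum_const, Finset.card_univ, nsmul_eq_mul]
  rcases isEmpty_or_nonempty E with hE | ⟨⟨a⟩⟩
  · simp [D]
  · have hn := n_ge a
    have : (Fintype.card E : ℝ) * (1 / (Fintype.card E : ℝ) * S.D x) = S.D x := by
      field_simp
    rw [this]
    change S.D x + S.D x ≤ _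
    linarith

lemma consts (a0 : E) :
    16 * ((Fintype.card E : ℝ) ^ 2 / S.K) ≤ S.θ / 256 ∧
    2 * ((Fintype.card E : ℝ) ^ 2 / S.K) * (1 / S.K) ≤ S.θ / 256 ∧
    4097 / 10 ^ 6 * S.θ * (1 / (Fintype.card E : ℝ)) ≤ S.θ / 200 := by
  have hθ := S.θ_pos
  have hθ1 := S.θ_le
  have hk := S.k0_ge
  have hn1 := n_ge a0
  have hK := S.K_pos a0
  have hKn : (Fintype.card E : ℝ) ^ 2 / S.K ≤ S.θ ^ 2 / 4096 := by
    rw [div_le_div_iff₀ hK (by norm_num)]
    unfold K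
    have : S.θ ^ 2 * (4096 * (Fintype.card E : ℝ) ^ 2 * S.k0 / S.θ ^ 2)
        = 4096 * (Fintype.card E : ℝ) ^ 2 * S.k0 := by
      field_simp
    rw [this]
    have : 0 ≤ (Fintype.card E : ℝ) ^ 2 := by positivity
    nlinarith
  have hth2 : S.θ ^ 2 ≤ S.θ := by nlinarith
  refine ⟨by linarith, ?_, ?_⟩
  · have h1 : 1 / S.K ≤ 1 := by
      rw [div_le_one hK]
      linarith [S.K_ge a0]
    have h2 : 0 ≤ (Fintype.card E : ℝ) ^ 2 / S.K := by positivity
    have h3 : 2 * ((Fintype.card E : ℝ) ^ 2 / S.K) * (1 / S.K)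
        ≤ 2 * ((Fintype.card E : ℝ) ^ 2 / S.K) * 1 :=
      mul_le_mul_of_nonneg_left h1 (by positivity)
    linarith
  · have h1 : 1 / (Fintype.card E : ℝ) ≤ 1 := by
      rw [div_le_one (by linarith)]; exact hn1
    have h3 : 4097 / 10 ^ 6 * S.θ * (1 / (Fintype.card E : ℝ)) ≤ 4097 / 10 ^ 6 * S.θ * 1 :=
      mul_le_mul_of_nonneg_left h1 (by positivity)
    linarith

lemma arith_fin (θ D : ℝ) (hθ : 0 ≤ θ) (hD : 0 ≤ D) :
    θ / 5 * D ≤ θ / 4 * D - θ / 200 * D - θ / 256 * D - θ / 32 * D - θ / 256 * D := by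
  have : 0 ≤ θ * D := mul_nonneg hθ hD
  linarith

/-- **Main one-sided inequality.** -/
theorem side_main (x : E → ℝ) (ω : ℝ) (r q : E → ℝ)
    (hω1 : 2048 * (Fintype.card E : ℝ) / S.θ ^ 2 ≤ ω)
    (hω2 : ω ≤ 4096 * (Fintype.card E : ℝ) / S.θ ^ 2)
    (hr : ∀ a, |r a| ≤ 2 / S.L a) (hq : ∀ a, |q a| ≤ 1 / (S.L a) ^ 2)
    (hqe : ∀ a, q a ≤ -(1 / (2 * (S.L a) ^ 2)) ∨ 1 / (8 * (S.L a) ^ 2) ≤ S.e a) :
    (ω - 256 * (Fintype.card E : ℝ) / S.θ) * nb S.H x x + S.θ / 5 * S.D x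
      ≤ ω * nb S.Hp x x + 2 * ∑ a, r a * nb S.Hp (S.rs x a) x
        - ∑ a, q a * Gam S.Hp (S.rs x a) (S.rs x a) := by
  classical
  have hθ := S.θ_pos
  have hθ1 := S.θ_le
  have hk := S.k0_ge
  have hD := S.D_nonneg x
  have hN := S.nsd x
  set n : ℝ := (Fintype.card E : ℝ) with hn
  have hn0 : 0 ≤ n := by positivity
  -- expansion
  have e1 : nb S.Hp x x = nb S.H x x + ∑ a, S.e a * Gam S.H (S.rs x a) (S.rs x a) := S.nb_Hp x x
  have e2 : ∀ a, nb S.Hp (S.rs x a) x = nb S.H (S.rs x a) x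
      + ∑ a', S.e a' * Gam S.H (res (S.F.sub a ∩ S.F.sub a') x) (S.rs x a') := by
    intro a
    rw [S.nb_Hp]
    congr 1
    refine Finset.sum_congr rfl fun a' _ => ?_
    rw [S.rs_rs]
  have e3 : ∀ a, Gam S.Hp (S.rs x a) (S.rs x a) = Gam S.H (S.rs x a) (S.rs x a)
      - ∑ a', S.e a' * Gam S.H (res (S.F.sub a ∩ S.F.sub a') x)
        (res (S.F.sub a ∩ S.F.sub a') x) := by
    intro a
    rw [S.Gam_Hp]
    congr 1
    refine Finset.sum_congr rfl fun a' _ => ?_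
    rw [S.rs_rs]
  -- first order bound, per a
  have f1 : ∀ a ∈ (Finset.univ : Finset E),
      -(S.θ / 64 * (nb S.H (S.rs x a) (S.rs x a) / (S.L a) ^ 2) + 256 / S.θ * nb S.H x x
        + n * (16 * S.D x / S.K)) ≤ 2 * (r a * nb S.Hp (S.rs x a) x) := by
    intro a _
    have hK := S.K_pos a
    have hL := S.L_pos a
    have hcs := nb_cs S.symm S.nsd (S.rs x a) x
    have hNr := S.nsd (S.rs x a)
    set m := nb S.H (S.rs x a) x with hm
    set C := nb S.H (S.rs x a) (S.rs x a) with hC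
    set N := nb S.H x x with hNN
    rw [e2 a]
    have g1 : |2 * (r a * m)| ≤ S.θ / 64 * (C / (S.L a) ^ 2) + 256 / S.θ * N := by
      have h0 : 0 ≤ S.θ / 64 * (C / (S.L a) ^ 2) + 256 / S.θ * N := by positivity
      apply abs_le_of_sq_le_sq _ h0
      have hr2 : (r a) ^ 2 ≤ 4 / (S.L a) ^ 2 := by
        have := hr a
        have h2 : (r a) ^ 2 ≤ (2 / S.L a) ^ 2 := by
          rw [← sq_abs (r a)]
          exact pow_le_pow_left₀ (abs_nonneg _) this 2
        refine h2.trans (le_of_eq ?_)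
        ring
      have h3 : (2 * (r a * m)) ^ 2 ≤ 16 / (S.L a) ^ 2 * (C * N) := by
        have : (2 * (r a * m)) ^ 2 = 4 * ((r a) ^ 2 * m ^ 2) := by ring
        rw [this]
        have h4 : (r a) ^ 2 * m ^ 2 ≤ 4 / (S.L a) ^ 2 * (C * N) :=
          mul_le_mul hr2 hcs (sq_nonneg _) (by positivity)
        have h5 : 16 / (S.L a) ^ 2 * (C * N) = 4 * (4 / (S.L a) ^ 2 * (C * N)) := by ring
        rw [h5]
        linarith
      refine h3.trans ?_
      have h6 : (S.θ / 64 * (C / (S.L a) ^ 2) + 256 / S.θ * N) ^ 2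
          = (S.θ / 64 * (C / (S.L a) ^ 2) - 256 / S.θ * N) ^ 2
            + 4 * (S.θ / 64 * (C / (S.L a) ^ 2)) * (256 / S.θ * N) := by ring
      rw [h6]
      have h7 : 4 * (S.θ / 64 * (C / (S.L a) ^ 2)) * (256 / S.θ * N)
          = 16 / (S.L a) ^ 2 * (C * N) := by
        field_simp
        ring
      rw [h7]
      have := sq_nonneg (S.θ / 64 * (C / (S.L a) ^ 2) - 256 / S.θ * N)
      linarith
    have g2 : |2 * (r a * ∑ a', S.e a'
        * Gam S.H (res (S.F.sub a ∩ S.F.sub a') x) (S.rs x a'))| ≤ n * (16 * S.D x / S.K) := by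
      rw [Finset.mul_sum, Finset.mul_sum]
      refine (Finset.abs_sum_le_sum_abs _ _).trans ?_
      have : ∀ a' ∈ (Finset.univ : Finset E),
          |2 * (r a * (S.e a' * Gam S.H (res (S.F.sub a ∩ S.F.sub a') x) (S.rs x a')))|
            ≤ 16 * S.D x / S.K := by
        intro a' _
        have hL' := S.L_pos a'
        have c1 := S.cross1 x a a'
        have he0 := S.e_nonneg a'
        have he := S.e_le a'
        rw [abs_mul, abs_mul, abs_mul, abs_of_nonneg he0, abs_two]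
        have h1 : S.e a' * |Gam S.H (res (S.F.sub a ∩ S.F.sub a') x) (S.rs x a')|
            ≤ 1 / (S.L a') ^ 2 * (4 * S.D x / S.K * (S.L a * (S.L a') ^ 2)) :=
          mul_le_mul he c1 (abs_nonneg _) (by positivity)
        have h2 : |r a| * (S.e a' * |Gam S.H (res (S.F.sub a ∩ S.F.sub a') x) (S.rs x a')|)
            ≤ 2 / S.L a * (1 / (S.L a') ^ 2 * (4 * S.D x / S.K * (S.L a * (S.L a') ^ 2))) :=
          mul_le_mul (hr a) h1 (mul_nonneg he0 (abs_nonneg _)) (by positivity)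
        have h3 : 2 / S.L a * (1 / (S.L a') ^ 2 * (4 * S.D x / S.K * (S.L a * (S.L a') ^ 2)))
            = 8 * S.D x / S.K := by
          field_simp
          ring
        rw [h3] at h2
        have : 16 * S.D x / S.K = 2 * (8 * S.D x / S.K) := by ring
        rw [this]
        linarith
      refine (Finset.sum_le_sum this).trans ?_
      rw [Finset.sum_const, Finset.card_univ, nsmul_eq_mul]
    have g1' := (abs_le.1 g1).1
    have g2' := (abs_le.1 g2).1
    have : 2 * (r a * (m + ∑ a', S.e a'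
        * Gam S.H (res (S.F.sub a ∩ S.F.sub a') x) (S.rs x a')))
        = 2 * (r a * m) + 2 * (r a * ∑ a', S.e a'
        * Gam S.H (res (S.F.sub a ∩ S.F.sub a') x) (S.rs x a')) := by ring
    rw [this]
    linarith
  -- second order bound
  have f2 : ∀ a ∈ (Finset.univ : Finset E),
      ω * (S.e a * Gam S.H (S.rs x a) (S.rs x a)) - q a * Gam S.Hp (S.rs x a) (S.rs x a)
        ≥ S.θ / 4 * ((S.s x a) ^ 2 / (S.L a) ^ 2)
          - (4097 * n / S.θ ^ 2) * (S.θ ^ 3 / (10 ^ 6 * n ^ 3) * S.D x)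
          - n * (2 * S.D x / S.K ^ 2) := by
    intro a _
    have hK := S.K_pos a
    have hL := S.L_pos a
    have hn1 : 1 ≤ n := n_ge a
    have hG : Gam S.H (S.rs x a) (S.rs x a) = (S.s x a) ^ 2 - nb S.H (S.rs x a) (S.rs x a) := by
      rw [Gam_eq, S.sum_rs]; ring
    have hP1 := S.P1 x a
    set G := Gam S.H (S.rs x a) (S.rs x a) with hGdef
    have hG1 : S.θ / 2 * (S.s x a) ^ 2 - S.err x ≤ G := by rw [hG]; linarith
    rw [e3 a]
    have g3 : |q a * ∑ a', S.e a' * Gam S.H (res (S.F.sub a ∩ S.F.sub a') x)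
        (res (S.F.sub a ∩ S.F.sub a') x)| ≤ n * (2 * S.D x / S.K ^ 2) := by
      rw [Finset.mul_sum]
      refine (Finset.abs_sum_le_sum_abs _ _).trans ?_
      have : ∀ a' ∈ (Finset.univ : Finset E),
          |q a * (S.e a' * Gam S.H (res (S.F.sub a ∩ S.F.sub a') x)
            (res (S.F.sub a ∩ S.F.sub a') x))| ≤ 2 * S.D x / S.K ^ 2 := by
        intro a' _
        have hL' := S.L_pos a'
        have c1 := S.cross2 x a a'
        have he0 := S.e_nonneg a'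
        have he := S.e_le a'
        rw [abs_mul, abs_mul, abs_of_nonneg he0]
        have h1 : S.e a' * |Gam S.H (res (S.F.sub a ∩ S.F.sub a') x)
            (res (S.F.sub a ∩ S.F.sub a') x)|
            ≤ 1 / (S.L a') ^ 2 * (2 * S.D x / S.K ^ 2 * ((S.L a) ^ 2 * (S.L a') ^ 2)) :=
          mul_le_mul he c1 (abs_nonneg _) (by positivity)
        have h2 : |q a| * (S.e a' * |Gam S.H (res (S.F.sub a ∩ S.F.sub a') x)
            (res (S.F.sub a ∩ S.F.sub a') x)|)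
            ≤ 1 / (S.L a) ^ 2
              * (1 / (S.L a') ^ 2 * (2 * S.D x / S.K ^ 2 * ((S.L a) ^ 2 * (S.L a') ^ 2))) :=
          mul_le_mul (hq a) h1 (mul_nonneg he0 (abs_nonneg _)) (by positivity)
        refine h2.trans (le_of_eq ?_)
        field_simp
      refine (Finset.sum_le_sum this).trans ?_
      rw [Finset.sum_const, Finset.card_univ, nsmul_eq_mul]
    have g3' := (abs_le.1 g3).1
    -- the coefficient
    set mu := ω * S.e a - q a with hmu
    have hω0 : 0 ≤ ω := le_trans (by positivity) hω1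
    have hmu1 : 1 / (2 * (S.L a) ^ 2) ≤ mu := by
      rcases hqe a with h | h
      · have := mul_nonneg hω0 (S.e_nonneg a)
        rw [hmu]; linarith
      · have h1 : ω * (1 / (8 * (S.L a) ^ 2)) ≤ ω * S.e a := mul_le_mul_of_nonneg_left h hω0
        have h2 : 2048 ≤ ω := by
          refine le_trans ?_ hω1
          rw [le_div_iff₀ (by positivity)]
          have : S.θ ^ 2 ≤ 1 := pow_le_one₀ hθ.le hθ1
          nlinarith
        have h3 := (abs_le.1 (hq a)).2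
        have h4 : 2048 * (1 / (8 * (S.L a) ^ 2)) ≤ ω * (1 / (8 * (S.L a) ^ 2)) :=
          mul_le_mul_of_nonneg_right h2 (by positivity)
        have h5 : 2048 * (1 / (8 * (S.L a) ^ 2)) = 256 * (1 / (S.L a) ^ 2) := by ring
        have h6 : 1 / (2 * (S.L a) ^ 2) = 1 / 2 * (1 / (S.L a) ^ 2) := by ring
        have h7 : 0 < 1 / (S.L a) ^ 2 := by positivity
        rw [hmu, h6]
        linarith
    have hmu2 : mu ≤ 4097 * n / S.θ ^ 2 * (1 / (S.L a) ^ 2) := by
      have h1 : ω * S.e a ≤ 4096 * n / S.θ ^ 2 * (1 / (S.L a) ^ 2) :=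
        mul_le_mul hω2 (S.e_le a) (S.e_nonneg a) (by positivity)
      have h3 := (abs_le.1 (hq a)).1
      have h4 : 1 ≤ n / S.θ ^ 2 := by
        rw [le_div_iff₀ (by positivity)]
        have : S.θ ^ 2 ≤ 1 := pow_le_one₀ hθ.le hθ1
        linarith
      have h5 : 0 < 1 / (S.L a) ^ 2 := by positivity
      have h6 : 4097 * n / S.θ ^ 2 * (1 / (S.L a) ^ 2)
          = 4096 * n / S.θ ^ 2 * (1 / (S.L a) ^ 2) + n / S.θ ^ 2 * (1 / (S.L a) ^ 2) := by ring
      rw [hmu, h6]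
      nlinarith
    have hmu0 : 0 ≤ mu := le_trans (by positivity) hmu1
    have k1 : mu * (S.θ / 2 * (S.s x a) ^ 2 - S.err x) ≤ mu * G :=
      mul_le_mul_of_nonneg_left hG1 hmu0
    have k2 : S.θ / 4 * ((S.s x a) ^ 2 / (S.L a) ^ 2) ≤ mu * (S.θ / 2 * (S.s x a) ^ 2) := by
      have h1 := mul_le_mul_of_nonneg_right hmu1
        (show 0 ≤ S.θ / 2 * (S.s x a) ^ 2 by positivity)
      refine le_trans (le_of_eq ?_) h1
      field_simp
      ring
    have k3 : mu * S.err x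
        ≤ (4097 * n / S.θ ^ 2) * (S.θ ^ 3 / (10 ^ 6 * n ^ 3) * S.D x) := by
      have h1 := S.err_le x a
      have h2 : mu * S.err x ≤ 4097 * n / S.θ ^ 2 * (1 / (S.L a) ^ 2)
          * (S.θ ^ 3 / (10 ^ 6 * n ^ 3) * (S.L a) ^ 2 * S.D x) :=
        mul_le_mul hmu2 h1 (S.err_nonneg x) (by positivity)
      refine h2.trans (le_of_eq ?_)
      field_simp
    have k4 : ω * (S.e a * G) - q a * (G - ∑ a', S.e a' * Gam S.H
        (res (S.F.sub a ∩ S.F.sub a') x) (res (S.F.sub a ∩ S.F.sub a') x))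
        = mu * G + q a * ∑ a', S.e a' * Gam S.H
        (res (S.F.sub a ∩ S.F.sub a') x) (res (S.F.sub a ∩ S.F.sub a') x) := by
      rw [hmu]; ring
    rw [k4, ge_iff_le]
    have k5 : mu * (S.θ / 2 * (S.s x a) ^ 2 - S.err x)
        = mu * (S.θ / 2 * (S.s x a) ^ 2) - mu * S.err x := by ring
    rw [k5] at k1
    linarith
  -- sum up
  have F1 := Finset.sum_le_sum f1
  have F2 := Finset.sum_le_sum f2
  rw [Finset.sum_neg_distrib, Finset.sum_add_distrib, Finset.sum_add_distrib, ← Finset.mul_sum,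
    Finset.sum_const, Finset.sum_const, Finset.card_univ, nsmul_eq_mul, nsmul_eq_mul,
    ← Finset.mul_sum] at F1
  rw [Finset.sum_sub_distrib, Finset.sum_sub_distrib, ← Finset.mul_sum,
    Finset.sum_const, Finset.sum_const, Finset.card_univ, nsmul_eq_mul, nsmul_eq_mul,
    Finset.sum_sub_distrib, ← Finset.mul_sum] at F2
  have hsN := S.sum_N_rs x
  rcases isEmpty_or_nonempty E with hE | ⟨⟨a0⟩⟩
  · simp [D, nb, Gam]
  · have e5 : ∑ a, (S.s x a) ^ 2 / (S.L a) ^ 2 = S.D x := rfl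
    rw [e5] at F2
    obtain ⟨k1, k2, k3⟩ := S.consts a0
    have hK := S.K_pos a0
    have hn1 : 1 ≤ n := n_ge a0
    have c1 : n * (n * (16 * S.D x / S.K)) ≤ S.θ / 256 * S.D x := by
      have : n * (n * (16 * S.D x / S.K)) = 16 * (n ^ 2 / S.K) * S.D x := by ring
      rw [this]
      exact mul_le_mul_of_nonneg_right k1 hD
    have c2 : n * (n * (2 * S.D x / S.K ^ 2)) ≤ S.θ / 256 * S.D x := by
      have : n * (n * (2 * S.D x / S.K ^ 2)) = 2 * (n ^ 2 / S.K) * (1 / S.K) * S.D x := by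
        field_simp
      rw [this]
      exact mul_le_mul_of_nonneg_right k2 hD
    have c3 : n * ((4097 * n / S.θ ^ 2) * (S.θ ^ 3 / (10 ^ 6 * n ^ 3) * S.D x))
        ≤ S.θ / 200 * S.D x := by
      have : n * ((4097 * n / S.θ ^ 2) * (S.θ ^ 3 / (10 ^ 6 * n ^ 3) * S.D x))
          = 4097 / 10 ^ 6 * S.θ * (1 / n) * S.D x := by
        field_simp
      rw [this]
      exact mul_le_mul_of_nonneg_right k3 hD
    have c4 : S.θ / 64 * ∑ a, nb S.H (S.rs x a) (S.rs x a) / (S.L a) ^ 2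
        ≤ S.θ / 32 * S.D x := by
      have h1 := mul_le_mul_of_nonneg_left hsN (show 0 ≤ S.θ / 64 by positivity)
      have h2 : S.θ / 64 * (2 * S.D x) = S.θ / 32 * S.D x := by ring
      rw [h2] at h1
      exact h1
    have c5 : n * (256 / S.θ * nb S.H x x) = 256 * n / S.θ * nb S.H x x := by ring
    rw [e1, mul_add]
    rw [c5] at F1
    have hfin := arith_fin S.θ (S.D x) hθ.le hD
    rw [sub_mul]
    clear f1 f2 e2 e3 hr hq hqe hω1 hω2 c5 e5 e1 hsN
    rw [← hn] at F1 F2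
    linarith

end Side

end Crest.Agent.R302.MP3
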