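import Crest.Agent.R302.MP3b928

/-!
# R302, M3: pointwise inequality, part c: `t`-bound, flux bound, both sides together (helper928)
-/

set_option linter.unusedSectionVars false
set_option linter.unusedVariables false
set_option autoImplicit false

namespace Crest.Agent.R302.MP3

open Finset

namespace Side

variable {E : Type*} [Fintype E] [DecidableEq E] (S : Side E)

lemma rs_single (i a : E) :
    S.rs (Pi.single i 1) a = if i ∈ S.F.sub a then Pi.single i 1 else 0 := by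
  ext c
  unfold rs res
  by_cases hi : i ∈ S.F.sub a
  · rw [if_pos hi]
    by_cases hc : c ∈ S.F.sub a
    · rw [if_pos hc]
    · rw [if_neg hc]
      have : c ≠ i := by rintro rfl; exact hc hi
      rw [Pi.single_eq_of_ne this]
  · rw [if_neg hi]
    by_cases hc : c ∈ S.F.sub a
    · rw [if_pos hc]
      have : c ≠ i := by rintro rfl; exact hi hc
      rw [Pi.single_eq_of_ne this]; rfl
    · rw [if_neg hc]; rfl

lemma Gam_single_sq (i a : E) (y : E → ℝ) :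
    Gam S.H (S.rs (Pi.single i 1) a) y ^ 2 ≤ 2 * ((∑ c, y c) ^ 2 + nb S.H y y) := by
  have h0 : 0 ≤ (∑ c, y c) ^ 2 + nb S.H y y := add_nonneg (sq_nonneg _) (S.nsd y)
  refine (Gam_sq_le S.symm S.nsd _ _).trans ?_
  refine mul_le_mul_of_nonneg_right ?_ h0
  rw [S.rs_single]
  by_cases hi : i ∈ S.F.sub a
  · rw [if_pos hi, nb_single]
    have h1 := S.diag i
    have h2 := S.θ_pos
    have h3 : ∑ c, (Pi.single i (1 : ℝ) : E → ℝ) c = 1 := by simp
    rw [h3]
    linarith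
  · rw [if_neg hi]
    have : nb S.H (0 : E → ℝ) 0 = 0 := by simp [nb]
    rw [this]
    simp

lemma inv_K_le (a : E) :
    (Fintype.card E : ℝ) ^ 2 / S.K ^ 2 ≤ S.θ ^ 4 / (16777216 * (Fintype.card E : ℝ) ^ 2) := by
  have hθ := S.θ_pos
  have hk := S.k0_ge
  have hn := n_ge a
  have hK := S.K_pos a
  rw [div_le_div_iff₀ (by positivity) (by positivity)]
  unfold K
  have : S.θ ^ 4 * (4096 * (Fintype.card E : ℝ) ^ 2 * S.k0 / S.θ ^ 2) ^ 2
      = 16777216 * (Fintype.card E : ℝ) ^ 4 * S.k0 ^ 2 := by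
    field_simp
    ring
  rw [this]
  have h2 : (1 : ℝ) ≤ S.k0 ^ 2 := one_le_pow₀ hk
  have h3 : 0 ≤ (Fintype.card E : ℝ) ^ 4 := by positivity
  nlinarith

/-- bound for a sum of cross terms with a unit vector -/
lemma sum_cross_sq (i : E) (y : E → E → ℝ) (M : ℝ) (hM : 0 ≤ M)
    (h1 : ∀ a, (∑ c, y a c) ^ 2 ≤ M * (S.L a) ^ 2) (h2 : ∀ a, nb S.H (y a) (y a) ≤ M * (S.L a) ^ 2) :
    (∑ a, S.e a * Gam S.H (S.rs (Pi.single i 1) a) (y a)) ^ 2
      ≤ 4 * M * ((Fintype.card E : ℝ) ^ 2 / S.K ^ 2) := by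
  have hn := n_ge i
  have hc := sq_sum_le_card_mul_sum_sq (s := (Finset.univ : Finset E))
    (f := fun a => S.e a * Gam S.H (S.rs (Pi.single i 1) a) (y a))
  rw [Finset.card_univ] at hc
  have hK := S.K_pos i
  have h3 : ∀ a ∈ (Finset.univ : Finset E),
      (S.e a * Gam S.H (S.rs (Pi.single i 1) a) (y a)) ^ 2 ≤ 4 * M / S.K ^ 2 := by
    intro a _
    have hL := S.L_pos a
    have hg := S.Gam_single_sq i a (y a)
    have he0 := S.e_nonneg a
    have he := S.e_le a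
    have hg2 : Gam S.H (S.rs (Pi.single i 1) a) (y a) ^ 2 ≤ 4 * M * (S.L a) ^ 2 := by
      have := h1 a
      have := h2 a
      linarith
    have he2 : (S.e a) ^ 2 ≤ 1 / (S.L a) ^ 4 := by
      have := pow_le_pow_left₀ he0 he 2
      refine this.trans (le_of_eq ?_)
      rw [div_pow, one_pow, ← pow_mul]
    rw [mul_pow]
    refine (mul_le_mul he2 hg2 (sq_nonneg _) (by positivity)).trans ?_
    have hKL : S.K ^ 2 ≤ (S.L a) ^ 2 := pow_le_pow_left₀ hK.le (S.L_ge' a) 2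
    have : 1 / (S.L a) ^ 4 * (4 * M * (S.L a) ^ 2) = 4 * M / (S.L a) ^ 2 := by
      field_simp
    rw [this]
    exact div_le_div_of_nonneg_left (by positivity) (by positivity) hKL
  refine hc.trans ?_
  refine (mul_le_mul_of_nonneg_left (Finset.sum_le_sum h3) (by positivity)).trans (le_of_eq ?_)
  rw [Finset.sum_const, Finset.card_univ, nsmul_eq_mul]
  ring

/-- **(P3)** -/
lemma t_bound (i : E) (x : E → ℝ) :
    (nb S.Hp (Pi.single i 1) x) ^ 2
      ≤ (1 - S.θ / 2) * nb S.H x x + S.θ ^ 3 / (409600 * (Fintype.card E : ℝ)) * S.D x := by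
  have hθ := S.θ_pos
  have hθ1 := S.θ_le
  have hn := n_ge i
  have hD := S.D_nonneg x
  have hN := S.nsd x
  rw [S.nb_Hp]
  set P := nb S.H (Pi.single i 1) x with hP
  set Q := ∑ a, S.e a * Gam S.H (S.rs (Pi.single i 1) a) (S.rs x a) with hQ
  have hPsq : P ^ 2 ≤ (1 - S.θ) * nb S.H x x := by
    have h := nb_cs S.symm S.nsd (Pi.single i 1) x
    rw [nb_single] at h
    exact h.trans (mul_le_mul_of_nonneg_right (S.diag i) hN)
  have hQsq : Q ^ 2 ≤ 4 * (2 * S.D x) * ((Fintype.card E : ℝ) ^ 2 / S.K ^ 2) := by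
    apply S.sum_cross_sq i (fun a => S.rs x a) (2 * S.D x) (by positivity)
    · intro a
      rw [S.sum_rs]
      have := S.s_sq_le' x a
      have h2 : 0 ≤ (S.L a) ^ 2 * S.D x := by positivity
      linarith
    · intro a
      have := S.N_rs_le' x a
      linarith
  have hinv := S.inv_K_le i
  have hsq : (P + Q) ^ 2 ≤ (1 + S.θ / 2) * P ^ 2 + (1 + 2 / S.θ) * Q ^ 2 := by
    have : 0 ≤ (S.θ / 2) * (P - (2 / S.θ) * Q) ^ 2 := by positivity
    have e : (S.θ / 2) * (P - (2 / S.θ) * Q) ^ 2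
        = (S.θ / 2) * P ^ 2 - 2 * P * Q + (2 / S.θ) * Q ^ 2 := by
      field_simp
      ring
    rw [e] at this
    nlinarith
  refine hsq.trans (add_le_add ?_ ?_)
  · have h1 : (1 + S.θ / 2) * P ^ 2 ≤ (1 + S.θ / 2) * ((1 - S.θ) * nb S.H x x) :=
      mul_le_mul_of_nonneg_left hPsq (by linarith)
    have h2 := mul_nonneg (sq_nonneg S.θ) hN
    nlinarith
  · have h1 : (1 + 2 / S.θ) ≤ 3 / S.θ := by
      rw [le_div_iff₀ hθ]
      field_simp
      linarith
    have h2 : Q ^ 2 ≤ 4 * (2 * S.D x) * (S.θ ^ 4 / (16777216 * (Fintype.card E : ℝ) ^ 2)) :=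
      hQsq.trans (mul_le_mul_of_nonneg_left hinv (by positivity))
    have h3 : (1 + 2 / S.θ) * Q ^ 2
        ≤ 3 / S.θ * (4 * (2 * S.D x) * (S.θ ^ 4 / (16777216 * (Fintype.card E : ℝ) ^ 2))) :=
      mul_le_mul h1 h2 (sq_nonneg _) (by positivity)
    refine h3.trans ?_
    have h4 : 3 / S.θ * (4 * (2 * S.D x) * (S.θ ^ 4 / (16777216 * (Fintype.card E : ℝ) ^ 2)))
        = (24 / 16777216 * S.θ ^ 3 / (Fintype.card E : ℝ) ^ 2) * S.D x := by
      field_simp
      ring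
    rw [h4]
    refine mul_le_mul_of_nonneg_right ?_ hD
    rw [div_le_div_iff₀ (by positivity) (by positivity)]
    have h5 : (Fintype.card E : ℝ) ≤ (Fintype.card E : ℝ) ^ 2 := by nlinarith
    have h6 : 0 ≤ S.θ ^ 3 := by positivity
    have h7 : 0 ≤ S.θ ^ 3 * (Fintype.card E : ℝ) := by positivity
    have h8 : S.θ ^ 3 * (Fintype.card E : ℝ) ≤ S.θ ^ 3 * (Fintype.card E : ℝ) ^ 2 :=
      mul_le_mul_of_nonneg_left h5 h6
    nlinarith

/-- **second-side fluxes** -/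
lemma flux2 (i : E) (x : E → ℝ) :
    ∑ a, (S.s x a - nb S.Hp (Pi.single i 1) (S.rs x a)) ^ 2 / (S.L a) ^ 2 ≤ 10 * S.D x := by
  have hθ := S.θ_pos
  have hθ1 := S.θ_le
  have hn := n_ge i
  have hD := S.D_nonneg x
  have hK := S.K_pos i
  have hinv := S.inv_K_le i
  have h1 : ∀ a ∈ (Finset.univ : Finset E),
      (S.s x a - nb S.Hp (Pi.single i 1) (S.rs x a)) ^ 2 / (S.L a) ^ 2
        ≤ 3 * ((S.s x a) ^ 2 / (S.L a) ^ 2)
          + 3 * (nb S.H (S.rs x a) (S.rs x a) / (S.L a) ^ 2)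
          + 1 / (Fintype.card E : ℝ) * S.D x := by
    intro a _
    have hL := S.L_pos a
    rw [S.nb_Hp]
    set P := nb S.H (Pi.single i 1) (S.rs x a) with hP
    set Q := ∑ a', S.e a' * Gam S.H (S.rs (Pi.single i 1) a') (S.rs (S.rs x a) a') with hQ
    have hPsq : P ^ 2 ≤ nb S.H (S.rs x a) (S.rs x a) := by
      have h := nb_cs S.symm S.nsd (Pi.single i 1) (S.rs x a)
      rw [nb_single] at h
      have h2 := S.diag i
      have h3 := S.nsd (S.rs x a)
      refine h.trans ?_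
      nlinarith
    have hQsq : Q ^ 2 ≤ 4 * (2 * S.D x / S.K ^ 2 * (S.L a) ^ 2)
        * ((Fintype.card E : ℝ) ^ 2 / S.K ^ 2) := by
      apply S.sum_cross_sq i (fun a' => S.rs (S.rs x a) a') _ (by positivity)
      · intro a'
        have := (S.inter_le x a a').1
        rw [S.rs_rs]
        refine this.trans (le_of_eq ?_)
        ring
      · intro a'
        have := (S.inter_le x a a').2
        rw [S.rs_rs]
        refine this.trans (le_of_eq ?_)
        ring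
    have hsq : (S.s x a - (P + Q)) ^ 2 ≤ 3 * (S.s x a) ^ 2 + 3 * P ^ 2 + 3 * Q ^ 2 := by
      nlinarith [sq_nonneg (S.s x a + P), sq_nonneg (S.s x a + Q), sq_nonneg (P - Q)]
    have hQ2 : 3 * Q ^ 2 ≤ 1 / (Fintype.card E : ℝ) * S.D x * (S.L a) ^ 2 := by
      have k1 : 1 / S.K ^ 2 ≤ 1 := by
        rw [div_le_one (by positivity)]
        have := S.K_ge i
        nlinarith
      have k2 : 3 * Q ^ 2 ≤ 24 * (S.D x * (S.L a) ^ 2) * ((1 / S.K ^ 2)
          * ((Fintype.card E : ℝ) ^ 2 / S.K ^ 2)) := by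
        have e : 24 * (S.D x * (S.L a) ^ 2) * ((1 / S.K ^ 2)
          * ((Fintype.card E : ℝ) ^ 2 / S.K ^ 2))
          = 3 * (4 * (2 * S.D x / S.K ^ 2 * (S.L a) ^ 2)
        * ((Fintype.card E : ℝ) ^ 2 / S.K ^ 2)) := by ring
        rw [e]; linarith
      refine k2.trans ?_
      have k3 : (1 / S.K ^ 2) * ((Fintype.card E : ℝ) ^ 2 / S.K ^ 2)
          ≤ 1 * (S.θ ^ 4 / (16777216 * (Fintype.card E : ℝ) ^ 2)) :=
        mul_le_mul k1 hinv (by positivity) (by norm_num)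
      have k4 : 1 * (S.θ ^ 4 / (16777216 * (Fintype.card E : ℝ) ^ 2))
          ≤ 1 / (24 * (Fintype.card E : ℝ)) := by
        rw [one_mul, div_le_div_iff₀ (by positivity) (by positivity)]
        have h5 : (Fintype.card E : ℝ) ≤ (Fintype.card E : ℝ) ^ 2 := by nlinarith
        have h6 : S.θ ^ 4 ≤ 1 := pow_le_one₀ hθ.le hθ1
        nlinarith
      have k5 := mul_le_mul_of_nonneg_left (k3.trans k4)
        (show 0 ≤ 24 * (S.D x * (S.L a) ^ 2) by positivity)
      refine k5.trans (le_of_eq ?_)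
      field_simp
    rw [div_le_iff₀ (by positivity), add_mul, add_mul]
    have m1 : 3 * ((S.s x a) ^ 2 / (S.L a) ^ 2) * (S.L a) ^ 2 = 3 * (S.s x a) ^ 2 := by
      field_simp
    have m2 : 3 * (nb S.H (S.rs x a) (S.rs x a) / (S.L a) ^ 2) * (S.L a) ^ 2
        = 3 * nb S.H (S.rs x a) (S.rs x a) := by
      field_simp
    rw [m1, m2]
    linarith
  refine (Finset.sum_le_sum h1).trans ?_
  rw [Finset.sum_add_distrib, Finset.sum_add_distrib, ← Finset.mul_sum, ← Finset.mul_sum,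
    Finset.sum_const, Finset.card_univ, nsmul_eq_mul]
  have h2 := S.sum_N_rs x
  have h3 : (Fintype.card E : ℝ) * (1 / (Fintype.card E : ℝ) * S.D x) = S.D x := by
    field_simp
  have h4 : ∑ a, (S.s x a) ^ 2 / (S.L a) ^ 2 = S.D x := rfl
  rw [h3, h4]
  linarith

end Side

section two

variable {E : Type*} [Fintype E] [DecidableEq E]

/-- first order increments along the subtrees -/
noncomputable def inc1 (F : Forest E) (r : E → ℝ) (c : E) : ℝ :=
  ∑ a, if c ∈ F.sub a then r a else 0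

/-- second order increments -/
noncomputable def inc2 (F : Forest E) (q : E → ℝ) (c d : E) : ℝ :=
  ∑ a, if c ∈ F.sub a ∧ d ∈ F.sub a then q a else 0

lemma sum_inc1 (F : Forest E) (r x g : E → ℝ) :
    ∑ c, x c * g c * inc1 F r c = ∑ a, r a * ∑ c, res (F.sub a) x c * g c := by
  unfold inc1
  simp only [Finset.mul_sum]
  rw [Finset.sum_comm]
  refine Finset.sum_congr rfl fun a _ => Finset.sum_congr rfl fun c _ => ?_
  unfold res
  by_cases h : c ∈ F.sub a <;> simp [h]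
  ring

/-- the quadratic form with weight `omega` on one side -/
lemma one_side_form (S : Side E) (ω : ℝ) (r q x : E → ℝ) :
    ∑ c, ∑ d, x c * x d * (1 + S.Hp c d)
        * (ω + (inc1 S.F r c + inc1 S.F r d) + inc2 S.F q c d)
      = ω * Gam S.Hp x x + 2 * ∑ a, r a * Gam S.Hp (S.rs x a) x
        + ∑ a, q a * Gam S.Hp (S.rs x a) (S.rs x a) := by
  have hsym : ∀ c d, S.Hp c d = S.Hp d c := by
    intro c d
    unfold Side.Hp
    rw [S.symm c d]
    have h0 : (∑ a, if c ∈ S.F.sub a ∧ d ∈ S.F.sub a then S.e a else 0)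
        = ∑ a, if d ∈ S.F.sub a ∧ c ∈ S.F.sub a then S.e a else 0 := by
      refine Finset.sum_congr rfl fun a _ => ?_
      by_cases hc : c ∈ S.F.sub a <;> by_cases hd : d ∈ S.F.sub a <;> simp [hc, hd]
    rw [h0]
  have h1 : ∑ c, ∑ d, x c * x d * (1 + S.Hp c d) * inc1 S.F r c
      = ∑ a, r a * Gam S.Hp (S.rs x a) x := by
    have e : ∀ c, ∑ d, x c * x d * (1 + S.Hp c d) * inc1 S.F r c
        = x c * (∑ d, x d * (1 + S.Hp c d)) * inc1 S.F r c := by
      intro c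
      rw [Finset.mul_sum, Finset.sum_mul]
      refine Finset.sum_congr rfl fun d _ => ?_
      ring
    simp only [e]
    rw [sum_inc1]
    refine Finset.sum_congr rfl fun a _ => ?_
    congr 1
    unfold Gam
    refine Finset.sum_congr rfl fun c _ => ?_
    rw [Finset.mul_sum]
    refine Finset.sum_congr rfl fun d _ => ?_
    unfold Side.rs
    ring
  have h2 : ∑ c, ∑ d, x c * x d * (1 + S.Hp c d) * inc1 S.F r d
      = ∑ a, r a * Gam S.Hp (S.rs x a) x := by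
    rw [← h1, Finset.sum_comm]
    refine Finset.sum_congr rfl fun c _ => Finset.sum_congr rfl fun d _ => ?_
    rw [hsym d c]; ring
  have h3 : ∑ c, ∑ d, x c * x d * (1 + S.Hp c d) * inc2 S.F q c d
      = ∑ a, q a * Gam S.Hp (S.rs x a) (S.rs x a) := by
    unfold inc2 Gam
    simp only [Finset.mul_sum]
    have : ∀ c, ∑ d, ∑ a, x c * x d * (1 + S.Hp c d)
        * (if c ∈ S.F.sub a ∧ d ∈ S.F.sub a then q a else 0)
        = ∑ a, ∑ d, x c * x d * (1 + S.Hp c d)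
        * (if c ∈ S.F.sub a ∧ d ∈ S.F.sub a then q a else 0) := fun c => Finset.sum_comm
    simp only [this]
    rw [Finset.sum_comm]
    refine Finset.sum_congr rfl fun a _ => Finset.sum_congr rfl fun c _ =>
      Finset.sum_congr rfl fun d _ => ?_
    unfold Side.rs res
    by_cases hc : c ∈ S.F.sub a <;> by_cases hd : d ∈ S.F.sub a <;> simp [hc, hd]
    ring
  have h4 : ∑ c, ∑ d, x c * x d * (1 + S.Hp c d) * ω = ω * Gam S.Hp x x := by
    unfold Gam
    rw [Finset.mul_sum]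
    refine Finset.sum_congr rfl fun c _ => ?_
    rw [Finset.mul_sum]
    refine Finset.sum_congr rfl fun d _ => ?_
    ring
  have e : ∑ c, ∑ d, x c * x d * (1 + S.Hp c d)
        * (ω + (inc1 S.F r c + inc1 S.F r d) + inc2 S.F q c d)
      = ∑ c, ∑ d, x c * x d * (1 + S.Hp c d) * ω
        + ∑ c, ∑ d, x c * x d * (1 + S.Hp c d) * inc1 S.F r c
        + ∑ c, ∑ d, x c * x d * (1 + S.Hp c d) * inc1 S.F r d
        + ∑ c, ∑ d, x c * x d * (1 + S.Hp c d) * inc2 S.F q c d := by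
    rw [← Finset.sum_add_distrib, ← Finset.sum_add_distrib, ← Finset.sum_add_distrib]
    refine Finset.sum_congr rfl fun c _ => ?_
    rw [← Finset.sum_add_distrib, ← Finset.sum_add_distrib, ← Finset.sum_add_distrib]
    refine Finset.sum_congr rfl fun d _ => ?_
    ring
  rw [e, h1, h2, h3, h4]
  ring

/-- the mixed part of the quadratic form -/
lemma mixed_form (S1 S2 : Side E) (ω : ℝ) (r1 r2 x y : E → ℝ) :
    ∑ c, ∑ d, x c * y d * (ω + (inc1 S1.F r1 c + inc1 S2.F r2 d))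
      = ω * ((∑ c, x c) * ∑ d, y d) + (∑ a, r1 a * S1.s x a) * (∑ d, y d)
        + (∑ c, x c) * ∑ a, r2 a * S2.s y a := by
  have h1 : ∑ c, x c * 1 * inc1 S1.F r1 c = ∑ a, r1 a * S1.s x a := by
    rw [sum_inc1]
    refine Finset.sum_congr rfl fun a _ => ?_
    congr 1
    simp only [mul_one]
    exact sum_res _ _
  have h2 : ∑ c, y c * 1 * inc1 S2.F r2 c = ∑ a, r2 a * S2.s y a := by
    rw [sum_inc1]
    refine Finset.sum_congr rfl fun a _ => ?_
    congr 1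
    simp only [mul_one]
    exact sum_res _ _
  rw [← h1, ← h2, Finset.sum_mul_sum, Finset.sum_mul_sum, Finset.sum_mul_sum, Finset.mul_sum,
    ← Finset.sum_add_distrib, ← Finset.sum_add_distrib]
  refine Finset.sum_congr rfl fun c _ => ?_
  rw [Finset.mul_sum, ← Finset.sum_add_distrib, ← Finset.sum_add_distrib]
  refine Finset.sum_congr rfl fun d _ => ?_
  ring

lemma sq_sum_r_le (S : Side E) (r x : E → ℝ) (hr : ∀ a, |r a| ≤ 2 / S.L a) :
    (∑ a, r a * S.s x a) ^ 2 ≤ 4 * (Fintype.card E : ℝ) * S.D x := by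
  have hc := sq_sum_le_card_mul_sum_sq (s := (Finset.univ : Finset E))
    (f := fun a => r a * S.s x a)
  rw [Finset.card_univ] at hc
  refine hc.trans ?_
  have h : ∀ a ∈ (Finset.univ : Finset E), (r a * S.s x a) ^ 2
      ≤ 4 * ((S.s x a) ^ 2 / (S.L a) ^ 2) := by
    intro a _
    have hL := S.L_pos a
    have h2 : (r a) ^ 2 ≤ (2 / S.L a) ^ 2 := by
      rw [← sq_abs (r a)]
      exact pow_le_pow_left₀ (abs_nonneg _) (hr a) 2
    rw [mul_pow]
    refine (mul_le_mul_of_nonneg_right h2 (sq_nonneg _)).trans (le_of_eq ?_)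
    ring
  refine (mul_le_mul_of_nonneg_left (Finset.sum_le_sum h) (by positivity)).trans (le_of_eq ?_)
  rw [← Finset.mul_sum]
  change _ * (4 * S.D x) = _
  ring

lemma arith_two (θ n ω N1 N2 D1 D2 A B t : ℝ) (hθ : 0 < θ) (hθ1 : θ ≤ 1) (hn : 1 ≤ n)
    (hω1 : 2048 * n / θ ^ 2 ≤ ω) (hω2 : ω ≤ 4096 * n / θ ^ 2)
    (hN1 : 0 ≤ N1) (hN2 : 0 ≤ N2) (hD1 : 0 ≤ D1) (hD2 : 0 ≤ D2)
    (hA : A ^ 2 ≤ 4 * n * D1) (hB : B ^ 2 ≤ 4 * n * D2)
    (ht : t ^ 2 ≤ (1 - θ / 2) * N2 + θ ^ 3 / (409600 * n) * D2) :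
    θ / 8 * (D1 + D2) ≤ (ω - 256 * n / θ) * N1 + θ / 5 * D1
      + ((ω - 256 * n / θ) * N2 + θ / 5 * D2) - ω * t ^ 2 - 2 * t * (A + B) := by
  have hω0 : 0 < ω := lt_of_lt_of_le (by positivity) hω1
  -- cross term
  have h1 : 2 * t * (A + B) ≤ θ / 32 * (D1 + D2) + 256 * n / θ * t ^ 2 := by
    have e1 : (A + B) ^ 2 ≤ 8 * n * (D1 + D2) := by nlinarith [sq_nonneg (A - B)]
    have e2 : 0 ≤ (256 * n / θ) * (t - θ / (256 * n) * (A + B)) ^ 2 := by positivity
    have e3 : (256 * n / θ) * (t - θ / (256 * n) * (A + B)) ^ 2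
        = 256 * n / θ * t ^ 2 - 2 * t * (A + B) + θ / (256 * n) * (A + B) ^ 2 := by
      field_simp
      ring
    rw [e3] at e2
    have e4 : θ / (256 * n) * (A + B) ^ 2 ≤ θ / (256 * n) * (8 * n * (D1 + D2)) :=
      mul_le_mul_of_nonneg_left e1 (by positivity)
    have e5 : θ / (256 * n) * (8 * n * (D1 + D2)) = θ / 32 * (D1 + D2) := by
      field_simp
      ring
    rw [e5] at e4
    linarith
  have h2 : ω * t ^ 2 ≤ ω * ((1 - θ / 2) * N2) + θ / 100 * D2 := by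
    have e1 := mul_le_mul_of_nonneg_left ht hω0.le
    have e2 : ω * (θ ^ 3 / (409600 * n) * D2) ≤ 4096 * n / θ ^ 2 * (θ ^ 3 / (409600 * n) * D2) :=
      mul_le_mul_of_nonneg_right hω2 (by positivity)
    have e3 : 4096 * n / θ ^ 2 * (θ ^ 3 / (409600 * n) * D2) = θ / 100 * D2 := by
      field_simp
      ring
    rw [e3] at e2
    have e4 : ω * ((1 - θ / 2) * N2 + θ ^ 3 / (409600 * n) * D2)
        = ω * ((1 - θ / 2) * N2) + ω * (θ ^ 3 / (409600 * n) * D2) := by ring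
    rw [e4] at e1
    linarith
  have h3 : 256 * n / θ * t ^ 2 ≤ 256 * n / θ * N2 + θ / 1600 * D2 := by
    have e1 := mul_le_mul_of_nonneg_left ht (show 0 ≤ 256 * n / θ by positivity)
    have e2 : 256 * n / θ * ((1 - θ / 2) * N2) ≤ 256 * n / θ * N2 := by
      refine mul_le_mul_of_nonneg_left ?_ (by positivity)
      nlinarith
    have e3 : 256 * n / θ * (θ ^ 3 / (409600 * n) * D2) = θ ^ 2 / 1600 * D2 := by
      field_simp
      ring
    have e4 : θ ^ 2 / 1600 * D2 ≤ θ / 1600 * D2 := by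
      refine mul_le_mul_of_nonneg_right ?_ hD2
      nlinarith
    rw [mul_add] at e1
    linarith
  have h4 : 0 ≤ (ω - 256 * n / θ) * N1 := by
    refine mul_nonneg ?_ hN1
    have : 256 * n / θ ≤ 2048 * n / θ ^ 2 := by
      rw [div_le_div_iff₀ hθ (by positivity)]
      have : 0 ≤ n * θ := by positivity
      nlinarith
    linarith
  have h5 : 0 ≤ (ω - 256 * n / θ) * N2 - ω * ((1 - θ / 2) * N2) - 256 * n / θ * N2 := by
    have e : (ω - 256 * n / θ) * N2 - ω * ((1 - θ / 2) * N2) - 256 * n / θ * N2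
        = (ω * (θ / 2) - 512 * n / θ) * N2 := by ring
    rw [e]
    refine mul_nonneg ?_ hN2
    have e1 := mul_le_mul_of_nonneg_right hω1 (show 0 ≤ θ / 2 by positivity)
    have e2 : 2048 * n / θ ^ 2 * (θ / 2) = 1024 * n / θ := by
      field_simp
      ring
    rw [e2] at e1
    have e3 : 512 * n / θ ≤ 1024 * n / θ := by
      rw [div_le_div_iff_of_pos_right hθ]
      linarith
    linarith
  have h6 : 0 ≤ θ * D1 := by positivity
  have h7 : 0 ≤ θ * D2 := by positivity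
  nlinarith

/-- **Pointwise inequality, abstract form.** -/
theorem two_side (S1 S2 : Side E) (hSθ : S1.θ = S2.θ) (i : E) (x y : E → ℝ) (ω : ℝ)
    (r1 q1 r2 q2 : E → ℝ)
    (hω1 : 2048 * (Fintype.card E : ℝ) / S2.θ ^ 2 ≤ ω)
    (hω2 : ω ≤ 4096 * (Fintype.card E : ℝ) / S2.θ ^ 2)
    (hr1 : ∀ a, |r1 a| ≤ 2 / S1.L a) (hq1 : ∀ a, |q1 a| ≤ 1 / (S1.L a) ^ 2)
    (hqe1 : ∀ a, q1 a ≤ -(1 / (2 * (S1.L a) ^ 2)) ∨ 1 / (8 * (S1.L a) ^ 2) ≤ S1.e a)
    (hr2 : ∀ a, |r2 a| ≤ 2 / S2.L a) (hq2 : ∀ a, |q2 a| ≤ 1 / (S2.L a) ^ 2)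
    (hqe2 : ∀ a, q2 a ≤ -(1 / (2 * (S2.L a) ^ 2)) ∨ 1 / (8 * (S2.L a) ^ 2) ≤ S2.e a)
    (ht : ∑ c, x c + ∑ c, y c = nb S2.Hp (Pi.single i 1) y) :
    S2.θ / 8 * (S1.D x + S2.D y) ≤
      -((∑ c, ∑ d, x c * x d * (1 + S1.Hp c d)
        * (ω + (inc1 S1.F r1 c + inc1 S1.F r1 d) + inc2 S1.F q1 c d))
      + 2 * (∑ c, ∑ d, x c * y d * (ω + (inc1 S1.F r1 c + inc1 S2.F r2 d)))
      + (∑ c, ∑ d, y c * y d * (1 + S2.Hp c d)
        * (ω + (inc1 S2.F r2 c + inc1 S2.F r2 d) + inc2 S2.F q2 c d))) := by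
  rw [one_side_form, one_side_form, mixed_form]
  have hθ := S2.θ_pos
  have hθ1 := S2.θ_le
  have hn := Side.n_ge i
  have m1 := S1.side_main x ω r1 q1 (by rw [hSθ]; exact hω1) (by rw [hSθ]; exact hω2) hr1 hq1 hqe1
  have m2 := S2.side_main y ω r2 q2 hω1 hω2 hr2 hq2 hqe2
  rw [hSθ] at m1
  have tb := S2.t_bound i y
  rw [← ht] at tb
  set X := ∑ c, x c with hX
  set Y := ∑ c, y c with hY
  have a1 := sq_sum_r_le S1 r1 x hr1
  have a2 := sq_sum_r_le S2 r2 y hr2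
  set A := ∑ a, r1 a * S1.s x a with hA
  set B := ∑ a, r2 a * S2.s y a with hB
  have fin := arith_two S2.θ (Fintype.card E : ℝ) ω (nb S1.H x x) (nb S2.H y y) (S1.D x) (S2.D y)
    A B (X + Y) hθ hθ1 hn hω1 hω2 (S1.nsd x) (S2.nsd y) (S1.D_nonneg x) (S2.D_nonneg y) a1 a2 tb
  have g1 : ∀ (S : Side E) (z : E → ℝ), Gam S.Hp z z = (∑ c, z c) ^ 2 - nb S.Hp z z := by
    intro S z; rw [Gam_eq]; ring
  have g2 : ∀ (S : Side E) (r z : E → ℝ), ∑ a, r a * Gam S.Hp (S.rs z a) z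
      = (∑ a, r a * S.s z a) * (∑ c, z c) - ∑ a, r a * nb S.Hp (S.rs z a) z := by
    intro S r z
    rw [Finset.sum_mul, ← Finset.sum_sub_distrib]
    refine Finset.sum_congr rfl fun a _ => ?_
    rw [Gam_eq, S.sum_rs]; ring
  rw [g1 S1 x, g1 S2 y, g2 S1 r1 x, g2 S2 r2 y]
  rw [← hX, ← hY, ← hA, ← hB]
  have id : -(ω * (X ^ 2 - nb S1.Hp x x) + 2 * (A * X - ∑ a, r1 a * nb S1.Hp (S1.rs x a) x)
        + ∑ a, q1 a * Gam S1.Hp (S1.rs x a) (S1.rs x a)
        + 2 * (ω * (X * Y) + A * Y + X * B)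
        + (ω * (Y ^ 2 - nb S2.Hp y y) + 2 * (B * Y - ∑ a, r2 a * nb S2.Hp (S2.rs y a) y)
        + ∑ a, q2 a * Gam S2.Hp (S2.rs y a) (S2.rs y a)))
      = (ω * nb S1.Hp x x + 2 * ∑ a, r1 a * nb S1.Hp (S1.rs x a) x
          - ∑ a, q1 a * Gam S1.Hp (S1.rs x a) (S1.rs x a))
        + (ω * nb S2.Hp y y + 2 * ∑ a, r2 a * nb S2.Hp (S2.rs y a) y
          - ∑ a, q2 a * Gam S2.Hp (S2.rs y a) (S2.rs y a))
        - ω * (X + Y) ^ 2 - 2 * (X + Y) * (A + B) := by ring
  rw [id]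
  linarith

end two

end Crest.Agent.R302.MP3
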