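import Crest.Agent.R302.MP1
import Crest.Agent.R302.MP3c928

/-!
# R302, M3: pointwise inequality, part d: the instance in helper142's normal form (helper928)

Both sides are described in "reflected" coordinates: side 1 uses `G = F_1` at the point `x`,
side 2 uses `G = F_2 ∘ neg` at the point `-(x + 2 e_i)`.
`SD.Gp` = `G` times the confining potentials, `om` = weight, `K0 a b = S1.Gp a * S2.Gp (-b)`.
Main theorem: `pointwise`.
-/

set_option linter.unusedSectionVars false
set_option linter.unusedVariables false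
set_option autoImplicit false

namespace Crest.Agent.R302.MP3

open Finset
open Crest.Agent.R302.MP (Lat Node ev aX aY K1 K2 QF)

variable {n : ℕ}

/-- content of the subtree of `a` -/
noncomputable def mass (F : Forest (Fin n)) (x : Lat n) (a : Fin n) : ℤ := ∑ c ∈ F.sub a, x c

lemma mass_add (F : Forest (Fin n)) (x y : Lat n) (a : Fin n) :
    mass F (x + y) a = mass F x a + mass F y a := by
  unfold mass
  rw [← Finset.sum_add_distrib]
  rfl

lemma mass_ev (F : Forest (Fin n)) (c a : Fin n) :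
    mass F (ev c) a = if c ∈ F.sub a then 1 else 0 := by
  unfold mass MP.ev
  simp only [Pi.single_apply]
  rw [Finset.sum_ite_eq']

/-- Data of one side (in reflected coordinates for side 2). -/
structure SD (n : ℕ) where
  F : Forest (Fin n)
  G : Lat n → ℝ
  G_pos : ∀ x, 0 < G x
  /-- (H1) -/
  nsd : ∀ (x : Lat n) (ξ : Fin n → ℝ),
    ∑ a, ∑ b, ξ a * ξ b * (G (x + ev a + ev b) * G x / (G (x + ev a) * G (x + ev b)) - 1) ≤ 0
  θ : ℝ
  θ_pos : 0 < θ
  θ_le : θ ≤ 1
  /-- (H2) -/
  diag : ∀ (x : Lat n) (a : Fin n), θ * G (x + ev a) ^ 2 ≤ G (x + ev a + ev a) * G x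
  t : Fin n → ℝ
  t_pos : ∀ a, 0 < t a
  /-- (H3) -/
  edge : ∀ a b, F.par a = some b → ∀ x : Lat n,
    Real.exp (-(1 / (t a) ^ 2)) * G x ^ 2 ≤ G (x + ev a - ev b) * G (x - ev a + ev b)
  L : Fin n → ℝ
  k0 : ℝ
  k0_ge : 1 ≤ k0
  L_le : ∀ a b, F.par a = some b → L a ≤ k0 * t a
  L_ge : ∀ a, 4096 * (n : ℝ) ^ 2 * k0 / θ ^ 2 ≤ L a
  /-- confining potentials -/
  g : Fin n → ℤ → ℝ
  g_pos : ∀ a y, 0 < g a y
  ε_nonneg : ∀ a y, 0 ≤ 1 - g a y * g a (y + 2) / g a (y + 1) ^ 2
  ε_le : ∀ a y, 1 - g a y * g a (y + 2) / g a (y + 1) ^ 2 ≤ 1 / (L a) ^ 2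
  /-- weights -/
  ρ : Fin n → ℤ → ℝ
  ρ1 : ∀ a y, |ρ a (y + 1) - ρ a y| ≤ 2 / L a
  ρ2 : ∀ a y, |ρ a (y + 2) - 2 * ρ a (y + 1) + ρ a y| ≤ 1 / (L a) ^ 2
  ρε : ∀ a y, ρ a (y + 2) - 2 * ρ a (y + 1) + ρ a y ≤ -(1 / (2 * (L a) ^ 2)) ∨
    1 / (4 * (L a) ^ 2) ≤ 1 - g a y * g a (y + 2) / g a (y + 1) ^ 2

namespace SD

variable (S : SD n)

/-- second ratio defect of the potentials -/
noncomputable def eps (a : Fin n) (y : ℤ) : ℝ := 1 - S.g a y * S.g a (y + 2) / S.g a (y + 1) ^ 2

/-- the matrix at `x` -/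
noncomputable def HH (x : Lat n) (c d : Fin n) : ℝ :=
  S.G (x + ev c + ev d) * S.G x / (S.G (x + ev c) * S.G (x + ev d)) - 1

lemma HH_symm (x : Lat n) (c d : Fin n) : S.HH x c d = S.HH x d c := by
  unfold HH
  have e : x + ev c + ev d = x + ev d + ev c := by abel
  rw [e, mul_comm (S.G (x + ev c))]

lemma HH_nsd (x : Lat n) (ξ : Fin n → ℝ) : 0 ≤ nb (S.HH x) ξ ξ := by
  unfold nb HH
  have := S.nsd x ξ
  linarith

lemma HH_diag (x : Lat n) (a : Fin n) : -S.HH x a a ≤ 1 - S.θ := by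
  unfold HH
  have h := S.diag x a
  have hp := S.G_pos (x + ev a)
  have : S.θ ≤ S.G (x + ev a + ev a) * S.G x / (S.G (x + ev a) * S.G (x + ev a)) := by
    rw [le_div_iff₀ (by positivity)]
    nlinarith
  linarith

lemma HH_abs (x : Lat n) (a b : Fin n) : |S.HH x a b| ≤ 1 := by
  have h := nb_cs (S.HH_symm x) (S.HH_nsd x) (Pi.single a 1) (Pi.single b 1)
  rw [nb_single_two, nb_single, nb_single] at h
  have ha := S.HH_diag x a
  have hb := S.HH_diag x b
  have ha0 := S.HH_nsd x (Pi.single a 1)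
  have hb0 := S.HH_nsd x (Pi.single b 1)
  rw [nb_single] at ha0 hb0
  have hθ := S.θ_pos
  apply abs_le_one_iff_mul_self_le_one.2
  nlinarith

lemma HH_edge (x : Lat n) (a b : Fin n) (hab : S.F.par a = some b) :
    -(S.HH x a a) + 2 * S.HH x a b - S.HH x b b ≤ 2 / (S.t a) ^ 2 := by
  have hG := S.G_pos
  have ht := S.t_pos a
  have habs := S.HH_abs x a b
  set A := 1 + S.HH x a a with hA
  set B := 1 + S.HH x b b with hB
  set C := 1 + S.HH x a b with hC
  have hA' : A = S.G (x + ev a + ev a) * S.G x / (S.G (x + ev a) * S.G (x + ev a)) := by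
    rw [hA]; unfold HH; ring
  have hB' : B = S.G (x + ev b + ev b) * S.G x / (S.G (x + ev b) * S.G (x + ev b)) := by
    rw [hB]; unfold HH; ring
  have hC' : C = S.G (x + ev a + ev b) * S.G x / (S.G (x + ev a) * S.G (x + ev b)) := by
    rw [hC]; unfold HH; ring
  have hApos : 0 < A := by rw [hA']; have := hG (x + ev a + ev a); have := hG x; have := hG (x + ev a); positivity
  have hBpos : 0 < B := by rw [hB']; have := hG (x + ev b + ev b); have := hG x; have := hG (x + ev b); positivity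
  have hCpos : 0 < C := by rw [hC']; have := hG (x + ev a + ev b); have := hG x; have := hG (x + ev b); have := hG (x + ev a); positivity
  have he := S.edge a b hab (x + ev a + ev b)
  have e1 : x + ev a + ev b + ev a - ev b = x + ev a + ev a := by abel
  have e2 : x + ev a + ev b - ev a + ev b = x + ev b + ev b := by abel
  rw [e1, e2] at he
  set τ := 1 / (S.t a) ^ 2 with hτ
  have hτ0 : 0 < τ := by positivity
  have hAB : Real.exp (-τ) * C ^ 2 ≤ A * B := by
    have e3 : A * B = (S.G (x + ev a + ev a) * S.G (x + ev b + ev b)) * (S.G x) ^ 2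
        / ((S.G (x + ev a)) ^ 2 * (S.G (x + ev b)) ^ 2) := by
      rw [hA', hB']
      have := (hG (x + ev b)).ne'; have := (hG (x + ev a)).ne'
      field_simp
    have e4 : Real.exp (-τ) * C ^ 2 = (Real.exp (-τ) * (S.G (x + ev a + ev b)) ^ 2) * (S.G x) ^ 2
        / ((S.G (x + ev a)) ^ 2 * (S.G (x + ev b)) ^ 2) := by
      rw [hC']
      have := (hG (x + ev b)).ne'; have := (hG (x + ev a)).ne'
      field_simp
    rw [e3, e4]
    have := hG (x + ev b); have := hG (x + ev a)
    apply div_le_div_of_nonneg_right _ (by positivity)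
    exact mul_le_mul_of_nonneg_right he (sq_nonneg _)
  -- AM-GM
  have h1 : 2 * (1 - τ / 2) * C ≤ A + B := by
    have hexp : (1 - τ / 2) ≤ Real.exp (-(τ / 2)) := by
      have := Real.add_one_le_exp (-(τ / 2)); linarith
    have h2 : (2 * Real.exp (-(τ / 2)) * C) ^ 2 ≤ (A + B) ^ 2 := by
      have e5 : (2 * Real.exp (-(τ / 2)) * C) ^ 2 = 4 * (Real.exp (-τ) * C ^ 2) := by
        have : Real.exp (-τ) = Real.exp (-(τ / 2)) ^ 2 := by
          rw [← Real.exp_nat_mul]; congr 1; push_cast; ring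
        rw [this]; ring
      rw [e5]
      nlinarith [sq_nonneg (A - B)]
    have h3 := abs_le_of_sq_le_sq' h2 (by positivity)
    have h4 : 2 * (1 - τ / 2) * C ≤ 2 * Real.exp (-(τ / 2)) * C := by
      apply mul_le_mul_of_nonneg_right _ hCpos.le
      linarith
    linarith [h3.2]
  have hC2 : C ≤ 2 := by
    rw [hC]; linarith [(abs_le.1 habs).2]
  have e6 : -(S.HH x a a) + 2 * S.HH x a b - S.HH x b b = 2 * C - A - B := by
    rw [hA, hB, hC]; ring
  rw [e6]
  have e7 : 2 / (S.t a) ^ 2 = 2 * τ := by rw [hτ]; ring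
  rw [e7]
  nlinarith

lemma L_pos' (a : Fin n) : 1 ≤ S.L a := by
  have h1 := S.k0_ge
  have h2 := S.θ_pos
  have h3 := S.θ_le
  have h4 : (1 : ℝ) ≤ n := by
    have : 0 < n := lt_of_le_of_lt (Nat.zero_le _) a.2
    exact_mod_cast this
  refine le_trans ?_ (S.L_ge a)
  rw [le_div_iff₀ (by positivity)]
  have : S.θ ^ 2 ≤ 1 := by nlinarith
  have h5 : (1 : ℝ) ≤ (n : ℝ) ^ 2 := by nlinarith
  have h6 : (1 : ℝ) ≤ (n : ℝ) ^ 2 * S.k0 := by nlinarith
  nlinarith

lemma eps_le' (a : Fin n) (y : ℤ) : S.eps a y ≤ 1 / (2 * (n : ℝ)) := by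
  refine (S.ε_le a y).trans ?_
  have h1 := S.k0_ge
  have h2 := S.θ_pos
  have h3 := S.θ_le
  have h4 : (1 : ℝ) ≤ n := by
    have : 0 < n := lt_of_le_of_lt (Nat.zero_le _) a.2
    exact_mod_cast this
  have hL1 := S.L_pos' a
  have hL : 2 * (n : ℝ) ≤ S.L a := by
    refine le_trans ?_ (S.L_ge a)
    rw [le_div_iff₀ (by positivity)]
    have : S.θ ^ 2 ≤ 1 := by nlinarith
    have h5 : (n : ℝ) ≤ (n : ℝ) ^ 2 := by nlinarith
    have h6 : (n : ℝ) ^ 2 ≤ (n : ℝ) ^ 2 * S.k0 := by nlinarith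
    nlinarith
  apply one_div_le_one_div_of_le (by positivity)
  nlinarith

lemma eps_nonneg (a : Fin n) (y : ℤ) : 0 ≤ S.eps a y := S.ε_nonneg a y

lemma eps_le_one (a : Fin n) (y : ℤ) : S.eps a y ≤ 1 := by
  refine (S.eps_le' a y).trans ?_
  have h4 : (1 : ℝ) ≤ n := by
    have : 0 < n := lt_of_le_of_lt (Nat.zero_le _) a.2
    exact_mod_cast this
  rw [div_le_one (by positivity)]
  linarith

/-- the `Side` at the point `x` -/
noncomputable def side (x : Lat n) : Side (Fin n) where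
  F := S.F
  H := S.HH x
  symm := S.HH_symm x
  nsd := S.HH_nsd x
  θ := S.θ
  θ_pos := S.θ_pos
  θ_le := S.θ_le
  diag := S.HH_diag x
  t := S.t
  t_pos := S.t_pos
  edge := S.HH_edge x
  L := S.L
  k0 := S.k0
  k0_ge := S.k0_ge
  L_le := S.L_le
  L_ge := by
    intro a
    rw [Fintype.card_fin]
    exact S.L_ge a
  e := S.F.epst fun a => S.eps a (mass S.F x a)
  e_nonneg := by
    intro a
    exact Forest.epst_nonneg (F := S.F) (fun b => S.eps_nonneg b _)
      (fun b => S.eps_le_one b _) a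
  e_le := by
    intro a
    refine (Forest.epst_le (F := S.F) (fun b => S.eps_nonneg b _)
      (fun b => S.eps_le_one b _) a).trans ?_
    exact S.ε_le a _

/-- `G` with the confining potentials -/
noncomputable def Gp (x : Lat n) : ℝ := S.G x * ∏ a, S.g a (mass S.F x a)

lemma Gp_pos (x : Lat n) : 0 < S.Gp x :=
  mul_pos (S.G_pos x) (Finset.prod_pos fun a _ => S.g_pos a _)

lemma Gp_ratio (x : Lat n) (c d : Fin n) :
    S.Gp (x + ev c + ev d) * S.Gp x / (S.Gp (x + ev c) * S.Gp (x + ev d))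
      = 1 + (S.side x).Hp c d := by
  classical
  have hg := S.g_pos
  have h1 : ∀ a, S.g a (mass S.F (x + ev c + ev d) a) * S.g a (mass S.F x a)
      / (S.g a (mass S.F (x + ev c) a) * S.g a (mass S.F (x + ev d) a))
      = if S.F.Le c a ∧ S.F.Le d a then 1 - S.eps a (mass S.F x a) else 1 := by
    intro a
    simp only [mass_add, mass_ev, Forest.mem_sub]
    by_cases hc : S.F.Le c a
    · by_cases hd : S.F.Le d a
      · simp only [hc, hd, if_true, and_self]
        unfold eps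
        have e : mass S.F x a + 1 + 1 = mass S.F x a + 2 := by ring
        rw [e]
        ring
      · simp only [hc, hd, if_true, if_false, and_false, add_zero]
        have := (hg a (mass S.F x a + 1)).ne'
        have := (hg a (mass S.F x a)).ne'
        field_simp
    · by_cases hd : S.F.Le d a
      · simp only [hc, hd, if_true, if_false, false_and, add_zero]
        have := (hg a (mass S.F x a + 1)).ne'
        have := (hg a (mass S.F x a)).ne'
        field_simp
      · simp only [hc, hd, if_false, false_and, add_zero]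
        have := (hg a (mass S.F x a)).ne'
        field_simp
  have h2 : (∏ a, S.g a (mass S.F (x + ev c + ev d) a)) * (∏ a, S.g a (mass S.F x a))
      / ((∏ a, S.g a (mass S.F (x + ev c) a)) * ∏ a, S.g a (mass S.F (x + ev d) a))
      = 1 - ∑ a, if c ∈ S.F.sub a ∧ d ∈ S.F.sub a
          then S.F.epst (fun a => S.eps a (mass S.F x a)) a else 0 := by
    rw [← Finset.prod_mul_distrib, ← Finset.prod_mul_distrib, ← Finset.prod_div_distrib]
    simp only [h1]
    rw [← Finset.prod_filter, Forest.prod_pair (F := S.F) (fun a => S.eps a (mass S.F x a)) c d,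
      Finset.sum_filter]
    simp only [Forest.mem_sub]
  unfold Side.Hp
  have h3 : (S.side x).H c d = S.HH x c d := rfl
  have h4 : (S.side x).F = S.F := rfl
  have h5 : (S.side x).e = S.F.epst (fun a => S.eps a (mass S.F x a)) := rfl
  rw [h3, h4, h5]
  rw [← h2]
  unfold HH Gp
  have p1 := (S.G_pos (x + ev c)).ne'
  have p2 := (S.G_pos (x + ev d)).ne'
  have p3 : (∏ a, S.g a (mass S.F (x + ev c) a)) ≠ 0 :=
    (Finset.prod_pos fun a _ => S.g_pos a _).ne'
  have p4 : (∏ a, S.g a (mass S.F (x + ev d) a)) ≠ 0 :=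
    (Finset.prod_pos fun a _ => S.g_pos a _).ne'
  field_simp
  ring

/-- sum of the weights -/
noncomputable def rsum (x : Lat n) : ℝ := ∑ a, S.ρ a (mass S.F x a)

/-- first increments at `x` -/
noncomputable def r1 (x : Lat n) (a : Fin n) : ℝ :=
  S.ρ a (mass S.F x a + 1) - S.ρ a (mass S.F x a)

/-- second increments at `x` -/
noncomputable def q1 (x : Lat n) (a : Fin n) : ℝ :=
  S.ρ a (mass S.F x a + 2) - 2 * S.ρ a (mass S.F x a + 1) + S.ρ a (mass S.F x a)

lemma rsum_one (x : Lat n) (c : Fin n) :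
    S.rsum (x + ev c) = S.rsum x + inc1 S.F (S.r1 x) c := by
  unfold rsum inc1 r1
  rw [← Finset.sum_add_distrib]
  refine Finset.sum_congr rfl fun a _ => ?_
  rw [mass_add, mass_ev]
  by_cases hc : c ∈ S.F.sub a
  · simp only [hc, if_true]; ring
  · simp only [hc, if_false]; simp

lemma rsum_two (x : Lat n) (c d : Fin n) :
    S.rsum (x + ev c + ev d)
      = S.rsum x + (inc1 S.F (S.r1 x) c + inc1 S.F (S.r1 x) d) + inc2 S.F (S.q1 x) c d := by
  unfold rsum inc1 inc2 r1 q1
  rw [← Finset.sum_add_distrib, ← Finset.sum_add_distrib, ← Finset.sum_add_distrib]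
  refine Finset.sum_congr rfl fun a _ => ?_
  rw [mass_add, mass_add, mass_ev, mass_ev]
  by_cases hc : c ∈ S.F.sub a
  · by_cases hd : d ∈ S.F.sub a
    · simp only [hc, hd, if_true, and_self]
      have e : mass S.F x a + 1 + 1 = mass S.F x a + 2 := by ring
      rw [e]
      ring
    · simp only [hc, hd, if_true, if_false, and_false]; simp
  · by_cases hd : d ∈ S.F.sub a
    · simp only [hc, hd, if_true, if_false, false_and]; simp
    · simp only [hc, hd, if_false, false_and]; simp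

lemma hr1 (x : Lat n) (a : Fin n) : |S.r1 x a| ≤ 2 / (S.side x).L a := S.ρ1 a _

lemma hq1 (x : Lat n) (a : Fin n) : |S.q1 x a| ≤ 1 / ((S.side x).L a) ^ 2 := S.ρ2 a _

lemma hqe1 (x : Lat n) (a : Fin n) : S.q1 x a ≤ -(1 / (2 * ((S.side x).L a) ^ 2)) ∨
    1 / (8 * ((S.side x).L a) ^ 2) ≤ (S.side x).e a := by
  rcases S.ρε a (mass S.F x a) with h | h
  · left; exact h
  · right
    have h1 := Forest.le_epst (F := S.F) (ep := fun a => S.eps a (mass S.F x a))
      (fun b => S.eps_nonneg b _)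
      (fun b => by rw [Fintype.card_fin]; exact S.eps_le' b _) a
    have h2 : (S.side x).e a = S.F.epst (fun a => S.eps a (mass S.F x a)) a := rfl
    have h3 : (S.side x).L a = S.L a := rfl
    rw [h2, h3]
    refine le_trans ?_ h1
    have h4 : 1 / (8 * (S.L a) ^ 2) = 1 / (4 * (S.L a) ^ 2) / 2 := by ring
    rw [h4]
    exact div_le_div_of_nonneg_right h (by norm_num)

/-- `1 + H'_{ii} ≥ θ/2` -/
lemma one_add_Hp_ge (x : Lat n) (i : Fin n) : S.θ / 2 ≤ 1 + (S.side x).Hp i i := by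
  have h0 : (S.side x).Hp i i = (1 + S.HH x i i)
      * (1 - ∑ a, if i ∈ S.F.sub a ∧ i ∈ S.F.sub a then (S.side x).e a else 0) - 1 := rfl
  rw [h0]
  have h1 := S.HH_diag x i
  have hθ := S.θ_pos
  have h2 : ∑ a, (if i ∈ S.F.sub a ∧ i ∈ S.F.sub a then (S.side x).e a else 0) ≤ 1 / 2 := by
    have hn : (0 : ℝ) < n := by
      have : 0 < n := lt_of_le_of_lt (Nat.zero_le _) i.2
      exact_mod_cast this
    calc ∑ a, (if i ∈ S.F.sub a ∧ i ∈ S.F.sub a then (S.side x).e a else 0)
        ≤ ∑ _a : Fin n, 1 / (2 * (n : ℝ)) := by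
          refine Finset.sum_le_sum fun a _ => ?_
          have e1 : (S.side x).e a ≤ 1 / (2 * (n : ℝ)) :=
            (Forest.epst_le (F := S.F) (fun b => S.eps_nonneg b _)
              (fun b => S.eps_le_one b _) a).trans (S.eps_le' a _)
          split_ifs
          · exact e1
          · positivity
      _ = 1 / 2 := by
          rw [Finset.sum_const, Finset.card_univ, Fintype.card_fin, nsmul_eq_mul]
          field_simp
  have h3 : S.θ ≤ 1 + S.HH x i i := by linarith
  nlinarith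

end SD

/-- the weight -/
noncomputable def om (S1 S2 : SD n) (C0 : ℝ) (a b : Lat n) : ℝ := C0 + S1.rsum a + S2.rsum (-b)

/-- the base kernel -/
noncomputable def Kb (S1 S2 : SD n) (a b : Lat n) : ℝ := S1.Gp a * S2.Gp (-b)

/-- the weighted kernel -/
noncomputable def Kw (S1 S2 : SD n) (C0 : ℝ) (a b : Lat n) : ℝ := om S1 S2 C0 a b * Kb S1 S2 a b

/-- flux through the subtree of `a` in forest 1 -/
noncomputable def fl1 (S1 S2 : SD n) (i : Fin n) (x : Lat n) (v : Node n → ℝ) (a : Fin n) : ℝ :=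
  ∑ c ∈ S1.F.sub a, v (Sum.inl c) * K1 (Kb S1 S2) (ev i) x (Sum.inl c)

/-- flux through the subtree of `a` in forest 2 -/
noncomputable def fl2 (S1 S2 : SD n) (i : Fin n) (x : Lat n) (v : Node n → ℝ) (a : Fin n) : ℝ :=
  ∑ c ∈ S2.F.sub a, v (Sum.inr c) * K1 (Kb S1 S2) (ev i) x (Sum.inr c)

end Crest.Agent.R302.MP3
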