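import Crest.Agent.R302.MP3d928

/-!
# R302, M3: pointwise inequality, part e: main theorem `pointwise` (helper928)
-/

set_option linter.unusedSectionVars false
set_option linter.unusedVariables false
set_option autoImplicit false

namespace Crest.Agent.R302.MP3

open Finset
open Crest.Agent.R302.MP (Lat Node ev aX aY K1 K2 QF)

variable {n : ℕ}

lemma QF_split (K : Lat n → Lat n → ℝ) (s x : Lat n) (v : Node n → ℝ) :
    QF K s x v v
      = ∑ c, ∑ d, v (Sum.inl c) * v (Sum.inl d) * K2 K s x (Sum.inl c) (Sum.inl d)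
        + 2 * (∑ c, ∑ d, v (Sum.inl c) * v (Sum.inr d) * K2 K s x (Sum.inl c) (Sum.inr d))
        + ∑ c, ∑ d, v (Sum.inr c) * v (Sum.inr d) * K2 K s x (Sum.inr c) (Sum.inr d) := by
  unfold QF
  rw [Fintype.sum_sum_type]
  simp only [Fintype.sum_sum_type, Finset.sum_add_distrib]
  have h : ∑ c, ∑ d, v (Sum.inr c) * v (Sum.inl d) * K2 K s x (Sum.inr c) (Sum.inl d)
      = ∑ c, ∑ d, v (Sum.inl c) * v (Sum.inr d) * K2 K s x (Sum.inl c) (Sum.inr d) := by
    rw [Finset.sum_comm]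
    refine Finset.sum_congr rfl fun c _ => Finset.sum_congr rfl fun d _ => ?_
    rw [MP.K2_comm K s x (Sum.inr d)]; ring
  rw [h]; ring

/-- normalised coordinates -/
noncomputable def xi (S : SD n) (x : Lat n) (u : Fin n → ℝ) (c : Fin n) : ℝ :=
  u c * S.Gp (x + ev c) / S.Gp x

lemma ratio_mul (S : SD n) (x : Lat n) (u : Fin n → ℝ) (c d : Fin n) :
    u c * u d * S.Gp (x + ev c + ev d)
      = S.Gp x * (xi S x u c * xi S x u d * (1 + (S.side x).Hp c d)) := by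
  rw [← S.Gp_ratio]
  unfold xi
  have p0 := (S.Gp_pos x).ne'
  have p1 := (S.Gp_pos (x + ev c)).ne'
  have p2 := (S.Gp_pos (x + ev d)).ne'
  field_simp

lemma xi_mul (S : SD n) (x : Lat n) (u : Fin n → ℝ) (c : Fin n) :
    u c * S.Gp (x + ev c) = S.Gp x * xi S x u c := by
  unfold xi
  have p0 := (S.Gp_pos x).ne'
  field_simp

/-- the second point -/
def wp (i : Fin n) (x : Lat n) : Lat n := -(x + (ev i + ev i))

lemma QF_eq (S1 S2 : SD n) (C0 : ℝ) (i : Fin n) (x : Lat n) (v : Node n → ℝ) :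
    QF (Kw S1 S2 C0) (ev i + ev i) x v v
      = S1.Gp x * S2.Gp (wp i x) *
        ((∑ c, ∑ d, xi S1 x (fun a => v (Sum.inl a)) c * xi S1 x (fun a => v (Sum.inl a)) d
            * (1 + (S1.side x).Hp c d)
            * (om S1 S2 C0 x (x + (ev i + ev i)) + (inc1 S1.F (S1.r1 x) c + inc1 S1.F (S1.r1 x) d)
              + inc2 S1.F (S1.q1 x) c d))
          + 2 * (∑ c, ∑ d, xi S1 x (fun a => v (Sum.inl a)) c
            * xi S2 (wp i x) (fun a => v (Sum.inr a)) d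
            * (om S1 S2 C0 x (x + (ev i + ev i))
              + (inc1 S1.F (S1.r1 x) c + inc1 S2.F (S2.r1 (wp i x)) d)))
          + (∑ c, ∑ d, xi S2 (wp i x) (fun a => v (Sum.inr a)) c
            * xi S2 (wp i x) (fun a => v (Sum.inr a)) d
            * (1 + (S2.side (wp i x)).Hp c d)
            * (om S1 S2 C0 x (x + (ev i + ev i))
              + (inc1 S2.F (S2.r1 (wp i x)) c + inc1 S2.F (S2.r1 (wp i x)) d)
              + inc2 S2.F (S2.q1 (wp i x)) c d))) := by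
  rw [QF_split]
  have h1 : ∀ c d, v (Sum.inl c) * v (Sum.inl d)
      * K2 (Kw S1 S2 C0) (ev i + ev i) x (Sum.inl c) (Sum.inl d)
      = S1.Gp x * S2.Gp (wp i x) * (xi S1 x (fun a => v (Sum.inl a)) c
            * xi S1 x (fun a => v (Sum.inl a)) d
            * (1 + (S1.side x).Hp c d)
            * (om S1 S2 C0 x (x + (ev i + ev i)) + (inc1 S1.F (S1.r1 x) c + inc1 S1.F (S1.r1 x) d)
              + inc2 S1.F (S1.q1 x) c d)) := by
    intro c d
    have e1 : K2 (Kw S1 S2 C0) (ev i + ev i) x (Sum.inl c) (Sum.inl d)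
        = (om S1 S2 C0 x (x + (ev i + ev i)) + (inc1 S1.F (S1.r1 x) c + inc1 S1.F (S1.r1 x) d)
              + inc2 S1.F (S1.q1 x) c d) * (S1.Gp (x + ev c + ev d) * S2.Gp (wp i x)) := by
      unfold K2 Kw Kb om wp
      simp only [MP.aX_inl, MP.aY_inl, sub_zero]
      rw [S1.rsum_two]
      ring
    rw [e1]
    have e2 := ratio_mul S1 x (fun a => v (Sum.inl a)) c d
    calc v (Sum.inl c) * v (Sum.inl d) *
        ((om S1 S2 C0 x (x + (ev i + ev i)) + (inc1 S1.F (S1.r1 x) c + inc1 S1.F (S1.r1 x) d)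
              + inc2 S1.F (S1.q1 x) c d) * (S1.Gp (x + ev c + ev d) * S2.Gp (wp i x)))
        = (v (Sum.inl c) * v (Sum.inl d) * S1.Gp (x + ev c + ev d)) * S2.Gp (wp i x)
          * (om S1 S2 C0 x (x + (ev i + ev i)) + (inc1 S1.F (S1.r1 x) c + inc1 S1.F (S1.r1 x) d)
              + inc2 S1.F (S1.q1 x) c d) := by ring
      _ = _ := by rw [e2]; ring
  have h2 : ∀ c d, v (Sum.inl c) * v (Sum.inr d)
      * K2 (Kw S1 S2 C0) (ev i + ev i) x (Sum.inl c) (Sum.inr d)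
      = S1.Gp x * S2.Gp (wp i x) * (xi S1 x (fun a => v (Sum.inl a)) c
            * xi S2 (wp i x) (fun a => v (Sum.inr a)) d
            * (om S1 S2 C0 x (x + (ev i + ev i))
              + (inc1 S1.F (S1.r1 x) c + inc1 S2.F (S2.r1 (wp i x)) d))) := by
    intro c d
    have e0 : -(x + (ev i + ev i) - ev d) = wp i x + ev d := by unfold wp; abel
    have e1 : K2 (Kw S1 S2 C0) (ev i + ev i) x (Sum.inl c) (Sum.inr d)
        = (om S1 S2 C0 x (x + (ev i + ev i))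
              + (inc1 S1.F (S1.r1 x) c + inc1 S2.F (S2.r1 (wp i x)) d))
          * (S1.Gp (x + ev c) * S2.Gp (wp i x + ev d)) := by
      unfold K2 Kw Kb om
      simp only [MP.aX_inl, MP.aY_inl, MP.aX_inr, MP.aY_inr, sub_zero, add_zero]
      rw [e0, S1.rsum_one, S2.rsum_one]
      unfold wp
      ring
    rw [e1]
    have e2 := xi_mul S1 x (fun a => v (Sum.inl a)) c
    have e3 := xi_mul S2 (wp i x) (fun a => v (Sum.inr a)) d
    calc v (Sum.inl c) * v (Sum.inr d) *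
        ((om S1 S2 C0 x (x + (ev i + ev i))
              + (inc1 S1.F (S1.r1 x) c + inc1 S2.F (S2.r1 (wp i x)) d))
          * (S1.Gp (x + ev c) * S2.Gp (wp i x + ev d)))
        = (v (Sum.inl c) * S1.Gp (x + ev c)) * (v (Sum.inr d) * S2.Gp (wp i x + ev d))
          * (om S1 S2 C0 x (x + (ev i + ev i))
              + (inc1 S1.F (S1.r1 x) c + inc1 S2.F (S2.r1 (wp i x)) d)) := by ring
      _ = _ := by rw [e2, e3]; ring
  have h3 : ∀ c d, v (Sum.inr c) * v (Sum.inr d)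
      * K2 (Kw S1 S2 C0) (ev i + ev i) x (Sum.inr c) (Sum.inr d)
      = S1.Gp x * S2.Gp (wp i x) * (xi S2 (wp i x) (fun a => v (Sum.inr a)) c
            * xi S2 (wp i x) (fun a => v (Sum.inr a)) d
            * (1 + (S2.side (wp i x)).Hp c d)
            * (om S1 S2 C0 x (x + (ev i + ev i))
              + (inc1 S2.F (S2.r1 (wp i x)) c + inc1 S2.F (S2.r1 (wp i x)) d)
              + inc2 S2.F (S2.q1 (wp i x)) c d)) := by
    intro c d
    have e0 : -(x + (ev i + ev i) - ev c - ev d) = wp i x + ev c + ev d := by unfold wp; abel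
    have e1 : K2 (Kw S1 S2 C0) (ev i + ev i) x (Sum.inr c) (Sum.inr d)
        = (om S1 S2 C0 x (x + (ev i + ev i))
              + (inc1 S2.F (S2.r1 (wp i x)) c + inc1 S2.F (S2.r1 (wp i x)) d)
              + inc2 S2.F (S2.q1 (wp i x)) c d)
          * (S1.Gp x * S2.Gp (wp i x + ev c + ev d)) := by
      unfold K2 Kw Kb om
      simp only [MP.aX_inr, MP.aY_inr, add_zero]
      rw [e0, S2.rsum_two]
      unfold wp
      ring
    rw [e1]
    have e2 := ratio_mul S2 (wp i x) (fun a => v (Sum.inr a)) c d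
    calc v (Sum.inr c) * v (Sum.inr d) *
        ((om S1 S2 C0 x (x + (ev i + ev i))
              + (inc1 S2.F (S2.r1 (wp i x)) c + inc1 S2.F (S2.r1 (wp i x)) d)
              + inc2 S2.F (S2.q1 (wp i x)) c d)
          * (S1.Gp x * S2.Gp (wp i x + ev c + ev d)))
        = (v (Sum.inr c) * v (Sum.inr d) * S2.Gp (wp i x + ev c + ev d)) * S1.Gp x
          * (om S1 S2 C0 x (x + (ev i + ev i))
              + (inc1 S2.F (S2.r1 (wp i x)) c + inc1 S2.F (S2.r1 (wp i x)) d)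
              + inc2 S2.F (S2.q1 (wp i x)) c d) := by ring
      _ = _ := by rw [e2]; ring
  simp only [h1, h2, h3]
  simp only [← Finset.mul_sum]
  ring

/-- one-node kernels -/
lemma K1_inl (S1 S2 : SD n) (i c : Fin n) (x : Lat n) (v : Node n → ℝ) :
    v (Sum.inl c) * K1 (Kb S1 S2) (ev i) x (Sum.inl c)
      = S1.Gp x * S2.Gp (wp i x + ev i) * xi S1 x (fun a => v (Sum.inl a)) c := by
  have e0 : -(x + ev i) = wp i x + ev i := by unfold wp; abel
  have e2 := xi_mul S1 x (fun a => v (Sum.inl a)) c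
  unfold K1 Kb
  simp only [MP.aX_inl, MP.aY_inl, sub_zero]
  rw [e0, ← mul_assoc, e2]
  ring

lemma K1_inr (S1 S2 : SD n) (i c : Fin n) (x : Lat n) (v : Node n → ℝ) :
    v (Sum.inr c) * K1 (Kb S1 S2) (ev i) x (Sum.inr c)
      = S1.Gp x * S2.Gp (wp i x + ev i) * (xi S2 (wp i x) (fun a => v (Sum.inr a)) c
        * (1 + (S2.side (wp i x)).Hp i c)) := by
  have e0 : -(x + ev i - ev c) = wp i x + ev i + ev c := by unfold wp; abel
  unfold K1 Kb
  simp only [MP.aX_inr, MP.aY_inr, add_zero]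
  rw [e0, ← S2.Gp_ratio]
  unfold xi
  have p0 := (S2.Gp_pos (wp i x)).ne'
  have p1 := (S2.Gp_pos (wp i x + ev i)).ne'
  have p2 := (S2.Gp_pos (wp i x + ev c)).ne'
  field_simp

lemma balance_iff (S1 S2 : SD n) (i : Fin n) (x : Lat n) (v : Node n → ℝ)
    (hb : ∑ p, v p * K1 (Kb S1 S2) (ev i) x p = 0) :
    ∑ c, xi S1 x (fun a => v (Sum.inl a)) c
      + ∑ c, xi S2 (wp i x) (fun a => v (Sum.inr a)) c
      = nb (S2.side (wp i x)).Hp (Pi.single i 1) (xi S2 (wp i x) (fun a => v (Sum.inr a))) := by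
  rw [Fintype.sum_sum_type] at hb
  simp only [K1_inl, K1_inr, ← Finset.mul_sum] at hb
  have p0 := (S1.Gp_pos x).ne'
  have p1 := (S2.Gp_pos (wp i x + ev i)).ne'
  rw [← mul_add] at hb
  have h := (mul_eq_zero.1 hb).resolve_left (mul_ne_zero p0 p1)
  rw [nb_single_left]
  have e : ∑ c, xi S2 (wp i x) (fun a => v (Sum.inr a)) c * (1 + (S2.side (wp i x)).Hp i c)
      = ∑ c, xi S2 (wp i x) (fun a => v (Sum.inr a)) c
        + ∑ c, xi S2 (wp i x) (fun a => v (Sum.inr a)) c * (S2.side (wp i x)).Hp i c := by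
    rw [← Finset.sum_add_distrib]
    refine Finset.sum_congr rfl fun c _ => ?_
    ring
  rw [e] at h
  linarith

lemma fl1_eq (S1 S2 : SD n) (i : Fin n) (x : Lat n) (v : Node n → ℝ) (a : Fin n) :
    fl1 S1 S2 i x v a = S1.Gp x * S2.Gp (wp i x + ev i)
      * (S1.side x).s (xi S1 x (fun a => v (Sum.inl a))) a := by
  unfold fl1 Side.s
  simp only [K1_inl, ← Finset.mul_sum]
  rfl

lemma fl2_eq (S1 S2 : SD n) (i : Fin n) (x : Lat n) (v : Node n → ℝ) (a : Fin n) :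
    fl2 S1 S2 i x v a = S1.Gp x * S2.Gp (wp i x + ev i)
      * ((S2.side (wp i x)).s (xi S2 (wp i x) (fun a => v (Sum.inr a))) a
        - nb (S2.side (wp i x)).Hp (Pi.single i 1)
          ((S2.side (wp i x)).rs (xi S2 (wp i x) (fun a => v (Sum.inr a))) a)) := by
  unfold fl2
  simp only [K1_inr, ← Finset.mul_sum]
  congr 1
  rw [nb_single_left, sub_neg_eq_add]
  unfold Side.rs
  rw [sum_res_mul]
  unfold Side.s
  rw [← Finset.sum_add_distrib]
  refine Finset.sum_congr rfl fun c _ => ?_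
  ring

/-- **POINTWISE INEQUALITY (block M3)** -/
theorem pointwise (S1 S2 : SD n) (hθ12 : S1.θ = S2.θ) (C0 : ℝ) (i : Fin n) (x : Lat n)
    (hω1 : 2048 * (n : ℝ) / S2.θ ^ 2 ≤ om S1 S2 C0 x (x + (ev i + ev i)))
    (hω2 : om S1 S2 C0 x (x + (ev i + ev i)) ≤ 4096 * (n : ℝ) / S2.θ ^ 2)
    (v : Node n → ℝ) (hb : ∑ p, v p * K1 (Kb S1 S2) (ev i) x p = 0) :
    ∑ a, (fl1 S1 S2 i x v a) ^ 2 / (S1.L a) ^ 2 + ∑ a, (fl2 S1 S2 i x v a) ^ 2 / (S2.L a) ^ 2
      ≤ 160 / S2.θ ^ 2 * Kb S1 S2 x x * (-QF (Kw S1 S2 C0) (ev i + ev i) x v v) := by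
  set ξ := xi S1 x (fun a => v (Sum.inl a)) with hξ
  set ζ := xi S2 (wp i x) (fun a => v (Sum.inr a)) with hζ
  set T1 := S1.side x with hT1
  set T2 := S2.side (wp i x) with hT2
  have hθ := S2.θ_pos
  have main := two_side T1 T2 hθ12 i ξ ζ (om S1 S2 C0 x (x + (ev i + ev i)))
    (S1.r1 x) (S1.q1 x) (S2.r1 (wp i x)) (S2.q1 (wp i x))
    (by rw [Fintype.card_fin]; exact hω1) (by rw [Fintype.card_fin]; exact hω2)
    (S1.hr1 x) (S1.hq1 x) (S1.hqe1 x) (S2.hr1 _) (S2.hq1 _) (S2.hqe1 _)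
    (balance_iff S1 S2 i x v hb)
  have hQ := QF_eq S1 S2 C0 i x v
  rw [← hξ, ← hζ, ← hT1, ← hT2] at hQ
  have hT1F : T1.F = S1.F := rfl
  have hT2F : T2.F = S2.F := rfl
  have hT2θ : T2.θ = S2.θ := rfl
  rw [hT1F, hT2F, hT2θ] at main
  set μ := S1.Gp x * S2.Gp (wp i x) with hμ
  have hμ0 : 0 < μ := mul_pos (S1.Gp_pos _) (S2.Gp_pos _)
  -- energy bound
  have hE : S2.θ / 8 * (T1.D ξ + T2.D ζ) * μ ≤ -QF (Kw S1 S2 C0) (ev i + ev i) x v v := by
    rw [hQ]
    have := mul_le_mul_of_nonneg_right main hμ0.le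
    refine this.trans (le_of_eq ?_)
    ring
  -- flux bound
  set N := S1.Gp x * S2.Gp (wp i x + ev i) with hN
  have hf1 : ∑ a, (fl1 S1 S2 i x v a) ^ 2 / (S1.L a) ^ 2 = N ^ 2 * T1.D ξ := by
    unfold Side.D
    rw [Finset.mul_sum]
    refine Finset.sum_congr rfl fun a _ => ?_
    rw [fl1_eq]
    have : T1.L a = S1.L a := rfl
    rw [this]
    ring
  have hf2 : ∑ a, (fl2 S1 S2 i x v a) ^ 2 / (S2.L a) ^ 2
      = N ^ 2 * ∑ a, (T2.s ζ a - nb T2.Hp (Pi.single i 1) (T2.rs ζ a)) ^ 2 / (T2.L a) ^ 2 := by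
    rw [Finset.mul_sum]
    refine Finset.sum_congr rfl fun a _ => ?_
    rw [fl2_eq]
    have : T2.L a = S2.L a := rfl
    rw [this]
    ring
  rw [hf1, hf2]
  have hfl := T2.flux2 i ζ
  have hD1 := T1.D_nonneg ξ
  have hD2 := T2.D_nonneg ζ
  -- N^2 ≤ (2/θ) π μ
  have hN2 : N ^ 2 ≤ 2 / S2.θ * Kb S1 S2 x x * μ := by
    have h1 := S2.one_add_Hp_ge (wp i x) i
    rw [← S2.Gp_ratio] at h1
    have p1 := S2.Gp_pos (wp i x + ev i)
    rw [le_div_iff₀ (by positivity)] at h1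
    have e0 : wp i x + ev i + ev i = -x := by unfold wp; abel
    rw [e0] at h1
    have e1 : Kb S1 S2 x x = S1.Gp x * S2.Gp (-x) := rfl
    rw [e1, hN, hμ]
    have h2 : S2.Gp (wp i x + ev i) ^ 2 ≤ 2 / S2.θ * (S2.Gp (-x) * S2.Gp (wp i x)) := by
      have : S2.Gp (wp i x + ev i) ^ 2
          = 2 / S2.θ * (S2.θ / 2 * (S2.Gp (wp i x + ev i) * S2.Gp (wp i x + ev i))) := by
        field_simp
      rw [this]
      exact mul_le_mul_of_nonneg_left h1 (by positivity)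
    have h3 := mul_le_mul_of_nonneg_left h2 (sq_nonneg (S1.Gp x))
    nlinarith
  have hpi : 0 < Kb S1 S2 x x := mul_pos (S1.Gp_pos _) (S2.Gp_pos _)
  have h1 : N ^ 2 * T1.D ξ + N ^ 2 * ∑ a, (T2.s ζ a - nb T2.Hp (Pi.single i 1) (T2.rs ζ a)) ^ 2
      / (T2.L a) ^ 2 ≤ N ^ 2 * (10 * (T1.D ξ + T2.D ζ)) := by
    have := mul_le_mul_of_nonneg_left hfl (sq_nonneg N)
    have h2 := mul_nonneg (sq_nonneg N) hD1
    nlinarith
  refine h1.trans ?_
  have h2 : N ^ 2 * (10 * (T1.D ξ + T2.D ζ))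
      ≤ (2 / S2.θ * Kb S1 S2 x x * μ) * (10 * (T1.D ξ + T2.D ζ)) :=
    mul_le_mul_of_nonneg_right hN2 (by positivity)
  refine h2.trans ?_
  have h3 : 160 / S2.θ ^ 2 * Kb S1 S2 x x * (S2.θ / 8 * (T1.D ξ + T2.D ζ) * μ)
      ≤ 160 / S2.θ ^ 2 * Kb S1 S2 x x * (-QF (Kw S1 S2 C0) (ev i + ev i) x v v) :=
    mul_le_mul_of_nonneg_left hE (by positivity)
  refine le_trans (le_of_eq ?_) h3
  field_simp
  ring

end Crest.Agent.R302.MP3
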