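import Crest.Agent.R302.MP3e928

/-!
# R302, M3: explicit weights and confining potentials (helper928)

`nu0 M k / (2 M^2)` = discretisation of helper142's profile `f(k/M)`;
`psi0 M k / (2 M^2)`  = quadratic confinement, `0` for `|k| ≤ M`.
`SD0.toSD` fills the fields `g`, `ρ` of `SD`.
-/

set_option linter.unusedSectionVars false
set_option linter.unusedVariables false
set_option autoImplicit false

namespace Crest.Agent.R302.MP3

open Finset
open Crest.Agent.R302.MP (Lat Node ev aX aY K1 K2 QF)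

/-- numerator of the weight profile as a function of `|k|` -/
def nz (M u : ℤ) : ℤ :=
  if u ≤ M then 3 * M ^ 2 - u ^ 2 else if u ≤ 2 * M then M ^ 2 + (2 * M - u) ^ 2 else M ^ 2

/-- numerator of the confining potential as a function of `|k|` -/
def pz (M u : ℤ) : ℤ := if u ≤ M then 0 else (u - M) * (u - M + 1)

lemma nz_first {M u : ℤ} (hM : 1 ≤ M) (hu : 0 ≤ u) :
    -(2 * M) ≤ nz M (u + 1) - nz M u ∧ nz M (u + 1) - nz M u ≤ 0 := by
  unfold nz
  by_cases h1 : u + 1 ≤ M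
  · rw [if_pos h1, if_pos (by omega : u ≤ M)]
    constructor <;> nlinarith
  · by_cases h2 : u ≤ M
    · have : u = M := by omega
      subst this
      rw [if_neg h1, if_pos (by omega : u + 1 ≤ 2 * u), if_pos le_rfl]
      constructor <;> nlinarith
    · by_cases h3 : u + 1 ≤ 2 * M
      · rw [if_neg h1, if_pos h3, if_neg h2, if_pos (by omega : u ≤ 2 * M)]
        constructor <;> nlinarith
      · by_cases h4 : u ≤ 2 * M
        · have : u = 2 * M := by omega
          subst this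
          rw [if_neg h1, if_neg h3, if_neg h2, if_pos le_rfl]
          constructor <;> nlinarith
        · rw [if_neg h1, if_neg h3, if_neg h2, if_neg h4]
          constructor <;> nlinarith

lemma nz_second_in {M u : ℤ} (hM : 1 ≤ M) (hu : 1 ≤ u) (h : u + 1 ≤ M) :
    nz M (u + 1) - 2 * nz M u + nz M (u - 1) = -2 := by
  unfold nz
  rw [if_pos h, if_pos (by omega : u ≤ M), if_pos (by omega : u - 1 ≤ M)]
  ring

lemma nz_second {M u : ℤ} (hM : 1 ≤ M) (hu : 1 ≤ u) :
    -2 ≤ nz M (u + 1) - 2 * nz M u + nz M (u - 1) ∧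
      nz M (u + 1) - 2 * nz M u + nz M (u - 1) ≤ 2 := by
  by_cases h1 : u + 1 ≤ M
  · rw [nz_second_in hM hu h1]; constructor <;> norm_num
  · unfold nz
    by_cases h2 : u ≤ M
    · have : u = M := by omega
      subst this
      rw [if_neg h1, if_pos (by omega : u + 1 ≤ 2 * u), if_pos le_rfl,
        if_pos (by omega : u - 1 ≤ u)]
      constructor <;> nlinarith
    · by_cases h3 : u + 1 ≤ 2 * M
      · rw [if_neg h1, if_pos h3, if_neg h2, if_pos (by omega : u ≤ 2 * M)]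
        by_cases h5 : u - 1 ≤ M
        · have : u = M + 1 := by omega
          subst this
          rw [if_pos h5]
          constructor <;> nlinarith
        · rw [if_neg h5, if_pos (by omega : u - 1 ≤ 2 * M)]
          constructor <;> nlinarith
      · by_cases h4 : u ≤ 2 * M
        · have : u = 2 * M := by omega
          subst this
          rw [if_neg h1, if_neg h3, if_neg h2, if_pos le_rfl]
          by_cases h5 : 2 * M - 1 ≤ M
          · have : M = 1 := by omega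
            subst this
            norm_num
          · rw [if_neg h5, if_pos (by omega : 2 * M - 1 ≤ 2 * M)]
            constructor <;> nlinarith
        · rw [if_neg h1, if_neg h3, if_neg h2, if_neg h4]
          by_cases h5 : u - 1 ≤ M
          · omega
          · rw [if_neg h5]
            by_cases h6 : u - 1 ≤ 2 * M
            · have : u = 2 * M + 1 := by omega
              subst this
              rw [if_pos h6]
              constructor <;> nlinarith
            · rw [if_neg h6]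
              constructor <;> nlinarith

lemma pz_second_in {M u : ℤ} (hM : 1 ≤ M) (hu : 1 ≤ u) (h : u + 1 ≤ M) :
    pz M (u + 1) - 2 * pz M u + pz M (u - 1) = 0 := by
  unfold pz
  rw [if_pos h, if_pos (by omega : u ≤ M), if_pos (by omega : u - 1 ≤ M)]
  ring

lemma pz_second_out {M u : ℤ} (hM : 1 ≤ M) (hu : 1 ≤ u) (h : ¬ u + 1 ≤ M) :
    pz M (u + 1) - 2 * pz M u + pz M (u - 1) = 2 := by
  unfold pz
  by_cases h2 : u ≤ M
  · have : u = M := by omega
    subst this
    rw [if_neg h, if_pos le_rfl, if_pos (by omega : u - 1 ≤ u)]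
    ring
  · by_cases h3 : u - 1 ≤ M
    · have : u = M + 1 := by omega
      subst this
      rw [if_neg h, if_neg h2, if_pos h3]
      ring
    · rw [if_neg h, if_neg h2, if_neg h3]
      ring

/-- second differences of a function of `|k|` -/
lemma second_abs {f : ℤ → ℤ} {M : ℤ} (P : ℤ → Prop)
    (h0 : P (f 1 - 2 * f 0 + f 1))
    (h1 : ∀ u, 1 ≤ u → P (f (u + 1) - 2 * f u + f (u - 1))) (k : ℤ) :
    P (f |k + 2| - 2 * f |k + 1| + f |k|) := by
  rcases lt_trichotomy (k + 1) 0 with h | h | h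
  · have e1 : |k + 1| = -(k + 1) := abs_of_neg h
    have e2 : |k| = -(k + 1) + 1 := by rw [abs_of_neg (by omega)]; ring
    have e3 : |k + 2| = -(k + 1) - 1 := by rw [abs_of_nonpos (by omega)]; ring
    rw [e1, e2, e3]
    have := h1 (-(k + 1)) (by omega)
    have e : f (-(k + 1) - 1) - 2 * f (-(k + 1)) + f (-(k + 1) + 1)
        = f (-(k + 1) + 1) - 2 * f (-(k + 1)) + f (-(k + 1) - 1) := by ring
    rw [e]; exact this
  · have e0 : k = -1 := by omega
    subst e0
    simpa using h0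
  · have e1 : |k + 1| = k + 1 := abs_of_pos h
    have e2 : |k| = k + 1 - 1 := by rw [abs_of_nonneg (by omega)]; ring
    have e3 : |k + 2| = k + 1 + 1 := by rw [abs_of_pos (by omega)]; ring
    rw [e1, e2, e3]
    exact h1 (k + 1) (by omega)

/-- the weight profile -/
noncomputable def rw0 (M : ℤ) (k : ℤ) : ℝ := (nz M |k| : ℝ) / (2 * (M : ℝ) ^ 2)

/-- the confining potential -/
noncomputable def gw0 (M : ℤ) (k : ℤ) : ℝ := Real.exp (-((pz M |k| : ℝ) / (2 * (M : ℝ) ^ 2)))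

lemma gw0_pos (M k : ℤ) : 0 < gw0 M k := Real.exp_pos _

lemma pz_nonneg (M u : ℤ) : 0 ≤ pz M u := by
  unfold pz
  split_ifs with h
  · exact le_rfl
  · apply mul_nonneg <;> omega

lemma gw0_le_one (M k : ℤ) : gw0 M k ≤ 1 := by
  unfold gw0
  apply Real.exp_le_one_iff.2
  have : (0 : ℝ) ≤ (pz M |k| : ℝ) := by exact_mod_cast pz_nonneg M |k|
  have : 0 ≤ (pz M |k| : ℝ) / (2 * (M : ℝ) ^ 2) := by positivity
  linarith

/-- no confinement in the window -/
lemma gw0_eq_one {M k : ℤ} (h : |k| ≤ M) : gw0 M k = 1 := by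
  unfold gw0 pz
  rw [if_pos h]; simp

lemma gw0_ratio (M k : ℤ) : gw0 M k * gw0 M (k + 2) / gw0 M (k + 1) ^ 2
    = Real.exp (-(((pz M |k + 2| - 2 * pz M |k + 1| + pz M |k| : ℤ) : ℝ) / (2 * (M : ℝ) ^ 2))) := by
  unfold gw0
  rw [← Real.exp_add, ← Real.exp_nat_mul, ← Real.exp_sub]
  congr 1
  push_cast
  ring

lemma eps0_cases {M : ℤ} (hM : 1 ≤ M) (k : ℤ) :
    (|k + 1| + 1 ≤ M ∧ gw0 M k * gw0 M (k + 2) / gw0 M (k + 1) ^ 2 = 1) ∨
    (¬ |k + 1| + 1 ≤ M ∧ gw0 M k * gw0 M (k + 2) / gw0 M (k + 1) ^ 2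
      = Real.exp (-(1 / (M : ℝ) ^ 2))) := by
  have hM0 : (M : ℝ) ≠ 0 := by
    have : (1 : ℝ) ≤ M := by exact_mod_cast hM
    linarith
  by_cases h : |k + 1| + 1 ≤ M
  · left
    refine ⟨h, ?_⟩
    rw [gw0_ratio]
    have : pz M |k + 2| - 2 * pz M |k + 1| + pz M |k| = 0 := by
      have e1 : |k + 2| ≤ M := by
        have := abs_add_le (k + 1) 1
        simp only [abs_one] at this
        have e : k + 1 + 1 = k + 2 := by ring
        rw [e] at this
        omega
      have e2 : |k| ≤ M := by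
        have := abs_add_le (k + 1) (-1)
        simp only [abs_neg, abs_one] at this
        have e : k + 1 + -1 = k := by ring
        rw [e] at this
        omega
      unfold pz
      rw [if_pos e1, if_pos e2, if_pos (by omega : |k + 1| ≤ M)]
      ring
    rw [this]; simp
  · right
    refine ⟨h, ?_⟩
    rw [gw0_ratio]
    have : pz M |k + 2| - 2 * pz M |k + 1| + pz M |k| = 2 := by
      rcases lt_trichotomy (k + 1) 0 with h' | h' | h'
      · have e1 : |k + 1| = -(k + 1) := abs_of_neg h'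
        have e2 : |k| = -(k + 1) + 1 := by rw [abs_of_neg (by omega)]; ring
        have e3 : |k + 2| = -(k + 1) - 1 := by rw [abs_of_nonpos (by omega)]; ring
        rw [e1] at h
        rw [e1, e2, e3]
        have := pz_second_out hM (by omega : 1 ≤ -(k + 1)) h
        linarith
      · have e0 : k = -1 := by omega
        subst e0
        have hM1 : M = 1 ∨ M < 1 := by
          simp at h; omega
        rcases hM1 with rfl | h3
        · simp at h
        · omega
      · have e1 : |k + 1| = k + 1 := abs_of_pos h'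
        have e2 : |k| = k + 1 - 1 := by rw [abs_of_nonneg (by omega)]; ring
        have e3 : |k + 2| = k + 1 + 1 := by rw [abs_of_pos (by omega)]; ring
        rw [e1] at h
        rw [e1, e2, e3]
        have := pz_second_out hM (by omega : 1 ≤ k + 1) h
        linarith
    rw [this]
    congr 2
    push_cast
    field_simp

lemma eps0_nonneg {M : ℤ} (hM : 1 ≤ M) (k : ℤ) :
    0 ≤ 1 - gw0 M k * gw0 M (k + 2) / gw0 M (k + 1) ^ 2 := by
  rcases eps0_cases hM k with ⟨_, h⟩ | ⟨_, h⟩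
  · rw [h]; norm_num
  · rw [h]
    have : Real.exp (-(1 / (M : ℝ) ^ 2)) ≤ 1 := by
      apply Real.exp_le_one_iff.2
      have : 0 ≤ 1 / (M : ℝ) ^ 2 := by positivity
      linarith
    linarith

lemma eps0_le {M : ℤ} (hM : 1 ≤ M) (k : ℤ) :
    1 - gw0 M k * gw0 M (k + 2) / gw0 M (k + 1) ^ 2 ≤ 1 / (M : ℝ) ^ 2 := by
  rcases eps0_cases hM k with ⟨_, h⟩ | ⟨_, h⟩
  · rw [h]
    have : 0 ≤ 1 / (M : ℝ) ^ 2 := by positivity
    linarith
  · rw [h]
    have := Real.add_one_le_exp (-(1 / (M : ℝ) ^ 2))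
    linarith

lemma eps0_ge {M : ℤ} (hM : 1 ≤ M) (k : ℤ) (hk : ¬ |k + 1| + 1 ≤ M) :
    1 / (4 * (M : ℝ) ^ 2) ≤ 1 - gw0 M k * gw0 M (k + 2) / gw0 M (k + 1) ^ 2 := by
  rcases eps0_cases hM k with ⟨h', _⟩ | ⟨_, h⟩
  · exact absurd h' hk
  · rw [h]
    have hM1 : (1 : ℝ) ≤ M := by exact_mod_cast hM
    set τ := 1 / (M : ℝ) ^ 2 with hτ
    have hτ0 : 0 < τ := by positivity
    have hτ1 : τ ≤ 1 := by
      rw [hτ, div_le_one (by positivity)]
      nlinarith
    have e : 1 / (4 * (M : ℝ) ^ 2) = τ / 4 := by rw [hτ]; ring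
    rw [e]
    -- exp(-τ) ≤ 1/(1+τ) ≤ 1 - τ/2
    have h1 : Real.exp (-τ) ≤ 1 - τ / 2 := by
      rw [Real.exp_neg]
      have h2 : 1 + τ ≤ Real.exp τ := by
        have := Real.add_one_le_exp τ; linarith
      have h3 : (Real.exp τ)⁻¹ ≤ (1 + τ)⁻¹ := inv_anti₀ (by linarith) h2
      refine h3.trans ?_
      rw [inv_le_iff_one_le_mul₀ (by linarith)]
      nlinarith
    linarith

lemma rw0_first {M : ℤ} (hM : 1 ≤ M) (k : ℤ) : |rw0 M (k + 1) - rw0 M k| ≤ 1 / (M : ℝ) := by
  have hM1 : (1 : ℝ) ≤ M := by exact_mod_cast hM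
  have key : abs (nz M |k + 1| - nz M |k|) ≤ 2 * M := by
    rcases le_or_gt 0 k with h | h
    · rw [abs_of_nonneg h, abs_of_nonneg (by omega : 0 ≤ k + 1)]
      have := nz_first hM h
      rw [abs_le]; constructor <;> linarith [this.1, this.2]
    · have e1 : |k + 1| = -(k + 1) := abs_of_nonpos (by omega)
      have e2 : |k| = -(k + 1) + 1 := by rw [abs_of_neg h]; ring
      rw [e1, e2]
      have := nz_first hM (by omega : 0 ≤ -(k + 1))
      rw [abs_le]; constructor <;> linarith [this.1, this.2]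
  unfold rw0
  rw [← sub_div, abs_div, abs_of_pos (by positivity : (0 : ℝ) < 2 * (M : ℝ) ^ 2),
    div_le_div_iff₀ (by positivity) (by positivity)]
  have h2 : abs (((nz M |k + 1| : ℤ) : ℝ) - ((nz M |k| : ℤ) : ℝ)) ≤ 2 * (M : ℝ) := by
    have h3 : ((abs (nz M |k + 1| - nz M |k|) : ℤ) : ℝ) ≤ ((2 * M : ℤ) : ℝ) := by exact_mod_cast key
    push_cast at h3
    exact h3
  nlinarith

lemma rw0_second_eq (M k : ℤ) : rw0 M (k + 2) - 2 * rw0 M (k + 1) + rw0 M k
    = ((nz M |k + 2| - 2 * nz M |k + 1| + nz M |k| : ℤ) : ℝ) / (2 * (M : ℝ) ^ 2) := by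
  unfold rw0
  push_cast
  ring

lemma nz_zero {M : ℤ} (hM : 1 ≤ M) : nz M 1 - 2 * nz M 0 + nz M 1 = -2 := by
  unfold nz
  rw [if_pos hM, if_pos (by omega : (0 : ℤ) ≤ M)]
  ring

lemma rw0_second {M : ℤ} (hM : 1 ≤ M) (k : ℤ) :
    |rw0 M (k + 2) - 2 * rw0 M (k + 1) + rw0 M k| ≤ 1 / (M : ℝ) ^ 2 := by
  have hM1 : (1 : ℝ) ≤ M := by exact_mod_cast hM
  have key : abs (nz M |k + 2| - 2 * nz M |k + 1| + nz M |k|) ≤ 2 := by
    refine second_abs (f := nz M) (M := M) (fun z => |z| ≤ 2) ?_ ?_ k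
    · show |nz M 1 - 2 * nz M 0 + nz M 1| ≤ 2
      rw [nz_zero hM]; norm_num
    · intro u hu
      have := nz_second hM hu
      show |nz M (u + 1) - 2 * nz M u + nz M (u - 1)| ≤ 2
      rw [abs_le]; exact ⟨this.1, this.2⟩
  rw [rw0_second_eq, abs_div, abs_of_pos (by positivity : (0 : ℝ) < 2 * (M : ℝ) ^ 2),
    div_le_div_iff₀ (by positivity) (by positivity)]
  have h3 : abs ((nz M |k + 2| - 2 * nz M |k + 1| + nz M |k| : ℤ) : ℝ) ≤ 2 := by
    have : ((abs (nz M |k + 2| - 2 * nz M |k + 1| + nz M |k|) : ℤ) : ℝ) ≤ ((2 : ℤ) : ℝ) := by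
      exact_mod_cast key
    push_cast at this ⊢
    exact this
  nlinarith [sq_nonneg (M : ℝ)]

lemma rw0_second_in {M : ℤ} (hM : 1 ≤ M) (k : ℤ) (hk : |k + 1| + 1 ≤ M) :
    rw0 M (k + 2) - 2 * rw0 M (k + 1) + rw0 M k = -(1 / (M : ℝ) ^ 2) := by
  have hM1 : (1 : ℝ) ≤ M := by exact_mod_cast hM
  rw [rw0_second_eq]
  have : nz M |k + 2| - 2 * nz M |k + 1| + nz M |k| = -2 := by
    rcases lt_trichotomy (k + 1) 0 with h' | h' | h'
    · have e1 : |k + 1| = -(k + 1) := abs_of_neg h'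
      have e2 : |k| = -(k + 1) + 1 := by rw [abs_of_neg (by omega)]; ring
      have e3 : |k + 2| = -(k + 1) - 1 := by rw [abs_of_nonpos (by omega)]; ring
      rw [e1] at hk
      rw [e1, e2, e3]
      have := nz_second_in hM (by omega : 1 ≤ -(k + 1)) hk
      linarith
    · have e0 : k = -1 := by omega
      subst e0
      simpa using nz_zero hM
    · have e1 : |k + 1| = k + 1 := abs_of_pos h'
      have e2 : |k| = k + 1 - 1 := by rw [abs_of_nonneg (by omega)]; ring
      have e3 : |k + 2| = k + 1 + 1 := by rw [abs_of_pos (by omega)]; ring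
      rw [e1] at hk
      rw [e1, e2, e3]
      exact nz_second_in hM (by omega : 1 ≤ k + 1) hk
  rw [this]
  push_cast
  field_simp

lemma rw0_bounds {M : ℤ} (hM : 1 ≤ M) (k : ℤ) : 1 / 2 ≤ rw0 M k ∧ rw0 M k ≤ 3 / 2 := by
  have hM1 : (1 : ℝ) ≤ M := by exact_mod_cast hM
  have key : M ^ 2 ≤ nz M |k| ∧ nz M |k| ≤ 3 * M ^ 2 := by
    have hk : 0 ≤ |k| := abs_nonneg k
    generalize |k| = u at hk
    unfold nz
    split_ifs with h1 h2
    · constructor <;> nlinarith
    · constructor <;> nlinarith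
    · constructor <;> nlinarith
  have k1 : (M : ℝ) ^ 2 ≤ (nz M |k| : ℝ) := by exact_mod_cast key.1
  have k2 : (nz M |k| : ℝ) ≤ 3 * (M : ℝ) ^ 2 := by exact_mod_cast key.2
  unfold rw0
  constructor
  · rw [le_div_iff₀ (by positivity)]; linarith
  · rw [div_le_iff₀ (by positivity)]; linarith

/-- Data of one side without the potentials; windows are integers. -/
structure SD0 (n : ℕ) where
  F : Forest (Fin n)
  G : Lat n → ℝ
  G_pos : ∀ x, 0 < G x
  /-- (H1) -/
  nsd : ∀ (x : Lat n) (ξ : Fin n → ℝ),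
    ∑ a, ∑ b, ξ a * ξ b * (G (x + ev a + ev b) * G x / (G (x + ev a) * G (x + ev b)) - 1) ≤ 0
  θ : ℝ
  θ_pos : 0 < θ
  θ_le : θ ≤ 1
  /-- (H2) -/
  diag : ∀ (x : Lat n) (a : Fin n), θ * G (x + ev a) ^ 2 ≤ G (x + ev a + ev a) * G x
  t : Fin n → ℝ
  t_pos : ∀ a, 0 < t a
  /-- (H3) -/
  edge : ∀ a b, F.par a = some b → ∀ x : Lat n,
    Real.exp (-(1 / (t a) ^ 2)) * G x ^ 2 ≤ G (x + ev a - ev b) * G (x - ev a + ev b)
  M : Fin n → ℤ
  M_ge : ∀ a, 1 ≤ M a
  k0 : ℝ
  k0_ge : 1 ≤ k0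
  L_le : ∀ a b, F.par a = some b → (M a : ℝ) ≤ k0 * t a
  L_ge : ∀ a, 4096 * (n : ℝ) ^ 2 * k0 / θ ^ 2 ≤ (M a : ℝ)
  /-- the centres of the windows -/
  c : Fin n → ℤ

variable {n : ℕ}

/-- fill in the potentials and weights -/
noncomputable def SD0.toSD (S : SD0 n) : SD n where
  F := S.F
  G := S.G
  G_pos := S.G_pos
  nsd := S.nsd
  θ := S.θ
  θ_pos := S.θ_pos
  θ_le := S.θ_le
  diag := S.diag
  t := S.t
  t_pos := S.t_pos
  edge := S.edge
  L := fun a => (S.M a : ℝ)
  k0 := S.k0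
  k0_ge := S.k0_ge
  L_le := S.L_le
  L_ge := S.L_ge
  g := fun a y => gw0 (S.M a) (y - S.c a)
  g_pos := fun a y => gw0_pos _ _
  ε_nonneg := by
    intro a y
    have := eps0_nonneg (S.M_ge a) (y - S.c a)
    have e1 : y + 2 - S.c a = y - S.c a + 2 := by ring
    have e2 : y + 1 - S.c a = y - S.c a + 1 := by ring
    rw [e1, e2]; exact this
  ε_le := by
    intro a y
    have := eps0_le (S.M_ge a) (y - S.c a)
    have e1 : y + 2 - S.c a = y - S.c a + 2 := by ring
    have e2 : y + 1 - S.c a = y - S.c a + 1 := by ring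
    rw [e1, e2]; exact this
  ρ := fun a y => rw0 (S.M a) (y - S.c a)
  ρ1 := by
    intro a y
    have := rw0_first (S.M_ge a) (y - S.c a)
    have e2 : y + 1 - S.c a = y - S.c a + 1 := by ring
    rw [e2]
    refine this.trans ?_
    have hM1 : (1 : ℝ) ≤ S.M a := by exact_mod_cast S.M_ge a
    apply div_le_div_of_nonneg_right (by norm_num) (by positivity)
  ρ2 := by
    intro a y
    have := rw0_second (S.M_ge a) (y - S.c a)
    have e1 : y + 2 - S.c a = y - S.c a + 2 := by ring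
    have e2 : y + 1 - S.c a = y - S.c a + 1 := by ring
    rw [e1, e2]; exact this
  ρε := by
    intro a y
    have e1 : y + 2 - S.c a = y - S.c a + 2 := by ring
    have e2 : y + 1 - S.c a = y - S.c a + 1 := by ring
    rw [e1, e2]
    have hM1 : (1 : ℝ) ≤ S.M a := by exact_mod_cast S.M_ge a
    by_cases h : |y - S.c a + 1| + 1 ≤ S.M a
    · left
      rw [rw0_second_in (S.M_ge a) _ h]
      apply neg_le_neg
      apply one_div_le_one_div_of_le (by positivity)
      nlinarith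
    · right
      exact eps0_ge (S.M_ge a) _ h

/-- the constant `C0` -/
noncomputable def SD0.C0 (S : SD0 n) : ℝ := 2048 * (n : ℝ) / S.θ ^ 2

lemma SD0.rsum_bounds (S : SD0 n) (x : Lat n) :
    (n : ℝ) / 2 ≤ S.toSD.rsum x ∧ S.toSD.rsum x ≤ 3 * (n : ℝ) / 2 := by
  unfold SD.rsum
  constructor
  · have : ∑ _a : Fin n, (1 : ℝ) / 2 ≤ ∑ a, S.toSD.ρ a (mass S.toSD.F x a) :=
      Finset.sum_le_sum fun a _ => (rw0_bounds (S.M_ge a) _).1
    rw [Finset.sum_const, Finset.card_univ, Fintype.card_fin, nsmul_eq_mul] at this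
    linarith
  · have : ∑ a, S.toSD.ρ a (mass S.toSD.F x a) ≤ ∑ _a : Fin n, (3 : ℝ) / 2 :=
      Finset.sum_le_sum fun a _ => (rw0_bounds (S.M_ge a) _).2
    rw [Finset.sum_const, Finset.card_univ, Fintype.card_fin, nsmul_eq_mul] at this
    linarith

/-- bounds for the weight, everywhere -/
theorem om_bounds (S1 S2 : SD0 n) (i : Fin n) (a b : Lat n) :
    2048 * (n : ℝ) / S2.θ ^ 2 ≤ om S1.toSD S2.toSD S2.C0 a b ∧
      om S1.toSD S2.toSD S2.C0 a b ≤ 4096 * (n : ℝ) / S2.θ ^ 2 := by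
  have hn : (1 : ℝ) ≤ n := by
    have : 0 < n := lt_of_le_of_lt (Nat.zero_le _) i.2
    exact_mod_cast this
  have h1 := S1.rsum_bounds a
  have h2 := S2.rsum_bounds (-b)
  have hθ := S2.θ_pos
  have hθ1 := S2.θ_le
  unfold om SD0.C0
  constructor
  · linarith [h1.1, h2.1]
  · have h3 : 3 * (n : ℝ) ≤ 2048 * (n : ℝ) / S2.θ ^ 2 := by
      rw [le_div_iff₀ (by positivity)]
      have : S2.θ ^ 2 ≤ 1 := by nlinarith
      nlinarith
    have h4 : 4096 * (n : ℝ) / S2.θ ^ 2 = 2048 * (n : ℝ) / S2.θ ^ 2 + 2048 * (n : ℝ) / S2.θ ^ 2 := by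
      ring
    linarith [h1.2, h2.2]

/-- **POINTWISE INEQUALITY, explicit form** -/
theorem pointwise0 (S1 S2 : SD0 n) (hθ12 : S1.θ = S2.θ) (i : Fin n) (x : Lat n)
    (v : Node n → ℝ) (hb : ∑ p, v p * K1 (Kb S1.toSD S2.toSD) (ev i) x p = 0) :
    ∑ a, (fl1 S1.toSD S2.toSD i x v a) ^ 2 / (S1.M a : ℝ) ^ 2
      + ∑ a, (fl2 S1.toSD S2.toSD i x v a) ^ 2 / (S2.M a : ℝ) ^ 2
      ≤ 160 / S2.θ ^ 2 * Kb S1.toSD S2.toSD x x
        * (-QF (Kw S1.toSD S2.toSD S2.C0) (ev i + ev i) x v v) :=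
  pointwise S1.toSD S2.toSD hθ12 S2.C0 i x (om_bounds S1 S2 i _ _).1 (om_bounds S1 S2 i _ _).2 v hb

end Crest.Agent.R302.MP3
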