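import Crest.Agent.R302.MP3

/-!
R302, multi-scale Poincare inequality MSP', part 4 (helper142): the martingale over the
coordinates, and the final inequality for an abstract family of stages.
-/

set_option autoImplicit false

namespace Crest.Agent.R302.MP

open Finset

variable {n : ℕ}

/-- unnormalised variance on a finite set -/
noncomputable def Vr (w f : Lat n → ℝ) (B : Finset (Lat n)) : ℝ :=
  ∑ x ∈ B, w x * f x ^ 2 - (∑ x ∈ B, w x * f x) ^ 2 / ∑ x ∈ B, w x

lemma slice_disj (lo hi : Lat n) (i : Fin n) (m : ℕ) :
    Set.PairwiseDisjoint (↑(range m) : Set ℕ) (fun a : ℕ => slice lo hi i (lo i + a)) := by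
  intro a _ b _ hab
  rw [Function.onFun, Finset.disjoint_left]
  intro x hx hx'
  rw [mem_slice] at hx hx'
  apply hab
  have := hx.1
  have := hx'.1
  omega

lemma box_eq_slices (lo hi : Lat n) (i : Fin n) (hi' : lo i ≤ hi i) :
    box lo hi = (range ((hi i - lo i).toNat + 1)).biUnion
      (fun a : ℕ => slice lo hi i (lo i + a)) := by
  ext x
  rw [Finset.mem_biUnion, mem_box]
  constructor
  · intro h
    refine ⟨(x i - lo i).toNat, ?_, ?_⟩
    · rw [Finset.mem_range]
      have := h i
      omega
    · rw [mem_slice]
      refine ⟨?_, fun k _ => h k⟩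
      have := h i
      omega
  · rintro ⟨a, ha, hx⟩ k
    rw [mem_slice] at hx
    rw [Finset.mem_range] at ha
    by_cases hk : k = i
    · subst hk
      have := hx.1
      omega
    · exact hx.2 k hk

lemma sum_box_slices (lo hi : Lat n) (i : Fin n) (hi' : lo i ≤ hi i) (g : Lat n → ℝ) :
    ∑ x ∈ box lo hi, g x = ∑ a ∈ range ((hi i - lo i).toNat + 1),
      ∑ x ∈ slice lo hi i (lo i + a), g x := by
  rw [box_eq_slices lo hi i hi', Finset.sum_biUnion (slice_disj lo hi i _)]

/-- variance decomposition along one coordinate -/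
lemma var_split (S : Stage n) {lo hi : Lat n} (i : Fin n) (hbox : ∀ k, lo k ≤ hi k)
    (f : Lat n → ℝ) :
    Vr (fun x => S.K0 x x) f (box lo hi)
      = ∑ a ∈ range ((hi i - lo i).toNat + 1),
          Vr (fun x => S.K0 x x) f (slice lo hi i (lo i + a))
        + OneD.V (zz S lo hi i) (FF S lo hi i f) (hi i - lo i).toNat := by
  set m := (hi i - lo i).toNat with hm
  have zp : ∀ a, 0 < zz S lo hi i a := fun a => zz_pos hbox a
  have hpos : ∀ a ≤ m, 0 < zz S lo hi i a := fun a _ => zp a
  have hs := OneD.sum_pos' (z := zz S lo hi i) (m := m) hpos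
  have hF : ∀ a : ℕ, ∑ x ∈ slice lo hi i (lo i + a), S.K0 x x * f x
      = zz S lo hi i a * FF S lo hi i f a := by
    intro a
    have h := zp a
    rw [FF, mul_div_cancel₀ _ h.ne']
  have hV : OneD.V (zz S lo hi i) (FF S lo hi i f) m
      = ∑ a ∈ range (m + 1), zz S lo hi i a * FF S lo hi i f a ^ 2
        - (∑ a ∈ range (m + 1), zz S lo hi i a * FF S lo hi i f a) ^ 2
          / ∑ a ∈ range (m + 1), zz S lo hi i a := by
    unfold OneD.V
    set M := OneD.mu (zz S lo hi i) (FF S lo hi i f) m with hM
    have hMeq : M * ∑ a ∈ range (m + 1), zz S lo hi i a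
        = ∑ a ∈ range (m + 1), zz S lo hi i a * FF S lo hi i f a := by
      rw [hM, OneD.mu, div_mul_cancel₀ _ hs.ne']
    have e : ∑ a ∈ range (m + 1), zz S lo hi i a * (FF S lo hi i f a - M) ^ 2
        = ∑ a ∈ range (m + 1), zz S lo hi i a * FF S lo hi i f a ^ 2
          - 2 * M * ∑ a ∈ range (m + 1), zz S lo hi i a * FF S lo hi i f a
          + M ^ 2 * ∑ a ∈ range (m + 1), zz S lo hi i a := by
      rw [Finset.mul_sum, Finset.mul_sum, ← Finset.sum_sub_distrib, ← Finset.sum_add_distrib]
      refine Finset.sum_congr rfl fun a _ => ?_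
      ring
    rw [e, ← hMeq]
    field_simp
    ring
  rw [hV]
  unfold Vr
  rw [sum_box_slices lo hi i (hbox i), sum_box_slices lo hi i (hbox i),
    sum_box_slices lo hi i (hbox i), ← hm]
  have e2 : ∑ a ∈ range (m + 1), ∑ x ∈ slice lo hi i (lo i + a), S.K0 x x
      = ∑ a ∈ range (m + 1), zz S lo hi i a := rfl
  rw [e2]
  simp only [hF]
  rw [Finset.sum_sub_distrib]
  have e3 : ∑ a ∈ range (m + 1), (zz S lo hi i a * FF S lo hi i f a) ^ 2
        / ∑ x ∈ slice lo hi i (lo i + a), S.K0 x x
      = ∑ a ∈ range (m + 1), zz S lo hi i a * FF S lo hi i f a ^ 2 := by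
    refine Finset.sum_congr rfl fun a _ => ?_
    have := zp a
    have e : ∑ x ∈ slice lo hi i (lo i + a), S.K0 x x = zz S lo hi i a := rfl
    rw [e]
    field_simp
  rw [e3]
  ring

/-- THE MULTI-SCALE POINCARE INEQUALITY on a box (martingale over the coordinates).
One kernel, one stage datum for all coordinates; `phi i` are the repair maps based at `Y_i`. -/
theorem main (S : Stage n) (hPt : ∀ i, S.Pt i) (hInc : ∀ i, S.Inc i) (f : Lat n → ℝ)
    (phi : Fin n → Node n → Lat n)
    (hphi0 : ∀ i, phi i (Sum.inr i) = 0) (hphi1 : ∀ i, phi i (Sum.inl i) = ev i)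
    (hphi : ∀ i k, i < k → phi i (Sum.inl k) = phi i (Sum.inr k) + ev k)
    (lo hi : Lat n) (hbox : ∀ k, lo k ≤ hi k) :
    Vr (fun x => S.K0 x x) f (box lo hi)
      ≤ S.C * ∑ x ∈ box lo hi, S.K0 x x * ∑ i, En S f (phi i) x := by
  classical
  have hEn : ∀ i x, 0 ≤ En S f (phi i) x := fun i x =>
    Finset.sum_nonneg fun j _ => by positivity
  -- claim by downward induction on the number of pinned coordinates
  have key : ∀ d : ℕ, d ≤ n → ∀ lo hi : Lat n, (∀ k, lo k ≤ hi k) →
      (∀ k : Fin n, (k : ℕ) < n - d → lo k = hi k) →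
      Vr (fun x => S.K0 x x) f (box lo hi)
        ≤ S.C * ∑ x ∈ box lo hi, S.K0 x x
          * ∑ i ∈ univ.filter (fun i : Fin n => n - d ≤ (i : ℕ)), En S f (phi i) x := by
    intro d
    induction d with
    | zero =>
      intro _ lo hi hbox hpin
      have hb : box lo hi = {lo} := by
        ext x
        rw [mem_box, Finset.mem_singleton]
        constructor
        · intro h
          funext k
          have h1 := h k
          have h2 := hpin k (by have := k.2; omega)
          omega
        · rintro rfl k
          exact ⟨le_rfl, hbox k⟩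
      rw [hb]
      unfold Vr
      rw [Finset.sum_singleton, Finset.sum_singleton, Finset.sum_singleton,
        Finset.sum_singleton]
      have hk := S.K0_pos lo lo
      have e : S.K0 lo lo * f lo ^ 2 - (S.K0 lo lo * f lo) ^ 2 / S.K0 lo lo = 0 := by
        field_simp; ring
      rw [e]
      exact mul_nonneg S.C_nonneg (mul_nonneg hk.le (Finset.sum_nonneg fun i _ => hEn i lo))
    | succ d ih =>
      intro hd lo hi hbox hpin
      have hdn : n - (d + 1) < n := by omega
      set i : Fin n := ⟨n - (d + 1), hdn⟩ with hidef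
      have hpin' : ∀ k, k < i → lo k = hi k := fun k hk => hpin k hk
      set m := (hi i - lo i).toNat with hm
      rw [var_split S i hbox f]
      have h1 : ∀ a ∈ range (m + 1), Vr (fun x => S.K0 x x) f (slice lo hi i (lo i + a))
          ≤ S.C * ∑ x ∈ slice lo hi i (lo i + a), S.K0 x x
            * ∑ i ∈ univ.filter (fun i : Fin n => n - d ≤ (i : ℕ)), En S f (phi i) x := by
        intro a _
        refine ih (by omega) (Function.update lo i (lo i + a)) (Function.update hi i (lo i + a))
          ?_ ?_
        · intro k
          by_cases hk : k = i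
          · subst hk; simp
          · rw [Function.update_of_ne hk, Function.update_of_ne hk]; exact hbox k
        · intro k hk
          by_cases hki : k = i
          · subst hki; simp
          · rw [Function.update_of_ne hki, Function.update_of_ne hki]
            apply hpin
            have : (k : ℕ) ≠ n - (d + 1) := fun h => hki (Fin.ext h)
            omega
      have h2 := stage_ineq (S := S) (lo := lo) (hi := hi) (i := i) hbox hpin' (hPt i) (hInc i) f
        (phi i) (hphi0 i) (hphi1 i) (hphi i) m
      have h3 : ∑ a ∈ range m, ∑ x ∈ slice lo hi i (lo i + a), S.K0 x x * En S f (phi i) x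
          ≤ ∑ a ∈ range (m + 1), ∑ x ∈ slice lo hi i (lo i + a), S.K0 x x * En S f (phi i) x := by
        rw [Finset.sum_range_succ]
        have : 0 ≤ ∑ x ∈ slice lo hi i (lo i + (m : ℕ)), S.K0 x x * En S f (phi i) x :=
          Finset.sum_nonneg fun x _ => mul_nonneg (S.K0_pos x x).le (hEn i x)
        linarith
      have h4 := Finset.sum_le_sum h1
      rw [← Finset.mul_sum] at h4
      have h5 := mul_le_mul_of_nonneg_left h3 S.C_nonneg
      have h6 := sum_box_slices lo hi i (hbox i) (fun x => S.K0 x x
        * ∑ i ∈ univ.filter (fun i : Fin n => n - (d + 1) ≤ (i : ℕ)), En S f (phi i) x)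
      rw [h6, ← hm]
      have h7 : ∀ x, S.K0 x x
          * ∑ i ∈ univ.filter (fun i : Fin n => n - (d + 1) ≤ (i : ℕ)), En S f (phi i) x
          = S.K0 x x * (∑ i ∈ univ.filter (fun i : Fin n => n - d ≤ (i : ℕ)), En S f (phi i) x)
            + S.K0 x x * En S f (phi i) x := by
        intro x
        rw [← mul_add]
        congr 1
        have hs : univ.filter (fun j : Fin n => n - (d + 1) ≤ (j : ℕ))
            = insert i (univ.filter (fun j : Fin n => n - d ≤ (j : ℕ))) := by
          ext j
          simp only [Finset.mem_filter, Finset.mem_univ, true_and, Finset.mem_insert]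
          constructor
          · intro h
            by_cases hj : j = i
            · exact Or.inl hj
            · right
              have : (j : ℕ) ≠ n - (d + 1) := fun h => hj (Fin.ext h)
              omega
          · rintro (h | h)
            · rw [h]
            · omega
        rw [hs, Finset.sum_insert]
        · ring
        · simp only [Finset.mem_filter, Finset.mem_univ, true_and, not_le]
          show n - (d + 1) < n - d
          omega
      simp only [h7, Finset.sum_add_distrib, mul_add]
      linarith
  have := key n le_rfl lo hi hbox (by intro k hk; omega)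
  simpa using this

end Crest.Agent.R302.MP
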