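import Crest.Agent.R302.MP4
import Crest.Agent.R302.Forest928

/-!
R302, multi-scale Poincare inequality MSP', part 5 (helper142): the stage datum built from two
rooted forests (block trees of the two sides), and the first order increments of `ω`.
-/

set_option autoImplicit false

namespace Crest.Agent.R302.MP

open Finset MP3

variable {n : ℕ}

/-- fluxes through the clusters of the two forests -/
noncomputable def Flux (T1 T2 : Forest (Fin n)) (w : Node n → ℝ) : Node n → ℝ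
  | Sum.inl a => ∑ c ∈ T1.sub a, w (Sum.inl c)
  | Sum.inr a => ∑ c ∈ T2.sub a, w (Sum.inr c)

/-- differences along the forest edges -/
def Dif (T1 T2 : Forest (Fin n)) (g : Node n → ℝ) : Node n → ℝ
  | Sum.inl a => g (Sum.inl a) - (T1.par a).elim 0 (fun b => g (Sum.inl b))
  | Sum.inr a => g (Sum.inr a) - (T2.par a).elim 0 (fun b => g (Sum.inr b))

lemma rout_forest (T1 T2 : Forest (Fin n)) (w g : Node n → ℝ) :
    ∑ p, w p * g p = ∑ j, Flux T1 T2 w j * Dif T1 T2 g j := by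
  rw [Fintype.sum_sum_type, Fintype.sum_sum_type]
  congr 1
  · exact Forest.tele_all (F := T1) (fun c => w (Sum.inl c)) (fun c => g (Sum.inl c))
  · exact Forest.tele_all (F := T2) (fun c => w (Sum.inr c)) (fun c => g (Sum.inr c))

/-- cluster sum of a lattice point -/
noncomputable def cs (T : Forest (Fin n)) (x : Lat n) (a : Fin n) : ℤ := ∑ c ∈ T.sub a, x c

lemma cs_add (T : Forest (Fin n)) (x y : Lat n) (a : Fin n) :
    cs T (x + y) a = cs T x a + cs T y a := by
  unfold cs; rw [← Finset.sum_add_distrib]; rfl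

lemma cs_sub (T : Forest (Fin n)) (x y : Lat n) (a : Fin n) :
    cs T (x - y) a = cs T x a - cs T y a := by
  unfold cs; rw [← Finset.sum_sub_distrib]; rfl

open Classical in
lemma cs_ev (T : Forest (Fin n)) (c a : Fin n) :
    cs T (ev c) a = if c ∈ T.sub a then 1 else 0 := by
  unfold cs ev
  simp only [Pi.single_apply]
  rw [Finset.sum_ite_eq' (T.sub a) c]

/-- the auxiliary weight -/
noncomputable def omf (T1 T2 : Forest (Fin n)) (C0 : ℝ) (rho1 rho2 : Fin n → ℤ → ℝ)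
    (p q : Lat n) : ℝ :=
  C0 + ∑ a, rho1 a (cs T1 p a) + ∑ a, rho2 a (cs T2 q a)

/-- sum over ancestors: the telescoping structure of `ω` increments on side 1 -/
lemma anc_diff (T : Forest (Fin n)) (d : Fin n → ℝ) (a : Fin n) :
    (∑ b, if a ∈ T.sub b then d b else 0)
      - (T.par a).elim 0 (fun b' => ∑ b, if b' ∈ T.sub b then d b else 0) = d a := by
  classical
  rcases h : T.par a with _ | y
  · have : ∀ b, (if a ∈ T.sub b then d b else 0) = if b = a then d b else 0 := by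
      intro b
      by_cases hb : b = a
      · subst hb; simp [Forest.Le.refl]
      · rw [if_neg hb, if_neg]
        intro hc
        rw [Forest.mem_sub] at hc
        rcases Forest.le_iff.1 hc with h1 | ⟨z, hz, _⟩
        · exact hb h1.symm
        · rw [h] at hz; cases hz
    simp only [this, Finset.sum_ite_eq', Finset.mem_univ, if_true]
    simp
  · have : ∀ b, (if a ∈ T.sub b then d b else 0)
        = (if b = a then d b else 0) + (if y ∈ T.sub b then d b else 0) := by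
      intro b
      by_cases hb : b = a
      · subst hb
        have h1 : b ∈ T.sub b := Forest.self_mem_sub b
        have h2 : ¬ y ∈ T.sub b := by
          rw [Forest.mem_sub]; exact Forest.not_le_of_par h
        rw [if_pos h1, if_pos rfl, if_neg h2, add_zero]
      · have h1 : a ∈ T.sub b ↔ y ∈ T.sub b := by
          rw [Forest.mem_sub, Forest.mem_sub]
          constructor
          · intro hc
            rcases Forest.le_iff.1 hc with h1 | ⟨z, hz, hzb⟩
            · exact absurd h1.symm hb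
            · rw [h] at hz; cases hz; exact hzb
          · intro hc
            exact (Forest.Le.of_par h).trans hc
        rw [if_neg hb, zero_add]
        by_cases hy : y ∈ T.sub b
        · rw [if_pos (h1.2 hy), if_pos hy]
        · rw [if_neg (fun h' => hy (h1.1 h')), if_neg hy]
    simp only [this, Finset.sum_add_distrib, Finset.sum_ite_eq', Finset.mem_univ, if_true]
    simp

lemma omf_inc_inl (T1 T2 : Forest (Fin n)) (C0 : ℝ) (rho1 rho2 : Fin n → ℤ → ℝ)
    (x q : Lat n) (c : Fin n) :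
    omf T1 T2 C0 rho1 rho2 (x + ev c) q - omf T1 T2 C0 rho1 rho2 x q
      = ∑ b, if c ∈ T1.sub b then rho1 b (cs T1 x b + 1) - rho1 b (cs T1 x b) else 0 := by
  classical
  unfold omf
  have : (C0 + ∑ a, rho1 a (cs T1 (x + ev c) a) + ∑ a, rho2 a (cs T2 q a))
      - (C0 + ∑ a, rho1 a (cs T1 x a) + ∑ a, rho2 a (cs T2 q a))
      = ∑ a, (rho1 a (cs T1 (x + ev c) a) - rho1 a (cs T1 x a)) := by
    rw [Finset.sum_sub_distrib]; ring
  rw [this]
  refine Finset.sum_congr rfl fun b _ => ?_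
  rw [cs_add, cs_ev]
  split_ifs
  · rfl
  · rw [add_zero, sub_self]

lemma omf_inc_inr (T1 T2 : Forest (Fin n)) (C0 : ℝ) (rho1 rho2 : Fin n → ℤ → ℝ)
    (x q : Lat n) (c : Fin n) :
    omf T1 T2 C0 rho1 rho2 x (q - ev c) - omf T1 T2 C0 rho1 rho2 x q
      = ∑ b, if c ∈ T2.sub b then rho2 b (cs T2 q b - 1) - rho2 b (cs T2 q b) else 0 := by
  classical
  unfold omf
  have : (C0 + ∑ a, rho1 a (cs T1 x a) + ∑ a, rho2 a (cs T2 (q - ev c) a))
      - (C0 + ∑ a, rho1 a (cs T1 x a) + ∑ a, rho2 a (cs T2 q a))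
      = ∑ a, (rho2 a (cs T2 (q - ev c) a) - rho2 a (cs T2 q a)) := by
    rw [Finset.sum_sub_distrib]; ring
  rw [this]
  refine Finset.sum_congr rfl fun b _ => ?_
  rw [cs_sub, cs_ev]
  split_ifs
  · rfl
  · rw [sub_zero, sub_self]

/-- increments of `ω` along the forest edges are the one-cluster increments -/
lemma Dif_omf (T1 T2 : Forest (Fin n)) (C0 : ℝ) (rho1 rho2 : Fin n → ℤ → ℝ)
    (x : Lat n) (i : Fin n) (j : Node n) :
    Dif T1 T2 (fun p => omf T1 T2 C0 rho1 rho2 (x + aX p) (x + ev i - aY p)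
        - omf T1 T2 C0 rho1 rho2 x (x + ev i)) j
      = match j with
        | Sum.inl a => rho1 a (cs T1 x a + 1) - rho1 a (cs T1 x a)
        | Sum.inr a => rho2 a (cs T2 (x + ev i) a - 1) - rho2 a (cs T2 (x + ev i) a) := by
  have hX : ∀ c, omf T1 T2 C0 rho1 rho2 (x + aX (Sum.inl c)) (x + ev i - aY (Sum.inl c))
        - omf T1 T2 C0 rho1 rho2 x (x + ev i)
      = ∑ b, if c ∈ T1.sub b then rho1 b (cs T1 x b + 1) - rho1 b (cs T1 x b) else 0 := by
    intro c
    simp only [aX_inl, aY_inl, sub_zero]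
    exact omf_inc_inl T1 T2 C0 rho1 rho2 x (x + ev i) c
  have hY : ∀ c, omf T1 T2 C0 rho1 rho2 (x + aX (Sum.inr c)) (x + ev i - aY (Sum.inr c))
        - omf T1 T2 C0 rho1 rho2 x (x + ev i)
      = ∑ b, if c ∈ T2.sub b then rho2 b (cs T2 (x + ev i) b - 1)
          - rho2 b (cs T2 (x + ev i) b) else 0 := by
    intro c
    simp only [aX_inr, aY_inr, add_zero]
    exact omf_inc_inr T1 T2 C0 rho1 rho2 x (x + ev i) c
  rcases j with a | a
  · show omf T1 T2 C0 rho1 rho2 (x + aX (Sum.inl a)) (x + ev i - aY (Sum.inl a))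
        - omf T1 T2 C0 rho1 rho2 x (x + ev i)
        - (T1.par a).elim 0 (fun b => omf T1 T2 C0 rho1 rho2 (x + aX (Sum.inl b))
          (x + ev i - aY (Sum.inl b)) - omf T1 T2 C0 rho1 rho2 x (x + ev i)) = _
    simp only [hX]
    exact anc_diff T1 (fun b => rho1 b (cs T1 x b + 1) - rho1 b (cs T1 x b)) a
  · show omf T1 T2 C0 rho1 rho2 (x + aX (Sum.inr a)) (x + ev i - aY (Sum.inr a))
        - omf T1 T2 C0 rho1 rho2 x (x + ev i)
        - (T2.par a).elim 0 (fun b => omf T1 T2 C0 rho1 rho2 (x + aX (Sum.inr b))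
          (x + ev i - aY (Sum.inr b)) - omf T1 T2 C0 rho1 rho2 x (x + ev i)) = _
    simp only [hY]
    exact anc_diff T2 (fun b => rho2 b (cs T2 (x + ev i) b - 1)
      - rho2 b (cs T2 (x + ev i) b)) a

/-- the stage datum from two forests -/
noncomputable def mkStage (T1 T2 : Forest (Fin n)) (F1 F2 : Lat n → ℝ) (C0 : ℝ)
    (rho1 rho2 : Fin n → ℤ → ℝ) (L1 L2 : Fin n → ℝ) (U kap : ℝ)
    (hF1 : ∀ x, 0 < F1 x) (hF2 : ∀ x, 0 < F2 x)
    (h0 : ∀ a b, 0 ≤ omf T1 T2 C0 rho1 rho2 a b) (hU : ∀ a b, omf T1 T2 C0 rho1 rho2 a b ≤ U)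
    (hL1 : ∀ a, 0 < L1 a) (hL2 : ∀ a, 0 < L2 a) (hkap : 0 < kap) : Stage n where
  K0 a b := F1 a * F2 b
  om := omf T1 T2 C0 rho1 rho2
  Phi := Flux T1 T2
  D := Dif T1 T2
  L := Sum.elim L1 L2
  U := U
  kap := kap
  K0_pos a b := mul_pos (hF1 a) (hF2 b)
  om_nonneg := h0
  om_le := hU
  L_pos j := by rcases j with a | a; exacts [hL1 a, hL2 a]
  kap_pos := hkap
  rout := rout_forest T1 T2

lemma mkStage_Inc (T1 T2 : Forest (Fin n)) (F1 F2 : Lat n → ℝ) (C0 : ℝ)
    (rho1 rho2 : Fin n → ℤ → ℝ) (L1 L2 : Fin n → ℝ) (U kap : ℝ)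
    (hF1 : ∀ x, 0 < F1 x) (hF2 : ∀ x, 0 < F2 x)
    (h0 : ∀ a b, 0 ≤ omf T1 T2 C0 rho1 rho2 a b) (hU : ∀ a b, omf T1 T2 C0 rho1 rho2 a b ≤ U)
    (hL1 : ∀ a, 0 < L1 a) (hL2 : ∀ a, 0 < L2 a) (hkap : 0 < kap)
    (hr1 : ∀ a y, |rho1 a (y + 1) - rho1 a y| ≤ 2 / L1 a)
    (hr2 : ∀ a y, |rho2 a (y + 1) - rho2 a y| ≤ 2 / L2 a) (i : Fin n) :
    (mkStage T1 T2 F1 F2 C0 rho1 rho2 L1 L2 U kap hF1 hF2 h0 hU hL1 hL2 hkap).Inc i := by
  intro x j
  have h := Dif_omf T1 T2 C0 rho1 rho2 x i j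
  show |Dif T1 T2 (fun p => omf T1 T2 C0 rho1 rho2 (x + aX p) (x + ev i - aY p)
        - omf T1 T2 C0 rho1 rho2 x (x + ev i)) j| ≤ 2 / Sum.elim L1 L2 j
  rw [h]
  rcases j with a | a
  · exact hr1 a _
  · have := hr2 a (cs T2 (x + ev i) a - 1)
    rw [sub_add_cancel, abs_sub_comm] at this
    exact this

end Crest.Agent.R302.MP
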