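import Crest.Agent.R302.Lor151

/-!
R302 (helper893): the exact flow through cells with finite windows, for brackets
`csum m G cs x = ∑_{contents s_k ∈ [0,m], k ∈ cs} G (x + ∑ s_k 1_k)`.

* `en` : sum over the leaves of the exact flow of a functional of (state, velocity);
* `bal_nxt` : balance at every node; `en_lin` : exact transport; `en_quad` : conservation law for an
  arbitrary nonnegative two-token functional; `csum_lc` : log-concavity;
* `en_crude` : crude velocity bound.
-/

set_option autoImplicit false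
set_option linter.unusedSectionVars false

namespace Crest.Agent.R302.T893

open Finset Lor

variable {V E : Type*} [Fintype V] [DecidableEq V] [DecidableEq E]

/-- sum over all contents in `[0,m]` of the cells `cs` -/
def csum (m : ℕ) (G : (E → ℤ) → ℝ) : List E → (E → ℤ) → ℝ
  | [], x => G x
  | k :: cs, x => ∑ s ∈ range (m + 1), csum m G cs (x + Pi.single k (s : ℤ))

@[simp] theorem csum_nil (m : ℕ) (G : (E → ℤ) → ℝ) (x : E → ℤ) : csum m G [] x = G x := rfl

theorem csum_cons (m : ℕ) (G : (E → ℤ) → ℝ) (k : E) (cs : List E) (x : E → ℤ) :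
    csum m G (k :: cs) x = ∑ s ∈ range (m + 1), csum m G cs (x + Pi.single k (s : ℤ)) := rfl

theorem csum_shift (m : ℕ) (G : (E → ℤ) → ℝ) (z : E → ℤ) (cs : List E) (x : E → ℤ) :
    csum m (fun y => G (y + z)) cs x = csum m G cs (x + z) := by
  induction cs generalizing x with
  | nil => rfl
  | cons k cs ih =>
    simp only [csum_cons]
    refine Finset.sum_congr rfl fun s _ => ?_
    rw [ih]
    congr 1
    abel

theorem csum_congr {m : ℕ} {G G' : (E → ℤ) → ℝ} (h : ∀ y, G y = G' y) (cs : List E)
    (x : E → ℤ) : csum m G cs x = csum m G' cs x := by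
  have : G = G' := funext h
  rw [this]

theorem csum_add (m : ℕ) (G G' : (E → ℤ) → ℝ) (cs : List E) (x : E → ℤ) :
    csum m (fun y => G y + G' y) cs x = csum m G cs x + csum m G' cs x := by
  induction cs generalizing x with
  | nil => rfl
  | cons k cs ih => simp only [csum_cons, ih, Finset.sum_add_distrib]

theorem csum_smul (m : ℕ) (c : ℝ) (G : (E → ℤ) → ℝ) (cs : List E) (x : E → ℤ) :
    csum m (fun y => c * G y) cs x = c * csum m G cs x := by
  induction cs generalizing x with
  | nil => rfl
  | cons k cs ih => simp only [csum_cons, ih, Finset.mul_sum]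

theorem csum_mono {m : ℕ} {G G' : (E → ℤ) → ℝ} (h : ∀ y, G y ≤ G' y) (cs : List E)
    (x : E → ℤ) : csum m G cs x ≤ csum m G' cs x := by
  induction cs generalizing x with
  | nil => exact h x
  | cons k cs ih => exact Finset.sum_le_sum fun s _ => ih _

theorem csum_nonneg {m : ℕ} {G : (E → ℤ) → ℝ} (h : ∀ y, 0 ≤ G y) (cs : List E)
    (x : E → ℤ) : 0 ≤ csum m G cs x := by
  induction cs generalizing x with
  | nil => exact h x
  | cons k cs ih => exact Finset.sum_nonneg fun s _ => ih _

theorem csum_pos {m : ℕ} {G : (E → ℤ) → ℝ} (h : ∀ y, 0 < G y) (cs : List E)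
    (x : E → ℤ) : 0 < csum m G cs x := by
  induction cs generalizing x with
  | nil => exact h x
  | cons k cs ih =>
    exact Finset.sum_pos (fun s _ => ih _) ⟨0, Finset.mem_range.2 (Nat.succ_pos m)⟩

/-! ### the flow -/

section Flow

variable (m : ℕ) (Y X : E → V) (F : (E → ℤ) → V → ℝ)

/-- partial sums of the one-token bracket -/
def num (cs : List E) (k : E) (x : E → ℤ) (v : V → ℝ) (s : ℕ) : ℝ :=
  ∑ t ∈ range s, ∑ p, v p * csum m (fun y => F y p) cs (x + Pi.single k (t : ℤ))

/-- the velocity through cell `k` between contents `s-1` and `s` -/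
noncomputable def psi (cs : List E) (k : E) (x : E → ℤ) (v : V → ℝ) (s : ℕ) : ℝ :=
  num m F cs k x v s / csum m (fun y => F y (Y k)) cs (x + Pi.single k (s : ℤ))

/-- the velocity after the content `s` of cell `k` has been revealed -/
noncomputable def nxt (cs : List E) (k : E) (x : E → ℤ) (v : V → ℝ) (s : ℕ) : V → ℝ := fun p =>
  v p - psi m Y F cs k x v (s + 1) * (if p = X k then 1 else 0)
    + psi m Y F cs k x v s * (if p = Y k then 1 else 0)

/-- sum over the leaves of the flow -/
noncomputable def en (Φ : (E → ℤ) → (V → ℝ) → ℝ) : List E → (E → ℤ) → (V → ℝ) → ℝ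
  | [], x, v => Φ x v
  | k :: cs, x, v => ∑ s ∈ range (m + 1), en Φ cs (x + Pi.single k (s : ℤ)) (nxt m Y X F cs k x v s)

/-- balance -/
def Bal (cs : List E) (x : E → ℤ) (v : V → ℝ) : Prop :=
  ∑ p, v p * csum m (fun y => F y p) cs x = 0

variable {m Y X F}

@[simp] theorem en_nil (Φ : (E → ℤ) → (V → ℝ) → ℝ) (x : E → ℤ) (v : V → ℝ) :
    en m Y X F Φ [] x v = Φ x v := rfl

theorem en_cons (Φ : (E → ℤ) → (V → ℝ) → ℝ) (k : E) (cs : List E) (x : E → ℤ) (v : V → ℝ) :
    en m Y X F Φ (k :: cs) x v =
      ∑ s ∈ range (m + 1), en m Y X F Φ cs (x + Pi.single k (s : ℤ)) (nxt m Y X F cs k x v s) :=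
  rfl

theorem num_zero (cs : List E) (k : E) (x : E → ℤ) (v : V → ℝ) : num m F cs k x v 0 = 0 := by
  simp [num]

theorem psi_zero (cs : List E) (k : E) (x : E → ℤ) (v : V → ℝ) : psi m Y F cs k x v 0 = 0 := by
  simp [psi, num_zero]

theorem num_last {cs : List E} {k : E} {x : E → ℤ} {v : V → ℝ} (h : Bal m F (k :: cs) x v) :
    num m F cs k x v (m + 1) = 0 := by
  unfold num
  unfold Bal at h
  rw [Finset.sum_comm, ← h]
  refine Finset.sum_congr rfl fun p _ => ?_
  rw [csum_cons, Finset.mul_sum]

theorem psi_last {cs : List E} {k : E} {x : E → ℤ} {v : V → ℝ} (h : Bal m F (k :: cs) x v) :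
    psi m Y F cs k x v (m + 1) = 0 := by
  simp [psi, num_last h]

theorem single_succ (k : E) (s : ℕ) :
    (Pi.single k ((s + 1 : ℕ) : ℤ) : E → ℤ) = Pi.single k (s : ℤ) + Pi.single k 1 := by
  rw [← Pi.single_add]
  push_cast
  rfl

theorem csum_inv {G : (E → ℤ) → ℝ} {G' : (E → ℤ) → ℝ} {k : E}
    (h : ∀ y, G y = G' (y + Pi.single k 1)) (cs : List E) (x : E → ℤ) (s : ℕ) :
    csum m G cs (x + Pi.single k (s : ℤ)) =
      csum m G' cs (x + Pi.single k ((s + 1 : ℕ) : ℤ)) := by
  rw [csum_congr h, csum_shift, single_succ, add_assoc]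

theorem sum_nxt (cs : List E) (k : E) (x : E → ℤ) (v : V → ℝ) (s : ℕ) (a : V → ℝ) :
    ∑ p, nxt m Y X F cs k x v s p * a p =
      ∑ p, v p * a p - psi m Y F cs k x v (s + 1) * a (X k) + psi m Y F cs k x v s * a (Y k) := by
  unfold nxt
  simp only [add_mul, sub_mul, Finset.sum_add_distrib, Finset.sum_sub_distrib, mul_assoc,
    ← Finset.mul_sum, ite_mul, one_mul, zero_mul, Finset.sum_ite_eq', Finset.mem_univ, if_true]

/-- balance is inherited by all children -/
theorem bal_nxt {cs : List E} {k : E} {x : E → ℤ} {v : V → ℝ}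
    (hpos : ∀ y, 0 < F y (Y k)) (hinv : ∀ y, F y (X k) = F (y + Pi.single k 1) (Y k))
    (s : ℕ) :
    Bal m F cs (x + Pi.single k (s : ℤ)) (nxt m Y X F cs k x v s) := by
  unfold Bal
  rw [sum_nxt, csum_inv (G := fun y => F y (X k)) (G' := fun y => F y (Y k)) hinv]
  unfold psi
  rw [div_mul_cancel₀ _ (csum_pos hpos _ _).ne', div_mul_cancel₀ _ (csum_pos hpos _ _).ne']
  unfold num
  rw [Finset.sum_range_succ]
  ring

/-- exact transport of one-token functionals -/
theorem en_lin {G : (E → ℤ) → V → ℝ} {cs : List E}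
    (hpos : ∀ k ∈ cs, ∀ y, 0 < F y (Y k))
    (hinv : ∀ k ∈ cs, ∀ y, F y (X k) = F (y + Pi.single k 1) (Y k))
    (hG : ∀ k ∈ cs, ∀ y, G y (X k) = G (y + Pi.single k 1) (Y k))
    {x : E → ℤ} {v : V → ℝ} (hv : Bal m F cs x v) :
    en m Y X F (fun y v => ∑ p, v p * G y p) cs x v = ∑ p, v p * csum m (fun y => G y p) cs x := by
  induction cs generalizing x v with
  | nil => rfl
  | cons k cs ih =>
    have hk : k ∈ k :: cs := List.mem_cons_self
    rw [en_cons]
    have h1 : ∀ s ∈ range (m + 1), en m Y X F (fun y v => ∑ p, v p * G y p) cs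
        (x + Pi.single k (s : ℤ)) (nxt m Y X F cs k x v s) =
        ∑ p, v p * csum m (fun y => G y p) cs (x + Pi.single k (s : ℤ)) -
          (psi m Y F cs k x v (s + 1) *
              csum m (fun y => G y (Y k)) cs (x + Pi.single k ((s + 1 : ℕ) : ℤ)) -
            psi m Y F cs k x v s * csum m (fun y => G y (Y k)) cs (x + Pi.single k (s : ℤ))) := by
      intro s _
      rw [ih (fun j hj => hpos j (List.mem_cons_of_mem _ hj))
        (fun j hj => hinv j (List.mem_cons_of_mem _ hj))
        (fun j hj => hG j (List.mem_cons_of_mem _ hj))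
        (bal_nxt (hpos k hk) (hinv k hk) s), sum_nxt,
        csum_inv (G := fun y => G y (X k)) (G' := fun y => G y (Y k)) (hG k hk)]
      ring
    have h2 := Finset.sum_range_sub (fun s : ℕ => psi m Y F cs k x v s *
      csum m (fun y => G y (Y k)) cs (x + Pi.single k (s : ℤ))) (m + 1)
    rw [Finset.sum_congr rfl h1, Finset.sum_sub_distrib]
    simp only [psi_last hv, psi_zero, zero_mul, sub_zero] at h2
    rw [h2, sub_zero, Finset.sum_comm]
    refine Finset.sum_congr rfl fun p _ => ?_
    rw [csum_cons, Finset.mul_sum]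

theorem Q_nxt {A : V → V → ℝ} (hA : ∀ a b, A a b = A b a) (cs : List E) (k : E) (x : E → ℤ)
    (v : V → ℝ) (s : ℕ) :
    Q A (nxt m Y X F cs k x v s) (nxt m Y X F cs k x v s) = Q A v v
      - 2 * psi m Y F cs k x v (s + 1) * row A v (X k) + 2 * psi m Y F cs k x v s * row A v (Y k)
      + psi m Y F cs k x v (s + 1) ^ 2 * A (X k) (X k)
      - 2 * psi m Y F cs k x v (s + 1) * psi m Y F cs k x v s * A (X k) (Y k)
      + psi m Y F cs k x v s ^ 2 * A (Y k) (Y k) := by
  have hr : ∀ a, row A (nxt m Y X F cs k x v s) a = row A v a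
      - psi m Y F cs k x v (s + 1) * A a (X k) + psi m Y F cs k x v s * A a (Y k) := by
    intro a
    exact sum_nxt cs k x v s (fun b => A a b)
  rw [Q_eq_row]
  rw [sum_nxt cs k x v s (fun a => row A (nxt m Y X F cs k x v s) a)]
  simp only [hr]
  have h2 : ∑ p, v p * (row A v p - psi m Y F cs k x v (s + 1) * A p (X k)
      + psi m Y F cs k x v s * A p (Y k)) = Q A v v
      - psi m Y F cs k x v (s + 1) * row A v (X k) + psi m Y F cs k x v s * row A v (Y k) := by
    rw [Q_eq_row]
    unfold row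
    simp only [mul_add, mul_sub, Finset.sum_add_distrib, Finset.sum_sub_distrib, Finset.mul_sum]
    congr 1
    · congr 1
      refine Finset.sum_congr rfl fun p _ => ?_
      rw [hA p (X k)]; ring
    · refine Finset.sum_congr rfl fun p _ => ?_
      rw [hA p (Y k)]; ring
  rw [h2, hA (Y k) (X k)]
  ring

/-- **Conservation law** for an arbitrary nonnegative two-token functional. -/
theorem en_quad {G : (E → ℤ) → V → V → ℝ} {cs : List E}
    (hpos : ∀ k ∈ cs, ∀ y, 0 < F y (Y k))
    (hinv : ∀ k ∈ cs, ∀ y, F y (X k) = F (y + Pi.single k 1) (Y k))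
    (hG0 : ∀ y p q, 0 ≤ G y p q) (hGs : ∀ y p q, G y p q = G y q p)
    (hG : ∀ k ∈ cs, ∀ y q, G y (X k) q = G (y + Pi.single k 1) (Y k) q)
    {x : E → ℤ} {v : V → ℝ} (hv : Bal m F cs x v) :
    Q (fun p q => csum m (fun y => G y p q) cs x) v v ≤
      en m Y X F (fun y v => Q (fun p q => G y p q) v v) cs x v := by
  induction cs generalizing x v with
  | nil => exact le_rfl
  | cons k cs ih =>
    have hk : k ∈ k :: cs := List.mem_cons_self
    rw [en_cons]
    have h1 : ∀ s ∈ range (m + 1),
        Q (fun p q => csum m (fun y => G y p q) cs (x + Pi.single k (s : ℤ)))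
          (nxt m Y X F cs k x v s) (nxt m Y X F cs k x v s) ≤
        en m Y X F (fun y v => Q (fun p q => G y p q) v v) cs
        (x + Pi.single k (s : ℤ)) (nxt m Y X F cs k x v s) := by
      intro s _
      exact ih (fun j hj => hpos j (List.mem_cons_of_mem _ hj))
        (fun j hj => hinv j (List.mem_cons_of_mem _ hj))
        (fun j hj => hG j (List.mem_cons_of_mem _ hj))
        (bal_nxt (hpos k hk) (hinv k hk) s)
    refine le_trans ?_ (Finset.sum_le_sum h1)
    -- abbreviations
    set c : ℕ → ℝ := psi m Y F cs k x v with hc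
    have hc0 : c 0 = 0 := psi_zero _ _ _ _
    have hcm : c (m + 1) = 0 := psi_last hv
    -- h s : the Y Y bracket at content s
    set h : ℕ → ℝ := fun s => csum m (fun y => G y (Y k) (Y k)) cs (x + Pi.single k (s : ℤ))
      with hh
    set g : ℕ → ℝ := fun s => row (fun p q => csum m (fun y => G y p q) cs
      (x + Pi.single k (s : ℤ))) v (Y k) with hg
    have eXY : ∀ s : ℕ, csum m (fun y => G y (X k) (Y k)) cs (x + Pi.single k (s : ℤ)) =
        h (s + 1) := by
      intro s
      exact csum_inv (G := fun y => G y (X k) (Y k)) (G' := fun y => G y (Y k) (Y k))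
        (fun y => hG k hk y (Y k)) cs x s
    have eXX : ∀ s : ℕ, csum m (fun y => G y (X k) (X k)) cs (x + Pi.single k (s : ℤ)) =
        h (s + 2) := by
      intro s
      rw [csum_inv (G := fun y => G y (X k) (X k)) (G' := fun y => G y (Y k) (X k))
        (fun y => hG k hk y (X k)) cs x s]
      rw [csum_congr (fun y => hGs y (Y k) (X k))]
      exact eXY (s + 1)
    have eX : ∀ s : ℕ, row (fun p q => csum m (fun y => G y p q) cs
      (x + Pi.single k (s : ℤ))) v (X k) = g (s + 1) := by
      intro s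
      show (∑ b, v b * csum m (fun y => G y (X k) b) cs (x + Pi.single k (s : ℤ))) =
        ∑ b, v b * csum m (fun y => G y (Y k) b) cs (x + Pi.single k ((s + 1 : ℕ) : ℤ))
      refine Finset.sum_congr rfl fun b _ => ?_
      rw [csum_inv (G := fun y => G y (X k) b) (G' := fun y => G y (Y k) b)
        (fun y => hG k hk y b) cs x s]
    have h2 : ∀ s ∈ range (m + 1),
        Q (fun p q => csum m (fun y => G y p q) cs (x + Pi.single k (s : ℤ)))
          (nxt m Y X F cs k x v s) (nxt m Y X F cs k x v s) =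
        Q (fun p q => csum m (fun y => G y p q) cs (x + Pi.single k (s : ℤ))) v v
          - 2 * (c (s + 1) * g (s + 1) - c s * g s)
          + ((c (s + 1) ^ 2 * h (s + 2) + c s ^ 2 * h s) - 2 * c (s + 1) * c s * h (s + 1)) := by
      intro s _
      rw [Q_nxt (fun a b => csum_congr (fun y => hGs y a b) cs _)]
      simp only [eXX, eXY, eX]
      ring
    have hts := Finset.sum_range_sub (fun s : ℕ => c s * g s) (m + 1)
    rw [Finset.sum_congr rfl h2, Finset.sum_add_distrib, Finset.sum_sub_distrib,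
      ← Finset.mul_sum, hts, hcm, hc0]
    have hQ : Q (fun p q => csum m (fun y => G y p q) (k :: cs) x) v v =
        ∑ s ∈ range (m + 1),
          Q (fun p q => csum m (fun y => G y p q) cs (x + Pi.single k (s : ℤ))) v v := by
      unfold Q
      simp only [csum_cons, Finset.mul_sum]
      rw [Finset.sum_congr rfl fun a _ => Finset.sum_comm, Finset.sum_comm]
    rw [← hQ]
    have h3 : 0 ≤ ∑ s ∈ range (m + 1),
        ((c (s + 1) ^ 2 * h (s + 2) + c s ^ 2 * h s) - 2 * c (s + 1) * c s * h (s + 1)) := by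
      have e1 : ∑ s ∈ range (m + 1), c (s + 1) ^ 2 * h (s + 2) =
          ∑ s ∈ range (m + 1), c s ^ 2 * h (s + 1) := by
        have := Finset.sum_range_sub (fun s : ℕ => c s ^ 2 * h (s + 1)) (m + 1)
        rw [hcm, hc0, Finset.sum_sub_distrib] at this
        simp only [ne_eq, OfNat.ofNat_ne_zero, not_false_eq_true, zero_pow, zero_mul,
          sub_self] at this
        linarith
      have e2 : ∑ s ∈ range (m + 1), c s ^ 2 * h s =
          ∑ s ∈ range (m + 1), c (s + 1) ^ 2 * h (s + 1) := by
        have := Finset.sum_range_sub (fun s : ℕ => c s ^ 2 * h s) (m + 1)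
        rw [hcm, hc0, Finset.sum_sub_distrib] at this
        simp only [ne_eq, OfNat.ofNat_ne_zero, not_false_eq_true, zero_pow, zero_mul,
          sub_self] at this
        linarith
      rw [Finset.sum_sub_distrib, Finset.sum_add_distrib, e1, e2, ← Finset.sum_add_distrib,
        ← Finset.sum_sub_distrib]
      refine Finset.sum_nonneg fun s _ => ?_
      have hs : 0 ≤ h (s + 1) := csum_nonneg (fun y => hG0 _ _ _) _ _
      have : c s ^ 2 * h (s + 1) + c (s + 1) ^ 2 * h (s + 1) - 2 * c (s + 1) * c s * h (s + 1) =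
          (c (s + 1) - c s) ^ 2 * h (s + 1) := by ring
      rw [this]
      positivity
    linarith

theorem en_add (Φ Φ' : (E → ℤ) → (V → ℝ) → ℝ) (cs : List E) (x : E → ℤ) (v : V → ℝ) :
    en m Y X F (fun y v => Φ y v + Φ' y v) cs x v =
      en m Y X F Φ cs x v + en m Y X F Φ' cs x v := by
  induction cs generalizing x v with
  | nil => rfl
  | cons k cs ih => simp only [en_cons, ih, Finset.sum_add_distrib]

theorem en_smul (c : ℝ) (Φ : (E → ℤ) → (V → ℝ) → ℝ) (cs : List E) (x : E → ℤ) (v : V → ℝ) :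
    en m Y X F (fun y v => c * Φ y v) cs x v = c * en m Y X F Φ cs x v := by
  induction cs generalizing x v with
  | nil => rfl
  | cons k cs ih => simp only [en_cons, ih, Finset.mul_sum]

theorem en_sum {ι : Type*} (t : Finset ι) (Φ : ι → (E → ℤ) → (V → ℝ) → ℝ) (cs : List E)
    (x : E → ℤ) (v : V → ℝ) :
    en m Y X F (fun y v => ∑ i ∈ t, Φ i y v) cs x v = ∑ i ∈ t, en m Y X F (Φ i) cs x v := by
  classical
  induction t using Finset.induction_on with
  | empty =>
    simp only [Finset.sum_empty]
    have := en_smul (m := m) (Y := Y) (X := X) (F := F) 0 (fun _ _ => (0 : ℝ)) cs x v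
    simpa using this
  | insert i t hi ih =>
    simp only [Finset.sum_insert hi]
    rw [en_add, ih]

theorem en_const (G : (E → ℤ) → ℝ) (cs : List E) (x : E → ℤ) (v : V → ℝ) :
    en m Y X F (fun y _ => G y) cs x v = csum m G cs x := by
  induction cs generalizing x v with
  | nil => rfl
  | cons k cs ih => simp only [en_cons, ih, csum_cons]

theorem en_mono {Φ Φ' : (E → ℤ) → (V → ℝ) → ℝ} {cs : List E}
    (hpos : ∀ k ∈ cs, ∀ y, 0 < F y (Y k))
    (hinv : ∀ k ∈ cs, ∀ y, F y (X k) = F (y + Pi.single k 1) (Y k))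
    (h : ∀ y v, ∑ p, v p * F y p = 0 → Φ y v ≤ Φ' y v) {x : E → ℤ} {v : V → ℝ}
    (hv : Bal m F cs x v) : en m Y X F Φ cs x v ≤ en m Y X F Φ' cs x v := by
  induction cs generalizing x v with
  | nil => exact h x v hv
  | cons k cs ih =>
    rw [en_cons, en_cons]
    refine Finset.sum_le_sum fun s _ => ?_
    exact ih (fun j hj => hpos j (List.mem_cons_of_mem _ hj))
        (fun j hj => hinv j (List.mem_cons_of_mem _ hj))
        (bal_nxt (hpos k List.mem_cons_self) (hinv k List.mem_cons_self) s)

theorem en_nonneg {Φ : (E → ℤ) → (V → ℝ) → ℝ} (h : ∀ y v, 0 ≤ Φ y v) (cs : List E) (x : E → ℤ)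
    (v : V → ℝ) : 0 ≤ en m Y X F Φ cs x v := by
  induction cs generalizing x v with
  | nil => exact h x v
  | cons k cs ih => exact Finset.sum_nonneg fun s _ => ih _ _

end Flow

end Crest.Agent.R302.T893
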