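import Crest.Agent.R302.MSP893A

/-!
R302 (helper893): log-concavity of the brackets, crude velocity bound, rooted trees
(summation by parts) and the CUT LEMMA.
-/

set_option autoImplicit false
set_option linter.unusedSectionVars false

namespace Crest.Agent.R302.T893

open Finset Lor

variable {V E : Type*} [Fintype V] [DecidableEq V] [DecidableEq E]

/-! ### small vectors -/

/-- unit vector -/
def uv (p : V) : V → ℝ := fun q => if q = p then 1 else 0

theorem sum_uv (p : V) (a : V → ℝ) : ∑ q, uv p q * a q = a p := by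
  simp [uv, ite_mul, Finset.sum_ite_eq']

theorem row_uv (A : V → V → ℝ) (p a : V) : row A (uv p) a = A a p := by
  unfold row; exact sum_uv p _

theorem Q_uv_right {A : V → V → ℝ} (hA : ∀ a b, A a b = A b a) (x : V → ℝ) (p : V) :
    Q A x (uv p) = row A x p := by
  rw [Q_comm hA, Q_eq_row]
  exact sum_uv p _

theorem Q_uv_uv {A : V → V → ℝ} (hA : ∀ a b, A a b = A b a) (p q : V) :
    Q A (uv p) (uv q) = A p q := by
  rw [Q_uv_right hA, row_uv, hA]

theorem Q_add_right (A : V → V → ℝ) (x y y' : V → ℝ) : Q A x (y + y') = Q A x y + Q A x y' := by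
  unfold Q
  simp only [Pi.add_apply, mul_add, add_mul, Finset.sum_add_distrib]

theorem Q_smul_right (A : V → V → ℝ) (t : ℝ) (x y : V → ℝ) : Q A x (t • y) = t * Q A x y := by
  unfold Q
  simp only [Pi.smul_apply, smul_eq_mul, Finset.mul_sum]
  refine Finset.sum_congr rfl fun a _ => Finset.sum_congr rfl fun b _ => by ring

theorem Q_two {A : V → V → ℝ} (hA : ∀ a b, A a b = A b a) (a b : V) (α β : ℝ) :
    Q A (α • uv a - β • uv b) (α • uv a - β • uv b) =
      α ^ 2 * A a a - 2 * α * β * A a b + β ^ 2 * A b b := by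
  rw [Q_sub_smul hA, Q_smul_left, Q_smul_right, Q_smul_left, Q_uv_uv hA, Q_uv_uv hA, Q_uv_uv hA]
  ring

/-- the form is negative semidefinite on the hyperplane of a positive vertex -/
theorem Q_neg {A : V → V → ℝ} (hA : ∀ a b, A a b = A b a) (hAF : AF A) {p : V} (hp : 0 < A p p)
    {x : V → ℝ} (hx : row A x p = 0) : Q A x x ≤ 0 := by
  refine hAF.neg (y := uv p) ?_ ?_
  · rw [Q_uv_uv hA]; exact hp
  · rw [Q_uv_right hA]; exact hx

/-! ### log-concavity -/

section LC

variable {m : ℕ} {X Y : E → V} {F : (V → ℤ) → ℝ} {γ : (E → ℤ) → V → ℤ}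

theorem csum_lc (hF : ∀ δ, 0 < F δ) (hAF : ∀ δ, AF (fun p q => F (δ + ev p + ev q)))
    (hγ : ∀ y k, γ (y + Pi.single k 1) = γ y + ev (X k) - ev (Y k)) (δ : V → ℤ)
    (cs : List E) (k : E) (x : E → ℤ) :
    csum m (fun y => F (γ y + δ)) cs x * csum m (fun y => F (γ y + δ)) cs
        (x + Pi.single k 1 + Pi.single k 1) ≤
      csum m (fun y => F (γ y + δ)) cs (x + Pi.single k 1) ^ 2 := by
  -- one-token functional
  set F1 : (E → ℤ) → V → ℝ := fun y p => F (γ y + δ - ev (Y k) + ev p) with hF1
  set G : (E → ℤ) → V → V → ℝ := fun y p q =>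
    F (γ y + δ - ev (Y k) - ev (Y k) + ev p + ev q) with hG
  set z0 := csum m (fun y => F (γ y + δ)) cs x with hz0
  set z1 := csum m (fun y => F (γ y + δ)) cs (x + Pi.single k 1) with hz1
  set z2 := csum m (fun y => F (γ y + δ)) cs (x + Pi.single k 1 + Pi.single k 1) with hz2
  have p0 : 0 < z0 := csum_pos (fun y => hF _) _ _
  have p1 : 0 < z1 := csum_pos (fun y => hF _) _ _
  have e0 : csum m (fun y => F1 y (Y k)) cs x = z0 :=
    csum_congr (fun y => by simp only [hF1]; congr 1; abel) _ _
  have e1 : csum m (fun y => F1 y (X k)) cs x = z1 := by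
    rw [hz1, ← csum_shift]
    refine csum_congr (fun y => ?_) _ _
    simp only [hF1]
    rw [hγ]
    congr 1
    abel
  set v : V → ℝ := z0⁻¹ • uv (Y k) - z1⁻¹ • uv (X k) with hv
  have hbal : Bal m F1 cs x v := by
    unfold Bal
    have : ∀ a : V → ℝ, ∑ p, v p * a p = z0⁻¹ * a (Y k) - z1⁻¹ * a (X k) := by
      intro a
      simp only [hv, Pi.sub_apply, Pi.smul_apply, smul_eq_mul, sub_mul, mul_assoc,
        Finset.sum_sub_distrib, ← Finset.mul_sum, sum_uv]
    rw [this, e0, e1, inv_mul_cancel₀ p0.ne', inv_mul_cancel₀ p1.ne', sub_self]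
  have hinv : ∀ j y, F1 y (X j) = F1 (y + Pi.single j 1) (Y j) := by
    intro j y
    simp only [hF1]
    rw [hγ]
    congr 1
    abel
  have h1 : Q (fun p q => csum m (fun y => G y p q) cs x) v v ≤
      en m Y X F1 (fun y v => Q (fun p q => G y p q) v v) cs x v := by
    refine en_quad (F := F1) (fun j _ y => hF _) (fun j _ y => hinv j y)
      (fun y p q => (hF _).le) ?_ ?_ hbal
    · intro y p q
      show F _ = F _
      congr 1; abel
    · intro j _ y q
      show F _ = F _
      rw [hγ]
      congr 1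
      abel
  have h2 : en m Y X F1 (fun y v => Q (fun p q => G y p q) v v) cs x v ≤ 0 := by
    have : en m Y X F1 (fun y v => Q (fun p q => G y p q) v v) cs x v ≤
        en m Y X F1 (fun _ _ => (0 : ℝ)) cs x v := by
      refine en_mono (F := F1) (fun j _ y => hF _) (fun j _ y => hinv j y) ?_ hbal
      intro y w hw
      refine Q_neg (p := Y k) ?_ ?_ ?_ ?_
      · intro a b; simp only [hG]; congr 1; abel
      · exact hAF (γ y + δ - ev (Y k) - ev (Y k))
      · exact hF _
      · unfold row
        rw [← hw]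
        refine Finset.sum_congr rfl fun p _ => ?_
        simp only [hG, hF1]
        congr 2
        abel
    refine this.trans ?_
    rw [en_const (fun _ => (0 : ℝ))]
    have h0 := csum_smul m 0 (fun _ : E → ℤ => (0 : ℝ)) cs x
    simp only [mul_zero, zero_mul] at h0
    exact h0.le
  have h3 := h1.trans h2
  rw [hv, Q_two (fun a b => csum_congr (fun y => by simp only [hG]; congr 1; abel) _ _)] at h3
  have eYY : csum m (fun y => G y (Y k) (Y k)) cs x = z0 :=
    csum_congr (fun y => by simp only [hG]; congr 1; abel) _ _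
  have eYX : csum m (fun y => G y (Y k) (X k)) cs x = z1 := by
    rw [hz1, ← csum_shift]
    refine csum_congr (fun y => ?_) _ _
    simp only [hG]
    rw [hγ]
    congr 1
    abel
  have eXX : csum m (fun y => G y (X k) (X k)) cs x = z2 := by
    rw [hz2, add_assoc, ← csum_shift]
    refine csum_congr (fun y => ?_) _ _
    simp only [hG]
    rw [← add_assoc y, hγ, hγ]
    congr 1
    abel
  rw [eYY, eYX, eXX] at h3
  have h4 : z0⁻¹ ^ 2 * z0 - 2 * z0⁻¹ * z1⁻¹ * z1 + z1⁻¹ ^ 2 * z2 = (z0 * z2 - z1 ^ 2) / (z0 * z1 ^ 2) := by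
    field_simp
    ring
  rw [h4] at h3
  have h5 : 0 < z0 * z1 ^ 2 := by positivity
  rw [div_le_iff₀ h5, zero_mul] at h3
  linarith

end LC

/-! ### crude velocity bound -/

theorem unimodal_side {H : ℕ → ℝ} (hH : ∀ s, 0 < H s) (hl : ∀ s, H s * H (s + 2) ≤ H (s + 1) ^ 2)
    (m s : ℕ) (hs : s ≤ m + 1) :
    ∑ t ∈ range s, H t ≤ (m + 1) * H s ∨ ∑ t ∈ Ico s (m + 1), H t ≤ (m + 1) * H s := by
  have mono : ∀ a b, a ≤ b → H (b + 1) * H a ≤ H (a + 1) * H b := by
    intro a b hab
    induction b, hab using Nat.le_induction with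
    | base => exact le_rfl
    | succ b hab ih =>
      have h1 := hl b
      have : H (b + 2) * H a * H b ≤ H (a + 1) * H (b + 1) * H b := by
        calc H (b + 2) * H a * H b = (H b * H (b + 2)) * H a := by ring
          _ ≤ H (b + 1) ^ 2 * H a := mul_le_mul_of_nonneg_right h1 (hH a).le
          _ = H (b + 1) * (H (b + 1) * H a) := by ring
          _ ≤ H (b + 1) * (H (a + 1) * H b) := mul_le_mul_of_nonneg_left ih (hH _).le
          _ = H (a + 1) * H (b + 1) * H b := by ring
      exact le_of_mul_le_mul_right this (hH b)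
  rcases Nat.eq_zero_or_pos s with rfl | hs0
  · left
    simp only [Finset.range_zero, Finset.sum_empty]
    have := (hH 0).le
    positivity
  · obtain ⟨r, rfl⟩ : ∃ r, s = r + 1 := ⟨s - 1, by omega⟩
    rcases le_total (H r) (H (r + 1)) with h | h
    · left
      -- increasing up to r + 1
      have inc : ∀ j, j ≤ r → H j ≤ H (j + 1) := by
        intro j hj
        have h1 := mono j r hj
        have : H r * H j ≤ H r * H (j + 1) := by
          calc H r * H j ≤ H (r + 1) * H j := mul_le_mul_of_nonneg_right h (hH j).le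
            _ ≤ H (j + 1) * H r := h1
            _ = H r * H (j + 1) := mul_comm _ _
        exact le_of_mul_le_mul_left this (hH r)
      have top : ∀ j, j ≤ r + 1 → H (r + 1 - j) ≤ H (r + 1) := by
        intro j hj
        induction j with
        | zero => exact le_rfl
        | succ j ih =>
          have := inc (r + 1 - (j + 1)) (by omega)
          have e : r + 1 - (j + 1) + 1 = r + 1 - j := by omega
          rw [e] at this
          exact this.trans (ih (by omega))
      have hle : ∀ t ∈ range (r + 1), H t ≤ H (r + 1) := by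
        intro t ht
        have ht' := Finset.mem_range.1 ht
        have := top (r + 1 - t) (by omega)
        have e : r + 1 - (r + 1 - t) = t := by omega
        rwa [e] at this
      calc ∑ t ∈ range (r + 1), H t ≤ ∑ t ∈ range (r + 1), H (r + 1) := Finset.sum_le_sum hle
        _ = (r + 1 : ℕ) * H (r + 1) := by simp
        _ ≤ (m + 1) * H (r + 1) := by
          refine mul_le_mul_of_nonneg_right ?_ (hH _).le
          exact_mod_cast hs
    · right
      have dec : ∀ j, r ≤ j → H (j + 1) ≤ H j := by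
        intro j hj
        have h1 := mono r j hj
        have : H (j + 1) * H r ≤ H j * H r := by
          calc H (j + 1) * H r ≤ H (r + 1) * H j := h1
            _ ≤ H r * H j := mul_le_mul_of_nonneg_right h (hH j).le
            _ = H j * H r := mul_comm _ _
        exact le_of_mul_le_mul_right this (hH r)
      have top : ∀ j, r + 1 ≤ j → H j ≤ H (r + 1) := by
        intro j hj
        induction j, hj using Nat.le_induction with
        | base => exact le_rfl
        | succ j hj ih => exact (dec j (by omega)).trans ih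
      calc ∑ t ∈ Ico (r + 1) (m + 1), H t ≤ ∑ t ∈ Ico (r + 1) (m + 1), H (r + 1) :=
            Finset.sum_le_sum fun t ht => top t (Finset.mem_Ico.1 ht).1
        _ = ((m + 1 - (r + 1) : ℕ) : ℝ) * H (r + 1) := by simp
        _ ≤ (m + 1) * H (r + 1) := by
          refine mul_le_mul_of_nonneg_right ?_ (hH _).le
          have : (m + 1 - (r + 1) : ℕ) ≤ m + 1 := Nat.sub_le _ _
          exact_mod_cast this

section Crude

variable {m : ℕ} {X Y : E → V} {F : (E → ℤ) → V → ℝ}

/-- `ℓ¹` norm -/
def nrm (v : V → ℝ) : ℝ := ∑ p, |v p|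

theorem nrm_nonneg (v : V → ℝ) : 0 ≤ nrm v := Finset.sum_nonneg fun _ _ => abs_nonneg _

theorem psi_bound {κ : ℝ} (hF : ∀ y p, 0 < F y p) (hκ : ∀ y p q, F y p ≤ κ * F y q)
    {cs : List E} {k : E} {x : E → ℤ} {v : V → ℝ}
    (hlc : ∀ s : ℕ, csum m (fun y => F y (Y k)) cs (x + Pi.single k (s : ℤ)) *
      csum m (fun y => F y (Y k)) cs (x + Pi.single k ((s + 2 : ℕ) : ℤ)) ≤
      csum m (fun y => F y (Y k)) cs (x + Pi.single k ((s + 1 : ℕ) : ℤ)) ^ 2)
    (hbal : Bal m F (k :: cs) x v) (s : ℕ) (hs : s ≤ m + 1) :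
    |psi m Y F cs k x v s| ≤ κ * (m + 1) * nrm v := by
  set H : ℕ → ℝ := fun s => csum m (fun y => F y (Y k)) cs (x + Pi.single k (s : ℤ)) with hH
  have hpos : ∀ s, 0 < H s := fun s => csum_pos (fun y => hF _ _) _ _
  have hκ0 : 0 ≤ κ := by
    have h1 := hF x (Y k)
    have h2 := hκ x (Y k) (Y k)
    by_contra hc
    push Not at hc
    nlinarith
  set f : ℕ → ℝ := fun t => ∑ p, v p * csum m (fun y => F y p) cs (x + Pi.single k (t : ℤ))
    with hf
  have hfb : ∀ t, |f t| ≤ κ * nrm v * H t := by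
    intro t
    calc |f t| ≤ ∑ p, |v p * csum m (fun y => F y p) cs (x + Pi.single k (t : ℤ))| :=
          Finset.abs_sum_le_sum_abs _ _
      _ ≤ ∑ p, |v p| * (κ * H t) := by
          refine Finset.sum_le_sum fun p _ => ?_
          rw [abs_mul, abs_of_nonneg (csum_nonneg (fun y => (hF y p).le) _ _)]
          refine mul_le_mul_of_nonneg_left ?_ (abs_nonneg _)
          rw [hH, ← csum_smul]
          exact csum_mono (fun y => hκ y p (Y k)) _ _
      _ = κ * nrm v * H t := by rw [← Finset.sum_mul]; unfold nrm; ring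
  have hnum : |num m F cs k x v s| ≤ κ * nrm v * ((m + 1) * H s) := by
    have hK : 0 ≤ κ * nrm v := mul_nonneg hκ0 (nrm_nonneg v)
    rcases unimodal_side hpos hlc m s hs with h | h
    · calc |num m F cs k x v s| ≤ ∑ t ∈ range s, |f t| := Finset.abs_sum_le_sum_abs _ _
        _ ≤ ∑ t ∈ range s, κ * nrm v * H t := Finset.sum_le_sum fun t _ => hfb t
        _ = κ * nrm v * ∑ t ∈ range s, H t := by rw [Finset.mul_sum]
        _ ≤ κ * nrm v * ((m + 1) * H s) := mul_le_mul_of_nonneg_left h hK
    · have h0 := num_last hbal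
      have h1 : num m F cs k x v s = - ∑ t ∈ Ico s (m + 1), f t := by
        have := Finset.sum_range_add_sum_Ico f hs
        unfold num at h0 ⊢
        rw [← this] at h0
        linarith
      rw [h1, abs_neg]
      calc |∑ t ∈ Ico s (m + 1), f t| ≤ ∑ t ∈ Ico s (m + 1), |f t| :=
            Finset.abs_sum_le_sum_abs _ _
        _ ≤ ∑ t ∈ Ico s (m + 1), κ * nrm v * H t := Finset.sum_le_sum fun t _ => hfb t
        _ = κ * nrm v * ∑ t ∈ Ico s (m + 1), H t := by rw [Finset.mul_sum]
        _ ≤ κ * nrm v * ((m + 1) * H s) := mul_le_mul_of_nonneg_left h hK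
  unfold psi
  rw [abs_div, abs_of_pos (hpos s), div_le_iff₀ (hpos s)]
  calc |num m F cs k x v s| ≤ κ * nrm v * ((m + 1) * H s) := hnum
    _ = κ * (m + 1) * nrm v * H s := by ring

theorem nrm_nxt (cs : List E) (k : E) (x : E → ℤ) (v : V → ℝ) (s : ℕ) :
    nrm (nxt m Y X F cs k x v s) ≤ nrm v + |psi m Y F cs k x v (s + 1)| + |psi m Y F cs k x v s| := by
  unfold nrm nxt
  calc ∑ p, |v p - psi m Y F cs k x v (s + 1) * (if p = X k then 1 else 0)
        + psi m Y F cs k x v s * (if p = Y k then 1 else 0)|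
      ≤ ∑ p, (|v p| + |psi m Y F cs k x v (s + 1)| * (if p = X k then 1 else 0)
        + |psi m Y F cs k x v s| * (if p = Y k then 1 else 0)) := by
        refine Finset.sum_le_sum fun p _ => ?_
        refine (abs_add_le _ _).trans (add_le_add ((abs_sub _ _).trans (add_le_add le_rfl ?_)) ?_)
        · rw [abs_mul]; split_ifs <;> simp
        · rw [abs_mul]; split_ifs <;> simp
    _ = _ := by
        simp only [Finset.sum_add_distrib, ← Finset.mul_sum, Finset.sum_ite_eq', Finset.mem_univ,
          if_true, mul_one]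

/-- **crude bound**: the velocities never exceed `(1 + 2κ(m+1))^{#cs}` times the root velocity -/
theorem en_crude {κ : ℝ} (hF : ∀ y p, 0 < F y p) (hκ : ∀ y p q, F y p ≤ κ * F y q)
    (hinv : ∀ k y, F y (X k) = F (y + Pi.single k 1) (Y k))
    (hlc : ∀ (cs : List E) (k : E) (x : E → ℤ), csum m (fun y => F y (Y k)) cs x *
      csum m (fun y => F y (Y k)) cs (x + Pi.single k 1 + Pi.single k 1) ≤
      csum m (fun y => F y (Y k)) cs (x + Pi.single k 1) ^ 2)
    {G : (E → ℤ) → ℝ} (hG : ∀ y, 0 ≤ G y) (cs : List E) (x : E → ℤ) (v : V → ℝ)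
    (hbal : Bal m F cs x v) :
    en m Y X F (fun y v => nrm v ^ 2 * G y) cs x v ≤
      ((1 + 2 * κ * (m + 1)) ^ cs.length * nrm v) ^ 2 * csum m G cs x := by
  induction cs generalizing x v with
  | nil => simp
  | cons k cs ih =>
    have hκ0 : 0 ≤ κ := by
      have h1 := hF x (Y k)
      have h2 := hκ x (Y k) (Y k)
      by_contra hc
      push Not at hc
      nlinarith
    rw [en_cons, csum_cons, Finset.mul_sum]
    refine Finset.sum_le_sum fun s hs => ?_
    have hs' : s + 1 ≤ m + 1 := Finset.mem_range.1 hs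
    refine (ih _ _ (bal_nxt (fun y => hF y _) (fun y => hinv k y) s)).trans ?_
    refine mul_le_mul_of_nonneg_right ?_ (csum_nonneg hG _ _)
    have hlc' : ∀ s : ℕ, csum m (fun y => F y (Y k)) cs (x + Pi.single k (s : ℤ)) *
      csum m (fun y => F y (Y k)) cs (x + Pi.single k ((s + 2 : ℕ) : ℤ)) ≤
      csum m (fun y => F y (Y k)) cs (x + Pi.single k ((s + 1 : ℕ) : ℤ)) ^ 2 := by
      intro s
      have := hlc cs k (x + Pi.single k (s : ℤ))
      rw [show x + Pi.single k (s : ℤ) + Pi.single k 1 = x + Pi.single k ((s + 1 : ℕ) : ℤ) by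
        rw [single_succ, add_assoc]] at this
      rwa [show x + Pi.single k ((s + 1 : ℕ) : ℤ) + Pi.single k 1 =
        x + Pi.single k ((s + 2 : ℕ) : ℤ) by
        rw [show s + 2 = (s + 1) + 1 from rfl, single_succ k (s + 1), add_assoc]] at this
    have b1 := psi_bound hF hκ hlc' hbal (s + 1) hs'
    have b2 := psi_bound hF hκ hlc' hbal s (by omega)
    have hn := nrm_nxt (m := m) (X := X) (Y := Y) (F := F) cs k x v s
    have h3 : nrm (nxt m Y X F cs k x v s) ≤ (1 + 2 * κ * (m + 1)) * nrm v := by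
      linarith
    have h4 : 0 ≤ 1 + 2 * κ * ((m : ℝ) + 1) := by positivity
    have h5 : (1 + 2 * κ * ((m : ℝ) + 1)) ^ cs.length * nrm (nxt m Y X F cs k x v s) ≤
        (1 + 2 * κ * ((m : ℝ) + 1)) ^ (k :: cs).length * nrm v := by
      rw [List.length_cons, pow_succ, mul_assoc ((1 + 2 * κ * ((m : ℝ) + 1)) ^ cs.length)]
      exact mul_le_mul_of_nonneg_left h3 (pow_nonneg h4 _)
    exact pow_le_pow_left₀ (mul_nonneg (pow_nonneg h4 _) (nrm_nonneg _)) h5 2

end Crude

end Crest.Agent.R302.T893
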