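import Crest.Agent.R302.MSP893B
import Crest.Agent.R302.Tree550

/-!
R302 (helper893): stage theorem, part 1: the flow at the root of a stage, Cauchy-Schwarz for leaf
sums, the difference of conditional means, the transport of the test functionals.
-/

set_option autoImplicit false
set_option linter.unusedSectionVars false

namespace Crest.Agent.R302.T893

open Finset Lor
open Crest.Agent.R302.Tree (RTree)

variable {V E : Type*} [Fintype V] [DecidableEq V] [DecidableEq E]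

theorem sq_le_of_disc {A B C : ℝ} (h : ∀ s : ℝ, 0 ≤ A - 2 * s * B + s ^ 2 * C) : B ^ 2 ≤ A * C := by
  have h1 : ∀ s : ℝ, 0 ≤ C * (s * s) + (-2 * B) * s + A := fun s => by
    have := h s; nlinarith
  have h2 := discrim_le_zero h1
  unfold discrim at h2
  nlinarith

section Stage

variable {m : ℕ} {X Y : E → V} {F : (V → ℤ) → ℝ} {γ : (E → ℤ) → V → ℤ}

/-- one-token weights: cell `i` misses one unit, a token sits at `q` -/
def F1 (Y : E → V) (F : (V → ℤ) → ℝ) (γ : (E → ℤ) → V → ℤ) (i : E) (y : E → ℤ) (q : V) : ℝ :=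
  F (γ y - ev (Y i) + ev q)

theorem F1_pos (hF : ∀ δ, 0 < F δ) (i : E) (y : E → ℤ) (q : V) : 0 < F1 Y F γ i y q := hF _

theorem F1_inv (hγ : ∀ y k, γ (y + Pi.single k 1) = γ y + ev (X k) - ev (Y k)) (i k : E)
    (y : E → ℤ) : F1 Y F γ i y (X k) = F1 Y F γ i (y + Pi.single k 1) (Y k) := by
  unfold F1
  rw [hγ]
  congr 1
  abel

theorem F1_Y (i : E) (y : E → ℤ) : F1 Y F γ i y (Y i) = F (γ y) := by
  unfold F1
  congr 1
  abel

theorem F1_X (hγ : ∀ y k, γ (y + Pi.single k 1) = γ y + ev (X k) - ev (Y k)) (i : E)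
    (y : E → ℤ) : F1 Y F γ i y (X i) = F (γ (y + Pi.single i 1)) := by
  rw [F1_inv hγ, F1_Y]

/-- weight of content `a` of cell `i` -/
noncomputable def zz (m : ℕ) (F : (V → ℤ) → ℝ) (γ : (E → ℤ) → V → ℤ) (i : E) (cs : List E)
    (x : E → ℤ) (a : ℕ) : ℝ := csum m (fun y => F (γ y)) cs (x + Pi.single i (a : ℤ))

theorem zz_pos (hF : ∀ δ, 0 < F δ) (i : E) (cs : List E) (x : E → ℤ) (a : ℕ) :
    0 < zz m F γ i cs x a := csum_pos (fun _ => hF _) _ _

/-- the velocity at the root of a stage -/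
noncomputable def vel (m : ℕ) (X Y : E → V) (F : (V → ℤ) → ℝ) (γ : (E → ℤ) → V → ℤ) (i : E)
    (cs : List E) (x : E → ℤ) (a : ℕ) : V → ℝ :=
  (zz m F γ i cs x a)⁻¹ • uv (Y i) - (zz m F γ i cs x (a + 1))⁻¹ • uv (X i)

theorem sum_vel (i : E) (cs : List E) (x : E → ℤ) (a : ℕ) (g : V → ℝ) :
    ∑ p, vel m X Y F γ i cs x a p * g p =
      (zz m F γ i cs x a)⁻¹ * g (Y i) - (zz m F γ i cs x (a + 1))⁻¹ * g (X i) := by
  simp only [vel, Pi.sub_apply, Pi.smul_apply, smul_eq_mul, sub_mul, mul_assoc,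
        Finset.sum_sub_distrib, ← Finset.mul_sum, sum_uv]

theorem bal_vel (hF : ∀ δ, 0 < F δ)
    (hγ : ∀ y k, γ (y + Pi.single k 1) = γ y + ev (X k) - ev (Y k)) (i : E) (cs : List E)
    (x : E → ℤ) (a : ℕ) :
    Bal m (F1 Y F γ i) cs (x + Pi.single i (a : ℤ)) (vel m X Y F γ i cs x a) := by
  unfold Bal
  rw [sum_vel]
  have e0 : csum m (fun y => F1 Y F γ i y (Y i)) cs (x + Pi.single i (a : ℤ)) =
      zz m F γ i cs x a := csum_congr (fun y => F1_Y i y) _ _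
  have e1 : csum m (fun y => F1 Y F γ i y (X i)) cs (x + Pi.single i (a : ℤ)) =
      zz m F γ i cs x (a + 1) := by
    unfold zz
    exact csum_inv (G := fun y => F1 Y F γ i y (X i)) (G' := fun y => F (γ y))
      (fun y => F1_X hγ i y) cs x a
  rw [e0, e1, inv_mul_cancel₀ (zz_pos hF _ _ _ _).ne', inv_mul_cancel₀ (zz_pos hF _ _ _ _).ne',
    sub_self]

/-- leaf sums of a stage -/
noncomputable def leaf (m : ℕ) (X Y : E → V) (F : (V → ℤ) → ℝ) (γ : (E → ℤ) → V → ℤ) (i : E)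
    (cs : List E) (x : E → ℤ) (a : ℕ) (Φ : (E → ℤ) → (V → ℝ) → ℝ) : ℝ :=
  en m Y X (F1 Y F γ i) Φ cs (x + Pi.single i (a : ℤ)) (vel m X Y F γ i cs x a)

theorem leaf_add (i : E) (cs : List E) (x : E → ℤ) (a : ℕ) (Φ Φ' : (E → ℤ) → (V → ℝ) → ℝ) :
    leaf m X Y F γ i cs x a (fun y v => Φ y v + Φ' y v) =
      leaf m X Y F γ i cs x a Φ + leaf m X Y F γ i cs x a Φ' := en_add _ _ _ _ _

theorem leaf_smul (i : E) (cs : List E) (x : E → ℤ) (a : ℕ) (c : ℝ)
    (Φ : (E → ℤ) → (V → ℝ) → ℝ) :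
    leaf m X Y F γ i cs x a (fun y v => c * Φ y v) = c * leaf m X Y F γ i cs x a Φ :=
  en_smul _ _ _ _ _

theorem leaf_sum {ι : Type*} (t : Finset ι) (i : E) (cs : List E) (x : E → ℤ) (a : ℕ)
    (Φ : ι → (E → ℤ) → (V → ℝ) → ℝ) :
    leaf m X Y F γ i cs x a (fun y v => ∑ j ∈ t, Φ j y v) =
      ∑ j ∈ t, leaf m X Y F γ i cs x a (Φ j) := en_sum _ _ _ _ _

theorem leaf_nonneg (i : E) (cs : List E) (x : E → ℤ) (a : ℕ)
    {Φ : (E → ℤ) → (V → ℝ) → ℝ} (h : ∀ y v, 0 ≤ Φ y v) : 0 ≤ leaf m X Y F γ i cs x a Φ :=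
  en_nonneg h _ _ _

theorem leaf_mono (hF : ∀ δ, 0 < F δ)
    (hγ : ∀ y k, γ (y + Pi.single k 1) = γ y + ev (X k) - ev (Y k)) (i : E) (cs : List E)
    (x : E → ℤ) (a : ℕ) {Φ Φ' : (E → ℤ) → (V → ℝ) → ℝ}
    (h : ∀ y v, ∑ p, v p * F1 Y F γ i y p = 0 → Φ y v ≤ Φ' y v) :
    leaf m X Y F γ i cs x a Φ ≤ leaf m X Y F γ i cs x a Φ' :=
  en_mono (fun k _ y => F1_pos hF i y _) (fun k _ y => F1_inv hγ i k y) h (bal_vel hF hγ i cs x a)

theorem leaf_congr (hF : ∀ δ, 0 < F δ)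
    (hγ : ∀ y k, γ (y + Pi.single k 1) = γ y + ev (X k) - ev (Y k)) (i : E) (cs : List E)
    (x : E → ℤ) (a : ℕ) {Φ Φ' : (E → ℤ) → (V → ℝ) → ℝ}
    (h : ∀ y v, ∑ p, v p * F1 Y F γ i y p = 0 → Φ y v = Φ' y v) :
    leaf m X Y F γ i cs x a Φ = leaf m X Y F γ i cs x a Φ' :=
  le_antisymm (leaf_mono hF hγ i cs x a fun y v hv => (h y v hv).le)
    (leaf_mono hF hγ i cs x a fun y v hv => (h y v hv).ge)

theorem leaf_const (i : E) (cs : List E) (x : E → ℤ) (a : ℕ) (G : (E → ℤ) → ℝ) :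
    leaf m X Y F γ i cs x a (fun y _ => G y) = csum m G cs (x + Pi.single i (a : ℤ)) :=
  en_const _ _ _ _

/-- transport -/
theorem leaf_lin (hF : ∀ δ, 0 < F δ)
    (hγ : ∀ y k, γ (y + Pi.single k 1) = γ y + ev (X k) - ev (Y k)) (i : E) (cs : List E)
    (x : E → ℤ) (a : ℕ) {G : (E → ℤ) → V → ℝ}
    (hG : ∀ k ∈ cs, ∀ y, G y (X k) = G (y + Pi.single k 1) (Y k)) :
    leaf m X Y F γ i cs x a (fun y v => ∑ p, v p * G y p) =
      (zz m F γ i cs x a)⁻¹ * csum m (fun y => G y (Y i)) cs (x + Pi.single i (a : ℤ)) -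
      (zz m F γ i cs x (a + 1))⁻¹ * csum m (fun y => G y (X i)) cs (x + Pi.single i (a : ℤ)) := by
  unfold leaf
  rw [en_lin (fun k _ y => F1_pos hF i y _) (fun k _ y => F1_inv hγ i k y) hG
    (bal_vel hF hγ i cs x a), sum_vel]

/-- conservation law -/
theorem leaf_quad (hF : ∀ δ, 0 < F δ)
    (hγ : ∀ y k, γ (y + Pi.single k 1) = γ y + ev (X k) - ev (Y k)) (i : E) (cs : List E)
    (x : E → ℤ) (a : ℕ) {G : (E → ℤ) → V → V → ℝ}
    (hG0 : ∀ y p q, 0 ≤ G y p q) (hGs : ∀ y p q, G y p q = G y q p)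
    (hG : ∀ k y q, G y (X k) q = G (y + Pi.single k 1) (Y k) q) :
    leaf m X Y F γ i cs x a (fun y v => - Q (fun p q => G y p q) v v) ≤
      -(csum m (fun y => G y (Y i) (Y i)) cs (x + Pi.single i (a : ℤ))) / zz m F γ i cs x a ^ 2
      + 2 * csum m (fun y => G y (Y i) (Y i)) cs (x + Pi.single i ((a + 1 : ℕ) : ℤ)) /
        (zz m F γ i cs x a * zz m F γ i cs x (a + 1))
      - csum m (fun y => G y (Y i) (Y i)) cs (x + Pi.single i ((a + 2 : ℕ) : ℤ)) /
        zz m F γ i cs x (a + 1) ^ 2 := by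
  have h1 := en_quad (m := m) (F := F1 Y F γ i) (X := X) (Y := Y) (cs := cs)
    (fun k _ y => F1_pos hF i y _)
    (fun k _ y => F1_inv hγ i k y) hG0 hGs (fun k _ y q => hG k y q) (bal_vel hF hγ i cs x a)
  have h2 : leaf m X Y F γ i cs x a (fun y v => - Q (fun p q => G y p q) v v) =
      - leaf m X Y F γ i cs x a (fun y v => Q (fun p q => G y p q) v v) := by
    have := leaf_smul (m := m) (X := X) (Y := Y) (F := F) (γ := γ) i cs x a (-1)
      (fun y v => Q (fun p q => G y p q) v v)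
    simpa using this
  rw [h2]
  have h3 : Q (fun p q => csum m (fun y => G y p q) cs (x + Pi.single i (a : ℤ)))
      (vel m X Y F γ i cs x a) (vel m X Y F γ i cs x a) =
      csum m (fun y => G y (Y i) (Y i)) cs (x + Pi.single i (a : ℤ)) / zz m F γ i cs x a ^ 2
      - 2 * csum m (fun y => G y (Y i) (Y i)) cs (x + Pi.single i ((a + 1 : ℕ) : ℤ)) /
        (zz m F γ i cs x a * zz m F γ i cs x (a + 1))
      + csum m (fun y => G y (Y i) (Y i)) cs (x + Pi.single i ((a + 2 : ℕ) : ℤ)) /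
        zz m F γ i cs x (a + 1) ^ 2 := by
    unfold vel
    rw [Q_two (fun p q => csum_congr (fun y => hGs y p q) cs _)]
    have eYX : csum m (fun y => G y (Y i) (X i)) cs (x + Pi.single i (a : ℤ)) =
        csum m (fun y => G y (Y i) (Y i)) cs (x + Pi.single i ((a + 1 : ℕ) : ℤ)) := by
      rw [csum_congr (fun y => hGs y (Y i) (X i))]
      exact csum_inv (G := fun y => G y (X i) (Y i)) (G' := fun y => G y (Y i) (Y i))
        (fun y => hG i y (Y i)) cs x a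
    have eXX : csum m (fun y => G y (X i) (X i)) cs (x + Pi.single i (a : ℤ)) =
        csum m (fun y => G y (Y i) (Y i)) cs (x + Pi.single i ((a + 2 : ℕ) : ℤ)) := by
      rw [csum_inv (G := fun y => G y (X i) (X i)) (G' := fun y => G y (Y i) (X i))
        (fun y => hG i y (X i)) cs x a]
      rw [csum_congr (fun y => hGs y (Y i) (X i))]
      exact csum_inv (G := fun y => G y (X i) (Y i)) (G' := fun y => G y (Y i) (Y i))
        (fun y => hG i y (Y i)) cs x (a + 1)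
    rw [eYX, eXX]
    have p0 := (zz_pos (m := m) (γ := γ) hF i cs x a).ne'
    have p1 := (zz_pos (m := m) (γ := γ) hF i cs x (a + 1)).ne'
    field_simp
  rw [h3] at h1
  have h4 : leaf m X Y F γ i cs x a (fun y v => Q (fun p q => G y p q) v v) =
      en m Y X (F1 Y F γ i) (fun y v => Q (fun p q => G y p q) v v) cs
        (x + Pi.single i (a : ℤ)) (vel m X Y F γ i cs x a) := rfl
  rw [h4]
  have e5 : ∀ A B : ℝ, -A / B = -(A / B) := fun A B => neg_div _ _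
  rw [e5]
  linarith

/-- Cauchy-Schwarz over `a` and the leaves -/
theorem leaf_cs (hF : ∀ δ, 0 < F δ) (i : E) (cs : List E)
    (x : E → ℤ) (s : Finset ℕ) (t : ℕ → ℝ) (K : (E → ℤ) → (V → ℝ) → ℝ) (W : (E → ℤ) → ℝ)
    (hW : ∀ y, 0 < W y) (D : (E → ℤ) → ℝ) :
    (∑ a ∈ s, t a * leaf m X Y F γ i cs x a (fun y v => K y v * D y)) ^ 2 ≤
      (∑ a ∈ s, t a ^ 2 * leaf m X Y F γ i cs x a (fun y v => K y v ^ 2 / W y)) *
      (∑ a ∈ s, csum m (fun y => W y * D y ^ 2) cs (x + Pi.single i (a : ℤ))) := by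
  refine sq_le_of_disc fun u => ?_
  have h1 : ∀ a ∈ s, t a ^ 2 * leaf m X Y F γ i cs x a (fun y v => K y v ^ 2 / W y)
      - 2 * u * (t a * leaf m X Y F γ i cs x a (fun y v => K y v * D y))
      + u ^ 2 * csum m (fun y => W y * D y ^ 2) cs (x + Pi.single i (a : ℤ)) =
      leaf m X Y F γ i cs x a (fun y v => W y * (t a * (K y v / W y) - u * D y) ^ 2) := by
    intro a _
    rw [← leaf_const (X := X) (Y := Y) (F := F) (γ := γ) i cs x a (fun y => W y * D y ^ 2)]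
    have e0 : leaf m X Y F γ i cs x a
        (fun y v => W y * (t a * (K y v / W y) - u * D y) ^ 2) =
        leaf m X Y F γ i cs x a (fun y v => (t a ^ 2 * (K y v ^ 2 / W y)
          + (-(2 * u * t a)) * (K y v * D y)) + u ^ 2 * (W y * D y ^ 2)) := by
      congr 1
      funext y v
      have := (hW y).ne'
      field_simp
      ring
    rw [e0, leaf_add, leaf_add, leaf_smul, leaf_smul, leaf_smul]
    ring
  rw [Finset.mul_sum, Finset.mul_sum, ← Finset.sum_sub_distrib, ← Finset.sum_add_distrib,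
    Finset.sum_congr rfl h1]
  exact Finset.sum_nonneg fun a _ => leaf_nonneg i cs x a fun y v =>
    mul_nonneg (hW y).le (sq_nonneg _)

end Stage

end Crest.Agent.R302.T893
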