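import Crest.Agent.R302.MSP893C
import Crest.Agent.R302.Cut550
import Crest.Agent.R302.OneD675

/-!
R302 (helper893): stage theorem, part 2: the energies `X_p`, their inequality, the increments of
`r_a / z_a`, the variance bound and the crude tail.
-/

set_option autoImplicit false
set_option linter.unusedSectionVars false
set_option linter.unusedVariables false

namespace Crest.Agent.R302.T893

open Finset Lor
open Crest.Agent.R302.Tree (RTree)
open Crest.Agent.R302.Cut (cw ind dvec)

variable {V E : Type*} [Fintype V] [DecidableEq V] [DecidableEq E]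

/-- the level functional of the cut `C_p` -/
noncomputable def lev (T : RTree V) (p : V) (δ : V → ℤ) : ℝ := ((∑ r ∈ T.desc p, δ r : ℤ) : ℝ)

theorem lev_add (T : RTree V) (p : V) (δ δ' : V → ℤ) :
    lev T p (δ + δ') = lev T p δ + lev T p δ' := by
  unfold lev
  rw [← Int.cast_add, ← Finset.sum_add_distrib]
  rfl

theorem lev_ev (T : RTree V) (p q : V) : lev T p (ev q) = ind (T.desc p) q := by
  unfold lev ind ev
  rw [Finset.sum_pi_single']
  split_ifs <;> simp

theorem lev_add_ev (T : RTree V) (p q : V) (δ : V → ℤ) :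
    lev T p (δ + ev q) = lev T p δ + ind (T.desc p) q := by
  rw [lev_add, lev_ev]

section Stage2

variable {m : ℕ} {X Y : E → V} {F : (V → ℤ) → ℝ} {γ : (E → ℤ) → V → ℤ}

/-- flux through the tree edge below `p` -/
noncomputable def Kf (T : RTree V) (Y : E → V) (F : (V → ℤ) → ℝ) (γ : (E → ℤ) → V → ℤ) (i : E)
    (p : V) (y : E → ℤ) (v : V → ℝ) : ℝ := T.cut (fun q => v q * F1 Y F γ i y q) p

/-- energy of the flux -/
noncomputable def En (m : ℕ) (X Y : E → V) (F : (V → ℤ) → ℝ) (γ : (E → ℤ) → V → ℤ) (T : RTree V)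
    (i : E) (cs : List E) (x : E → ℤ) (p : V) (a : ℕ) : ℝ :=
  leaf m X Y F γ i cs x a (fun y v => Kf T Y F γ i p y v ^ 2 / F1 Y F γ i y p)

theorem En_nonneg (hF : ∀ δ, 0 < F δ) (T : RTree V) (i : E) (cs : List E) (x : E → ℤ) (p : V)
    (a : ℕ) : 0 ≤ En m X Y F γ T i cs x p a :=
  leaf_nonneg i cs x a fun y _ => div_nonneg (sq_nonneg _) (F1_pos hF i y p).le

/-- energy of the flux near the window boundary -/
noncomputable def EnT (m : ℕ) (X Y : E → V) (F : (V → ℤ) → ℝ) (γ : (E → ℤ) → V → ℤ) (T : RTree V)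
    (L c : V → ℝ) (i : E) (cs : List E) (x : E → ℤ) (p : V) (a : ℕ) : ℝ :=
  leaf m X Y F γ i cs x a (fun y v =>
    if |lev T p (γ y - ev (Y i)) + 1 - c p| ≤ L p - 1 then 0
    else Kf T Y F γ i p y v ^ 2 / F1 Y F γ i y p)

/-- the windowed two-token functional -/
noncomputable def G2 (Y : E → V) (F : (V → ℤ) → ℝ) (γ : (E → ℤ) → V → ℤ) (T : RTree V)
    (L c : V → ℝ) (i : E) (p : V) (y : E → ℤ) (q q' : V) : ℝ :=
  cw (L p) (c p) (lev T p (γ y - ev (Y i) + ev q + ev q')) *
    F (γ y - ev (Y i) - ev p + ev q + ev q')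

/-- root functional `r_a` -/
noncomputable def rr (m : ℕ) (Y : E → V) (F : (V → ℤ) → ℝ) (γ : (E → ℤ) → V → ℤ) (T : RTree V)
    (L c : V → ℝ) (i : E) (cs : List E) (x : E → ℤ) (p : V) (a : ℕ) : ℝ :=
  csum m (fun y => G2 Y F γ T L c i p y (Y i) (Y i)) cs (x + Pi.single i (a : ℤ))

variable (hF : ∀ δ, 0 < F δ) (hAF : ∀ δ, AF (fun p q => F (δ + ev p + ev q)))
  (hγ : ∀ y k, γ (y + Pi.single k 1) = γ y + ev (X k) - ev (Y k))
  {κ : ℝ} (hκ : ∀ δ p q, F (δ + ev p) ≤ κ * F (δ + ev q))
  (T : RTree V) {L c b s : V → ℝ} (hL : ∀ p, 1 ≤ L p)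
  (hs0 : ∀ q, 0 ≤ s q)
  (hs : ∀ p, ∀ q ∈ T.desc p, q ≠ p → ∀ δ : V → ℤ,
    -Q (fun a b => F (δ - ev p + ev a + ev b))
      (dvec (fun q => F (δ + ev q)) q (T.par q))
      (dvec (fun q => F (δ + ev q)) q (T.par q)) ≤ s q / F (δ + ev q))
  (hb0 : ∀ q, 0 ≤ b q)
  (hb : ∀ q, q ≠ T.root → ∀ δ : V → ℤ,
    |F (δ + ev q) - F (δ + ev (T.par q))| ≤ b q * F (δ + ev (T.par q)))

include hF hAF hγ hL hs0 hs in
/-- the energy inequality at fixed `a` -/
theorem En_le (i : E) (cs : List E) (x : E → ℤ) (p : V) (a : ℕ) :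
    2 * En m X Y F γ T i cs x p a ≤
      (-(rr m Y F γ T L c i cs x p a) / zz m F γ i cs x a ^ 2
        + 2 * rr m Y F γ T L c i cs x p (a + 1) /
          (zz m F γ i cs x a * zz m F γ i cs x (a + 1))
        - rr m Y F γ T L c i cs x p (a + 2) / zz m F γ i cs x (a + 1) ^ 2)
      + 6 * (Fintype.card V * ∑ q ∈ (T.desc p).erase p, s q * En m X Y F γ T i cs x q a)
      + (2 * L p + 2) * EnT m X Y F γ T L c i cs x p a := by
  have h1 : leaf m X Y F γ i cs x a (fun y v => 2 * (Kf T Y F γ i p y v ^ 2 / F1 Y F γ i y p)) ≤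
      leaf m X Y F γ i cs x a (fun y v => ((- Q (fun q q' => G2 Y F γ T L c i p y q q') v v)
        + 6 * (Fintype.card V * ∑ q ∈ (T.desc p).erase p,
            s q * (Kf T Y F γ i q y v ^ 2 / F1 Y F γ i y q)))
        + (2 * L p + 2) * (if |lev T p (γ y - ev (Y i)) + 1 - c p| ≤ L p - 1 then 0
            else Kf T Y F γ i p y v ^ 2 / F1 Y F γ i y p)) := by
    refine leaf_mono hF hγ i cs x a ?_
    intro y v hv
    have hA : ∀ q, F (γ y - ev (Y i) - ev p + ev p + ev q) = F1 Y F γ i y q := by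
      intro q
      unfold F1
      congr 1
      abel
    have h := Cut.cut_lemma_cw T (A := fun q q' => F (γ y - ev (Y i) - ev p + ev q + ev q'))
      (fun q q' => by show F _ = F _; congr 1; abel) (hAF _) p (fun q => hF _) v
      (by simp only [hA]; exact hv) (hL p) (c p) (lev T p (γ y - ev (Y i))) s hs0
      (fun q hq hqp => by
        have := hs p q hq hqp (γ y - ev (Y i))
        simp only [hA]
        exact this)
      (fun q q' => G2 Y F γ T L c i p y q q')
      (fun q q' => by simp only [G2, lev_add_ev])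
    simp only [hA] at h
    unfold Kf
    have e : (2 * L p + 2) * (if |lev T p (γ y - ev (Y i)) + 1 - c p| ≤ L p - 1 then 0
            else T.cut (fun q => v q * F1 Y F γ i y q) p ^ 2 / F1 Y F γ i y p) =
        (if |lev T p (γ y - ev (Y i)) + 1 - c p| ≤ L p - 1 then 0
            else (2 * L p + 2) *
              (T.cut (fun q => v q * F1 Y F γ i y q) p ^ 2 / F1 Y F γ i y p)) := by
      split_ifs
      · ring
      · ring
    rw [e]
    exact h
  have h2 := leaf_quad (m := m) (X := X) (Y := Y) (F := F) (γ := γ) hF hγ i cs x a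
    (G := fun y q q' => G2 Y F γ T L c i p y q q')
    (fun y q q' => mul_nonneg (Cut.cw_pos (by linarith [hL p]) _ _).le (hF _).le)
    (fun y q q' => by
      unfold G2
      rw [show γ y - ev (Y i) + ev q + ev q' = γ y - ev (Y i) + ev q' + ev q by abel,
        show γ y - ev (Y i) - ev p + ev q + ev q' = γ y - ev (Y i) - ev p + ev q' + ev q by abel])
    (fun k y q => by
      unfold G2
      rw [hγ, show γ y - ev (Y i) + ev (X k) + ev q =
          γ y + ev (X k) - ev (Y k) - ev (Y i) + ev (Y k) + ev q by abel,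
        show γ y - ev (Y i) - ev p + ev (X k) + ev q =
          γ y + ev (X k) - ev (Y k) - ev (Y i) - ev p + ev (Y k) + ev q by abel])
  rw [leaf_smul] at h1
  rw [leaf_add, leaf_add, leaf_smul, leaf_smul, leaf_smul, leaf_sum] at h1
  have h3 : ∀ q ∈ (T.desc p).erase p, leaf m X Y F γ i cs x a
      (fun y v => s q * (Kf T Y F γ i q y v ^ 2 / F1 Y F γ i y q)) =
      s q * En m X Y F γ T i cs x q a := fun q _ => leaf_smul _ _ _ _ _ _
  rw [Finset.sum_congr rfl h3] at h1
  have h4 : leaf m X Y F γ i cs x a (fun y v => Kf T Y F γ i p y v ^ 2 / F1 Y F γ i y p) =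
    En m X Y F γ T i cs x p a := rfl
  have h5 : leaf m X Y F γ i cs x a (fun y v =>
    if |lev T p (γ y - ev (Y i)) + 1 - c p| ≤ L p - 1 then 0
    else Kf T Y F γ i p y v ^ 2 / F1 Y F γ i y p) = EnT m X Y F γ T L c i cs x p a := rfl
  rw [h4, h5] at h1
  unfold rr
  linarith

theorem ind_par {q p : V} (hq : q ≠ T.root) (hqp : q ≠ p) :
    ind (T.desc p) q = ind (T.desc p) (T.par q) := by
  unfold ind
  by_cases h : q ∈ T.desc p
  · rw [if_pos h, if_pos (RTree.mem_desc_par h hqp)]
  · rw [if_neg h, if_neg (fun h' => h (RTree.mem_desc_of_par hq h'))]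

theorem ind_par_self {p : V} (hp : p ≠ T.root) :
    ind (T.desc p) p = 1 ∧ ind (T.desc p) (T.par p) = 0 := by
  unfold ind
  refine ⟨if_pos (RTree.self_mem_desc p), if_neg fun h => ?_⟩
  have h1 := (RTree.mem_desc.1 h).dep_le
  have h2 := T.dep_lt p hp
  omega

/-- increments of the test functional along a tree edge -/
theorem incr_le {w w' ρ' b κ U : ℝ} {f f' g g' : ℝ} (hf : 0 < f) (hf' : 0 < f') (hg : 0 < g)
    (hg' : 0 < g') (h1 : |f - f'| ≤ b * f') (h2 : |g - g'| ≤ b * g')
    (hb : 0 ≤ b) (h3 : f' ≤ κ * g') (h4 : g' ≤ κ * g) (hw0 : 0 ≤ w) (hwU : w ≤ U) :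
    |w * (f / g) - w' * (f' / g')| ≤ U * (2 * b * κ ^ 2) + κ * |w - w'| := by
  have hκ : 0 < κ := by
    by_contra hc
    push Not at hc
    have := mul_nonpos_of_nonpos_of_nonneg hc hg.le
    linarith
  have e : w * (f / g) - w' * (f' / g') = w * (f / g - f' / g') + (f' / g') * (w - w') := by ring
  have h5 : f' / g' ≤ κ := by rw [div_le_iff₀ hg']; exact h3
  have h6 : |f / g - f' / g'| ≤ 2 * b * κ ^ 2 := by
    have e2 : f / g - f' / g' = ((f - f') * g' - f' * (g - g')) / (g * g') := by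
      field_simp
      ring
    rw [e2, abs_div, abs_of_pos (mul_pos hg hg'), div_le_iff₀ (mul_pos hg hg')]
    calc |(f - f') * g' - f' * (g - g')| ≤ |(f - f') * g'| + |f' * (g - g')| := abs_sub _ _
      _ = |f - f'| * g' + f' * |g - g'| := by
          rw [abs_mul, abs_mul, abs_of_pos hg', abs_of_pos hf']
      _ ≤ (b * f') * g' + f' * (b * g') := by gcongr
      _ = 2 * b * (f' * g') := by ring
      _ ≤ 2 * b * ((κ * g') * (κ * g)) := by
          have : f' * g' ≤ (κ * g') * (κ * g) := mul_le_mul h3 h4 hg'.le (by positivity)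
          have hb' : 0 ≤ 2 * b := by positivity
          exact mul_le_mul_of_nonneg_left this hb'
      _ = 2 * b * κ ^ 2 * (g * g') := by ring
  rw [e]
  refine (abs_add_le _ _).trans (add_le_add ?_ ?_)
  · rw [abs_mul, abs_of_nonneg hw0]
    exact mul_le_mul hwU h6 (abs_nonneg _) (hw0.trans hwU)
  · rw [abs_mul, abs_of_pos (div_pos hf' hg')]
    exact mul_le_mul_of_nonneg_right h5 (abs_nonneg _)

include hF hγ hκ hL hb0 hb in
/-- the increments of `r_a / z_a` are controlled by the energies -/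
theorem rz_incr (hκ1 : 1 ≤ κ) (i : E) (cs : List E) (x : E → ℤ) (p : V) (a : ℕ) :
    (rr m Y F γ T L c i cs x p (a + 1) / zz m F γ i cs x (a + 1)
      - rr m Y F γ T L c i cs x p a / zz m F γ i cs x a) ^ 2 / zz m F γ i cs x a ≤
      Fintype.card V * κ * (2 * κ * L p ^ 2) ^ 2 *
        ∑ q ∈ univ.erase T.root, (2 * κ * b q + 1 / L q) ^ 2 * En m X Y F γ T i cs x q a := by
  set U : ℝ := 2 * κ * L p ^ 2 with hU
  set N : ℝ := (Fintype.card V : ℝ) with hN
  set G' : (E → ℤ) → V → ℝ := fun y q =>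
    cw (L p) (c p) (lev T p (γ y + ev q)) * F (γ y - ev p + ev q) with hG'
  have hinv : ∀ k y, G' y (X k) = G' (y + Pi.single k 1) (Y k) := by
    intro k y
    simp only [hG']
    rw [hγ, show γ y + ev (X k) - ev (Y k) + ev (Y k) = γ y + ev (X k) by abel,
      show γ y + ev (X k) - ev (Y k) - ev p + ev (Y k) = γ y - ev p + ev (X k) by abel]
  have hr : ∀ a' : ℕ, csum m (fun y => G' y (Y i)) cs (x + Pi.single i (a' : ℤ)) =
      rr m Y F γ T L c i cs x p a' := by
    intro a'
    unfold rr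
    refine csum_congr (fun y => ?_) _ _
    simp only [hG', G2]
    rw [show γ y - ev (Y i) + ev (Y i) + ev (Y i) = γ y + ev (Y i) by abel,
      show γ y - ev (Y i) - ev p + ev (Y i) + ev (Y i) = γ y - ev p + ev (Y i) by abel]
  have hlin := leaf_lin (m := m) (X := X) (Y := Y) (F := F) (γ := γ) hF hγ i cs x a (G := G')
    (fun k _ y => hinv k y)
  rw [hr a, csum_inv (G := fun y => G' y (X i)) (G' := fun y => G' y (Y i))
    (fun y => hinv i y) cs x a, hr (a + 1)] at hlin
  -- the increments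
  set H : (E → ℤ) → V → ℝ := fun y q =>
    cw (L p) (c p) (lev T p (γ y + ev q)) * (F (γ y - ev p + ev q) / F1 Y F γ i y q) with hH
  have hleaf : leaf m X Y F γ i cs x a (fun y v => ∑ q, v q * G' y q) =
      ∑ q ∈ univ.erase T.root,
        leaf m X Y F γ i cs x a (fun y v => Kf T Y F γ i q y v * (H y q - H y (T.par q))) := by
    rw [← leaf_sum]
    refine leaf_congr hF hγ i cs x a ?_
    intro y v hv
    have h1 : ∑ q, v q * G' y q = ∑ q, (v q * F1 Y F γ i y q) * H y q := by
      refine Finset.sum_congr rfl fun q _ => ?_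
      have := (F1_pos (Y := Y) (γ := γ) hF i y q).ne'
      simp only [hG', hH]
      field_simp
    rw [h1, RTree.sum_mul_eq' (T := T) hv]
    rfl
  -- bound of the increments of H
  have hinc : ∀ q ∈ univ.erase T.root, ∀ y, (H y q - H y (T.par q)) ^ 2 ≤
      ((2 * κ * b q + 1 / L q) * U) ^ 2 := by
    intro q hq y
    have hqr : q ≠ T.root := (Finset.mem_erase.1 hq).1
    have hLp : (0 : ℝ) < L p := by linarith [hL p]
    have hLq : (0 : ℝ) < L q := by linarith [hL q]
    have hw : |cw (L p) (c p) (lev T p (γ y + ev q)) -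
        cw (L p) (c p) (lev T p (γ y + ev (T.par q)))| ≤ 2 * L p ^ 2 * (1 / L q) := by
      by_cases hqp : q = p
      · subst hqp
        rw [lev_add_ev, lev_add_ev, (ind_par_self T hqr).1, (ind_par_self T hqr).2, add_zero]
        refine (Cut.cw_diff (hL q) _ _).trans (le_of_eq ?_)
        field_simp
      · rw [lev_add_ev, lev_add_ev, ind_par T hqr hqp, sub_self, abs_zero]
        positivity
    have h0 := incr_le (w := cw (L p) (c p) (lev T p (γ y + ev q)))
      (w' := cw (L p) (c p) (lev T p (γ y + ev (T.par q)))) (ρ' := 0) (b := b q) (κ := κ)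
      (U := 2 * L p ^ 2) (f := F (γ y - ev p + ev q)) (f' := F (γ y - ev p + ev (T.par q)))
      (g := F1 Y F γ i y q) (g' := F1 Y F γ i y (T.par q)) (hF _) (hF _) (F1_pos hF _ _ _)
      (F1_pos hF _ _ _) (hb q hqr _) (hb q hqr _) (hb0 q) ?_ ?_
      (Cut.cw_pos hLp _ _).le (Cut.cw_le _ _ _)
    · have h1 : |H y q - H y (T.par q)| ≤ (2 * κ * b q + 1 / L q) * U := by
        refine h0.trans ?_
        calc 2 * L p ^ 2 * (2 * b q * κ ^ 2) + κ * |cw (L p) (c p) (lev T p (γ y + ev q)) -
              cw (L p) (c p) (lev T p (γ y + ev (T.par q)))|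
            ≤ 2 * L p ^ 2 * (2 * b q * κ ^ 2) + κ * (2 * L p ^ 2 * (1 / L q)) := by
              gcongr
          _ = (2 * κ * b q + 1 / L q) * U := by rw [hU]; ring
      rw [← sq_abs]
      exact pow_le_pow_left₀ (abs_nonneg _) h1 2
    · -- F (γ y - ev p + ev par) ≤ κ * F1 par
      unfold F1
      have := hκ (γ y - ev p - ev (Y i) + ev (T.par q)) (Y i) p
      rw [show γ y - ev p - ev (Y i) + ev (T.par q) + ev (Y i) = γ y - ev p + ev (T.par q) by abel,
        show γ y - ev p - ev (Y i) + ev (T.par q) + ev p = γ y - ev (Y i) + ev (T.par q) by abel]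
        at this
      exact this
    · exact hκ _ _ _
  -- Cauchy-Schwarz for one a
  have hone : ∀ q ∈ univ.erase T.root,
      (leaf m X Y F γ i cs x a (fun y v => Kf T Y F γ i q y v * (H y q - H y (T.par q)))) ^ 2 ≤
      En m X Y F γ T i cs x q a * ((2 * κ * b q + 1 / L q) ^ 2 * U ^ 2 * (κ * zz m F γ i cs x a)) := by
    intro q hq
    have h1 := leaf_cs (m := m) (X := X) (Y := Y) (F := F) (γ := γ) hF i cs x {a} (fun _ => 1)
      (fun y v => Kf T Y F γ i q y v) (fun y => F1 Y F γ i y q) (fun y => F1_pos hF i y q)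
      (fun y => H y q - H y (T.par q))
    simp only [Finset.sum_singleton, one_mul, one_pow] at h1
    refine h1.trans ?_
    refine mul_le_mul_of_nonneg_left ?_ (En_nonneg hF T i cs x q a)
    calc csum m (fun y => F1 Y F γ i y q * (H y q - H y (T.par q)) ^ 2) cs
          (x + Pi.single i (a : ℤ))
        ≤ csum m (fun y => ((2 * κ * b q + 1 / L q) ^ 2 * U ^ 2 * κ) * F (γ y)) cs
          (x + Pi.single i (a : ℤ)) := by
          refine csum_mono (fun y => ?_) _ _
          have h2 := hinc q hq y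
          have h3 : F1 Y F γ i y q ≤ κ * F (γ y) := by
            rw [← F1_Y (Y := Y) (F := F) (γ := γ) i y]
            exact hκ _ _ _
          have h4 : 0 ≤ F1 Y F γ i y q := (F1_pos hF i y q).le
          calc F1 Y F γ i y q * (H y q - H y (T.par q)) ^ 2
              ≤ F1 Y F γ i y q * ((2 * κ * b q + 1 / L q) * U) ^ 2 :=
                mul_le_mul_of_nonneg_left h2 h4
            _ ≤ (κ * F (γ y)) * ((2 * κ * b q + 1 / L q) * U) ^ 2 :=
                mul_le_mul_of_nonneg_right h3 (sq_nonneg _)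
            _ = _ := by ring
      _ = (2 * κ * b q + 1 / L q) ^ 2 * U ^ 2 * (κ * zz m F γ i cs x a) := by
          rw [csum_smul]; unfold zz; ring
  have hz := zz_pos (m := m) (γ := γ) hF i cs x a
  have hz1 := zz_pos (m := m) (γ := γ) hF i cs x (a + 1)
  rw [div_le_iff₀ hz]
  have e1 : (rr m Y F γ T L c i cs x p (a + 1) / zz m F γ i cs x (a + 1)
      - rr m Y F γ T L c i cs x p a / zz m F γ i cs x a) ^ 2 =
      (∑ q ∈ univ.erase T.root,
        leaf m X Y F γ i cs x a (fun y v => Kf T Y F γ i q y v * (H y q - H y (T.par q)))) ^ 2 := by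
    rw [← hleaf, hlin]
    field_simp
    ring
  rw [e1]
  refine (sq_sum_le_card_mul_sum_sq).trans ?_
  have hcard : ((univ.erase T.root).card : ℝ) ≤ N := by
    rw [hN]
    exact_mod_cast Finset.card_le_univ _
  calc ((univ.erase T.root).card : ℝ) * ∑ q ∈ univ.erase T.root,
        (leaf m X Y F γ i cs x a
          (fun y v => Kf T Y F γ i q y v * (H y q - H y (T.par q)))) ^ 2
      ≤ N * ∑ q ∈ univ.erase T.root, En m X Y F γ T i cs x q a *
          ((2 * κ * b q + 1 / L q) ^ 2 * U ^ 2 * (κ * zz m F γ i cs x a)) := by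
        refine mul_le_mul hcard (Finset.sum_le_sum hone) (Finset.sum_nonneg fun _ _ => sq_nonneg _)
          (by rw [hN]; positivity)
    _ = N * κ * U ^ 2 * (∑ q ∈ univ.erase T.root,
          (2 * κ * b q + 1 / L q) ^ 2 * En m X Y F γ T i cs x q a) * zz m F γ i cs x a := by
        rw [Finset.mul_sum, Finset.mul_sum, Finset.sum_mul]
        refine Finset.sum_congr rfl fun q _ => ?_
        ring

end Stage2

end Crest.Agent.R302.T893
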