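import Crest.Agent.R302.MSP893D

/-!
R302 (helper893): stage theorem, part 3: summation over `a`.
-/

set_option autoImplicit false
set_option linter.unusedSectionVars false
set_option linter.unusedVariables false

namespace Crest.Agent.R302.T893

open Finset Lor
open Crest.Agent.R302.Tree (RTree)
open Crest.Agent.R302.Cut (cw ind dvec)

variable {V E : Type*} [Fintype V] [DecidableEq V] [DecidableEq E]

section Stage3

variable {m : ℕ} {X Y : E → V} {F : (V → ℤ) → ℝ} {γ : (E → ℤ) → V → ℤ}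

/-- conditional mean of `f` given content `a` of cell `i` -/
noncomputable def fb (m : ℕ) (F : (V → ℤ) → ℝ) (γ : (E → ℤ) → V → ℤ) (f : (E → ℤ) → ℝ) (i : E)
    (cs : List E) (x : E → ℤ) (a : ℕ) : ℝ :=
  csum m (fun y => F (γ y) * f y) cs (x + Pi.single i (a : ℤ)) / zz m F γ i cs x a

/-- weights `T_a` -/
noncomputable def Ta (m : ℕ) (F : (V → ℤ) → ℝ) (γ : (E → ℤ) → V → ℤ) (f : (E → ℤ) → ℝ) (i : E)
    (cs : List E) (x : E → ℤ) (a : ℕ) : ℝ := OneD.T (zz m F γ i cs x) (fb m F γ f i cs x) m a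

/-- stage variance -/
noncomputable def Va (m : ℕ) (F : (V → ℤ) → ℝ) (γ : (E → ℤ) → V → ℤ) (f : (E → ℤ) → ℝ) (i : E)
    (cs : List E) (x : E → ℤ) : ℝ := OneD.V (zz m F γ i cs x) (fb m F γ f i cs x) m

/-- summed energies -/
noncomputable def Xp (m : ℕ) (X Y : E → V) (F : (V → ℤ) → ℝ) (γ : (E → ℤ) → V → ℤ) (T : RTree V)
    (f : (E → ℤ) → ℝ) (i : E) (cs : List E) (x : E → ℤ) (p : V) : ℝ :=
  ∑ a ∈ range m, Ta m F γ f i cs x a ^ 2 * En m X Y F γ T i cs x p a

/-- summed boundary energies -/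
noncomputable def XpT (m : ℕ) (X Y : E → V) (F : (V → ℤ) → ℝ) (γ : (E → ℤ) → V → ℤ) (T : RTree V)
    (L c : V → ℝ) (f : (E → ℤ) → ℝ) (i : E) (cs : List E) (x : E → ℤ) (p : V) : ℝ :=
  ∑ a ∈ range m, Ta m F γ f i cs x a ^ 2 * EnT m X Y F γ T L c i cs x p a

/-- Dirichlet terms -/
noncomputable def Dp (m : ℕ) (Y : E → V) (F : (V → ℤ) → ℝ) (γ : (E → ℤ) → V → ℤ) (T : RTree V)
    (f : (E → ℤ) → ℝ) (R : V → E → ℤ) (i : E) (cs : List E) (x : E → ℤ) (p : V) : ℝ :=
  ∑ a ∈ range m, csum m (fun y => F1 Y F γ i y p * (f (y + R p) - f (y + R (T.par p))) ^ 2) cs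
    (x + Pi.single i (a : ℤ))

variable (hF : ∀ δ, 0 < F δ) (hAF : ∀ δ, AF (fun p q => F (δ + ev p + ev q)))
  (hγ : ∀ y k, γ (y + Pi.single k 1) = γ y + ev (X k) - ev (Y k))
  {κ : ℝ} (hκ1 : 1 ≤ κ) (hκ : ∀ δ p q, F (δ + ev p) ≤ κ * F (δ + ev q))
  (T : RTree V) {L c b s : V → ℝ} (hL : ∀ p, 1 ≤ L p)
  (hs0 : ∀ q, 0 ≤ s q)
  (hs : ∀ p, ∀ q ∈ T.desc p, q ≠ p → ∀ δ : V → ℤ,
    -Q (fun a b => F (δ - ev p + ev a + ev b))
      (dvec (fun q => F (δ + ev q)) q (T.par q))
      (dvec (fun q => F (δ + ev q)) q (T.par q)) ≤ s q / F (δ + ev q))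
  (hb0 : ∀ q, 0 ≤ b q)
  (hb : ∀ q, q ≠ T.root → ∀ δ : V → ℤ,
    |F (δ + ev q) - F (δ + ev (T.par q))| ≤ b q * F (δ + ev (T.par q)))

include hF in
theorem Va_nonneg (f : (E → ℤ) → ℝ) (i : E) (cs : List E) (x : E → ℤ) :
    0 ≤ Va m F γ f i cs x := OneD.V_nonneg fun a _ => zz_pos hF i cs x a

include hF in
theorem Xp_nonneg (f : (E → ℤ) → ℝ) (i : E) (cs : List E) (x : E → ℤ) (p : V) :
    0 ≤ Xp m X Y F γ T f i cs x p :=
  Finset.sum_nonneg fun a _ => mul_nonneg (sq_nonneg _) (En_nonneg hF T i cs x p a)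

include hF in
theorem EnT_nonneg (i : E) (cs : List E) (x : E → ℤ) (p : V) (a : ℕ) :
    0 ≤ EnT m X Y F γ T L c i cs x p a := by
  refine leaf_nonneg i cs x a fun y v => ?_
  split_ifs
  · exact le_rfl
  · exact div_nonneg (sq_nonneg _) (F1_pos hF i y p).le

include hF in
theorem XpT_nonneg (f : (E → ℤ) → ℝ) (i : E) (cs : List E) (x : E → ℤ) (p : V) :
    0 ≤ XpT m X Y F γ T L c f i cs x p :=
  Finset.sum_nonneg fun a _ => mul_nonneg (sq_nonneg _) (EnT_nonneg hF T i cs x p a)

include hF in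
theorem Dp_nonneg (f : (E → ℤ) → ℝ) (R : V → E → ℤ) (i : E) (cs : List E) (x : E → ℤ) (p : V) :
    0 ≤ Dp m Y F γ T f R i cs x p :=
  Finset.sum_nonneg fun a _ => csum_nonneg
    (fun y => mul_nonneg (F1_pos hF i y p).le (sq_nonneg _)) _ _

include hF hAF hγ hκ1 hκ hL hs0 hs hb0 hb in
/-- (h1) -/
theorem Xp_le (f : (E → ℤ) → ℝ) (i : E) (cs : List E) (x : E → ℤ) (p : V) :
    2 * Xp m X Y F γ T f i cs x p ≤
      2 * κ * L p ^ 2 * Va m F γ f i cs x
      + 2 * (√(Va m F γ f i cs x) * √(Fintype.card V * κ * (2 * κ * L p ^ 2) ^ 2 *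
          ∑ q ∈ univ.erase T.root, (2 * κ * b q + 1 / L q) ^ 2 * Xp m X Y F γ T f i cs x q))
      + 6 * (Fintype.card V * ∑ q ∈ (T.desc p).erase p, s q * Xp m X Y F γ T f i cs x q)
      + (2 * L p + 2) * XpT m X Y F γ T L c f i cs x p := by
  set t : ℕ → ℝ := Ta m F γ f i cs x with ht
  have hz : ∀ a, 0 < zz m F γ i cs x a := zz_pos hF i cs x
  have h1 : 2 * Xp m X Y F γ T f i cs x p ≤ ∑ a ∈ range m, t a ^ 2 *
      (-(rr m Y F γ T L c i cs x p a) / zz m F γ i cs x a ^ 2
        + 2 * rr m Y F γ T L c i cs x p (a + 1) /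
          (zz m F γ i cs x a * zz m F γ i cs x (a + 1))
        - rr m Y F γ T L c i cs x p (a + 2) / zz m F γ i cs x (a + 1) ^ 2)
      + 6 * (Fintype.card V * ∑ q ∈ (T.desc p).erase p, s q * Xp m X Y F γ T f i cs x q)
      + (2 * L p + 2) * XpT m X Y F γ T L c f i cs x p := by
    have h2 : ∀ a ∈ range m, 2 * (t a ^ 2 * En m X Y F γ T i cs x p a) ≤ t a ^ 2 *
      (-(rr m Y F γ T L c i cs x p a) / zz m F γ i cs x a ^ 2
        + 2 * rr m Y F γ T L c i cs x p (a + 1) /
          (zz m F γ i cs x a * zz m F γ i cs x (a + 1))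
        - rr m Y F γ T L c i cs x p (a + 2) / zz m F γ i cs x (a + 1) ^ 2)
      + 6 * (Fintype.card V * ∑ q ∈ (T.desc p).erase p,
          s q * (t a ^ 2 * En m X Y F γ T i cs x q a))
      + (2 * L p + 2) * (t a ^ 2 * EnT m X Y F γ T L c i cs x p a) := by
      intro a _
      have h3 := mul_le_mul_of_nonneg_left
        (En_le (m := m) (c := c) hF hAF hγ T hL hs0 hs i cs x p a) (sq_nonneg (t a))
      have e : t a ^ 2 * (6 * (Fintype.card V * ∑ q ∈ (T.desc p).erase p,
          s q * En m X Y F γ T i cs x q a)) = 6 * (Fintype.card V * ∑ q ∈ (T.desc p).erase p,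
          s q * (t a ^ 2 * En m X Y F γ T i cs x q a)) := by
        have : ∑ q ∈ (T.desc p).erase p, s q * (t a ^ 2 * En m X Y F γ T i cs x q a) =
          t a ^ 2 * ∑ q ∈ (T.desc p).erase p, s q * En m X Y F γ T i cs x q a := by
          rw [Finset.mul_sum]
          exact Finset.sum_congr rfl fun q _ => by ring
        rw [this]; ring
      have e2 : t a ^ 2 * ((2 * L p + 2) * EnT m X Y F γ T L c i cs x p a) =
        (2 * L p + 2) * (t a ^ 2 * EnT m X Y F γ T L c i cs x p a) := by ring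
      rw [mul_add, mul_add, e, e2] at h3
      linarith
    have h4 := Finset.sum_le_sum h2
    rw [Finset.sum_add_distrib, Finset.sum_add_distrib, ← Finset.mul_sum, ← Finset.mul_sum,
      ← Finset.mul_sum, ← Finset.mul_sum, Finset.sum_comm] at h4
    have e3 : ∑ q ∈ (T.desc p).erase p, ∑ a ∈ range m, s q * (t a ^ 2 * En m X Y F γ T i cs x q a) =
        ∑ q ∈ (T.desc p).erase p, s q * Xp m X Y F γ T f i cs x q :=
      Finset.sum_congr rfl fun q _ => by rw [← Finset.mul_sum]; rfl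
    rw [e3] at h4
    exact h4
  have hrU : ∀ a, rr m Y F γ T L c i cs x p a ≤ 2 * κ * L p ^ 2 * zz m F γ i cs x a := by
    intro a
    unfold rr zz
    rw [← csum_smul]
    refine csum_mono (fun y => ?_) _ _
    unfold G2
    have h5 := Cut.cw_le (L p) (c p) (lev T p (γ y - ev (Y i) + ev (Y i) + ev (Y i)))
    have h6 : F (γ y - ev (Y i) - ev p + ev (Y i) + ev (Y i)) ≤ κ * F (γ y) := by
      have := hκ (γ y - ev p) (Y i) p
      rw [show γ y - ev (Y i) - ev p + ev (Y i) + ev (Y i) = γ y - ev p + ev (Y i) by abel]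
      rwa [show γ y - ev p + ev p = γ y by abel] at this
    calc _ ≤ 2 * L p ^ 2 * (κ * F (γ y)) :=
          mul_le_mul h5 h6 (hF _).le (by positivity)
      _ = _ := by ring
  have hr0 : ∀ a, 0 ≤ rr m Y F γ T L c i cs x p a := fun a =>
    csum_nonneg (fun y => mul_nonneg (Cut.cw_pos (by linarith [hL p]) _ _).le (hF _).le) _ _
  have h7 := OneD.one_d' (F := fb m F γ f i cs x) (m := m) (z := zz m F γ i cs x)
    (r := rr m Y F γ T L c i cs x p)
    (U := 2 * κ * L p ^ 2) (fun a _ => hz a) (fun a _ => hr0 a) (fun a _ => hrU a)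
  have h8 : ∑ a ∈ range m, OneD.T (zz m F γ i cs x) (fb m F γ f i cs x) m a ^ 2 *
      (rr m Y F γ T L c i cs x p (a + 1) / zz m F γ i cs x (a + 1) -
        rr m Y F γ T L c i cs x p a / zz m F γ i cs x a) ^ 2 / zz m F γ i cs x a ≤
      Fintype.card V * κ * (2 * κ * L p ^ 2) ^ 2 *
          ∑ q ∈ univ.erase T.root, (2 * κ * b q + 1 / L q) ^ 2 * Xp m X Y F γ T f i cs x q := by
    have h9 : ∀ a ∈ range m, OneD.T (zz m F γ i cs x) (fb m F γ f i cs x) m a ^ 2 *
      (rr m Y F γ T L c i cs x p (a + 1) / zz m F γ i cs x (a + 1) -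
        rr m Y F γ T L c i cs x p a / zz m F γ i cs x a) ^ 2 / zz m F γ i cs x a ≤
      Fintype.card V * κ * (2 * κ * L p ^ 2) ^ 2 *
          ∑ q ∈ univ.erase T.root, (2 * κ * b q + 1 / L q) ^ 2 *
            (t a ^ 2 * En m X Y F γ T i cs x q a) := by
      intro a _
      rw [mul_div_assoc]
      refine (mul_le_mul_of_nonneg_left
        (rz_incr (m := m) (c := c) (x := x) (cs := cs) (i := i) hF hγ hκ T hL hb0 hb hκ1 p a)
        (sq_nonneg _)).trans (le_of_eq ?_)
      have : ∑ q ∈ univ.erase T.root, (2 * κ * b q + 1 / L q) ^ 2 *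
            (t a ^ 2 * En m X Y F γ T i cs x q a) = t a ^ 2 * ∑ q ∈ univ.erase T.root,
            (2 * κ * b q + 1 / L q) ^ 2 * En m X Y F γ T i cs x q a := by
        rw [Finset.mul_sum]
        exact Finset.sum_congr rfl fun q _ => by ring
      rw [this, ht]
      unfold Ta
      ring
    refine (Finset.sum_le_sum h9).trans (le_of_eq ?_)
    rw [← Finset.mul_sum, Finset.sum_comm]
    congr 1
    refine Finset.sum_congr rfl fun q _ => ?_
    rw [← Finset.mul_sum]
    rfl
  have h10 := Real.sqrt_le_sqrt h8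
  have h11 := mul_le_mul_of_nonneg_left h10 (Real.sqrt_nonneg (Va m F γ f i cs x))
  have h12 : ∑ a ∈ range m, t a ^ 2 *
      (-(rr m Y F γ T L c i cs x p a) / zz m F γ i cs x a ^ 2
        + 2 * rr m Y F γ T L c i cs x p (a + 1) /
          (zz m F γ i cs x a * zz m F γ i cs x (a + 1))
        - rr m Y F γ T L c i cs x p (a + 2) / zz m F γ i cs x (a + 1) ^ 2) ≤
      2 * κ * L p ^ 2 * Va m F γ f i cs x
      + 2 * (√(Va m F γ f i cs x) * √(∑ a ∈ range m,
        OneD.T (zz m F γ i cs x) (fb m F γ f i cs x) m a ^ 2 *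
      (rr m Y F γ T L c i cs x p (a + 1) / zz m F γ i cs x (a + 1) -
        rr m Y F γ T L c i cs x p a / zz m F γ i cs x a) ^ 2 / zz m F γ i cs x a)) := h7
  linarith

include hF hγ in
/-- (h4) -/
theorem Va_le (f : (E → ℤ) → ℝ) (R : V → E → ℤ) (i : E) (cs : List E) (x : E → ℤ)
    (hRi : R (Y i) = 0) (hRi' : R (X i) = Pi.single i 1)
    (hR : ∀ k ∈ cs, R (X k) = R (Y k) + Pi.single k 1) :
    Va m F γ f i cs x ≤ ∑ p ∈ univ.erase T.root,
      √(Xp m X Y F γ T f i cs x p * Dp m Y F γ T f R i cs x p) := by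
  have hz : ∀ a, 0 < zz m F γ i cs x a := zz_pos hF i cs x
  have h1 : Va m F γ f i cs x = ∑ a ∈ range m, Ta m F γ f i cs x a *
      (fb m F γ f i cs x a - fb m F γ f i cs x (a + 1)) := OneD.V_eq fun a _ => hz a
  have h2 : ∀ a, fb m F γ f i cs x a - fb m F γ f i cs x (a + 1) =
      ∑ p ∈ univ.erase T.root, leaf m X Y F γ i cs x a
        (fun y v => Kf T Y F γ i p y v * (f (y + R p) - f (y + R (T.par p)))) := by
    intro a
    have h3 := leaf_lin (m := m) (X := X) (Y := Y) (F := F) (γ := γ) hF hγ i cs x a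
      (G := fun y q => F1 Y F γ i y q * f (y + R q)) ?_
    · have e1 : csum m (fun y => F1 Y F γ i y (Y i) * f (y + R (Y i))) cs
          (x + Pi.single i (a : ℤ)) = csum m (fun y => F (γ y) * f y) cs
          (x + Pi.single i (a : ℤ)) :=
        csum_congr (fun y => by rw [F1_Y, hRi, add_zero]) _ _
      have e2 : csum m (fun y => F1 Y F γ i y (X i) * f (y + R (X i))) cs
          (x + Pi.single i (a : ℤ)) = csum m (fun y => F (γ y) * f y) cs
          (x + Pi.single i ((a + 1 : ℕ) : ℤ)) := by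
        exact csum_inv (G := fun y => F1 Y F γ i y (X i) * f (y + R (X i)))
          (G' := fun y => F (γ y) * f y) (fun y => by rw [F1_X hγ, hRi']) cs x a
      simp only [e1, e2] at h3
      have e3 : fb m F γ f i cs x a - fb m F γ f i cs x (a + 1) =
          leaf m X Y F γ i cs x a (fun y v => ∑ p, v p * (F1 Y F γ i y p * f (y + R p))) := by
        rw [h3]
        unfold fb
        rw [div_eq_inv_mul, div_eq_inv_mul]
      rw [e3, ← leaf_sum]
      refine leaf_congr hF hγ i cs x a ?_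
      intro y v hv
      have h4 : ∑ p, v p * (F1 Y F γ i y p * f (y + R p)) =
          ∑ p, (v p * F1 Y F γ i y p) * f (y + R p) :=
        Finset.sum_congr rfl fun p _ => by ring
      rw [h4, RTree.sum_mul_eq' (T := T) hv]
      rfl
    · intro k hk y
      show F1 Y F γ i y (X k) * f (y + R (X k)) =
        F1 Y F γ i (y + Pi.single k 1) (Y k) * f (y + Pi.single k 1 + R (Y k))
      rw [F1_inv hγ, hR k hk]
      congr 2
      abel
  rw [h1]
  have h5 : ∑ a ∈ range m, Ta m F γ f i cs x a *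
      (fb m F γ f i cs x a - fb m F γ f i cs x (a + 1)) =
      ∑ p ∈ univ.erase T.root, ∑ a ∈ range m, Ta m F γ f i cs x a *
        leaf m X Y F γ i cs x a
        (fun y v => Kf T Y F γ i p y v * (f (y + R p) - f (y + R (T.par p)))) := by
    rw [Finset.sum_comm]
    refine Finset.sum_congr rfl fun a _ => ?_
    rw [h2 a, Finset.mul_sum]
  rw [h5]
  refine Finset.sum_le_sum fun p _ => ?_
  refine Real.le_sqrt_of_sq_le ?_
  exact leaf_cs hF i cs x (range m) (Ta m F γ f i cs x) (fun y v => Kf T Y F γ i p y v)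
    (fun y => F1 Y F γ i y p) (fun y => F1_pos hF i y p)
    (fun y => f (y + R p) - f (y + R (T.par p)))

/-- tail functional -/
noncomputable def tl (F : (V → ℤ) → ℝ) (γ : (E → ℤ) → V → ℤ) (T : RTree V) (L c : V → ℝ)
    (p : V) (y : E → ℤ) : ℝ := if |lev T p (γ y) - c p| ≤ L p - 2 then 0 else F (γ y)

theorem tl_nonneg (hF : ∀ δ, 0 < F δ) (p : V) (y : E → ℤ) : 0 ≤ tl F γ T L c p y := by
  unfold tl
  split_ifs
  · exact le_rfl
  · exact (hF _).le

theorem ind_bd (C : Finset V) (q : V) : 0 ≤ ind C q ∧ ind C q ≤ 1 := by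
  unfold ind
  split_ifs <;> norm_num

include hF hAF hγ hκ1 hκ in
/-- crude bound of the boundary energies -/
theorem XpT_le (f : (E → ℤ) → ℝ) {A : ℝ} (hf : ∀ y, |f y| ≤ A) (i : E) (cs : List E) (x : E → ℤ)
    (p : V) :
    XpT m X Y F γ T L c f i cs x p ≤ 4 * A ^ 2 * (m + 1) ^ 2 * (1 + κ) ^ 2 * κ ^ 3 *
      ((1 + 2 * κ * (m + 1)) ^ cs.length) ^ 2 *
      ∑ a ∈ range m, csum m (fun y => tl F γ T L c p y) cs (x + Pi.single i (a : ℤ)) := by
  have hz : ∀ a, 0 < zz m F γ i cs x a := zz_pos hF i cs x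
  have hκ0 : 0 ≤ κ := by linarith
  have hlc : ∀ a : ℕ, zz m F γ i cs x a * zz m F γ i cs x (a + 2) ≤ zz m F γ i cs x (a + 1) ^ 2 := by
    intro a
    have h := csum_lc (m := m) hF hAF hγ 0 cs i (x + Pi.single i (a : ℤ))
    simp only [add_zero] at h
    rw [show x + Pi.single i (a : ℤ) + Pi.single i 1 = x + Pi.single i ((a + 1 : ℕ) : ℤ) by
        rw [single_succ, add_assoc]] at h
    rwa [show x + Pi.single i ((a + 1 : ℕ) : ℤ) + Pi.single i 1 =
        x + Pi.single i ((a + 2 : ℕ) : ℤ) by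
        rw [show a + 2 = (a + 1) + 1 from rfl, single_succ i (a + 1), add_assoc]] at h
  have hfb : ∀ a, |fb m F γ f i cs x a| ≤ A := by
    intro a
    unfold fb
    rw [abs_div, abs_of_pos (hz a), div_le_iff₀ (hz a), abs_le]
    constructor
    · rw [← neg_mul]
      unfold zz
      rw [← csum_smul]
      refine csum_mono (fun y => ?_) _ _
      have := (abs_le.1 (hf y)).1
      nlinarith [hF (γ y)]
    · unfold zz
      rw [← csum_smul]
      refine csum_mono (fun y => ?_) _ _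
      have := (abs_le.1 (hf y)).2
      nlinarith [hF (γ y)]
  have hzz : ∀ a, zz m F γ i cs x a ≤ κ * zz m F γ i cs x (a + 1) := by
    intro a
    have e1 : csum m (fun y => F1 Y F γ i y (X i)) cs (x + Pi.single i (a : ℤ)) =
        zz m F γ i cs x (a + 1) := by
      unfold zz
      exact csum_inv (G := fun y => F1 Y F γ i y (X i)) (G' := fun y => F (γ y))
        (fun y => F1_X hγ i y) cs x a
    rw [← e1, ← csum_smul]
    unfold zz
    refine csum_mono (fun y => ?_) _ _
    rw [← F1_Y (Y := Y) (F := F) (γ := γ) i y]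
    exact hκ _ _ _
  have hnv : ∀ a, nrm (vel m X Y F γ i cs x a) ≤ (1 + κ) / zz m F γ i cs x a := by
    intro a
    unfold nrm vel
    calc ∑ q, |((zz m F γ i cs x a)⁻¹ • uv (Y i) - (zz m F γ i cs x (a + 1))⁻¹ • uv (X i)) q|
        ≤ ∑ q, ((zz m F γ i cs x a)⁻¹ * uv (Y i) q + (zz m F γ i cs x (a + 1))⁻¹ * uv (X i) q) := by
          refine Finset.sum_le_sum fun q _ => ?_
          simp only [Pi.sub_apply, Pi.smul_apply, smul_eq_mul]
          refine (abs_sub _ _).trans (le_of_eq ?_)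
          have h1 : 0 ≤ uv (Y i) q := by unfold uv; split_ifs <;> norm_num
          have h2 : 0 ≤ uv (X i) q := by unfold uv; split_ifs <;> norm_num
          rw [abs_of_nonneg (mul_nonneg (inv_nonneg.2 (hz a).le) h1),
            abs_of_nonneg (mul_nonneg (inv_nonneg.2 (hz (a + 1)).le) h2)]
      _ = (zz m F γ i cs x a)⁻¹ + (zz m F γ i cs x (a + 1))⁻¹ := by
          rw [Finset.sum_add_distrib, ← Finset.mul_sum, ← Finset.mul_sum]
          simp [uv]
      _ ≤ (1 + κ) / zz m F γ i cs x a := by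
          rw [add_div, one_div]
          refine add_le_add le_rfl ?_
          rw [inv_eq_one_div, div_le_div_iff₀ (hz _) (hz _), one_mul]
          exact hzz a
  have hEnT : ∀ a, EnT m X Y F γ T L c i cs x p a ≤
      ((1 + 2 * κ * (m + 1)) ^ cs.length * ((1 + κ) / zz m F γ i cs x a)) ^ 2 *
        (κ ^ 3 * csum m (fun y => tl F γ T L c p y) cs (x + Pi.single i (a : ℤ))) := by
    intro a
    have h1 : EnT m X Y F γ T L c i cs x p a ≤
        leaf m X Y F γ i cs x a (fun y v => nrm v ^ 2 * (κ ^ 3 * tl F γ T L c p y)) := by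
      refine leaf_mono hF hγ i cs x a ?_
      intro y v hv
      have hpos1 := F1_pos (Y := Y) (γ := γ) hF i y p
      have hK : Kf T Y F γ i p y v ^ 2 / F1 Y F γ i y p ≤ nrm v ^ 2 * (κ ^ 2 * F1 Y F γ i y p) := by
        rw [div_le_iff₀ hpos1]
        have h2 : |Kf T Y F γ i p y v| ≤ nrm v * (κ * F1 Y F γ i y p) := by
          unfold Kf RTree.cut
          refine (Finset.abs_sum_le_sum_abs _ _).trans ?_
          calc ∑ q ∈ T.desc p, |v q * F1 Y F γ i y q|
              ≤ ∑ q ∈ T.desc p, |v q| * (κ * F1 Y F γ i y p) := by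
                refine Finset.sum_le_sum fun q _ => ?_
                rw [abs_mul, abs_of_pos (F1_pos hF i y q)]
                exact mul_le_mul_of_nonneg_left (hκ _ _ _) (abs_nonneg _)
            _ ≤ ∑ q, |v q| * (κ * F1 Y F γ i y p) :=
                Finset.sum_le_sum_of_subset_of_nonneg (Finset.subset_univ _) fun q _ _ =>
                  mul_nonneg (abs_nonneg _) (mul_nonneg hκ0 hpos1.le)
            _ = nrm v * (κ * F1 Y F γ i y p) := by rw [← Finset.sum_mul]; rfl
        calc Kf T Y F γ i p y v ^ 2 = |Kf T Y F γ i p y v| ^ 2 := (sq_abs _).symm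
          _ ≤ (nrm v * (κ * F1 Y F γ i y p)) ^ 2 := pow_le_pow_left₀ (abs_nonneg _) h2 2
          _ = _ := by ring
      by_cases hin : |lev T p (γ y - ev (Y i)) + 1 - c p| ≤ L p - 1
      · rw [if_pos hin]
        exact mul_nonneg (sq_nonneg _) (mul_nonneg (by positivity) (tl_nonneg T hF p y))
      · rw [if_neg hin]
        have hout : ¬ (|lev T p (γ y) - c p| ≤ L p - 2) := by
          intro h3
          apply hin
          have h4 : lev T p (γ y) = lev T p (γ y - ev (Y i)) + ind (T.desc p) (Y i) := by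
            rw [← lev_add_ev]
            congr 1
            abel
          have h5 := ind_bd (T.desc p) (Y i)
          rw [h4] at h3
          rw [abs_le] at h3 ⊢
          constructor
          · linarith [h3.1, h5.1]
          · linarith [h3.2, h5.2]
        unfold tl
        rw [if_neg hout]
        refine hK.trans (mul_le_mul_of_nonneg_left ?_ (sq_nonneg _))
        have h6 : F1 Y F γ i y p ≤ κ * F (γ y) := by
          rw [← F1_Y (Y := Y) (F := F) (γ := γ) i y]
          exact hκ _ _ _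
        calc κ ^ 2 * F1 Y F γ i y p ≤ κ ^ 2 * (κ * F (γ y)) :=
              mul_le_mul_of_nonneg_left h6 (by positivity)
          _ = κ ^ 3 * F (γ y) := by ring
    refine h1.trans ?_
    have h7 := en_crude (m := m) (X := X) (Y := Y) (F := F1 Y F γ i) (κ := κ)
      (fun y q => F1_pos hF i y q)
      (fun y q q' => hκ _ _ _) (fun k y => F1_inv hγ i k y)
      (fun cs k x => by
        have h := csum_lc (m := m) hF hAF hγ (- ev (Y i) + ev (Y k)) cs k x
        have e : ∀ y, F (γ y + (-ev (Y i) + ev (Y k))) = F1 Y F γ i y (Y k) := fun y => by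
          unfold F1
          congr 1
          abel
        simpa only [e] using h)
      (G := fun y => κ ^ 3 * tl F γ T L c p y)
      (fun y => mul_nonneg (by positivity) (tl_nonneg T hF p y)) cs (x + Pi.single i (a : ℤ))
      (vel m X Y F γ i cs x a) (bal_vel hF hγ i cs x a)
    unfold leaf
    refine h7.trans ?_
    rw [csum_smul]
    refine mul_le_mul_of_nonneg_right ?_ (mul_nonneg (by positivity)
      (csum_nonneg (fun y => tl_nonneg T hF p y) _ _))
    refine pow_le_pow_left₀ (mul_nonneg (by positivity) (nrm_nonneg _)) ?_ 2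
    exact mul_le_mul_of_nonneg_left (hnv a) (by positivity)
  unfold XpT
  rw [Finset.mul_sum]
  refine Finset.sum_le_sum fun a ha => ?_
  have hT : Ta m F γ f i cs x a ^ 2 ≤ 4 * A ^ 2 * (m + 1) ^ 2 * zz m F γ i cs x a ^ 2 :=
    OneD.T_sq_le (fun a _ => hz a) (fun a _ => hlc a) (fun a _ => hfb a)
      (Finset.mem_range.1 ha).le
  refine (mul_le_mul hT (hEnT a) (EnT_nonneg hF T i cs x p a) (by positivity)).trans (le_of_eq ?_)
  have := (hz a).ne'
  field_simp

end Stage3

end Crest.Agent.R302.T893
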