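import Crest.Agent.R302.MSP893E
import Crest.Agent.R302.Clo550
import Crest.Agent.R302.Mart675

/-!
R302 (helper893): THE MULTI-SCALE POINCARE INEQUALITY.
-/

set_option autoImplicit false
set_option linter.unusedSectionVars false
set_option linter.unusedVariables false

namespace Crest.Agent.R302.T893

open Finset Lor
open Crest.Agent.R302.Tree (RTree)
open Crest.Agent.R302.Cut (cw ind dvec)

variable {V E : Type*} [Fintype V] [DecidableEq V] [DecidableEq E]

/-- the constant of the energy part -/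
noncomputable def C1 (N : ℕ) (κ PP : ℝ) : ℝ := N * (4 * κ + 16 * N * κ ^ 3 * PP)

/-- the constant of the tail part -/
noncomputable def C2 (m n : ℕ) (κ : ℝ) : ℝ :=
  8 * (m + 1) ^ 2 * (1 + κ) ^ 2 * κ ^ 3 * ((1 + 2 * κ * (m + 1)) ^ n) ^ 2

theorem C1_nonneg {N : ℕ} {κ PP : ℝ} (hκ : 1 ≤ κ) (hPP : 0 ≤ PP) : 0 ≤ C1 N κ PP := by
  unfold C1
  have : 0 ≤ κ := by linarith
  positivity

theorem C2_nonneg {m n : ℕ} {κ : ℝ} (hκ : 1 ≤ κ) : 0 ≤ C2 m n κ := by
  unfold C2
  have : 0 ≤ κ := by linarith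
  positivity

theorem csum_sum {ι : Type*} (t : Finset ι) (m : ℕ) (G : ι → (E → ℤ) → ℝ) (cs : List E)
    (x : E → ℤ) : csum m (fun y => ∑ j ∈ t, G j y) cs x = ∑ j ∈ t, csum m (G j) cs x := by
  induction cs generalizing x with
  | nil => rfl
  | cons k cs ih =>
    simp only [csum_cons]
    rw [Finset.sum_comm]
    exact Finset.sum_congr rfl fun s _ => ih _

section Final

variable {m : ℕ} {X Y : E → V} {F : (V → ℤ) → ℝ} {γ : (E → ℤ) → V → ℤ}

variable (hF : ∀ δ, 0 < F δ) (hAF : ∀ δ, AF (fun p q => F (δ + ev p + ev q)))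
  (hγ : ∀ y k, γ (y + Pi.single k 1) = γ y + ev (X k) - ev (Y k))
  {κ PP : ℝ} (hκ1 : 1 ≤ κ) (hκ : ∀ δ p q, F (δ + ev p) ≤ κ * F (δ + ev q))
  (T : RTree V) {L c b s : V → ℝ} (hL : ∀ p, 1 ≤ L p)
  (hs0 : ∀ q, 0 ≤ s q)
  (hs : ∀ p, ∀ q ∈ T.desc p, q ≠ p → ∀ δ : V → ℤ,
    -Q (fun a b => F (δ - ev p + ev a + ev b))
      (dvec (fun q => F (δ + ev q)) q (T.par q))
      (dvec (fun q => F (δ + ev q)) q (T.par q)) ≤ s q / F (δ + ev q))
  (hb0 : ∀ q, 0 ≤ b q)
  (hb : ∀ q, q ≠ T.root → ∀ δ : V → ℤ,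
    |F (δ + ev q) - F (δ + ev (T.par q))| ≤ b q * F (δ + ev (T.par q)))
  (hPP : ∑ q ∈ univ.erase T.root, (2 * κ * b q + 1 / L q) ^ 2 * L q ^ 2 ≤ PP)
  (hsL : ∀ p, p ≠ T.root →
    6 * (Fintype.card V * ∑ q ∈ (T.desc p).erase p, s q * L q ^ 2) ≤ L p ^ 2)

include hF hAF hγ hκ1 hκ hL hs0 hs hb0 hb hPP hsL in
/-- stage theorem -/
theorem stage (f : (E → ℤ) → ℝ) {A : ℝ} (hf : ∀ y, |f y| ≤ A) (R : V → E → ℤ) (i : E)
    (cs : List E) (n : ℕ) (hn : cs.length ≤ n) (x : E → ℤ)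
    (hRi : R (Y i) = 0) (hR : ∀ k ∈ i :: cs, R (X k) = R (Y k) + Pi.single k 1) :
    Va m F γ f i cs x ≤ ∑ a ∈ range (m + 1), csum m (fun y =>
      C1 (Fintype.card V) κ PP * (∑ p ∈ univ.erase T.root,
        L p ^ 2 * (F1 Y F γ i y p * (f (y + R p) - f (y + R (T.par p))) ^ 2))
      + C2 m n κ * A ^ 2 * ∑ p ∈ univ.erase T.root, tl F γ T L c p y) cs
        (x + Pi.single i (a : ℤ)) := by
  have hPP0 : 0 ≤ PP := le_trans (Finset.sum_nonneg fun q _ => by positivity) hPP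
  have hκ0 : 0 ≤ κ := by linarith
  have hA : 0 ≤ A := (abs_nonneg _).trans (hf 0)
  have h1 := Close.clo (univ.erase T.root) (fun p => (T.desc p).erase p)
    (fun p => Xp m X Y F γ T f i cs x p) L s (fun q => 2 * κ * b q + 1 / L q)
    (fun p => Dp m Y F γ T f R i cs x p) (fun p => XpT m X Y F γ T L c f i cs x p)
    (Va m F γ f i cs x) κ PP (fun p => Xp_nonneg hF T f i cs x p) hL hs0
    (fun p => Dp_nonneg hF T f R i cs x p) (fun p => XpT_nonneg hF T f i cs x p)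
    (Va_nonneg hF f i cs x) hκ1 hPP0
    (fun p hp q hq => by
      rw [Finset.mem_erase] at hq ⊢
      exact ⟨RTree.mem_desc_ne_root hq.2 hq.1, Finset.mem_univ _⟩)
    (fun p hp => Xp_le hF hAF hγ hκ1 hκ T hL hs0 hs hb0 hb f i cs x p)
    (fun p hp => hsL p (Finset.mem_erase.1 hp).1) hPP
    (Va_le hF hγ T f R i cs x hRi
      (by rw [hR i List.mem_cons_self, hRi, zero_add])
      (fun k hk => hR k (List.mem_cons_of_mem _ hk)))
  refine h1.trans ?_
  -- the tail part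
  have h2 : ∀ p ∈ univ.erase T.root, 2 * (XpT m X Y F γ T L c f i cs x p / L p) ≤
      C2 m n κ * A ^ 2 * ∑ a ∈ range m,
        csum m (fun y => tl F γ T L c p y) cs (x + Pi.single i (a : ℤ)) := by
    intro p _
    have h3 := XpT_le (m := m) (X := X) (Y := Y) (L := L) (c := c) hF hAF hγ hκ1 hκ T f hf i cs x p
    have h4 : XpT m X Y F γ T L c f i cs x p / L p ≤ XpT m X Y F γ T L c f i cs x p :=
      div_le_self (XpT_nonneg hF T f i cs x p) (hL p)
    have h5 : 0 ≤ ∑ a ∈ range m,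
        csum m (fun y => tl F γ T L c p y) cs (x + Pi.single i (a : ℤ)) :=
      Finset.sum_nonneg fun a _ => csum_nonneg (fun y => tl_nonneg T hF p y) _ _
    have h6 : ((1 + 2 * κ * ((m : ℝ) + 1)) ^ cs.length) ^ 2 ≤
        ((1 + 2 * κ * ((m : ℝ) + 1)) ^ n) ^ 2 := by
      refine pow_le_pow_left₀ (by positivity) (pow_le_pow_right₀ ?_ hn) 2
      have : 0 ≤ 2 * κ * ((m : ℝ) + 1) := by positivity
      linarith
    calc 2 * (XpT m X Y F γ T L c f i cs x p / L p)
        ≤ 2 * (4 * A ^ 2 * (m + 1) ^ 2 * (1 + κ) ^ 2 * κ ^ 3 *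
            ((1 + 2 * κ * (m + 1)) ^ cs.length) ^ 2 * ∑ a ∈ range m,
            csum m (fun y => tl F γ T L c p y) cs (x + Pi.single i (a : ℤ))) := by
          linarith
      _ ≤ 2 * (4 * A ^ 2 * (m + 1) ^ 2 * (1 + κ) ^ 2 * κ ^ 3 *
            ((1 + 2 * κ * (m + 1)) ^ n) ^ 2 * ∑ a ∈ range m,
            csum m (fun y => tl F γ T L c p y) cs (x + Pi.single i (a : ℤ))) := by
          refine mul_le_mul_of_nonneg_left ?_ (by norm_num)
          refine mul_le_mul_of_nonneg_right ?_ h5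
          exact mul_le_mul_of_nonneg_left h6 (by positivity)
      _ = _ := by unfold C2; ring
  rw [Finset.mul_sum (a := (2 : ℝ))]
  refine (add_le_add_right (Finset.sum_le_sum h2) _).trans ?_
  -- collect
  have hstep : ∀ a ∈ range m,
      C1 (Fintype.card V) κ PP * (∑ p ∈ univ.erase T.root, L p ^ 2 *
        csum m (fun y => F1 Y F γ i y p * (f (y + R p) - f (y + R (T.par p))) ^ 2) cs
          (x + Pi.single i (a : ℤ)))
      + C2 m n κ * A ^ 2 * ∑ p ∈ univ.erase T.root,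
        csum m (fun y => tl F γ T L c p y) cs (x + Pi.single i (a : ℤ)) =
      csum m (fun y =>
      C1 (Fintype.card V) κ PP * (∑ p ∈ univ.erase T.root,
        L p ^ 2 * (F1 Y F γ i y p * (f (y + R p) - f (y + R (T.par p))) ^ 2))
      + C2 m n κ * A ^ 2 * ∑ p ∈ univ.erase T.root, tl F γ T L c p y) cs
        (x + Pi.single i (a : ℤ)) := by
    intro a _
    rw [csum_add, csum_smul, csum_smul]
    congr 2
    · rw [csum_sum]
      refine Finset.sum_congr rfl fun p _ => ?_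
      rw [csum_smul]
    · rw [csum_sum]
  have hnn : ∀ a, 0 ≤ csum m (fun y =>
      C1 (Fintype.card V) κ PP * (∑ p ∈ univ.erase T.root,
        L p ^ 2 * (F1 Y F γ i y p * (f (y + R p) - f (y + R (T.par p))) ^ 2))
      + C2 m n κ * A ^ 2 * ∑ p ∈ univ.erase T.root, tl F γ T L c p y) cs
        (x + Pi.single i (a : ℤ)) := by
    intro a
    refine csum_nonneg (fun y => ?_) _ _
    refine add_nonneg (mul_nonneg (C1_nonneg hκ1 hPP0) (Finset.sum_nonneg fun p _ =>
      mul_nonneg (sq_nonneg _) (mul_nonneg (F1_pos hF i y p).le (sq_nonneg _))))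
      (mul_nonneg (mul_nonneg (C2_nonneg hκ1) (sq_nonneg _))
        (Finset.sum_nonneg fun p _ => tl_nonneg T hF p y))
  rw [Finset.sum_range_succ]
  have h7 : ∑ a ∈ range m, csum m (fun y =>
      C1 (Fintype.card V) κ PP * (∑ p ∈ univ.erase T.root,
        L p ^ 2 * (F1 Y F γ i y p * (f (y + R p) - f (y + R (T.par p))) ^ 2))
      + C2 m n κ * A ^ 2 * ∑ p ∈ univ.erase T.root, tl F γ T L c p y) cs
        (x + Pi.single i (a : ℤ)) =
      Fintype.card V * (4 * κ + 16 * Fintype.card V * κ ^ 3 * PP) *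
        ∑ p ∈ univ.erase T.root, L p ^ 2 * Dp m Y F γ T f R i cs x p
      + ∑ p ∈ univ.erase T.root, C2 m n κ * A ^ 2 * ∑ a ∈ range m,
        csum m (fun y => tl F γ T L c p y) cs (x + Pi.single i (a : ℤ)) := by
    rw [← Finset.sum_congr rfl hstep, Finset.sum_add_distrib, ← Finset.mul_sum, ← Finset.mul_sum,
      Finset.sum_comm, ← Finset.mul_sum, Finset.sum_comm (s := range m)]
    congr 1
    unfold C1 Dp
    congr 1
    refine Finset.sum_congr rfl fun p _ => ?_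
    rw [Finset.mul_sum]
  rw [h7]
  have := hnn m
  linarith

include hF hAF hγ hκ1 hκ hL hs0 hs hb0 hb hPP hsL in
/-- **MULTI-SCALE POINCARE INEQUALITY** on a box of side `m`. -/
theorem msp [Fintype E] (order : List E) (hnd : order.Nodup) (hall : ∀ e, e ∈ order)
    (R : E → V → E → ℤ) (hR0 : ∀ i, R i (Y i) = 0)
    (hR : ∀ i cs, (i :: cs) <:+ order → ∀ k ∈ i :: cs, R i (X k) = R i (Y k) + Pi.single k 1)
    (f : (E → ℤ) → ℝ) {A : ℝ} (hf : ∀ y, |f y| ≤ A) (x : E → ℤ) (B : Finset (E → ℤ))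
    (hB : B = Fintype.piFinset fun e => Icc (x e) (x e + m)) :
    ∑ y ∈ B, F (γ y) * (f y - (∑ y ∈ B, F (γ y) * f y) / ∑ y ∈ B, F (γ y)) ^ 2 ≤
      C1 (Fintype.card V) κ PP * ∑ i, ∑ p ∈ univ.erase T.root, L p ^ 2 *
        ∑ y ∈ B, F (γ y - ev (Y i) + ev p) * (f (y + R i p) - f (y + R i (T.par p))) ^ 2
      + Fintype.card E * (C2 m (Fintype.card E) κ * A ^ 2 *
        ∑ p ∈ univ.erase T.root, ∑ y ∈ B, tl F γ T L c p y) := by
  have h := Mart.martingale_box (m := m) (w := fun y => F (γ y)) (f := f) (fun y => hF _)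
    (fun i y => C1 (Fintype.card V) κ PP * (∑ p ∈ univ.erase T.root,
        L p ^ 2 * (F1 Y F γ i y p * (f (y + R i p) - f (y + R i (T.par p))) ^ 2))
      + C2 m (Fintype.card E) κ * A ^ 2 * ∑ p ∈ univ.erase T.root, tl F γ T L c p y)
    order hnd hall ?_ x B hB
  · refine h.trans (le_of_eq ?_)
    rw [Finset.mul_sum]
    have e1 : (Fintype.card E : ℝ) * (C2 m (Fintype.card E) κ * A ^ 2 *
        ∑ p ∈ univ.erase T.root, ∑ y ∈ B, tl F γ T L c p y) =
        ∑ _i : E, (C2 m (Fintype.card E) κ * A ^ 2 *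
        ∑ p ∈ univ.erase T.root, ∑ y ∈ B, tl F γ T L c p y) := by
      rw [Finset.sum_const, Finset.card_univ, nsmul_eq_mul]
    rw [e1, ← Finset.sum_add_distrib]
    refine Finset.sum_congr rfl fun i _ => ?_
    rw [Finset.sum_add_distrib, ← Finset.mul_sum, ← Finset.mul_sum]
    congr 2
    · rw [Finset.sum_comm]
      refine Finset.sum_congr rfl fun p _ => ?_
      rw [← Finset.mul_sum]
      rfl
    · rw [Finset.sum_comm]
  · intro i cs hcs x
    have hlen : cs.length ≤ Fintype.card E := by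
      have h1 := hcs.sublist.length_le
      have h2 : order.length ≤ Fintype.card E := hnd.length_le_card
      simp only [List.length_cons] at h1
      omega
    exact stage hF hAF hγ hκ1 hκ T hL hs0 hs hb0 hb hPP hsL f hf (R i) i cs (Fintype.card E)
      hlen x (hR0 i) (hR i cs hcs)

end Final

end Crest.Agent.R302.T893
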