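import Crest.Agent.R302.MSP893F
import Crest.Agent.R302.Repair725

/-!
R302 (helper893): the multi-scale Poincare inequality in terms of the moves
`c_{i,p} = R_i p - R_i (par p)`, the slopes of the weight along the moves, with helper725's
repair maps plugged in.
-/

set_option autoImplicit false
set_option linter.unusedSectionVars false
set_option linter.unusedVariables false

namespace Crest.Agent.R302.T893

open Finset Lor
open Crest.Agent.R302.Tree (RTree)
open Crest.Agent.R302.Cut (cw ind dvec)

variable {V E : Type*} [Fintype V] [DecidableEq V] [DecidableEq E]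

/-- exchange along tree edges with integer multiplicities -/
def xch (T : RTree V) (mu : V → ℤ) : V → ℤ := fun v =>
  ∑ q, mu q * (ev q v - ev (T.par q) v)

theorem xch_add (T : RTree V) (mu nu : V → ℤ) : xch T (mu + nu) = xch T mu + xch T nu := by
  ext v
  simp only [xch, Pi.add_apply, add_mul, Finset.sum_add_distrib]

theorem xch_single (T : RTree V) (q : V) (t : ℤ) :
    xch T (Pi.single q t) = t • (ev q - ev (T.par q)) := by
  ext v
  simp only [xch, Pi.smul_apply, Pi.sub_apply, smul_eq_mul]
  rw [Finset.sum_eq_single q]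
  · rw [Pi.single_eq_same]
  · intro a _ ha
    rw [Pi.single_eq_of_ne ha, zero_mul]
  · intro h
    exact absurd (Finset.mem_univ _) h

section Route

variable {F : (V → ℤ) → ℝ} (hF : ∀ δ, 0 < F δ) (T : RTree V) {β : V → ℝ}
  (hβ1 : ∀ q, 1 ≤ β q)
  (hup : ∀ q, q ≠ T.root → ∀ δ, F (δ + ev q) ≤ β q * F (δ + ev (T.par q)))
  (hdn : ∀ q, q ≠ T.root → ∀ δ, F (δ + ev (T.par q)) ≤ β q * F (δ + ev q))

include hF hβ1 hup hdn in
theorem step_le (q : V) (hq : q ≠ T.root) (t : ℤ) (δ : V → ℤ) :
    F (δ + t • (ev q - ev (T.par q))) ≤ β q ^ t.natAbs * F δ := by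
  have h0 : 0 ≤ β q := by linarith [hβ1 q]
  have key : ∀ (n : ℕ) (δ : V → ℤ), F (δ + n • (ev q - ev (T.par q))) ≤ β q ^ n * F δ ∧
      F (δ - n • (ev q - ev (T.par q))) ≤ β q ^ n * F δ := by
    intro n
    induction n with
    | zero => intro δ; simp
    | succ n ih =>
      intro δ
      obtain ⟨h1, h2⟩ := ih δ
      constructor
      · have := hup q hq (δ + n • (ev q - ev (T.par q)) - ev (T.par q))
        rw [show δ + n • (ev q - ev (T.par q)) - ev (T.par q) + ev q =
            δ + (n + 1) • (ev q - ev (T.par q)) by rw [add_smul, one_smul]; abel,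
          show δ + n • (ev q - ev (T.par q)) - ev (T.par q) + ev (T.par q) =
            δ + n • (ev q - ev (T.par q)) by abel] at this
        calc _ ≤ β q * F (δ + n • (ev q - ev (T.par q))) := this
          _ ≤ β q * (β q ^ n * F δ) := mul_le_mul_of_nonneg_left h1 h0
          _ = β q ^ (n + 1) * F δ := by ring
      · have := hdn q hq (δ - n • (ev q - ev (T.par q)) - ev q)
        rw [show δ - n • (ev q - ev (T.par q)) - ev q + ev (T.par q) =
            δ - (n + 1) • (ev q - ev (T.par q)) by rw [add_smul, one_smul]; abel,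
          show δ - n • (ev q - ev (T.par q)) - ev q + ev q =
            δ - n • (ev q - ev (T.par q)) by abel] at this
        calc _ ≤ β q * F (δ - n • (ev q - ev (T.par q))) := this
          _ ≤ β q * (β q ^ n * F δ) := mul_le_mul_of_nonneg_left h2 h0
          _ = β q ^ (n + 1) * F δ := by ring
  rcases Int.natAbs_eq t with h | h
  · have := (key t.natAbs δ).1
    rw [← natCast_zsmul, ← h] at this
    exact this
  · have := (key t.natAbs δ).2
    rw [← natCast_zsmul, sub_eq_add_neg, ← neg_zsmul, ← h] at this
    exact this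

include hF hβ1 hup hdn in
/-- the weight along a route -/
theorem route_le (mu : V → ℤ) (hmu : mu T.root = 0) (δ : V → ℤ) :
    F (δ + xch T mu) ≤ (∏ q, β q ^ (mu q).natAbs) * F δ := by
  have key : ∀ (S : Finset V), F (δ + xch T (fun q => if q ∈ S then mu q else 0)) ≤
      (∏ q ∈ S, β q ^ (mu q).natAbs) * F δ := by
    intro S
    induction S using Finset.induction_on with
    | empty =>
      have : xch T (fun q => if q ∈ (∅ : Finset V) then mu q else 0) = 0 := by
        ext v; simp [xch]
      rw [this, add_zero, Finset.prod_empty, one_mul]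
    | insert a S ha ih =>
      have e : (fun q => if q ∈ insert a S then mu q else 0) =
          (fun q => if q ∈ S then mu q else 0) + Pi.single a (mu a) := by
        ext q
        simp only [Pi.add_apply, Finset.mem_insert]
        by_cases hqa : q = a
        · subst hqa
          simp [ha]
        · simp [hqa]
      rw [e, xch_add, xch_single, ← add_assoc, Finset.prod_insert ha]
      have hpos : 0 ≤ β a ^ (mu a).natAbs := pow_nonneg (by linarith [hβ1 a]) _
      by_cases har : a = T.root
      · subst har
        rw [hmu]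
        simp only [zero_smul, add_zero, Int.natAbs_zero, pow_zero, one_mul]
        exact ih
      · calc _ ≤ β a ^ (mu a).natAbs *
              F (δ + xch T (fun q => if q ∈ S then mu q else 0)) :=
            step_le hF T hβ1 hup hdn a har _ _
          _ ≤ β a ^ (mu a).natAbs * ((∏ q ∈ S, β q ^ (mu q).natAbs) * F δ) :=
            mul_le_mul_of_nonneg_left ih hpos
          _ = _ := by ring
  have := key Finset.univ
  simpa using this

end Route

/-- the displacement of the tokens caused by a change `c` of the contents -/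
def disp [Fintype E] (X Y : E → V) (c : E → ℤ) : V → ℤ := fun v =>
  ∑ k, c k * (ev (X k) v - ev (Y k) v)

section Gam

variable [Fintype E] {X Y : E → V} {γ : (E → ℤ) → V → ℤ}
  (hγ : ∀ y k, γ (y + Pi.single k 1) = γ y + ev (X k) - ev (Y k))

include hγ in
theorem gam_single (y : E → ℤ) (k : E) (t : ℤ) :
    γ (y + Pi.single k t) = γ y + t • (ev (X k) - ev (Y k)) := by
  have key : ∀ (n : ℕ) (y : E → ℤ), γ (y + Pi.single k (n : ℤ)) = γ y + n • (ev (X k) - ev (Y k)) := by
    intro n
    induction n with
    | zero => intro y; simp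
    | succ n ih =>
      intro y
      rw [single_succ, ← add_assoc, hγ, ih, add_smul, one_smul]
      abel
  rcases Int.natAbs_eq t with h | h
  · rw [h, key, natCast_zsmul]
  · have h1 := key t.natAbs (y + Pi.single k t)
    rw [add_assoc, ← Pi.single_add, show t + (t.natAbs : ℤ) = 0 by omega, Pi.single_zero,
      add_zero] at h1
    rw [h1, ← natCast_zsmul]
    have h2 : t • (ev (X k) - ev (Y k)) = - ((t.natAbs : ℤ) • (ev (X k) - ev (Y k))) := by
      conv_lhs => rw [h]
      rw [neg_smul]
    rw [h2]
    abel

include hγ in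
theorem gam_add (y c : E → ℤ) : γ (y + c) = γ y + disp X Y c := by
  classical
  have key : ∀ (S : Finset E), γ (y + fun k => if k ∈ S then c k else 0) =
      γ y + disp X Y (fun k => if k ∈ S then c k else 0) := by
    intro S
    induction S using Finset.induction_on with
    | empty =>
      have e1 : (fun k => if k ∈ (∅ : Finset E) then c k else 0) = 0 := by
        ext k; simp
      have e2 : disp X Y (0 : E → ℤ) = 0 := by ext v; simp [disp]
      rw [e1, e2, add_zero, add_zero]
    | insert a S ha ih =>
      have e : (fun k => if k ∈ insert a S then c k else 0) =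
          (fun k => if k ∈ S then c k else 0) + Pi.single a (c a) := by
        ext k
        simp only [Pi.add_apply, Finset.mem_insert]
        by_cases hka : k = a
        · subst hka
          simp [ha]
        · simp [hka]
      rw [e, ← add_assoc, gam_single hγ, ih, add_assoc]
      congr 1
      ext v
      simp only [disp, Pi.add_apply, Pi.smul_apply, Pi.sub_apply, smul_eq_mul, add_mul,
        Finset.sum_add_distrib]
      congr 1
      rw [Finset.sum_eq_single a]
      · rw [Pi.single_eq_same]
      · intro b _ hb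
        rw [Pi.single_eq_of_ne hb, zero_mul]
      · intro h
        exact absurd (Finset.mem_univ _) h
  have := key Finset.univ
  simpa using this

end Gam

section Main

variable [Fintype E] {m : ℕ} {X Y : E → V} {F : (V → ℤ) → ℝ} {γ : (E → ℤ) → V → ℤ}

variable (hF : ∀ δ, 0 < F δ)
  (hγ : ∀ y k, γ (y + Pi.single k 1) = γ y + ev (X k) - ev (Y k))
  (T : RTree V) {β : V → ℝ}
  (hβ1 : ∀ q, 1 ≤ β q)
  (hup : ∀ q, q ≠ T.root → ∀ δ, F (δ + ev q) ≤ β q * F (δ + ev (T.par q)))
  (hdn : ∀ q, q ≠ T.root → ∀ δ, F (δ + ev (T.par q)) ≤ β q * F (δ + ev q))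

include hF hγ hβ1 hup hdn in
/-- the weight at the repaired configuration -/
theorem F1_le_repaired (i : E) (p : V) (R : E → ℤ) (mu : V → ℤ) (hmu : mu T.root = 0)
    (hr : ∀ v, ev p v - ev (Y i) v = disp X Y R v + xch T mu v) (y : E → ℤ) :
    F (γ y - ev (Y i) + ev p) ≤ (∏ q, β q ^ (mu q).natAbs) * F (γ (y + R)) := by
  have e : γ y - ev (Y i) + ev p = γ (y + R) + xch T mu := by
    rw [gam_add hγ]
    ext v
    have := hr v
    simp only [Pi.add_apply, Pi.sub_apply]
    linarith
  rw [e]
  exact route_le hF T hβ1 hup hdn mu hmu _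

include hF hγ hβ1 hup hdn in
/-- slope of the weight along a vector with route `lam` -/
theorem slope_le (c : E → ℤ) (lam : V → ℤ) (hlam : lam T.root = 0)
    (hr : ∀ v, disp X Y c v = xch T lam v) (s : ℤ) (y : E → ℤ) :
    F (γ (y + s • c)) ≤ (∏ q, β q ^ (lam q).natAbs) ^ s.natAbs * F (γ y) := by
  have e : γ (y + s • c) = γ y + xch T (s • lam) := by
    rw [gam_add hγ]
    congr 1
    ext v
    have h1 : disp X Y (s • c) v = s * disp X Y c v := by
      simp only [disp, Pi.smul_apply, smul_eq_mul, Finset.mul_sum, mul_assoc]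
    have h2 : xch T (s • lam) v = s * xch T lam v := by
      simp only [xch, Pi.smul_apply, smul_eq_mul, Finset.mul_sum, mul_assoc]
    rw [h1, h2, hr]
  rw [e]
  refine (route_le hF T hβ1 hup hdn (s • lam) (by simp [hlam]) _).trans (le_of_eq ?_)
  congr 1
  rw [← Finset.prod_pow]
  refine Finset.prod_congr rfl fun q _ => ?_
  rw [← pow_mul, Pi.smul_apply, smul_eq_mul, Int.natAbs_mul, mul_comm]

end Main

/-- a real identity for all `φ` gives the integer vector identity -/
theorem route_int [Fintype E] {X Y : E → V} (T : RTree V) (p v₀ : V) (c : E → ℤ) (mu : V → ℤ)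
    (h : ∀ φ : V → ℝ, φ p - φ v₀ = ∑ k, (c k : ℝ) * (φ (X k) - φ (Y k)) +
      ∑ q, (mu q : ℝ) * (φ q - φ (T.par q))) (v : V) :
    ev p v - ev v₀ v = disp X Y c v + xch T mu v := by
  have h1 := h (fun a => ((ev a v : ℤ) : ℝ))
  have h2 : ((ev p v - ev v₀ v : ℤ) : ℝ) = ((disp X Y c v + xch T mu v : ℤ) : ℝ) := by
    unfold disp xch
    push_cast
    exact h1
  exact_mod_cast h2

end Crest.Agent.R302.T893
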