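import Crest.Agent.R302.Mass151
import Crest.Agent.R302.Gau970D

/-!
# R302 (helper151): MASS1 and MASS3 in the names of `Stage536` / `Gau970D`

`StOK D r₁ r₂ R c ..` : the two sides are `SideOK`, and either the stage weight is one (fat stages) or
there is no fat edge (thin stages).  `om D z = 2 ^ (-w (blk z))`.
-/

set_option autoImplicit false

namespace Crest.Agent.R302.Mass151

open Finset Crest.Agent.R302.Facet Crest.Agent.R302.Inst Crest.Agent.R302.Blk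
open Crest.Agent.R302.Stage Crest.Agent.R302.KapR Crest.Agent.R302.Tail907

variable {V : Type*} [Fintype V] [DecidableEq V]

/-! ### sides without fat edges -/

theorem F_thin {S : Side V} {r : Finset V → ℤ} {R : ℤ} {c : V → ℤ} {m k : V → ℕ}
    (h : SideOK S r R c m k) (hthin : ∀ a, S.T.par a = none) (z : V → ℤ) [Decidable (z ∈ S.J)] :
    F S z = if z ∈ S.J then 1 else 0 := by
  classical
  have hsh : ∀ t : V → ℤ, zpt S.T z t = z := by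
    intro t
    unfold zpt
    simp [hthin]
  by_cases hz : z ∈ S.J
  · rw [if_pos hz]
    refine le_antisymm (F_le_one h z) ?_
    have := F_ge h z (fun _ => ∅) fun t _ _ => by rw [hsh]; exact (h.mem z).1 hz
    simpa [hthin] using this
  · rw [if_neg hz]
    have h1 := F_le h z (S.J.image (S.tv z)) fun z' hz' => mem_image.2 ⟨z', hz', rfl⟩
    simp only [hsh, if_neg hz, sum_const_zero] at h1
    exact le_antisymm h1 (F_nonneg h z)

/-! ### stages -/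

/-- stage weight as a function of the point -/
noncomputable def om (D : SD V) (z : V → ℤ) : ℝ := 2 ^ (-D.w (D.S₁.blk z))

theorem om_pos (D : SD V) (z : V → ℤ) : 0 < om D z := by unfold om; positivity

/-- facts on a stage used in this file -/
structure StOK (D : SD V) (r₁ r₂ : Finset V → ℤ) (R : ℤ) (c : V → ℤ) (m₁ k₁ m₂ k₂ : V → ℕ) :
    Prop where
  s₁ : SideOK D.S₁ r₁ R c m₁ k₁
  s₂ : SideOK D.S₂ r₂ R c m₂ k₂
  alt : (∀ β, D.w β = 0) ∨ ((∀ a, D.S₁.T.par a = none) ∧ ∀ a, D.S₂.T.par a = none)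
  gau₁ : ∀ a b, D.S₁.T.par a = some b → D.ell a = D.ell b
  gau₂ : ∀ a b, D.S₂.T.par a = some b → D.ell a = D.ell b

section Stage

variable {D : SD V} {r₁ r₂ : Finset V → ℤ} {R : ℤ} {c : V → ℤ} {m₁ k₁ m₂ k₂ : V → ℕ}

theorem StOK.g₁ (h : StOK D r₁ r₂ R c m₁ k₁ m₂ k₂) : D.S₁.Gauge D.μ :=
  ⟨fun a => by unfold SD.μ; positivity, fun a b hab => by unfold SD.μ; rw [h.gau₁ a b hab]⟩

theorem StOK.g₂ (h : StOK D r₁ r₂ R c m₁ k₁ m₂ k₂) : D.S₂.Gauge D.μ :=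
  ⟨fun a => by unfold SD.μ; positivity, fun a b hab => by unfold SD.μ; rw [h.gau₂ a b hab]⟩

/-- the soft weight of side 1 with the stage weight -/
theorem F₁_eq (z : V → ℤ) : Gau.F₁ D z = om D z * F D.S₁ z := SD.ff_S₁w z (D.S₁.blk z)

theorem F₂_eq (z : V → ℤ) : Gau.F₂ D z = F D.S₂ z := rfl

/-- **upper bound**, all stages -/
theorem uppW (h : StOK D r₁ r₂ R c m₁ k₁ m₂ k₂) {η : ℝ} (t₁ : EtaOK D.S₁ m₁ k₁ η)
    (t₂ : EtaOK D.S₂ m₂ k₂ η) {s : V → ℤ} (hs0 : ∑ v, s v = 0)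
    (hs1 : ∀ A : Finset V, |∑ v ∈ A, s v| ≤ 1) (P : Finset (V → ℤ))
    (hP : ∀ x, x ∈ P ↔ MemJ r₁ R x ∧ MemJ r₂ R (fun v => x v + s v)) (Y : Finset (V → ℤ)) :
    ∑ y ∈ Y, Gau.F₁ D y * Gau.F₂ D (fun v => y v + s v) ≤
      Real.exp (20 * Fintype.card V * η) * ∑ x ∈ P, om D x := by
  classical
  have hη := t₁.η0
  rcases h.alt with hw | ⟨p1, p2⟩
  · have e : ∀ z, om D z = 1 := fun z => by unfold om; rw [hw]; simp
    simp only [F₁_eq, F₂_eq, e, one_mul, sum_const, nsmul_eq_mul, mul_one]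
    exact upp h.s₁ h.s₂ t₁ t₂ hs0 hs1 P hP Y
  · have h1 : ∑ y ∈ Y, Gau.F₁ D y * Gau.F₂ D (fun v => y v + s v) ≤ ∑ x ∈ P, om D x := by
      have e : ∀ y, Gau.F₁ D y * Gau.F₂ D (fun v => y v + s v) = if y ∈ P then om D y else 0 := by
        intro y
        rw [F₁_eq, F₂_eq, F_thin h.s₁ p1, F_thin h.s₂ p2]
        by_cases hy : y ∈ P
        · have := (hP y).1 hy
          rw [if_pos hy, if_pos ((h.s₁.mem _).2 this.1), if_pos ((h.s₂.mem _).2 this.2)]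
          ring
        · rw [if_neg hy]
          by_cases h1 : y ∈ D.S₁.J
          · have h2 : (fun v => y v + s v) ∉ D.S₂.J := fun h2 =>
              hy ((hP y).2 ⟨(h.s₁.mem _).1 h1, (h.s₂.mem _).1 h2⟩)
            rw [if_neg h2, mul_zero]
          · rw [if_neg h1, mul_zero, zero_mul]
      simp only [e]
      rw [← sum_filter]
      exact sum_le_sum_of_subset_of_nonneg (fun x hx => (mem_filter.1 hx).2)
        fun x _ _ => (om_pos D x).le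
    have h2 : 1 ≤ Real.exp (20 * Fintype.card V * η) := Real.one_le_exp (by positivity)
    exact h1.trans (le_mul_of_one_le_left (sum_nonneg fun x _ => (om_pos D x).le) h2)

/-- **MASS1**, all stages and types -/
theorem lowW (h : StOK D r₁ r₂ R c m₁ k₁ m₂ k₂) {τ₁ τ₂ : V → ℕ} {ρ ε : ℝ}
    (t₁ : TauOK D.S₁ m₁ k₁ τ₁ ρ ε) (t₂ : TauOK D.S₂ m₂ k₂ τ₂ ρ ε) {s : V → ℤ}
    (hs0 : ∑ v, s v = 0) (hs1 : ∀ A : Finset V, |∑ v ∈ A, s v| ≤ 1) (P : Finset (V → ℤ))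
    (hP : ∀ x, x ∈ P ↔ MemJ r₁ R x ∧ MemJ r₂ R (fun v => x v + s v)) :
    ∑ x ∈ P, (om D x - Gau.F₁ D x * Gau.F₂ D (fun v => x v + s v)) ≤
      (2 * Fintype.card V * ε + 4 * Fintype.card V * ρ) * ∑ x ∈ P, om D x := by
  classical
  rcases h.alt with hw | ⟨p1, p2⟩
  · have e : ∀ z, om D z = 1 := fun z => by unfold om; rw [hw]; simp
    simp only [F₁_eq, F₂_eq, e, one_mul, sum_const, nsmul_eq_mul, mul_one]
    exact low h.s₁ h.s₂ t₁ t₂ hs0 hs1 P hP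
  · have e : ∀ x ∈ P, om D x - Gau.F₁ D x * Gau.F₂ D (fun v => x v + s v) = 0 := by
      intro y hy
      have := (hP y).1 hy
      rw [F₁_eq, F₂_eq, F_thin h.s₁ p1, F_thin h.s₂ p2, if_pos ((h.s₁.mem _).2 this.1),
        if_pos ((h.s₂.mem _).2 this.2)]
      ring
    rw [sum_congr rfl e, sum_const_zero]
    have := t₁.ρ0
    have := t₁.ε0
    exact mul_nonneg (by positivity) (sum_nonneg fun x _ => (om_pos D x).le)

theorem F₁F₂_le (h : StOK D r₁ r₂ R c m₁ k₁ m₂ k₂) (x y : V → ℤ) :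
    Gau.F₁ D x * Gau.F₂ D y ≤ om D x := by
  rw [F₁_eq, F₂_eq, mul_assoc]
  have h1 := F_nonneg h.s₁ x
  have h2 := F_le_one h.s₁ x
  have h3 := F_nonneg h.s₂ y
  have h4 := F_le_one h.s₂ y
  exact mul_le_of_le_one_right (om_pos D x).le (by nlinarith)

theorem F₁F₂_nonneg (h : StOK D r₁ r₂ R c m₁ k₁ m₂ k₂) (x y : V → ℤ) :
    0 ≤ Gau.F₁ D x * Gau.F₂ D y := by
  rw [F₁_eq, F₂_eq]
  exact mul_nonneg (mul_nonneg (om_pos D x).le (F_nonneg h.s₁ x)) (F_nonneg h.s₂ y)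

/-- **MASS1 for the chain**: `∑_{x ∈ J₁ ∩ J₂} |nuG (pf x) - om x| ≤ (2 n ε + 4 n ρ) Z` -/
theorem mass1 (h : StOK D r₁ r₂ R c m₁ k₁ m₂ k₂) {τ₁ τ₂ : V → ℕ} {ρ ε : ℝ}
    (t₁ : TauOK D.S₁ m₁ k₁ τ₁ ρ ε) (t₂ : TauOK D.S₂ m₂ k₂ τ₂ ρ ε) (P : Finset (V → ℤ))
    (hP : ∀ x, x ∈ P ↔ MemJ r₁ R x ∧ MemJ r₂ R x) :
    ∑ x ∈ P, |D.nuG (D.pf x) - om D x| ≤
      (2 * Fintype.card V * ε + 4 * Fintype.card V * ρ) * ∑ x ∈ P, om D x := by
  have h1 := lowW h t₁ t₂ (s := 0) (by simp) (fun A => by simp) P (fun x => by rw [hP]; simp)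
  simp only [Pi.zero_apply, add_zero] at h1
  refine le_trans (le_of_eq (sum_congr rfl fun x _ => ?_)) h1
  rw [Gau.nuG_pf h.g₁ h.g₂, abs_sub_comm, abs_of_nonneg]
  linarith [F₁F₂_le h x x]

/-- mass of the states without links: between `(1 - ε) Z` and `exp (20 n η) Z` -/
theorem AA_le (h : StOK D r₁ r₂ R c m₁ k₁ m₂ k₂) {η : ℝ} (t₁ : EtaOK D.S₁ m₁ k₁ η)
    (t₂ : EtaOK D.S₂ m₂ k₂ η) (P : Finset (V → ℤ))
    (hP : ∀ x, x ∈ P ↔ MemJ r₁ R x ∧ MemJ r₂ R x) :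
    Gau.AA D 0 ≤ Real.exp (20 * Fintype.card V * η) * ∑ x ∈ P, om D x := by
  rw [Gau.AA_zero]
  have h1 := uppW h t₁ t₂ (s := 0) (by simp) (fun A => by simp) P (fun x => by rw [hP]; simp)
    (Gau.bx1 D)
  simpa using h1

theorem le_AA (h : StOK D r₁ r₂ R c m₁ k₁ m₂ k₂) {τ₁ τ₂ : V → ℕ} {ρ ε : ℝ}
    (t₁ : TauOK D.S₁ m₁ k₁ τ₁ ρ ε) (t₂ : TauOK D.S₂ m₂ k₂ τ₂ ρ ε) (P : Finset (V → ℤ))
    (hP : ∀ x, x ∈ P ↔ MemJ r₁ R x ∧ MemJ r₂ R x) (hbx : P ⊆ Gau.bx1 D) :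
    (1 - (2 * Fintype.card V * ε + 4 * Fintype.card V * ρ)) * ∑ x ∈ P, om D x ≤ Gau.AA D 0 := by
  rw [Gau.AA_zero]
  have h1 := lowW h t₁ t₂ (s := 0) (by simp) (fun A => by simp) P (fun x => by rw [hP]; simp)
  simp only [Pi.zero_apply, add_zero, sum_sub_distrib] at h1
  have h2 : ∑ x ∈ P, Gau.F₁ D x * Gau.F₂ D x ≤ ∑ x ∈ Gau.bx1 D, Gau.F₁ D x * Gau.F₂ D x :=
    sum_le_sum_of_subset_of_nonneg hbx fun x _ _ => F₁F₂_nonneg h x x
  linarith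

/-- **970's one-link hypothesis** `hN` -/
theorem hN_form (h : StOK D r₁ r₂ R c m₁ k₁ m₂ k₂) {η : ℝ} (t₁ : EtaOK D.S₁ m₁ k₁ η)
    (t₂ : EtaOK D.S₂ m₂ k₂ η) (u v : V) (P : Finset (V → ℤ))
    (hP : ∀ x, x ∈ P ↔ MemJ r₁ R x ∧ MemJ r₂ R (fun w => x w + hs v u w)) (B : Finset (V → ℤ)) :
    ∑ x ∈ B, Gau.F₁ D (x + Lor.ev u) * Gau.F₂ D (x + Lor.ev v) ≤
      Real.exp (20 * Fintype.card V * η) * ∑ x ∈ P, om D x := by
  classical
  have h1 := uppW h t₁ t₂ (s := hs v u) (hs_univ v u) (fun A => by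
    rw [hs_sum]; split_ifs <;> simp) P hP (B.image fun x => x + Lor.ev u)
  rw [sum_image (fun x _ y _ e => add_right_cancel e)] at h1
  refine le_trans (le_of_eq (sum_congr rfl fun x _ => ?_)) h1
  congr 2
  funext w
  simp only [Pi.add_apply, hs, Lor.ev, Pi.single_apply]
  ring

end Stage

end Crest.Agent.R302.Mass151
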