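import Crest.Agent.R302.Mass151B

/-!
# R302 (helper151): MASS3, the one-link classes

`mass3` : `∑_{σ ∈ bx, EvG u v σ} nuG σ = 2^(-2a) 2^(ell u - ell v) s` with `|s - N| ≤ ε₀ N`,
`N = ∑_{x ∈ J₁, x + e_v - e_u ∈ J₂} om x`.
-/

set_option autoImplicit false

namespace Crest.Agent.R302.Mass151

open Finset Crest.Agent.R302.Facet Crest.Agent.R302.Inst Crest.Agent.R302.Blk
open Crest.Agent.R302.Stage Crest.Agent.R302.KapR Crest.Agent.R302.Tail907

variable {V : Type*} [Fintype V] [DecidableEq V]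

/-! ### roots -/

omit [Fintype V] [DecidableEq V] in
theorem exists_root (T : MP3.Forest V) (u : V) : ∃ r, T.par r = none ∧ T.Le u r := by
  suffices H : ∀ d u, T.dep u ≤ d → ∃ r, T.par r = none ∧ T.Le u r from H _ u le_rfl
  intro d
  induction d with
  | zero =>
    intro u hu
    rcases h : T.par u with _ | b
    · exact ⟨u, h, MP3.Forest.Le.refl _ _⟩
    · have := T.dep_lt u b h; omega
  | succ d ih =>
    intro u hu
    rcases h : T.par u with _ | b
    · exact ⟨u, h, MP3.Forest.Le.refl _ _⟩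
    · obtain ⟨r, hr, hle⟩ := ih b (by have := T.dep_lt u b h; omega)
      exact ⟨r, hr, (MP3.Forest.Le.of_par h).trans hle⟩

/-- root of the tree of `u` -/
noncomputable def rt (T : MP3.Forest V) (u : V) : V := (exists_root T u).choose

omit [Fintype V] [DecidableEq V] in
theorem par_rt (T : MP3.Forest V) (u : V) : T.par (rt T u) = none := (exists_root T u).choose_spec.1

omit [Fintype V] [DecidableEq V] in
theorem le_rt (T : MP3.Forest V) (u : V) : T.Le u (rt T u) := (exists_root T u).choose_spec.2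

omit [Fintype V] [DecidableEq V] in
theorem root_le {T : MP3.Forest V} {a b : V} (ha : T.par a = none) (h : T.Le a b) : a = b := by
  rcases MP3.Forest.le_iff.1 h with h | ⟨c, hc, _⟩
  · exact h
  · rw [ha] at hc; exact absurd hc (by simp)

omit [Fintype V] [DecidableEq V] in
theorem eq_rt {T : MP3.Forest V} {u r : V} (hr : T.par r = none) (h : T.Le u r) : r = rt T u := by
  rcases MP3.Forest.Le.total h (le_rt T u) with h1 | h1
  · exact root_le hr h1
  · exact (root_le (par_rt T u) h1).symm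

omit [Fintype V] [DecidableEq V] in
theorem rt_thin {T : MP3.Forest V} (h : ∀ a, T.par a = none) (u : V) : rt T u = u :=
  (eq_rt (h u) (MP3.Forest.Le.refl T u)).symm

theorem mem_sub_root (T : MP3.Forest V) {r : V} (hr : T.par r = none) (u : V) :
    u ∈ T.sub r ↔ r = rt T u := by
  rw [MP3.Forest.mem_sub]
  exact ⟨fun h => eq_rt hr h, fun h => h ▸ le_rt T u⟩

/-- block contents of `x + e_u` -/
theorem bs_add_ev_root (T : MP3.Forest V) (x : V → ℤ) (u : V) {r : V} (hr : T.par r = none) :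
    bs T (x + Lor.ev u) r = bs T x r + if r = rt T u then 1 else 0 := by
  rw [bs_add, bs_ev]
  simp only [mem_sub_root T hr]

theorem bs_add_ev_fat (T : MP3.Forest V) (x : V → ℤ) {u : V} (hu : T.par u = none) {a : V}
    (ha : T.par a ≠ none) : bs T (x + Lor.ev u) a = bs T x a := by
  rw [bs_add, bs_ev, if_neg, add_zero]
  rw [MP3.Forest.mem_sub]
  intro h
  exact ha (root_le hu h ▸ hu)

theorem load_ev (S : Side V) (x : V → ℤ) (u : V) :
    S.load x (S.blk (x + Lor.ev u)) = x + Lor.ev (rt S.T u) := by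
  refine eq_of_bs S.T fun a => ?_
  rw [Side.bs_load]
  by_cases ha : S.T.par a = none
  · rw [dif_pos ha]
    show bs S.T (x + Lor.ev u) a = _
    rw [bs_add_ev_root S.T x u ha, bs_add_ev_root S.T x _ ha]
    rw [← eq_rt (par_rt S.T u) (MP3.Forest.Le.refl _ _)]
  · rw [dif_neg ha, bs_add_ev_fat S.T x (par_rt S.T u) ha]

theorem ff_ev (S : Side V) (x : V → ℤ) (u : V) :
    S.ff x (S.blk (x + Lor.ev u)) = F S (x + Lor.ev (rt S.T u)) := by
  unfold F
  rw [Side.ff_load, load_ev]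

/-! ### the exponent -/

/-- the gauge part through the elements -/
theorem sum_ell (S : Side V) (ell : V → ℤ) (h : ∀ a b, S.T.par a = some b → ell a = ell b)
    (z : V → ℤ) : ∑ r : S.Blk, ell r * S.blk z r = ∑ e, ell e * z e := by
  have h1 := MP3.Forest.tele_all (F := S.T) (fun c => (z c : ℝ)) (fun c => (ell c : ℝ))
  have h2 : (∑ e, (z e : ℝ) * (ell e : ℝ)) =
      ∑ a, (if S.T.par a = none then (bs S.T z a : ℝ) * (ell a : ℝ) else 0) := by
    rw [h1]
    refine sum_congr rfl fun a _ => ?_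
    have h3 : (∑ c ∈ S.T.sub a, (z c : ℝ)) = (bs S.T z a : ℝ) := by unfold bs; push_cast; rfl
    rw [h3]
    rcases h4 : S.T.par a with _ | b
    · simp
    · simp [h a b h4]
  rw [← sum_filter, sum_subtype (p := fun a => S.T.par a = none)
    (univ.filter (fun a => S.T.par a = none)) (fun a => by simp)
    (fun a => (bs S.T z a : ℝ) * (ell a : ℝ))] at h2
  have h5 : ((∑ r : S.Blk, ell r * S.blk z r : ℤ) : ℝ) = ((∑ e, ell e * z e : ℤ) : ℝ) := by
    push_cast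
    calc ∑ r : S.Blk, (ell r : ℝ) * (S.blk z r : ℝ)
        = ∑ r : {a // S.T.par a = none}, (bs S.T z r : ℝ) * (ell r : ℝ) :=
          sum_congr rfl fun r _ => by unfold Side.blk; ring
      _ = ∑ e, (z e : ℝ) * (ell e : ℝ) := h2.symm
      _ = ∑ e, (ell e : ℝ) * (z e : ℝ) := sum_congr rfl fun e _ => by ring
  exact_mod_cast h5

theorem sum_abs_ev (S : Side V) (x : V → ℤ) (u : V) :
    ∑ r : S.Blk, |S.blk (x + Lor.ev u) r - bs S.T x r| = 1 := by
  have e : ∀ r : S.Blk, |S.blk (x + Lor.ev u) r - bs S.T x r| =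
      if r = (⟨rt S.T u, par_rt S.T u⟩ : S.Blk) then 1 else 0 := by
    intro r
    unfold Side.blk
    rw [bs_add_ev_root S.T x u r.2, add_sub_cancel_left]
    by_cases h : (r : V) = rt S.T u
    · rw [if_pos h, if_pos (Subtype.ext h)]; simp
    · rw [if_neg h, if_neg fun h' => h (by rw [h'])]; simp
  simp only [e, sum_ite_eq', mem_univ, if_true]

section Stage

variable {D : SD V} {r₁ r₂ : Finset V → ℤ} {R : ℤ} {c : V → ℤ} {m₁ k₁ m₂ k₂ : V → ℕ}

/-- the one-link state over `x` -/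
noncomputable def lk1 (D : SD V) (u v : V) (x : V → ℤ) : St D :=
  (x, D.S₁.blk (x + Lor.ev u), D.S₂.blk (x + Lor.ev v))

theorem w_blk (h : StOK D r₁ r₂ R c m₁ k₁ m₂ k₂) (x : V → ℤ) (u : V) :
    D.w (D.S₁.blk (x + Lor.ev u)) = D.w (D.S₁.blk (x + Lor.ev (rt D.S₁.T u))) := by
  rcases h.alt with hw | ⟨p1, _⟩
  · rw [hw, hw]
  · rw [rt_thin p1]

/-- weight of the one-link states -/
theorem nuG_lk1 (h : StOK D r₁ r₂ R c m₁ k₁ m₂ k₂) (u v : V) (x : V → ℤ) :
    D.nuG (lk1 D u v x) = (1 / 2) ^ (2 * D.a) * 2 ^ (D.ell u - D.ell v) *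
      (Gau.F₁ D (x + Lor.ev (rt D.S₁.T u)) * Gau.F₂ D (x + Lor.ev (rt D.S₂.T v))) := by
  have h2 : (2 : ℝ) ≠ 0 := by norm_num
  have hex : D.ex (lk1 D u v x) = -(2 * D.a : ℕ) + (D.ell u - D.ell v) +
      (-D.w (D.S₁.blk (x + Lor.ev (rt D.S₁.T u)))) := by
    unfold SD.ex lk1
    simp only
    rw [sum_abs_ev D.S₁, sum_abs_ev D.S₂, sum_ell D.S₁ D.ell h.gau₁, sum_ell D.S₂ D.ell h.gau₂,
      w_blk h]
    have e : ∀ w : V, ∑ e, D.ell e * (x + Lor.ev w) e = ∑ e, D.ell e * x e + D.ell w := by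
      intro w
      simp only [Pi.add_apply, mul_add, sum_add_distrib]
      congr 1
      simp [Lor.ev, Pi.single_apply]
    rw [e, e]
    push_cast
    ring
  unfold SD.nuG SD.u SD.FG
  rw [hex, zpow_add₀ h2, zpow_add₀ h2]
  rw [F₁_eq, F₂_eq]
  have e1 : D.S₁.ff (lk1 D u v x).1 (lk1 D u v x).2.1 = F D.S₁ (x + Lor.ev (rt D.S₁.T u)) :=
    ff_ev D.S₁ x u
  have e2 : D.S₂.ff (lk1 D u v x).1 (lk1 D u v x).2.2 = F D.S₂ (x + Lor.ev (rt D.S₂.T v)) :=
    ff_ev D.S₂ x v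
  rw [e1, e2]
  have e3 : (2 : ℝ) ^ (-((2 * D.a : ℕ) : ℤ)) = (1 / 2) ^ (2 * D.a) := by
    rw [zpow_neg, zpow_natCast, one_div, inv_pow]
  rw [e3]
  unfold om
  ring

/-! ### comparison of `N` at the roots -/

/-- `blk_le` with a general constant -/
theorem blk_exp {r₁ r₂ : Finset V → ℤ} {R : ℤ} (hr₁ : SubM r₁ R) (hr₂ : SubM r₂ R)
    {c : V → ℤ} (hc₁ : MemJ r₁ R c) (hc₂ : MemJ r₂ R c) {w1 : ℤ} {m : ℕ}
    (hm : (m : ℤ) + (4 * Fintype.card V + 2) ≤ w1) (hq : 4 ≤ m / Facet.kap (Fintype.card V) + 1)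
    {G : SimpleGraph V} (hG : ∀ a b, G.Adj a b → w1 ≤ mn r₁ c a b ∨ w1 ≤ mn r₂ c a b)
    {u u' v v' : V} (hu : G.Reachable u u') (hv : G.Reachable v v') :
    (NN r₁ r₂ R u v : ℝ) ≤
      Real.exp (8 * Fintype.card V / ((m / Facet.kap (Fintype.card V) + 1 : ℕ) : ℝ)) *
        NN r₁ r₂ R u' v' := by
  classical
  set n := Fintype.card V with hn
  set q : ℝ := ((m / Facet.kap n + 1 : ℕ) : ℝ) with hqd
  have hq0 : 0 < q := by rw [hqd]; positivity
  obtain ⟨p, hp⟩ := hu.exists_isPath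
  obtain ⟨p', hp'⟩ := hv.exists_isPath
  have hl : p.length ≤ n := hp.length_lt.le
  have hl' : p'.length ≤ n := hp'.length_lt.le
  have h1 := walk_le hr₁ hr₂ hc₁ hc₂ hG v hm hq p
  have h2 := walk_le hr₂ hr₁ hc₂ hc₁ (w1 := w1) (G := G) (fun a b h => (hG a b h).symm) u' hm hq p'
  rw [NN_swap v u', NN_swap v' u'] at h2
  rw [← hn, ← hqd] at h1 h2
  have hb : ∀ l : ℕ, l ≤ n → Real.exp ((l : ℝ) * (4 / q)) ≤ Real.exp (4 * n / q) := by
    intro l hl
    apply Real.exp_le_exp.2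
    have hlr : (l : ℝ) ≤ n := by exact_mod_cast hl
    calc (l : ℝ) * (4 / q) ≤ n * (4 / q) := mul_le_mul_of_nonneg_right hlr (by positivity)
      _ = _ := by ring
  have e : Real.exp (8 * n / q) = Real.exp (4 * n / q) * Real.exp (4 * n / q) := by
    rw [← Real.exp_add]; congr 1; ring
  calc (NN r₁ r₂ R u v : ℝ) ≤ Real.exp (4 * n / q) * NN r₁ r₂ R u' v :=
        h1.trans (mul_le_mul_of_nonneg_right (hb _ hl) (Nat.cast_nonneg _))
    _ ≤ Real.exp (4 * n / q) * (Real.exp (4 * n / q) * NN r₁ r₂ R u' v') :=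
        mul_le_mul_of_nonneg_left (h2.trans (mul_le_mul_of_nonneg_right (hb _ hl')
          (Nat.cast_nonneg _))) (Real.exp_pos _).le
    _ = _ := by rw [e]; ring

/-- the graph of the fat edges -/
def fG (T₁ T₂ : MP3.Forest V) : SimpleGraph V :=
  SimpleGraph.fromRel fun a b => T₁.par a = some b ∨ T₂.par a = some b

omit [Fintype V] [DecidableEq V] in
theorem fG_reach (T₁ T₂ : MP3.Forest V) {T : MP3.Forest V} (hT : T = T₁ ∨ T = T₂) {a b : V}
    (h : T.Le a b) : (fG T₁ T₂).Reachable a b := by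
  unfold MP3.Forest.Le at h
  induction h with
  | refl => exact SimpleGraph.Reachable.refl _
  | tail _ hbc ih =>
    refine ih.trans (SimpleGraph.Adj.reachable ?_)
    rw [fG, SimpleGraph.fromRel_adj]
    refine ⟨par_ne T hbc, Or.inl ?_⟩
    rcases hT with rfl | rfl
    · exact Or.inl hbc
    · exact Or.inr hbc

theorem mn_symm (r : Finset V → ℤ) (c : V → ℤ) (a b : V) : mn r c a b = mn r c b a := min_comm _ _

theorem le_mn {S : Side V} {r : Finset V → ℤ} {m k : V → ℕ} (h : SideOK S r R c m k) {p b : V}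
    (hpb : S.T.par p = some b) : (m p : ℤ) ≤ mn r c p b := by
  have hne := par_ne S.T hpb
  refine le_min ?_ ?_
  · obtain ⟨A, h1, h2, h3⟩ := exists_cap (r := r) (x := c) hne
    rw [← h3]; exact h.slk p b hpb A (Or.inl ⟨h1, h2⟩)
  · obtain ⟨A, h1, h2, h3⟩ := exists_cap (r := r) (x := c) hne.symm
    rw [← h3]; exact h.slk p b hpb A (Or.inr ⟨h1, h2⟩)

theorem fG_le (h : StOK D r₁ r₂ R c m₁ k₁ m₂ k₂) {w1 : ℤ}
    (hw₁ : ∀ p, D.S₁.T.par p ≠ none → w1 ≤ m₁ p) (hw₂ : ∀ p, D.S₂.T.par p ≠ none → w1 ≤ m₂ p)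
    (a b : V) (hab : (fG D.S₁.T D.S₂.T).Adj a b) : w1 ≤ mn r₁ c a b ∨ w1 ≤ mn r₂ c a b := by
  rw [fG, SimpleGraph.fromRel_adj] at hab
  rcases hab.2 with (h1 | h1) | (h1 | h1)
  · exact Or.inl ((hw₁ a (by rw [h1]; simp)).trans (le_mn h.s₁ h1))
  · exact Or.inr ((hw₂ a (by rw [h1]; simp)).trans (le_mn h.s₂ h1))
  · rw [mn_symm r₁, mn_symm r₂]
    exact Or.inl ((hw₁ b (by rw [h1]; simp)).trans (le_mn h.s₁ h1))
  · rw [mn_symm r₁, mn_symm r₂]
    exact Or.inr ((hw₂ b (by rw [h1]; simp)).trans (le_mn h.s₂ h1))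

theorem card_eq_NN {r₁ r₂ : Finset V → ℤ} {R : ℤ} {u v : V} (P : Finset (V → ℤ))
    (hP : ∀ x, x ∈ P ↔ MemJ r₁ R x ∧ MemJ r₂ R (fun w => x w + hs u v w)) :
    P.card = NN r₁ r₂ R u v := by
  unfold NN
  have : hol r₁ r₂ R u v = (P : Set (V → ℤ)) := by
    ext x; rw [mem_coe, hP]; rfl
  rw [this, Set.ncard_coe_finset]

/-- numeric conditions of `mass3` -/
structure M3OK (V : Type*) [Fintype V] (w1 : ℤ) (m : ℕ) (η ρ ε ε₀ : ℝ) : Prop where
  hm : (m : ℤ) + (4 * Fintype.card V + 2) ≤ w1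
  hq : 4 ≤ m / Facet.kap (Fintype.card V) + 1
  ε1 : ε₀ ≤ 1
  up : 20 * Fintype.card V * η + 8 * Fintype.card V / ((m / Facet.kap (Fintype.card V) + 1 : ℕ) : ℝ)
    ≤ ε₀ / 2
  lo : 2 * Fintype.card V * ε + 4 * Fintype.card V * ρ ≤ ε₀ / 2

/-- **MASS3** : one-link classes -/
theorem mass3 (h : StOK D r₁ r₂ R c m₁ k₁ m₂ k₂) {η : ℝ} (e₁ : EtaOK D.S₁ m₁ k₁ η)
    (e₂ : EtaOK D.S₂ m₂ k₂ η) {τ₁ τ₂ : V → ℕ} {ρ ε ε₀ : ℝ} (t₁ : TauOK D.S₁ m₁ k₁ τ₁ ρ ε)
    (t₂ : TauOK D.S₂ m₂ k₂ τ₂ ρ ε) {w1 : ℤ} {m : ℕ} (hN : M3OK V w1 m η ρ ε ε₀)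
    (hw₁ : ∀ p, D.S₁.T.par p ≠ none → w1 ≤ m₁ p) (hw₂ : ∀ p, D.S₂.T.par p ≠ none → w1 ≤ m₂ p)
    (hbx : ∀ z ∈ D.S₁.J, ∀ z' ∈ D.S₂.J, ∀ x, (∃ u, z = x + Lor.ev u) → (∃ v, z' = x + Lor.ev v) →
      ((x, D.S₁.blk z, D.S₂.blk z') : St D) ∈ D.bx)
    (u v : V) (P : Finset (V → ℤ))
    (hP : ∀ x, x ∈ P ↔ MemJ r₁ R x ∧ MemJ r₂ R (fun w => x w + hs v u w))
    [DecidablePred (D.EvG u v)] :
    ∃ s : ℝ, ∑ σ ∈ D.bx.filter (D.EvG u v), D.nuG σ =
        (1 / 2) ^ (2 * D.a) * 2 ^ (D.ell u - D.ell v) * s ∧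
      |s - ∑ x ∈ P, om D x| ≤ ε₀ * ∑ x ∈ P, om D x := by
  classical
  set n := Fintype.card V with hn
  set u' := rt D.S₁.T u with hu'
  set v' := rt D.S₂.T v with hv'
  set X : Finset (V → ℤ) := (D.bx.filter (D.EvG u v)).image (fun σ => σ.1) with hX
  have hset : D.bx.filter (D.EvG u v) = X.image (lk1 D u v) := by
    ext σ
    rw [hX, mem_image]
    constructor
    · intro hσ
      refine ⟨σ.1, mem_image.2 ⟨σ, hσ, rfl⟩, ?_⟩
      have := (mem_filter.1 hσ).2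
      obtain ⟨a1, a2⟩ := this
      exact Prod.ext rfl (Prod.ext a1.symm a2.symm)
    · rintro ⟨x, hx, rfl⟩
      obtain ⟨σ, hσ, rfl⟩ := mem_image.1 hx
      obtain ⟨a1, a2⟩ := (mem_filter.1 hσ).2
      have : lk1 D u v σ.1 = σ := Prod.ext rfl (Prod.ext a1.symm a2.symm)
      rw [this]; exact hσ
  set s : ℝ := ∑ x ∈ X, Gau.F₁ D (x + Lor.ev u') * Gau.F₂ D (x + Lor.ev v') with hs'
  refine ⟨s, ?_, ?_⟩
  · rw [hset, sum_image (fun x _ y _ e => congrArg Prod.fst e), hs', mul_sum]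
    exact sum_congr rfl fun x _ => nuG_lk1 h u v x
  -- the hard counts at the roots
  obtain ⟨P', hP'⟩ : ∃ P' : Finset (V → ℤ), ∀ x, x ∈ P' ↔
      MemJ r₁ R x ∧ MemJ r₂ R (fun w => x w + hs v' u' w) := by
    obtain ⟨P0, hP0⟩ := exists_finset (r₂ := r₁) h.s₁.sub
    exact ⟨P0.filter fun x => MemJ r₂ R (fun w => x w + hs v' u' w), fun x => by
      rw [mem_filter, hP0]; tauto⟩
  have hup : s ≤ Real.exp (20 * n * η) * ∑ x ∈ P', om D x :=
    hN_form h e₁ e₂ u' v' P' hP' X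
  have hom0 : 0 ≤ ∑ x ∈ P', om D x := sum_nonneg fun x _ => (om_pos D x).le
  have hlo : (1 - (2 * n * ε + 4 * n * ρ)) * ∑ x ∈ P', om D x ≤ s := by
    have h1 := lowW h t₁ t₂ (s := hs v' u') (hs_univ v' u') (fun A => by
      rw [hs_sum]; split_ifs <;> simp) P' hP'
    rw [sum_sub_distrib] at h1
    have h2 : ∑ x ∈ P', Gau.F₁ D x * Gau.F₂ D (fun w => x w + hs v' u' w) ≤ s := by
      have hsub : P' ⊆ X.image (fun x => x + Lor.ev u') := by
        intro z hz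
        obtain ⟨z1, z2⟩ := (hP' z).1 hz
        have hz1 := (h.s₁.mem _).2 z1
        have hz2 := (h.s₂.mem _).2 z2
        have ez2 : (fun w => z w + hs v' u' w) = (z - Lor.ev u') + Lor.ev v' := by
          funext w
          simp only [Pi.add_apply, Pi.sub_apply, hs, Lor.ev, Pi.single_apply]
          ring
        rw [mem_image]
        refine ⟨z - Lor.ev u', ?_, sub_add_cancel _ _⟩
        rw [hX, mem_image]
        refine ⟨lk1 D u v (z - Lor.ev u'), ?_, rfl⟩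
        rw [mem_filter]
        refine ⟨?_, rfl, rfl⟩
        have b1 : D.S₁.blk (z - Lor.ev u' + Lor.ev u) = D.S₁.blk z := by
          funext r
          unfold Side.blk
          rw [bs_add_ev_root _ _ _ r.2]
          have : bs D.S₁.T z r = bs D.S₁.T (z - Lor.ev u' + Lor.ev u') r := by
            rw [sub_add_cancel]
          rw [this, bs_add_ev_root _ _ _ r.2, ← eq_rt (par_rt D.S₁.T u) (MP3.Forest.Le.refl _ _)]
        have b2 : D.S₂.blk (z - Lor.ev u' + Lor.ev v) =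
            D.S₂.blk (fun w => z w + hs v' u' w) := by
          rw [ez2]
          funext r
          unfold Side.blk
          rw [bs_add_ev_root _ _ _ r.2, bs_add_ev_root _ _ _ r.2,
            ← eq_rt (par_rt D.S₂.T v) (MP3.Forest.Le.refl _ _)]
        unfold lk1
        rw [b1, b2]
        exact hbx z hz1 _ hz2 _ ⟨u', (sub_add_cancel _ _).symm⟩ ⟨v', ez2⟩
      have h3 := sum_le_sum_of_subset_of_nonneg (f := fun z =>
        Gau.F₁ D z * Gau.F₂ D (fun w => z w + hs v' u' w)) hsub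
        fun z _ _ => F₁F₂_nonneg h z _
      refine h3.trans (le_of_eq ?_)
      rw [sum_image (fun x _ y _ e => add_right_cancel e), hs']
      refine sum_congr rfl fun x _ => ?_
      congr 2
      funext w
      simp only [Pi.add_apply, hs, Lor.ev, Pi.single_apply]
      ring
    linarith
  -- comparison with `P`
  set q : ℝ := ((m / Facet.kap n + 1 : ℕ) : ℝ) with hq
  have hq0 : 0 < q := by rw [hq]; positivity
  have hcmp : ∑ x ∈ P', om D x ≤ Real.exp (8 * n / q) * ∑ x ∈ P, om D x ∧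
      ∑ x ∈ P, om D x ≤ Real.exp (8 * n / q) * ∑ x ∈ P', om D x := by
    rcases h.alt with hw | ⟨p1, p2⟩
    · have e : ∀ z, om D z = 1 := fun z => by unfold om; rw [hw]; simp
      simp only [e, sum_const, nsmul_eq_mul, mul_one]
      rw [card_eq_NN P hP, card_eq_NN P' hP']
      have g1 : (fG D.S₁.T D.S₂.T).Reachable u u' := fG_reach _ _ (Or.inl rfl) (le_rt _ u)
      have g2 : (fG D.S₁.T D.S₂.T).Reachable v v' := fG_reach _ _ (Or.inr rfl) (le_rt _ v)
      exact ⟨blk_exp h.s₁.sub h.s₂.sub h.s₁.cen h.s₂.cen hN.hm hN.hq (fG_le h hw₁ hw₂) g2.symm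
          g1.symm,
        blk_exp h.s₁.sub h.s₂.sub h.s₁.cen h.s₂.cen hN.hm hN.hq (fG_le h hw₁ hw₂) g2 g1⟩
    · have ePP : P' = P := by
        ext x
        rw [hP, hP', hu', hv', rt_thin p1, rt_thin p2]
      rw [ePP]
      have h1 : 1 ≤ Real.exp (8 * n / q) := Real.one_le_exp (by positivity)
      have h2 : 0 ≤ ∑ x ∈ P, om D x := sum_nonneg fun x _ => (om_pos D x).le
      exact ⟨le_mul_of_one_le_left h2 h1, le_mul_of_one_le_left h2 h1⟩
  have hPn : 0 ≤ ∑ x ∈ P, om D x := sum_nonneg fun x _ => (om_pos D x).le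
  set N := ∑ x ∈ P, om D x with hNdef
  set N' := ∑ x ∈ P', om D x with hN'def
  have hup2 : s ≤ Real.exp (ε₀ / 2) * N := by
    calc s ≤ Real.exp (20 * n * η) * N' := hup
      _ ≤ Real.exp (20 * n * η) * (Real.exp (8 * n / q) * N) :=
          mul_le_mul_of_nonneg_left hcmp.1 (Real.exp_pos _).le
      _ = Real.exp (20 * n * η + 8 * n / q) * N := by rw [Real.exp_add]; ring
      _ ≤ _ := mul_le_mul_of_nonneg_right (Real.exp_le_exp.2 hN.up) hPn
  have hη := e₁.η0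
  have hρ := t₁.ρ0
  have hε := t₁.ε0
  have hε₀ : 0 ≤ ε₀ := by
    have h1 := hN.lo
    have h2 : 0 ≤ 2 * (Fintype.card V : ℝ) * ε + 4 * Fintype.card V * ρ := by positivity
    linarith
  have hexp1 : Real.exp (ε₀ / 2) ≤ 1 + ε₀ := by
    have h3 : 1 - ε₀ / 2 ≤ Real.exp (-(ε₀ / 2)) := by linarith [Real.add_one_le_exp (-(ε₀ / 2))]
    rw [Real.exp_neg] at h3
    have h4 := Real.exp_pos (ε₀ / 2)
    have h5 : (1 - ε₀ / 2) * Real.exp (ε₀ / 2) ≤ 1 := by
      have := mul_le_mul_of_nonneg_right h3 h4.le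
      rwa [inv_mul_cancel₀ h4.ne'] at this
    have h6 := hN.ε1
    by_contra hcon
    push Not at hcon
    nlinarith
  have hexp2 : (1 - ε₀ / 2) * N ≤ N' := by
    have h3 : 1 - ε₀ / 2 ≤ Real.exp (-(8 * n / q)) := by
      have h4 : 8 * n / q ≤ ε₀ / 2 := by
        have := hN.up
        have h5 : 0 ≤ 20 * (Fintype.card V : ℝ) * η := by positivity
        rw [← hn, ← hq] at this
        rw [← hn] at h5
        linarith
      linarith [Real.add_one_le_exp (-(8 * n / q))]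
    calc (1 - ε₀ / 2) * N ≤ Real.exp (-(8 * n / q)) * N := mul_le_mul_of_nonneg_right h3 hPn
      _ ≤ Real.exp (-(8 * n / q)) * (Real.exp (8 * n / q) * N') :=
          mul_le_mul_of_nonneg_left hcmp.2 (Real.exp_pos _).le
      _ = N' := by rw [← mul_assoc, ← Real.exp_add]; simp
  have hlo2 : (1 - ε₀) * N ≤ s := by
    have h1 : (1 - ε₀ / 2) * N' ≤ s := by
      refine le_trans (mul_le_mul_of_nonneg_right ?_ hom0) hlo
      have := hN.lo
      rw [← hn] at this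
      linarith
    have h2 : (1 - ε₀ / 2) * ((1 - ε₀ / 2) * N) ≤ (1 - ε₀ / 2) * N' :=
      mul_le_mul_of_nonneg_left hexp2 (by linarith [hN.ε1])
    nlinarith [mul_nonneg (mul_nonneg hε₀ hε₀) hPn]
  rw [abs_le]
  constructor
  · linarith
  · have := mul_le_mul_of_nonneg_right hexp1 hPn
    linarith

end Stage

end Crest.Agent.R302.Mass151
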