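import Crest.Agent.R302.Stage536
import Crest.Agent.R302.Inst532B
import Crest.Agent.R302.Tail907C

/-!
# R302 (helper425), MASS4, part A: near / far split of the soft membership probabilities

* `relax_count` : the number of points of two relaxed and shifted systems;
* `NearZ`, `nf`, `tf` : `ff = nf + tf` (all fat slacks at most `B`, rest);
* `nearL` : the list of relaxations, `near_mem` : near states lie in the relaxed systems.
-/

set_option autoImplicit false
set_option linter.unusedSectionVars false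

namespace Crest.Agent.R302.Mass4

open Finset Crest.Agent.R302.Inst Crest.Agent.R302.Facet Crest.Agent.R302.Tail907

variable {V : Type*} [Fintype V] [DecidableEq V]

/-! ### counting in relaxed systems -/

theorem relaxL_addV (r : Finset V → ℤ) (s : V → ℤ) (L : List (V × V)) :
    relaxL (addV r s) L = addV (relaxL r L) s := by
  funext A
  rw [relaxL_eq]
  unfold addV
  rw [relaxL_eq]
  ring

/-- **Counting in relaxed systems** with few links. -/
theorem relax_count {r₁ r₂ : Finset V → ℤ} {R : ℤ} (hr₁ : SubM r₁ R) (hr₂ : SubM r₂ R) {c : V → ℤ}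
    (hc₁ : MemJ r₁ R c) (hc₂ : MemJ r₂ R c) (J₁ J₂ : Finset (V → ℤ))
    (hJ₁ : ∀ z, z ∈ J₁ ↔ MemJ r₁ R z) (hJ₂ : ∀ z, z ∈ J₂ ↔ MemJ r₂ R z)
    (L₁ L₂ : List (V × V)) (m₁ m₂ : V × V → ℕ) (h₀ : ℕ)
    (hm₁ : ∀ p ∈ L₁, p.1 ≠ p.2 ∧ 8 * kap (Fintype.card V) ≤ m₁ p ∧
      2 * (4 * Fintype.card V + 2) * h₀ ≤ m₁ p ∧
      ∀ A, p.1 ∈ A → p.2 ∉ A → (m₁ p : ℤ) ≤ slk r₁ c A)
    (hm₂ : ∀ p ∈ L₂, p.1 ≠ p.2 ∧ 8 * kap (Fintype.card V) ≤ m₂ p ∧
      2 * (4 * Fintype.card V + 2) * h₀ ≤ m₂ p ∧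
      ∀ A, p.1 ∈ A → p.2 ∉ A → (m₂ p : ℤ) ≤ slk r₂ c A)
    (s₁ s₂ : V → ℤ) (hh : ∑ v, |s₁ v| + ∑ v, |s₂ v| ≤ h₀) (Q : Finset (V → ℤ))
    (hQ : ∀ x ∈ Q, MemJ (relaxL r₁ L₁) R (fun v => x v - s₁ v) ∧
      MemJ (relaxL r₂ L₂) R (fun v => x v - s₂ v)) :
    (Q.card : ℝ) ≤
    Real.exp ((L₁.map fun p => 8 * (kap (Fintype.card V) : ℝ) / m₁ p).sum +
      (L₂.map fun p => 8 * (kap (Fintype.card V) : ℝ) / m₂ p).sum) *
      linkCount J₁ J₂ s₁ s₂ := by
  classical
  set n := Fintype.card V with hn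
  have hsum0 : ∀ (L : List (V × V)) (m : V × V → ℕ),
      0 ≤ (L.map fun p => 8 * (kap n : ℝ) / m p).sum := by
    intro L m
    apply List.sum_nonneg
    intro a ha
    obtain ⟨p, _, rfl⟩ := List.mem_map.1 ha
    positivity
  rcases isEmpty_or_nonempty V with hV | hV
  · -- trivial ground set
    have hQ1 : Q.card ≤ 1 := card_le_one_of_subsingleton Q
    rcases Q.eq_empty_or_nonempty with hQ0 | ⟨x, hx⟩
    · rw [hQ0]; simp only [card_empty, Nat.cast_zero]; positivity
    · have hN : 1 ≤ linkCount J₁ J₂ s₁ s₂ := by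
        unfold linkCount
        rw [Nat.one_le_iff_ne_zero, ← Nat.pos_iff_ne_zero, card_pos]
        refine ⟨c, mem_filter.2 ⟨(hJ₁ _).2 hc₁, (hJ₂ _).2 ?_⟩⟩
        convert hc₂ using 1
      have h1 : (Q.card : ℝ) ≤ 1 := by exact_mod_cast hQ1
      have h2 : (1 : ℝ) ≤ linkCount J₁ J₂ s₁ s₂ := by exact_mod_cast hN
      have h3 : (1 : ℝ) ≤ Real.exp ((L₁.map fun p => 8 * (kap n : ℝ) / m₁ p).sum +
          (L₂.map fun p => 8 * (kap n : ℝ) / m₂ p).sum) :=
        Real.one_le_exp (add_nonneg (hsum0 _ _) (hsum0 _ _))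
      nlinarith
  by_cases hS : ∑ v, s₁ v = ∑ v, s₂ v
  swap
  · have : Q = ∅ := by
      rw [eq_empty_iff_forall_notMem]
      intro x hx
      have h1 := (hQ x hx).1.2
      have h2 := (hQ x hx).2.2
      rw [sum_sub_distrib] at h1 h2
      apply hS
      linarith
    rw [this]
    simp only [card_empty, Nat.cast_zero]
    positivity
  -- the shifted systems
  set R' := R + ∑ v, s₁ v with hR'
  have hR'2 : R' = R + ∑ v, s₂ v := by rw [hR', hS]
  have hsub₁ : SubM (addV r₁ s₁) R' := addV_subM hr₁ s₁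
  have hsub₂ : SubM (addV r₂ s₂) R' := hR'2 ▸ addV_subM hr₂ s₂
  set P' : Finset (V → ℤ) := (J₁.filter (fun z => (fun v => z v + s₁ v - s₂ v) ∈ J₂)).image
    (fun z => fun v => z v + s₁ v) with hP'def
  have hP' : ∀ x, x ∈ P' ↔ MemJ (addV r₁ s₁) R' x ∧ MemJ (addV r₂ s₂) R' x := by
    intro x
    rw [hP'def, mem_image]
    have e1 : MemJ (addV r₁ s₁) R' x ↔ MemJ r₁ R (fun v => x v - s₁ v) := memJ_addV s₁ x
    have e2 : MemJ (addV r₂ s₂) R' x ↔ MemJ r₂ R (fun v => x v - s₂ v) := by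
      rw [hR'2]; exact memJ_addV s₂ x
    rw [e1, e2]
    constructor
    · rintro ⟨z, hz, rfl⟩
      rw [mem_filter] at hz
      refine ⟨?_, (hJ₂ _).1 hz.2⟩
      have := (hJ₁ _).1 hz.1
      simpa using this
    · rintro ⟨h1, h2⟩
      refine ⟨fun v => x v - s₁ v, mem_filter.2 ⟨(hJ₁ _).2 h1, ?_⟩, by funext v; ring⟩
      have h3 := (hJ₂ _).2 h2
      convert h3 using 1
      funext v
      ring
  have hcard : P'.card ≤ linkCount J₁ J₂ s₁ s₂ := card_image_le
  -- sums of the link vectors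
  have habs : ∀ A : Finset V, |∑ a ∈ A, s₂ a - ∑ a ∈ A, s₁ a| ≤ h₀ := by
    intro A
    have h1 := Facet.abs_sum_le s₁ A
    have h2 := Facet.abs_sum_le s₂ A
    have h3 := abs_sub (∑ a ∈ A, s₂ a) (∑ a ∈ A, s₁ a)
    linarith
  let c' : V → ℝ := fun v => (c v : ℝ) + s₁ v
  have hc'A : ∀ A : Finset V, ∑ a ∈ A, c' a = ((∑ a ∈ A, c a + ∑ a ∈ A, s₁ a : ℤ) : ℝ) := by
    intro A
    simp only [c']
    rw [sum_add_distrib]
    push_cast
    rfl
  have hh0 : (0 : ℤ) ≤ h₀ := by positivity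
  have hkap : 0 < kap n := by
    apply kap_pos
    rw [hn]; exact Fintype.card_pos
  obtain ⟨Q', hQ'⟩ := exists_finset (r₁ := relaxL (addV r₁ s₁) L₁)
    (r₂ := relaxL (addV r₂ s₂) L₂) (R := R') (relaxL_subM hsub₁ _)
  have hQQ' : Q ⊆ Q' := by
    intro x hx
    rw [hQ', relaxL_addV, relaxL_addV]
    obtain ⟨h1, h2⟩ := hQ x hx
    refine ⟨?_, ?_⟩
    · rw [hR', memJ_addV]; exact h1
    · rw [hR'2, memJ_addV]; exact h2
  have hred : ∀ (m : V × V → ℕ) (p : V × V), 8 * kap n ≤ m p → 2 * (4 * n + 2) * h₀ ≤ m p →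
      4 * kap n ≤ m p - (4 * n + 2) * h₀ ∧ (4 * n + 2) * h₀ ≤ m p ∧
      m p ≤ 2 * (m p - (4 * n + 2) * h₀) := by
    intro m p h1 h2
    have h4 : 2 * ((4 * n + 2) * h₀) ≤ m p := by rw [← mul_assoc]; exact h2
    omega
  have main := growth_iter_e hsub₁ hsub₂ P' hP' (c := c') (e := (h₀ : ℝ)) (by positivity)
    (fun A => by
      rw [hc'A]
      have h1 := hc₁.1 A
      have h2 : ∑ a ∈ A, c a + ∑ a ∈ A, s₁ a ≤ addV r₁ s₁ A + h₀ := by
        unfold addV; linarith
      exact_mod_cast h2)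
    (fun A => by
      rw [hc'A]
      have h1 := hc₂.1 A
      have h3 := (abs_le.1 (habs A)).1
      have h2 : ∑ a ∈ A, c a + ∑ a ∈ A, s₁ a ≤ addV r₂ s₂ A + h₀ := by
        unfold addV; linarith
      exact_mod_cast h2)
    (by
      rw [hc'A, hc₁.2])
    (fun p => m₁ p - (4 * n + 2) * h₀) (fun p => m₂ p - (4 * n + 2) * h₀) L₁ L₂
    (fun p hp => by
      obtain ⟨g1, g2, g3, g4⟩ := hm₁ p hp
      obtain ⟨h1, h2, h3⟩ := hred m₁ p g2 g3
      refine ⟨g1, h1, fun A hA hA' => ?_⟩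
      have h5 := g4 A hA hA'
      rw [hc'A]
      have h6 : ((m₁ p - (4 * n + 2) * h₀ : ℕ) : ℤ) + (4 * n + 1) * h₀ ≤
          addV r₁ s₁ A - (∑ a ∈ A, c a + ∑ a ∈ A, s₁ a) := by
        rw [Nat.cast_sub h2]
        unfold addV slk at *
        push_cast
        nlinarith
      exact_mod_cast h6)
    (fun p hp => by
      obtain ⟨g1, g2, g3, g4⟩ := hm₂ p hp
      obtain ⟨h1, h2, h3⟩ := hred m₂ p g2 g3
      refine ⟨g1, h1, fun A hA hA' => ?_⟩
      have h5 := g4 A hA hA'
      have h8 := (abs_le.1 (habs A)).1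
      rw [hc'A]
      have h6 : ((m₂ p - (4 * n + 2) * h₀ : ℕ) : ℤ) + (4 * n + 1) * h₀ ≤
          addV r₂ s₂ A - (∑ a ∈ A, c a + ∑ a ∈ A, s₁ a) := by
        rw [Nat.cast_sub h2]
        unfold addV slk at *
        push_cast
        nlinarith
      exact_mod_cast h6)
    Q' hQ'
  have hle : ∀ (L : List (V × V)) (m : V × V → ℕ), (∀ p ∈ L,
      8 * kap n ≤ m p ∧ 2 * (4 * n + 2) * h₀ ≤ m p) →
      (L.map fun p => 4 * (kap n : ℝ) / ((m p - (4 * n + 2) * h₀ : ℕ) : ℝ)).sum ≤
      (L.map fun p => 8 * (kap n : ℝ) / m p).sum := by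
    intro L m h
    apply List.sum_le_sum
    intro p hp
    obtain ⟨h1, h2⟩ := h p hp
    obtain ⟨h3, h4, h5⟩ := hred m p h1 h2
    have hk : (0 : ℝ) < kap n := by exact_mod_cast hkap
    have hm0 : (0 : ℝ) < m p := by
      have : 0 < m p := by omega
      exact_mod_cast this
    have hm1 : (0 : ℝ) < ((m p - (4 * n + 2) * h₀ : ℕ) : ℝ) := by
      have : 0 < m p - (4 * n + 2) * h₀ := by omega
      exact_mod_cast this
    rw [div_le_div_iff₀ hm1 hm0]
    have h5 : (m p : ℝ) ≤ 2 * ((m p - (4 * n + 2) * h₀ : ℕ) : ℝ) := by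
      exact_mod_cast h5
    nlinarith
  have e1 := hle L₁ m₁ fun p hp => ⟨(hm₁ p hp).2.1, (hm₁ p hp).2.2.1⟩
  have e2 := hle L₂ m₂ fun p hp => ⟨(hm₂ p hp).2.1, (hm₂ p hp).2.2.1⟩
  have hQc : (Q.card : ℝ) ≤ Q'.card := by exact_mod_cast card_le_card hQQ'
  refine hQc.trans (main.trans ?_)
  apply mul_le_mul (Real.exp_le_exp.2 (add_le_add e1 e2)) _ (by positivity) (Real.exp_pos _).le
  exact_mod_cast hcard

/-! ### near and far slacks -/

variable {E : Type*} [Fintype E] [DecidableEq E]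

/-- all fat slacks between `x` and `z` are at most `B` -/
def NearZ (T : MP3.Forest E) (B : E → ℕ) (x z : E → ℤ) : Prop :=
  ∀ a, T.par a ≠ none → |bs T z a - bs T x a| ≤ B a

open Classical in
/-- near part of `ff` -/
noncomputable def nf (S : Side E) (B : E → ℕ) (x : E → ℤ) (β : S.Blk → ℤ) : ℝ :=
  ∑ z ∈ S.J.filter (fun z => NearZ S.T B x z), S.g z * ∏ a, S.fk x β z a

open Classical in
/-- far part of `ff` -/
noncomputable def tf (S : Side E) (B : E → ℕ) (x : E → ℤ) (β : S.Blk → ℤ) : ℝ :=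
  ∑ z ∈ S.J.filter (fun z => ¬ NearZ S.T B x z), S.g z * ∏ a, S.fk x β z a

theorem nf_add_tf (S : Side E) (B : E → ℕ) (x : E → ℤ) (β : S.Blk → ℤ) :
    nf S B x β + tf S B x β = S.ff x β := by
  classical
  unfold nf tf Side.ff
  exact Finset.sum_filter_add_sum_filter_not _ _ _

/-- there is a near point of `J` with the right block contents -/
def NearS (S : Side E) (B : E → ℕ) (x : E → ℤ) (β : S.Blk → ℤ) : Prop :=
  ∃ z ∈ S.J, S.blk z = β ∧ NearZ S.T B x z

theorem fk_prod_eq_zero (S : Side E) (x : E → ℤ) (β : S.Blk → ℤ) (z : E → ℤ) (h : S.blk z ≠ β) :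
    ∏ a, S.fk x β z a = 0 := by
  obtain ⟨r, hr⟩ := Function.ne_iff.1 h
  refine Finset.prod_eq_zero (Finset.mem_univ r.1) ?_
  unfold Side.fk
  rw [dif_pos r.2, if_neg]
  exact hr

theorem nf_eq_zero (S : Side E) (B : E → ℕ) (x : E → ℤ) (β : S.Blk → ℤ)
    (h : ¬ NearS S B x β) : nf S B x β = 0 := by
  classical
  unfold nf
  refine Finset.sum_eq_zero fun z hz => ?_
  rw [mem_filter] at hz
  have : S.blk z ≠ β := fun hb => h ⟨z, hz.1, hb, hz.2⟩
  rw [fk_prod_eq_zero S x β z this, mul_zero]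

section nonneg

variable {S : Side E} (hκ : ∀ e t, 0 ≤ S.κ e t) (hg : ∀ z, 0 ≤ S.g z)

include hκ hg

theorem nf_nonneg (B : E → ℕ) (x : E → ℤ) (β : S.Blk → ℤ) : 0 ≤ nf S B x β := by
  classical
  exact Finset.sum_nonneg fun z _ => mul_nonneg (hg z)
    (Finset.prod_nonneg fun a _ => Side.fk_nonneg' hκ x β z a)

theorem tf_nonneg (B : E → ℕ) (x : E → ℤ) (β : S.Blk → ℤ) : 0 ≤ tf S B x β := by
  classical
  exact Finset.sum_nonneg fun z _ => mul_nonneg (hg z)
    (Finset.prod_nonneg fun a _ => Side.fk_nonneg' hκ x β z a)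

theorem nf_le_ff (B : E → ℕ) (x : E → ℤ) (β : S.Blk → ℤ) : nf S B x β ≤ S.ff x β := by
  rw [← nf_add_tf S B x β]
  linarith [tf_nonneg hκ hg B x β]

end nonneg

/-! ### the relaxed systems -/

/-- the relaxations of a forest: `B a` copies of `(a, par a)` and of `(par a, a)` -/
def nearL (T : MP3.Forest E) (B : E → ℕ) (l : List E) : List (E × E) :=
  l.flatMap fun a => match T.par a with
    | none => []
    | some b => List.replicate (B a) (a, b) ++ List.replicate (B a) (b, a)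

theorem mem_nearL {T : MP3.Forest E} {B : E → ℕ} {l : List E} {p : E × E}
    (h : p ∈ nearL T B l) : ∃ a b, a ∈ l ∧ T.par a = some b ∧ (p = (a, b) ∨ p = (b, a)) := by
  unfold nearL at h
  rw [List.mem_flatMap] at h
  obtain ⟨a, ha, hp⟩ := h
  rcases hb : T.par a with _ | b
  · rw [hb] at hp; simp at hp
  · rw [hb] at hp
    simp only [List.mem_append, List.mem_replicate] at hp
    refine ⟨a, b, ha, hb, ?_⟩
    rcases hp with ⟨_, h⟩ | ⟨_, h⟩
    · exact Or.inl h
    · exact Or.inr h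

/-- contribution of the fat edge `a` to the relaxation of `A` -/
def sepB (T : MP3.Forest E) (B : E → ℕ) (A : Finset E) (a : E) : ℤ := match T.par a with
  | none => 0
  | some b => if (a ∈ A ∧ b ∉ A) ∨ (b ∈ A ∧ a ∉ A) then (B a : ℤ) else 0

theorem relaxL_nearL (T : MP3.Forest E) (B : E → ℕ) (r : Finset E → ℤ) (l : List E)
    (A : Finset E) : relaxL r (nearL T B l) A = r A + (l.map (sepB T B A)).sum := by
  rw [relaxL_eq]
  congr 1
  induction l with
  | nil => rfl
  | cons a l ih =>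
    have e : nearL T B (a :: l) = (match T.par a with
      | none => []
      | some b => List.replicate (B a) (a, b) ++ List.replicate (B a) (b, a)) ++
        nearL T B l := rfl
    rw [e, List.map_append, List.sum_append, ih, List.map_cons, List.sum_cons]
    congr 1
    unfold sepB
    rcases hb : T.par a with _ | b
    · simp
    · simp only [List.map_append, List.map_replicate, List.sum_append, List.sum_replicate]
      by_cases h1 : a ∈ A <;> by_cases h2 : b ∈ A <;> simp [h1, h2]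

theorem sum_dq (T : MP3.Forest E) (a : E) (A : Finset E) (h : T.par a ≠ none) (t : ℤ) (B : E → ℕ)
    (ht : |t| ≤ B a) : -(sepB T B A a) ≤ t * ∑ v ∈ A, dq T a v := by
  unfold sepB dq
  rcases hb : T.par a with _ | b
  · exact absurd hb h
  · simp only
    have e : ∑ v ∈ A, (Lor.ev a - Lor.ev b : E → ℤ) v =
        (if a ∈ A then 1 else 0) - (if b ∈ A then 1 else 0) := by
      simp only [Lor.ev, Pi.sub_apply]
      rw [Finset.sum_sub_distrib]
      congr 1 <;> simp [Pi.single_apply, Finset.sum_ite_eq']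
    rw [e]
    have h1 := abs_le.1 ht
    by_cases ha : a ∈ A <;> by_cases hb' : b ∈ A <;> simp [ha, hb'] <;> linarith

/-- the link vector of side `S` -/
noncomputable def lk (S : Side E) (x : E → ℤ) (β : S.Blk → ℤ) : E → ℤ :=
  ∑ r : S.Blk, (β r - bs S.T x r) • Lor.ev (r : E)

theorem near_mem {S : Side E} {r : Finset E → ℤ} {R : ℤ}
    (hJ : ∀ z, z ∈ S.J ↔ MemJ r R z) {B : E → ℕ} {x : E → ℤ} {β : S.Blk → ℤ}
    (h : NearS S B x β) :
    MemJ (relaxL r (nearL S.T B univ.toList)) R (x + lk S x β) := by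
  classical
  obtain ⟨z, hz, hb, hn⟩ := h
  have hzJ := (hJ z).1 hz
  -- the difference
  have key : z = (x + lk S x β) +
      ∑ a ∈ univ.filter (fun a => S.T.par a ≠ none), (bs S.T z a - bs S.T x a) • dq S.T a := by
    have h1 := eq_sum_dq S.T z
    have h2 := eq_sum_dq S.T x
    have h3 : lk S x β = ∑ a ∈ univ.filter (fun a => S.T.par a = none),
        (bs S.T z a - bs S.T x a) • dq S.T a := by
      unfold lk
      rw [← hb, Finset.sum_subtype (p := fun a => S.T.par a = none)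
        (univ.filter (fun a => S.T.par a = none)) (fun a => by simp)
        (fun a => (bs S.T z a - bs S.T x a) • dq S.T a)]
      refine Finset.sum_congr rfl fun a _ => ?_
      unfold Side.blk dq
      rw [a.2]
    have h4 : z - x = ∑ a, (bs S.T z a - bs S.T x a) • dq S.T a := by
      conv_lhs => rw [h1, h2]
      rw [← Finset.sum_sub_distrib]
      exact Finset.sum_congr rfl fun a _ => by rw [sub_smul]
    rw [← Finset.sum_filter_add_sum_filter_not univ (fun a => S.T.par a = none), ← h3] at h4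
    rw [add_assoc, ← h4]
    abel
  have hsum : ∀ A : Finset E, ∑ v ∈ A, z v = ∑ v ∈ A, (x + lk S x β) v +
      ∑ a ∈ univ.filter (fun a => S.T.par a ≠ none), (bs S.T z a - bs S.T x a) *
        ∑ v ∈ A, dq S.T a v := by
    intro A
    conv_lhs => rw [key]
    simp only [Pi.add_apply, Finset.sum_apply, Pi.smul_apply, smul_eq_mul]
    rw [Finset.sum_add_distrib]
    congr 1
    rw [Finset.sum_comm]
    exact Finset.sum_congr rfl fun a _ => by rw [Finset.mul_sum]
  refine ⟨fun A => ?_, ?_⟩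
  · rw [relaxL_nearL]
    have h1 := hzJ.1 A
    rw [hsum A] at h1
    have h2 : -((univ.toList.map (sepB S.T B A)).sum) ≤
        ∑ a ∈ univ.filter (fun a => S.T.par a ≠ none), (bs S.T z a - bs S.T x a) *
        ∑ v ∈ A, dq S.T a v := by
      rw [Finset.sum_map_toList, ← Finset.sum_neg_distrib,
        ← Finset.sum_filter_add_sum_filter_not univ (fun a => S.T.par a ≠ none)]
      have h3 : ∑ a ∈ univ.filter (fun a => ¬ S.T.par a ≠ none), -(sepB S.T B A a) = 0 := by
        refine Finset.sum_eq_zero fun a ha => ?_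
        have : S.T.par a = none := by simpa using (mem_filter.1 ha).2
        unfold sepB
        rw [this]; rfl
      rw [h3, add_zero]
      exact Finset.sum_le_sum fun a ha => sum_dq S.T a A (mem_filter.1 ha).2 _ B
        (hn a (mem_filter.1 ha).2)
    simp only [Pi.add_apply] at h1 ⊢
    linarith
  · have h1 := hzJ.2
    have h2 := hsum univ
    have h3 : ∑ a ∈ univ.filter (fun a => S.T.par a ≠ none), (bs S.T z a - bs S.T x a) *
        ∑ v, dq S.T a v = 0 := by
      refine Finset.sum_eq_zero fun a ha => ?_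
      have hp := (mem_filter.1 ha).2
      unfold dq
      rcases hb : S.T.par a with _ | b
      · exact absurd hb hp
      · have : ∑ v, (Lor.ev a - Lor.ev b : E → ℤ) v = 0 := by
          simp [Lor.ev, Finset.sum_sub_distrib]
        simp only [this, mul_zero]
    rw [h3, add_zero] at h2
    rw [← h2]; exact h1

end Crest.Agent.R302.Mass4
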