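import Crest.Agent.R302.Mass425A
import Crest.Agent.R302.Gau970D

/-!
# R302 (helper425), MASS4, part B: the explicit mass of the near states; small acceptance

* `u_eq` : `u = G(s)`, `G` the weight of the link vectors (fat stages, `w = 0`);
* `near_mass` : the explicit mass of the near states is at most `4 Z`;
* `small_accept` : `∑_{FG < δ} nuG ≤ δ * (near mass) + far mass`.
-/

set_option autoImplicit false
set_option linter.unusedSectionVars false

namespace Crest.Agent.R302.Mass4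

open Finset Crest.Agent.R302.Facet Crest.Agent.R302.Tail907 Crest.Agent.R302.Stage
open Crest.Agent.R302.Inst hiding kap tok
open Crest.Agent.R302.Lor (mon)
open Crest.Agent.R302.Gau (Lk el wt sv)

variable {E : Type*} [Fintype E] [DecidableEq E]

/-! ### the split of the small acceptance region -/

/-- near states -/
def NearSt (D : SD E) (B₁ B₂ : E → ℕ) (σ : St D) : Prop :=
  NearS D.S₁ B₁ σ.1 σ.2.1 ∧ NearS D.S₂ B₂ σ.1 σ.2.2

/-- far part of `FG` -/
noncomputable def TG (D : SD E) (B₁ B₂ : E → ℕ) (σ : St D) : ℝ :=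
  tf D.S₁ B₁ σ.1 σ.2.1 * D.S₂.ff σ.1 σ.2.2 + nf D.S₁ B₁ σ.1 σ.2.1 * tf D.S₂ B₂ σ.1 σ.2.2

theorem FG_eq (D : SD E) (B₁ B₂ : E → ℕ) (σ : St D) :
    D.FG σ = nf D.S₁ B₁ σ.1 σ.2.1 * nf D.S₂ B₂ σ.1 σ.2.2 + TG D B₁ B₂ σ := by
  unfold SD.FG TG
  rw [← nf_add_tf D.S₁ B₁, ← nf_add_tf D.S₂ B₂]
  ring

theorem TG_nonneg {D : SD E} (h : D.OK) (B₁ B₂ : E → ℕ) (σ : St D) : 0 ≤ TG D B₁ B₂ σ := by
  have g1 : ∀ z, 0 ≤ D.S₁.g z := fun z => by rw [h.g₁]; exact zero_le_one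
  have g2 : ∀ z, 0 ≤ D.S₂.g z := fun z => by rw [h.g₂]; exact zero_le_one
  exact add_nonneg (mul_nonneg (tf_nonneg h.κ₁ g1 _ _ _) (Side.ff_nonneg' h.κ₂ g2 _ _))
    (mul_nonneg (nf_nonneg h.κ₁ g1 _ _ _) (tf_nonneg h.κ₂ g2 _ _ _))

open Classical in
/-- **small acceptance** : split into near states and far slacks -/
theorem small_accept {D : SD E} (h : D.OK) (B₁ B₂ : E → ℕ) {δ : ℝ} (hδ : 0 ≤ δ) :
    ∑ σ ∈ D.bx.filter (fun σ => D.FG σ < δ), D.nuG σ ≤
      δ * ∑ σ ∈ D.bx.filter (fun σ => NearSt D B₁ B₂ σ), D.u σ +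
        ∑ σ ∈ D.bx, D.u σ * TG D B₁ B₂ σ := by
  rw [Finset.sum_filter, Finset.sum_filter, Finset.mul_sum, ← Finset.sum_add_distrib]
  refine Finset.sum_le_sum fun σ _ => ?_
  have hu := (SD.u_pos σ).le
  have hT := TG_nonneg h B₁ B₂ σ
  have hn : 0 ≤ D.u σ * TG D B₁ B₂ σ := mul_nonneg hu hT
  by_cases hF : D.FG σ < δ
  · rw [if_pos hF]
    by_cases hN : NearSt D B₁ B₂ σ
    · rw [if_pos hN]
      have : D.nuG σ ≤ δ * D.u σ := by
        unfold SD.nuG
        rw [mul_comm]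
        exact mul_le_mul_of_nonneg_right hF.le hu
      linarith
    · rw [if_neg hN, mul_zero, zero_add]
      have h0 : nf D.S₁ B₁ σ.1 σ.2.1 * nf D.S₂ B₂ σ.1 σ.2.2 = 0 := by
        rcases not_and_or.1 hN with h1 | h1
        · rw [nf_eq_zero _ _ _ _ h1, zero_mul]
        · rw [nf_eq_zero _ _ _ _ h1, mul_zero]
      unfold SD.nuG
      rw [FG_eq D B₁ B₂, h0, zero_add]
  · rw [if_neg hF]
    split_ifs
    · have := mul_nonneg hδ hu
      linarith
    · linarith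

/-! ### the explicit weight as a function of the link vectors -/

theorem μ_pos (D : SD E) (e : E) : 0 < D.μ e := by unfold SD.μ; positivity

/-- **the explicit weight** in the fat stages -/
theorem u_eq (D : SD E) (hw : ∀ β, D.w β = 0)
    (h₁ : Side.Gauge D.S₁ D.μ) (h₂ : Side.Gauge D.S₂ D.μ) (σ : St D) :
    D.u σ = D.θ ^ (∑ i, (sv D σ i).natAbs) * ∏ i, wt D i ^ sv D σ i := by
  have h2 : (2 : ℝ) ≠ 0 := by norm_num
  have e2 : ∀ (r : E) (b : ℤ), D.μ r ^ b = 2 ^ (D.ell r * b) := by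
    intro r b; unfold SD.μ; rw [← zpow_mul]
  have p1 : ∀ {ι : Type _} (s : Finset ι) (f : ι → ℤ),
      ∏ i ∈ s, (2 : ℝ) ^ f i = 2 ^ ∑ i ∈ s, f i := by
    intro ι s f
    classical
    induction s using Finset.induction_on with
    | empty => simp
    | insert i s hi ih => rw [Finset.prod_insert hi, Finset.sum_insert hi, ih, zpow_add₀ h2]
  -- the gauge sums of the subtree sums agree
  have hm : (2 : ℝ) ^ (∑ r : D.S₁.Blk, D.ell r * bs D.S₁.T σ.1 r) =
      2 ^ (∑ r : D.S₂.Blk, D.ell r * bs D.S₂.T σ.1 r) := by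
    rw [← p1, ← p1]
    simp only [← e2]
    rw [← Side.mon_eq h₁ σ.1, ← Side.mon_eq h₂ σ.1]
  have hm' : (∑ r : D.S₁.Blk, D.ell r * bs D.S₁.T σ.1 r) =
      ∑ r : D.S₂.Blk, D.ell r * bs D.S₂.T σ.1 r :=
    zpow_right_injective₀ (by norm_num) (by norm_num) hm
  have hθ : ∀ k : ℕ, D.θ ^ k = 2 ^ (-(D.a : ℤ) * k) := by
    intro k
    unfold SD.θ
    rw [← pow_mul, one_div, inv_pow, ← zpow_natCast, ← zpow_neg]
    congr 1
    push_cast
    ring
  unfold SD.u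
  rw [hθ]
  have e3 : ∏ i, wt D i ^ sv D σ i = 2 ^ (∑ r : D.S₁.Blk, D.ell r * (σ.2.1 r - bs D.S₁.T σ.1 r) +
      ∑ r : D.S₂.Blk, D.ell r * (-(σ.2.2 r - bs D.S₂.T σ.1 r))) := by
    rw [Fintype.prod_sum_type, zpow_add₀ h2, ← p1, ← p1]
    simp only [← e2]
    rfl
  rw [e3, ← zpow_add₀ h2]
  congr 1
  unfold SD.ex sv
  rw [hw]
  push_cast [Int.natCast_natAbs]
  rw [Fintype.sum_sum_type]
  simp only [Sum.elim_inl, Sum.elim_inr, abs_neg, mul_sub, mul_neg, Finset.sum_sub_distrib,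
    Finset.sum_neg_distrib]
  linarith

/-! ### the near mass -/

/-- the hard count with link vector `γ` on the tokens -/
noncomputable def hc (X J₁ J₂ : Finset (E → ℤ)) (γ : E ⊕ E → ℤ) : ℝ :=
  ((X.filter fun x => (x + fun e => γ (Sum.inl e)) ∈ J₁ ∧ (x - fun e => γ (Sum.inr e)) ∈ J₂).card : ℝ)

theorem sum_sv (D : SD E) (σ : St D) :
    (fun e => (∑ i, sv D σ i • Lor.ev (Gau.tok D i)) (Sum.inl e)) = lk D.S₁ σ.1 σ.2.1 ∧
    (fun e => (∑ i, sv D σ i • Lor.ev (Gau.tok D i)) (Sum.inr e)) = -lk D.S₂ σ.1 σ.2.2 := by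
  constructor
  · funext e
    rw [Fintype.sum_sum_type, Pi.add_apply, Finset.sum_apply, Finset.sum_apply]
    unfold lk
    rw [Finset.sum_apply]
    have : ∑ i : D.S₂.Blk, (sv D σ (Sum.inr i) • Lor.ev (Gau.tok D (Sum.inr i))) (Sum.inl e) = 0 := by
      refine Finset.sum_eq_zero fun i _ => ?_
      simp [Gau.tok, Lor.ev]
    rw [this, add_zero]
    refine Finset.sum_congr rfl fun i _ => ?_
    simp [Gau.tok, sv, Lor.ev, Pi.single_apply]
  · funext e
    rw [Fintype.sum_sum_type, Pi.add_apply, Finset.sum_apply, Finset.sum_apply]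
    unfold lk
    rw [Pi.neg_apply, Finset.sum_apply]
    have : ∑ i : D.S₁.Blk, (sv D σ (Sum.inl i) • Lor.ev (Gau.tok D (Sum.inl i))) (Sum.inr e) = 0 := by
      refine Finset.sum_eq_zero fun i _ => ?_
      simp [Gau.tok, Lor.ev]
    rw [this, zero_add, ← Finset.sum_neg_distrib]
    refine Finset.sum_congr rfl fun i _ => ?_
    simp only [Gau.tok, sv, Lor.ev, Pi.single_apply, Sum.elim_inr, Pi.smul_apply,
      smul_eq_mul, Sum.inr.injEq]
    split_ifs <;> ring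

/-- `(x, ls)` determines the state -/
theorem ls_inj (D : SD E) {σ σ' : St D} (hx : σ.1 = σ'.1) (hs : sv D σ = sv D σ') : σ = σ' := by
  obtain ⟨x, β₁, β₂⟩ := σ
  obtain ⟨x', β₁', β₂'⟩ := σ'
  obtain rfl : x = x' := hx
  have h1 : β₁ = β₁' := by
    funext r
    have := congrFun hs (Sum.inl r)
    simpa [sv] using this
  have h2 : β₂ = β₂' := by
    funext r
    have := congrFun hs (Sum.inr r)
    simpa [sv] using this
  rw [h1, h2]

open Classical in
/-- the near mass is at most the relaxed link sum -/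
theorem near_le {D : SD E} (hw : ∀ β, D.w β = 0)
    (h₁ : Side.Gauge D.S₁ D.μ) (h₂ : Side.Gauge D.S₂ D.μ) {r₁ r₂ : Finset E → ℤ} {R : ℤ}
    (hJ₁ : ∀ z, z ∈ D.S₁.J ↔ MemJ r₁ R z) (hJ₂ : ∀ z, z ∈ D.S₂.J ↔ MemJ r₂ R z)
    {B₁ B₂ : E → ℕ} {J₁' J₂' X : Finset (E → ℤ)}
    (hJ₁' : ∀ z, MemJ (relaxL r₁ (nearL D.S₁.T B₁ univ.toList)) R z → z ∈ J₁')
    (hJ₂' : ∀ z, MemJ (relaxL r₂ (nearL D.S₂.T B₂ univ.toList)) R z → z ∈ J₂')
    (hX : ∀ σ ∈ D.bx, σ.1 ∈ X) :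
    ∃ F : Finset (Lk D → ℤ),
      ∑ σ ∈ D.bx.filter (fun σ => NearSt D B₁ B₂ σ), D.u σ ≤
        ∑ s ∈ F, D.θ ^ (∑ i, (s i).natAbs) * (∏ i, wt D i ^ s i) *
          hc X J₁' J₂' (∑ i, s i • Lor.ev (Gau.tok D i)) := by
  set F := (D.bx.filter (fun σ => NearSt D B₁ B₂ σ)).image (sv D) with hF
  refine ⟨F, ?_⟩
  have h0 : ∀ σ ∈ D.bx.filter (fun σ => NearSt D B₁ B₂ σ), sv D σ ∈ F := fun σ hσ =>
    Finset.mem_image_of_mem _ hσ
  rw [← Finset.sum_fiberwise_of_maps_to h0]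
  refine Finset.sum_le_sum fun s _ => ?_
  have e1 : ∑ σ ∈ (D.bx.filter (fun σ => NearSt D B₁ B₂ σ)).filter (fun σ => sv D σ = s), D.u σ =
      ((D.bx.filter (fun σ => NearSt D B₁ B₂ σ)).filter (fun σ => sv D σ = s)).card *
        (D.θ ^ (∑ i, (s i).natAbs) * ∏ i, wt D i ^ s i) := by
    rw [Finset.cast_card, Finset.sum_mul]
    refine Finset.sum_congr rfl fun σ hσ => ?_
    rw [u_eq D hw h₁ h₂, (Finset.mem_filter.1 hσ).2, one_mul]
  rw [e1, mul_comm]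
  refine mul_le_mul_of_nonneg_left ?_ (mul_nonneg (pow_nonneg (by unfold SD.θ; positivity) _)
    (Finset.prod_nonneg fun i _ => zpow_nonneg (Gau.wt_pos D i).le _))
  unfold hc
  have h2 : ((D.bx.filter (fun σ => NearSt D B₁ B₂ σ)).filter (fun σ => sv D σ = s)).card ≤
      (X.filter fun x => (x + fun e => (∑ i, s i • Lor.ev (Gau.tok D i)) (Sum.inl e)) ∈ J₁' ∧
        (x - fun e => (∑ i, s i • Lor.ev (Gau.tok D i)) (Sum.inr e)) ∈ J₂').card := by
    refine Finset.card_le_card_of_injOn (fun σ => σ.1) ?_ ?_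
    · intro σ hσ
      simp only [Finset.coe_filter, Set.mem_ofPred_eq, Finset.mem_filter] at hσ ⊢
      obtain ⟨⟨hb, hn⟩, hs⟩ := hσ
      rw [← hs, (sum_sv D σ).1, (sum_sv D σ).2]
      refine ⟨hX σ hb, hJ₁' _ (near_mem hJ₁ hn.1), ?_⟩
      rw [sub_neg_eq_add]
      exact hJ₂' _ (near_mem hJ₂ hn.2)
    · intro σ hσ σ' hσ' hx
      simp only [Finset.coe_filter, Set.mem_ofPred_eq, Finset.mem_filter] at hσ hσ'
      exact ls_inj D hx (hσ.2.trans hσ'.2.symm)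
  exact_mod_cast h2

/-! ### one-link counts of the relaxed systems -/

/-- capacities on the relaxation list -/
def mm (T : MP3.Forest E) (m : E → ℕ) (p : E × E) : ℕ :=
  if T.par p.1 = some p.2 then m p.1 else m p.2

theorem par_asymm (T : MP3.Forest E) {a b : E} (h : T.par a = some b) : T.par b ≠ some a := by
  intro h'
  have h1 := T.dep_lt _ _ h
  have h2 := T.dep_lt _ _ h'
  omega

theorem sum_nearL (T : MP3.Forest E) (B m : E → ℕ) (k : ℝ) (l : List E) :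
    ((nearL T B l).map fun p => k / mm T m p).sum =
      (l.map fun a => if T.par a = none then 0 else 2 * (B a * (k / m a))).sum := by
  induction l with
  | nil => rfl
  | cons a l ih =>
    have e : nearL T B (a :: l) = (match T.par a with
      | none => []
      | some b => List.replicate (B a) (a, b) ++ List.replicate (B a) (b, a)) ++
        nearL T B l := rfl
    rw [e, List.map_append, List.sum_append, ih, List.map_cons, List.sum_cons]
    congr 1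
    rcases hb : T.par a with _ | b
    · simp
    · have h1 : mm T m (a, b) = m a := by simp [mm, hb]
      have h2 : mm T m (b, a) = m a := by simp [mm, par_asymm T hb]
      simp only [List.map_append, List.map_replicate, List.sum_append, List.sum_replicate, h1, h2]
      simp
      ring

/-- the growth constant of the relaxation is at most `2` -/
theorem exp_nearL_le {T₁ T₂ : MP3.Forest E} {B₁ B₂ m₁ m₂ : E → ℕ}
    (h₁ : ∀ a, T₁.par a ≠ none → 64 * Fintype.card E * kap (Fintype.card E) * B₁ a ≤ m₁ a)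
    (h₂ : ∀ a, T₂.par a ≠ none → 64 * Fintype.card E * kap (Fintype.card E) * B₂ a ≤ m₂ a) :
    Real.exp (((nearL T₁ B₁ univ.toList).map fun p =>
        8 * (kap (Fintype.card E) : ℝ) / mm T₁ m₁ p).sum +
      ((nearL T₂ B₂ univ.toList).map fun p =>
        8 * (kap (Fintype.card E) : ℝ) / mm T₂ m₂ p).sum) ≤ 2 := by
  set n := Fintype.card E with hn
  have key : ∀ (T : MP3.Forest E) (B m : E → ℕ),
      (∀ a, T.par a ≠ none → 64 * n * kap n * B a ≤ m a) →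
      ((nearL T B univ.toList).map fun p => 8 * (kap n : ℝ) / mm T m p).sum ≤ 1 / 4 := by
    intro T B m h
    rw [sum_nearL, Finset.sum_map_toList]
    calc ∑ a, (if T.par a = none then (0 : ℝ) else 2 * (B a * (8 * (kap n : ℝ) / m a)))
        ≤ ∑ _a : E, 1 / (4 * (n : ℝ)) := by
          refine Finset.sum_le_sum fun a _ => ?_
          have hn0 : 0 < n := by rw [hn]; exact Fintype.card_pos_iff.2 ⟨a⟩
          have hn' : (0 : ℝ) < n := by exact_mod_cast hn0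
          split_ifs with hp
          · positivity
          · have h1 := h a hp
            have h1' : 64 * (n : ℝ) * kap n * B a ≤ m a := by exact_mod_cast h1
            rcases Nat.eq_zero_or_pos (m a) with h0 | h0
            · rw [h0]; simp
            · have h0' : (0 : ℝ) < m a := by exact_mod_cast h0
              rw [le_div_iff₀ (by positivity)]
              have : 2 * (↑(B a) * (8 * ↑(kap n) / ↑(m a))) * (4 * (n : ℝ)) =
                  (64 * (n : ℝ) * kap n * B a) / m a := by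
                field_simp
                ring
              rw [this, div_le_one h0']
              exact h1'
      _ ≤ 1 / 4 := by
          rw [Finset.sum_const, Finset.card_univ, ← hn, nsmul_eq_mul]
          rcases Nat.eq_zero_or_pos n with h0 | h0
          · rw [h0]; norm_num
          · have h0' : (0 : ℝ) < n := by exact_mod_cast h0
            have : (n : ℝ) * (1 / (4 * n)) = 1 / 4 := by field_simp
            rw [this]
  have k1 := key T₁ B₁ m₁ h₁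
  have k2 := key T₂ B₂ m₂ h₂
  have h3 : Real.exp (1 / 2) ≤ 2 := by
    have h := Real.exp_one_lt_d9
    have h4 : Real.exp (1 / 2) ^ 2 = Real.exp 1 := by rw [← Real.exp_nat_mul]; norm_num
    have h5 : (0 : ℝ) < Real.exp (1 / 2) := Real.exp_pos _
    nlinarith
  refine (Real.exp_le_exp.2 ?_).trans h3
  linarith

/-- **relaxed one-link counts** : at most twice the exact ones -/
theorem hc_relax_le {T₁ T₂ : MP3.Forest E} {B₁ B₂ m₁ m₂ : E → ℕ} {r₁ r₂ : Finset E → ℤ} {R : ℤ}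
    (hr₁ : SubM r₁ R) (hr₂ : SubM r₂ R) {c : E → ℤ} (hc₁ : MemJ r₁ R c) (hc₂ : MemJ r₂ R c)
    {J₁ J₂ J₁' J₂' X : Finset (E → ℤ)}
    (hJ₁ : ∀ z, z ∈ J₁ ↔ MemJ r₁ R z) (hJ₂ : ∀ z, z ∈ J₂ ↔ MemJ r₂ R z)
    (hJ₁' : ∀ z, z ∈ J₁' → MemJ (relaxL r₁ (nearL T₁ B₁ univ.toList)) R z)
    (hJ₂' : ∀ z, z ∈ J₂' → MemJ (relaxL r₂ (nearL T₂ B₂ univ.toList)) R z)
    (hB₁ : ∀ a, T₁.par a ≠ none → 64 * Fintype.card E * kap (Fintype.card E) * B₁ a ≤ m₁ a)
    (hB₂ : ∀ a, T₂.par a ≠ none → 64 * Fintype.card E * kap (Fintype.card E) * B₂ a ≤ m₂ a)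
    {h₀ : ℕ}
    (hm₁ : ∀ a b, T₁.par a = some b → 8 * kap (Fintype.card E) ≤ m₁ a ∧
      2 * (4 * Fintype.card E + 2) * h₀ ≤ m₁ a ∧
      ∀ A, (a ∈ A ∧ b ∉ A ∨ b ∈ A ∧ a ∉ A) → (m₁ a : ℤ) ≤ slk r₁ c A)
    (hm₂ : ∀ a b, T₂.par a = some b → 8 * kap (Fintype.card E) ≤ m₂ a ∧
      2 * (4 * Fintype.card E + 2) * h₀ ≤ m₂ a ∧
      ∀ A, (a ∈ A ∧ b ∉ A ∨ b ∈ A ∧ a ∉ A) → (m₂ a : ℤ) ≤ slk r₂ c A)
    (γ : E ⊕ E → ℤ) (hγ : ∑ t, |γ t| ≤ h₀) :
    hc X J₁' J₂' γ ≤ 2 * linkCount J₁ J₂ (fun e => -γ (Sum.inl e)) (fun e => γ (Sum.inr e)) := by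
  classical
  have hcap : ∀ (T : MP3.Forest E) (B m : E → ℕ) (r : Finset E → ℤ),
      (∀ a b, T.par a = some b → 8 * kap (Fintype.card E) ≤ m a ∧
        2 * (4 * Fintype.card E + 2) * h₀ ≤ m a ∧
        ∀ A, (a ∈ A ∧ b ∉ A ∨ b ∈ A ∧ a ∉ A) → (m a : ℤ) ≤ slk r c A) →
      ∀ p ∈ nearL T B univ.toList, p.1 ≠ p.2 ∧ 8 * kap (Fintype.card E) ≤ mm T m p ∧
        2 * (4 * Fintype.card E + 2) * h₀ ≤ mm T m p ∧
        ∀ A, p.1 ∈ A → p.2 ∉ A → (mm T m p : ℤ) ≤ slk r c A := by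
    intro T B m r h p hp
    obtain ⟨a, b, _, hab, hp⟩ := mem_nearL hp
    have hne : a ≠ b := by
      rintro rfl
      exact absurd (T.dep_lt _ _ hab) (lt_irrefl _)
    obtain ⟨g1, g2, g3⟩ := h a b hab
    rcases hp with rfl | rfl
    · have e : mm T m (a, b) = m a := by simp [mm, hab]
      rw [e]
      exact ⟨hne, g1, g2, fun A h1 h2 => g3 A (Or.inl ⟨h1, h2⟩)⟩
    · have e : mm T m (b, a) = m a := by simp [mm, par_asymm T hab]
      rw [e]
      exact ⟨hne.symm, g1, g2, fun A h1 h2 => g3 A (Or.inr ⟨h1, h2⟩)⟩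
  have hsum : ∑ v, |(fun e => -γ (Sum.inl e)) v| + ∑ v, |(fun e => γ (Sum.inr e)) v| ≤ (h₀ : ℤ) := by
    simp only [abs_neg]
    rw [← Fintype.sum_sum_type (fun t => |γ t|)]
    exact hγ
  have h1 := relax_count hr₁ hr₂ hc₁ hc₂ J₁ J₂ hJ₁ hJ₂ (nearL T₁ B₁ univ.toList)
    (nearL T₂ B₂ univ.toList) (mm T₁ m₁) (mm T₂ m₂) h₀ (hcap T₁ B₁ m₁ r₁ hm₁)
    (hcap T₂ B₂ m₂ r₂ hm₂) (fun e => -γ (Sum.inl e)) (fun e => γ (Sum.inr e)) hsum
    (X.filter fun x => (x + fun e => γ (Sum.inl e)) ∈ J₁' ∧ (x - fun e => γ (Sum.inr e)) ∈ J₂')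
    (fun x hx => by
      obtain ⟨_, h2, h3⟩ := mem_filter.1 hx
      refine ⟨?_, ?_⟩
      · have := hJ₁' _ h2
        convert this using 1
        funext e
        simp
      · exact hJ₂' _ h3)
  have h2 := exp_nearL_le hB₁ hB₂
  unfold hc
  exact h1.trans (mul_le_mul_of_nonneg_right h2 (by positivity))

/-! ### the Lorentzian property of the hard counts -/

/-- indicator -/
noncomputable def ind (J : Finset (E → ℤ)) (z : E → ℤ) : ℝ := if z ∈ J then 1 else 0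

theorem hc_eq (X J₁ J₂ : Finset (E → ℤ)) : hc X J₁ J₂ = Gau.pairA X (ind J₁) (ind J₂) := by
  funext γ
  unfold hc Gau.pairA ind
  rw [Finset.cast_card, Finset.sum_filter]
  refine Finset.sum_congr rfl fun x _ => ?_
  by_cases h1 : (x + fun e => γ (Sum.inl e)) ∈ J₁ <;>
    by_cases h2 : (x - fun e => γ (Sum.inr e)) ∈ J₂ <;> simp [h1, h2]

theorem Lz_hc {r₁ r₂ : Finset E → ℤ} {R : ℤ} (hr₁ : SubM r₁ R) (hr₂ : SubM r₂ R)
    {J₁ J₂ : Finset (E → ℤ)} (hJ₁ : ∀ z, z ∈ J₁ ↔ MemJ r₁ R z) (hJ₂ : ∀ z, z ∈ J₂ ↔ MemJ r₂ R z)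
    (lo : E → ℤ) (m : E → ℕ) :
    Lor.Lz 0 (hc (Fintype.piFinset fun e => Icc (lo e) (lo e + m e)) J₁ J₂) ∧
      ∃ C, ∀ g, hc (Fintype.piFinset fun e => Icc (lo e) (lo e + m e)) J₁ J₂ g ≤ C := by
  rw [hc_eq]
  refine Gau.Lz_pair (R := R) ?_ ?_ (C₁ := 1) (C₂ := 1) ?_ ?_ lo m
  · exact Lor.Lz.memJ hr₁ (fun z hz => by unfold ind; rw [if_pos ((hJ₁ z).2 hz)])
      (fun z hz => by unfold ind; rw [if_neg (fun h => hz ((hJ₁ z).1 h))])
  · have := Lor.Lz.memJ_reflect hr₂ 0 (c := fun p => ind J₂ (-p))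
      (fun z hz => by rw [zero_sub] at hz; unfold ind; rw [if_pos ((hJ₂ _).2 hz)])
      (fun z hz => by rw [zero_sub] at hz; unfold ind; rw [if_neg (fun h => hz ((hJ₂ _).1 h))])
    simpa using this
  · intro p; unfold ind; split_ifs <;> norm_num
  · intro p; unfold ind; split_ifs <;> norm_num

end Crest.Agent.R302.Mass4
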