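import Crest.Agent.R302.Mass425B
import Crest.Agent.R302.Tail907D

/-!
# R302 (helper425), MASS4, part C: the mass of the small acceptance region

* `near_mass` : the explicit mass of the near states is at most `4 Z`;
* `hard_sum` : the hard link mass is at most `2 Z`;
* `mass4` : `∑_{FG < δ} nuG ≤ 4 δ Z + (mass of many links) + 4 n ε A ^ (2 n) Z`.
-/

set_option autoImplicit false
set_option linter.unusedSectionVars false

namespace Crest.Agent.R302.Mass4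

open Finset Crest.Agent.R302.Facet Crest.Agent.R302.Tail907 Crest.Agent.R302.Stage
open Crest.Agent.R302.Inst hiding kap tok
open Crest.Agent.R302.Lor (mon)
open Crest.Agent.R302.Gau (Lk el wt sv bx1)

variable {E : Type*} [Fintype E] [DecidableEq E]

/-- the geometry of one side -/
structure Geo (S : Side E) (r : Finset E → ℤ) (R : ℤ) (c : E → ℤ) (m B : E → ℕ) (h₀ : ℕ) :
    Prop where
  sub : SubM r R
  cen : MemJ r R c
  J : ∀ z, z ∈ S.J ↔ MemJ r R z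
  cap : ∀ a b, S.T.par a = some b → 8 * kap (Fintype.card E) ≤ m a ∧
    2 * (4 * Fintype.card E + 2) * h₀ ≤ m a ∧
    ∀ A, (a ∈ A ∧ b ∉ A ∨ b ∈ A ∧ a ∉ A) → (m a : ℤ) ≤ slk r c A
  small : ∀ a, S.T.par a ≠ none → 64 * Fintype.card E * kap (Fintype.card E) * B a ≤ m a

theorem linkCount_congr (J₁ J₂ : Finset (E → ℤ)) {s₁ s₂ t₁ t₂ : E → ℤ}
    (h : ∀ v, s₁ v - s₂ v = t₁ v - t₂ v) : linkCount J₁ J₂ s₁ s₂ = linkCount J₁ J₂ t₁ t₂ := by
  unfold linkCount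
  congr 1
  apply filter_congr
  intro z _
  have : (fun v => z v + s₁ v - s₂ v) = (fun v => z v + t₁ v - t₂ v) := by
    funext v
    have := h v
    linarith
  rw [this]

/-- sum of the two places of a token -/
theorem tok_sum (D : SD E) (i : Lk D) (e : E) :
    Lor.ev (Gau.tok D i) (Sum.inl e) + Lor.ev (Gau.tok D i) (Sum.inr e) = Lor.ev (el D i) e := by
  rcases i with r | r
  · have a1 : Lor.ev (Gau.tok D (Sum.inl r)) (Sum.inr e) = 0 := Lor.ev_ne (by simp [Gau.tok])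
    have a2 : Lor.ev (Gau.tok D (Sum.inl r)) (Sum.inl e) = Lor.ev (r : E) e :=
      Gau.ev_inl_apply _ _
    rw [a1, a2, add_zero]; rfl
  · have a1 : Lor.ev (Gau.tok D (Sum.inr r)) (Sum.inl e) = 0 := Lor.ev_ne (by simp [Gau.tok])
    have a2 : Lor.ev (Gau.tok D (Sum.inr r)) (Sum.inr e) = Lor.ev (r : E) e :=
      Gau.ev_inr_apply _ _
    rw [a1, a2, zero_add]; rfl

theorem linkCount_tok (D : SD E) (J₁ J₂ : Finset (E → ℤ)) (i j : Lk D) :
    linkCount J₁ J₂ (fun e => -(Lor.ev (Gau.tok D i) - Lor.ev (Gau.tok D j)) (Sum.inl e))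
      (fun e => (Lor.ev (Gau.tok D i) - Lor.ev (Gau.tok D j)) (Sum.inr e)) =
    hardN J₁ J₂ (Lor.ev (el D i)) (Lor.ev (el D j)) := by
  rw [hardN_eq]
  apply linkCount_congr
  intro v
  have h1 := tok_sum D i v
  have h2 := tok_sum D j v
  simp only [Pi.sub_apply]
  linarith

theorem sum_abs_tok (D : SD E) (i j : Lk D) :
    ∑ t, |(Lor.ev (Gau.tok D i) - Lor.ev (Gau.tok D j)) t| ≤ 2 := by
  have h1 : ∀ a : E ⊕ E, ∑ t, |Lor.ev a t| = (1 : ℤ) := by
    intro a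
    rw [Finset.sum_eq_single a]
    · simp [Lor.ev]
    · intro b _ hb
      have : Lor.ev a b = 0 := Lor.ev_ne (Ne.symm hb)
      rw [this, abs_zero]
    · intro h; exact absurd (mem_univ _) h
  calc ∑ t, |(Lor.ev (Gau.tok D i) - Lor.ev (Gau.tok D j)) t|
      ≤ ∑ t, (|Lor.ev (Gau.tok D i) t| + |Lor.ev (Gau.tok D j) t|) :=
        Finset.sum_le_sum fun t _ => abs_sub _ _
    _ = 2 := by rw [Finset.sum_add_distrib, h1, h1]; norm_num

/-- link sum of a pair of base polytopes over a window -/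
theorem hc_sum_le {D : SD E} {r₁ r₂ : Finset E → ℤ} {R : ℤ} (hr₁ : SubM r₁ R) (hr₂ : SubM r₂ R)
    {J₁ J₂ : Finset (E → ℤ)} (hJ₁ : ∀ z, z ∈ J₁ ↔ MemJ r₁ R z) (hJ₂ : ∀ z, z ∈ J₂ ↔ MemJ r₂ R z)
    (lo : E → ℤ) (w : E → ℕ) {Z Γ : ℝ}
    (hpos : 0 < hc (Fintype.piFinset fun e => Icc (lo e) (lo e + w e)) J₁ J₂ 0)
    (hZ : Z ≤ hc (Fintype.piFinset fun e => Icc (lo e) (lo e + w e)) J₁ J₂ 0) (hΓ : 0 ≤ Γ)
    (hone : ∀ i j : Lk D, wt D i / wt D j * hc (Fintype.piFinset fun e => Icc (lo e) (lo e + w e))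
      J₁ J₂ (Lor.ev (Gau.tok D i) - Lor.ev (Gau.tok D j)) ≤ Γ * Z)
    (hq : D.θ ^ 2 * (Γ * Fintype.card (Lk D) ^ 2) ≤ 1 / 2) (F : Finset (Lk D → ℤ)) :
    ∑ s ∈ F, D.θ ^ (∑ i, (s i).natAbs) * (∏ i, wt D i ^ s i) *
      hc (Fintype.piFinset fun e => Icc (lo e) (lo e + w e)) J₁ J₂
        (∑ i, s i • Lor.ev (Gau.tok D i)) ≤
      2 * hc (Fintype.piFinset fun e => Icc (lo e) (lo e + w e)) J₁ J₂ 0 := by
  classical
  obtain ⟨hL, C, hC⟩ := Lz_hc hr₁ hr₂ hJ₁ hJ₂ lo w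
  set X := Fintype.piFinset fun e => Icc (lo e) (lo e + w e) with hX
  have hK : ∑ i : Lk D, ∑ j : Lk D, wt D i / wt D j *
      hc X J₁ J₂ (Lor.ev (Gau.tok D i) - Lor.ev (Gau.tok D j)) ≤
      (Γ * Fintype.card (Lk D) ^ 2) * hc X J₁ J₂ 0 := by
    calc _ ≤ ∑ _i : Lk D, ∑ _j : Lk D, Γ * Z :=
          Finset.sum_le_sum fun i _ => Finset.sum_le_sum fun j _ => hone i j
      _ = (Γ * Fintype.card (Lk D) ^ 2) * Z := by
          rw [Finset.sum_const, Finset.sum_const, Finset.card_univ, nsmul_eq_mul, nsmul_eq_mul]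
          ring
      _ ≤ _ := mul_le_mul_of_nonneg_left hZ (by positivity)
  have h1 := Gau.link_mass hL hC hpos (Gau.tok D) (Gau.wt_pos D) hK (Gau.θ_pos D).le
    (lt_of_le_of_lt hq (by norm_num)) 0 F (fun _ _ => Nat.zero_le _)
  refine h1.trans ?_
  rw [pow_zero]
  refine mul_le_mul_of_nonneg_right ?_ hpos.le
  rw [div_le_iff₀ (by linarith)]
  linarith

variable {D : SD E} {r₁ r₂ : Finset E → ℤ} {R : ℤ} {c : E → ℤ} {m₁ m₂ B₁ B₂ : E → ℕ} {h₀ : ℕ}

/-- number of the hard common points -/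
noncomputable def Zc (D : SD E) : ℝ := ((D.S₁.J ∩ D.S₂.J).card : ℝ)

theorem linkCount_zero (J₁ J₂ : Finset (E → ℤ)) (s : E → ℤ) :
    linkCount J₁ J₂ s s = (J₁ ∩ J₂).card := by
  unfold linkCount
  congr 1
  ext z
  simp

theorem Zc_pos (G₁ : Geo D.S₁ r₁ R c m₁ B₁ h₀) (G₂ : Geo D.S₂ r₂ R c m₂ B₂ h₀) : 0 < Zc D := by
  unfold Zc
  have : 0 < (D.S₁.J ∩ D.S₂.J).card := card_pos.2 ⟨c, mem_inter.2 ⟨(G₁.J c).2 G₁.cen, (G₂.J c).2 G₂.cen⟩⟩
  exact_mod_cast this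

open Classical in
/-- **the near mass** -/
theorem near_mass (hw : ∀ β, D.w β = 0)
    (g₁ : Side.Gauge D.S₁ D.μ) (g₂ : Side.Gauge D.S₂ D.μ)
    (G₁ : Geo D.S₁ r₁ R c m₁ B₁ h₀) (G₂ : Geo D.S₂ r₂ R c m₂ B₂ h₀) (hh : 2 ≤ h₀)
    (hX : ∀ z ∈ D.S₁.J, z ∈ D.S₂.J → z ∈ bx1 D) {Γ : ℝ} (hΓ : 0 ≤ Γ)
    (hG : ∀ i j : Lk D, (hardN D.S₁.J D.S₂.J (Lor.ev (el D i)) (Lor.ev (el D j)) : ℝ) *
      D.μ (el D i) ≤ Γ * Zc D * D.μ (el D j))
    (hq : D.θ ^ 2 * (2 * Γ * Fintype.card (Lk D) ^ 2) ≤ 1 / 2) :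
    ∑ σ ∈ D.bx.filter (fun σ => NearSt D B₁ B₂ σ), D.u σ ≤ 4 * Zc D := by
  obtain ⟨J₁', hJ₁'⟩ := exists_finset (r₁ := relaxL r₁ (nearL D.S₁.T B₁ univ.toList))
    (r₂ := relaxL r₁ (nearL D.S₁.T B₁ univ.toList)) (R := R) (relaxL_subM G₁.sub _)
  obtain ⟨J₂', hJ₂'⟩ := exists_finset (r₁ := relaxL r₂ (nearL D.S₂.T B₂ univ.toList))
    (r₂ := relaxL r₂ (nearL D.S₂.T B₂ univ.toList)) (R := R) (relaxL_subM G₂.sub _)
  simp only [and_self] at hJ₁' hJ₂'
  obtain ⟨F, hF⟩ := near_le (X := bx1 D) hw g₁ g₂ G₁.J G₂.J (fun z hz => (hJ₁' z).2 hz)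
    (fun z hz => (hJ₂' z).2 hz) (fun σ hσ => by
      unfold SD.bx at hσ
      exact (Finset.mem_product.1 hσ).1)
  refine hF.trans ?_
  have hle : ∀ γ : E ⊕ E → ℤ, ∑ t, |γ t| ≤ h₀ → hc (bx1 D) J₁' J₂' γ ≤
      2 * linkCount D.S₁.J D.S₂.J (fun e => -γ (Sum.inl e)) (fun e => γ (Sum.inr e)) :=
    fun γ hγ => hc_relax_le (T₁ := D.S₁.T) (T₂ := D.S₂.T) G₁.sub G₂.sub G₁.cen G₂.cen G₁.J G₂.J
      (fun z hz => (hJ₁' z).1 hz) (fun z hz => (hJ₂' z).1 hz) G₁.small G₂.small G₁.cap G₂.cap γ hγ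
  -- the window contains the hard points
  have hZ : Zc D ≤ hc (bx1 D) J₁' J₂' 0 := by
    unfold Zc hc
    have : (D.S₁.J ∩ D.S₂.J).card ≤ ((bx1 D).filter fun x =>
        (x + fun e => (0 : E ⊕ E → ℤ) (Sum.inl e)) ∈ J₁' ∧
        (x - fun e => (0 : E ⊕ E → ℤ) (Sum.inr e)) ∈ J₂').card := by
      apply card_le_card
      intro z hz
      obtain ⟨h1, h2⟩ := mem_inter.1 hz
      rw [mem_filter]
      have e1 : (z + fun e => (0 : E ⊕ E → ℤ) (Sum.inl e)) = z := by funext e; simp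
      have e2 : (z - fun e => (0 : E ⊕ E → ℤ) (Sum.inr e)) = z := by funext e; simp
      rw [e1, e2]
      have hrel : ∀ (r : Finset E → ℤ) (L : List (E × E)), MemJ r R z → MemJ (relaxL r L) R z :=
        fun r L h => ⟨fun A => (h.1 A).trans (le_relaxL r L A), h.2⟩
      exact ⟨hX z h1 h2, (hJ₁' z).2 (hrel _ _ ((G₁.J z).1 h1)),
        (hJ₂' z).2 (hrel _ _ ((G₂.J z).1 h2))⟩
    exact_mod_cast this
  have hpos : 0 < hc (bx1 D) J₁' J₂' 0 := (Zc_pos G₁ G₂).trans_le hZ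
  have h0 : hc (bx1 D) J₁' J₂' 0 ≤ 2 * Zc D := by
    have h1 := hle 0 (by simp)
    have h2 : linkCount D.S₁.J D.S₂.J (fun e => -(0 : E ⊕ E → ℤ) (Sum.inl e))
        (fun e => (0 : E ⊕ E → ℤ) (Sum.inr e)) = (D.S₁.J ∩ D.S₂.J).card := by
      rw [← linkCount_zero D.S₁.J D.S₂.J 0]
      apply linkCount_congr
      intro v; simp
    rw [h2] at h1
    exact h1
  have hone : ∀ i j : Lk D, wt D i / wt D j *
      hc (bx1 D) J₁' J₂' (Lor.ev (Gau.tok D i) - Lor.ev (Gau.tok D j)) ≤ 2 * Γ * Zc D := by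
    intro i j
    have h1 := hle (Lor.ev (Gau.tok D i) - Lor.ev (Gau.tok D j))
      ((sum_abs_tok D i j).trans (by exact_mod_cast hh))
    rw [linkCount_tok] at h1
    have h2 := hG i j
    have p1 : 0 < D.μ (el D j) := μ_pos D _
    have p2 : 0 < D.μ (el D i) := μ_pos D _
    calc wt D i / wt D j * hc (bx1 D) J₁' J₂' (Lor.ev (Gau.tok D i) - Lor.ev (Gau.tok D j))
        ≤ D.μ (el D i) / D.μ (el D j) *
          (2 * hardN D.S₁.J D.S₂.J (Lor.ev (el D i)) (Lor.ev (el D j))) :=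
          mul_le_mul_of_nonneg_left h1 (div_pos p2 p1).le
      _ = 2 * ((hardN D.S₁.J D.S₂.J (Lor.ev (el D i)) (Lor.ev (el D j)) : ℝ) *
          D.μ (el D i)) / D.μ (el D j) := by ring
      _ ≤ 2 * (Γ * Zc D * D.μ (el D j)) / D.μ (el D j) := by
          apply div_le_div_of_nonneg_right _ p1.le
          linarith
      _ = 2 * Γ * Zc D := by field_simp
  rw [Gau.bx1_eq] at hpos hZ hone h0 ⊢
  have h1 := hc_sum_le (D := D) (relaxL_subM G₁.sub _) (relaxL_subM G₂.sub _) hJ₁' hJ₂'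
    (fun e => D.c e - D.M) (fun _ => 2 * D.M) hpos hZ (by positivity) hone hq F
  linarith

/-- the weight of a pair of link vectors -/
noncomputable def Gf (D : SD E) (s₁ s₂ : E → ℤ) : ℝ :=
  D.θ ^ (∑ v, (s₁ v).natAbs + ∑ v, (s₂ v).natAbs) *
    ((∏ v, D.μ v ^ s₁ v) * ∏ v, D.μ v ^ (-s₂ v))

theorem Gf_nonneg (D : SD E) (s₁ s₂ : E → ℤ) : 0 ≤ Gf D s₁ s₂ := by
  unfold Gf
  exact mul_nonneg (pow_nonneg (Gau.θ_pos D).le _) (mul_nonneg
    (prod_nonneg fun v _ => zpow_nonneg (μ_pos D v).le _)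
    (prod_nonneg fun v _ => zpow_nonneg (μ_pos D v).le _))

/-- restriction of a pair of link vectors to the tokens -/
def toLk (D : SD E) (s₁ s₂ : E → ℤ) : Lk D → ℤ := Sum.elim (fun r => s₁ r) (fun r => -s₂ r)

theorem Gf_toLk {s₁ s₂ : E → ℤ} (h₁ : ∀ v, D.S₁.T.par v ≠ none → s₁ v = 0)
    (h₂ : ∀ v, D.S₂.T.par v ≠ none → s₂ v = 0) :
    Gf D s₁ s₂ = D.θ ^ (∑ i, (toLk D s₁ s₂ i).natAbs) * ∏ i, wt D i ^ toLk D s₁ s₂ i := by
  unfold Gf
  rw [Fintype.sum_sum_type, Fintype.prod_sum_type]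
  have a1 : ∑ v, (s₁ v).natAbs = ∑ r : D.S₁.Blk, (s₁ r).natAbs := by
    rw [← Finset.sum_subtype (p := fun a => D.S₁.T.par a = none)
      (univ.filter (fun a => D.S₁.T.par a = none)) (fun a => by simp) (fun a => (s₁ a).natAbs)]
    symm
    apply Finset.sum_subset (Finset.filter_subset _ _)
    intro v _ hv
    rw [h₁ v (by simpa using hv)]; rfl
  have a2 : ∑ v, (s₂ v).natAbs = ∑ r : D.S₂.Blk, (s₂ r).natAbs := by
    rw [← Finset.sum_subtype (p := fun a => D.S₂.T.par a = none)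
      (univ.filter (fun a => D.S₂.T.par a = none)) (fun a => by simp) (fun a => (s₂ a).natAbs)]
    symm
    apply Finset.sum_subset (Finset.filter_subset _ _)
    intro v _ hv
    rw [h₂ v (by simpa using hv)]; rfl
  have a3 : ∏ v, D.μ v ^ s₁ v = ∏ r : D.S₁.Blk, D.μ r ^ s₁ r := by
    rw [← Finset.prod_subtype (p := fun a => D.S₁.T.par a = none)
      (univ.filter (fun a => D.S₁.T.par a = none)) (fun a => by simp) (fun a => D.μ a ^ s₁ a)]
    symm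
    apply Finset.prod_subset (Finset.filter_subset _ _)
    intro v _ hv
    rw [h₁ v (by simpa using hv), zpow_zero]
  have a4 : ∏ v, D.μ v ^ (-s₂ v) = ∏ r : D.S₂.Blk, D.μ r ^ (-s₂ r) := by
    rw [← Finset.prod_subtype (p := fun a => D.S₂.T.par a = none)
      (univ.filter (fun a => D.S₂.T.par a = none)) (fun a => by simp) (fun a => D.μ a ^ (-s₂ a))]
    symm
    apply Finset.prod_subset (Finset.filter_subset _ _)
    intro v _ hv
    rw [h₂ v (by simpa using hv), neg_zero, zpow_zero]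
  rw [a1, a2, a3, a4]
  congr 3
  exact Finset.sum_congr rfl fun r _ => (Int.natAbs_neg _).symm

theorem toLk_sum {s₁ s₂ : E → ℤ} (h₁ : ∀ v, D.S₁.T.par v ≠ none → s₁ v = 0)
    (h₂ : ∀ v, D.S₂.T.par v ≠ none → s₂ v = 0) :
    (fun e => (∑ i, toLk D s₁ s₂ i • Lor.ev (Gau.tok D i)) (Sum.inl e)) = s₁ ∧
    (fun e => (∑ i, toLk D s₁ s₂ i • Lor.ev (Gau.tok D i)) (Sum.inr e)) = -s₂ := by
  have key : ∀ (T : MP3.Forest E) (s : E → ℤ) (e : E), (∀ v, T.par v ≠ none → s v = 0) →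
      ∑ r : {a : E // T.par a = none}, s r * Lor.ev (r : E) e = s e := by
    intro T s e h
    by_cases he : T.par e = none
    · rw [Finset.sum_eq_single (⟨e, he⟩ : {a : E // T.par a = none})]
      · simp [Lor.ev]
      · intro r _ hr
        have : Lor.ev (r : E) e = 0 := Lor.ev_ne (fun h' => hr (Subtype.ext h'))
        rw [this, mul_zero]
      · intro h'; exact absurd (mem_univ _) h'
    · rw [h e he]
      apply Finset.sum_eq_zero
      intro r _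
      have : Lor.ev (r : E) e = 0 := Lor.ev_ne (fun h' => he (h' ▸ r.2))
      rw [this, mul_zero]
  constructor
  · funext e
    rw [Fintype.sum_sum_type, Pi.add_apply, Finset.sum_apply, Finset.sum_apply]
    have h3 : ∑ i : D.S₂.Blk, (toLk D s₁ s₂ (Sum.inr i) • Lor.ev (Gau.tok D (Sum.inr i)))
        (Sum.inl e) = 0 := by
      refine Finset.sum_eq_zero fun i _ => ?_
      simp [Gau.tok, Lor.ev]
    rw [h3, add_zero, ← key D.S₁.T s₁ e h₁]
    refine Finset.sum_congr rfl fun i _ => ?_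
    rw [Pi.smul_apply, smul_eq_mul]
    congr 1
    exact Gau.ev_inl_apply _ _
  · funext e
    rw [Fintype.sum_sum_type, Pi.add_apply, Finset.sum_apply, Finset.sum_apply]
    have h3 : ∑ i : D.S₁.Blk, (toLk D s₁ s₂ (Sum.inl i) • Lor.ev (Gau.tok D (Sum.inl i)))
        (Sum.inr e) = 0 := by
      refine Finset.sum_eq_zero fun i _ => ?_
      simp [Gau.tok, Lor.ev]
    rw [h3, zero_add, Pi.neg_apply, ← key D.S₂.T s₂ e h₂, ← Finset.sum_neg_distrib]
    refine Finset.sum_congr rfl fun i _ => ?_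
    rw [Pi.smul_apply, smul_eq_mul]
    show -s₂ i * _ = _
    rw [neg_mul]
    congr 2
    exact Gau.ev_inr_apply _ _

theorem toLk_inj {s₁ s₂ t₁ t₂ : E → ℤ} (h₁ : ∀ v, D.S₁.T.par v ≠ none → s₁ v = 0)
    (h₂ : ∀ v, D.S₂.T.par v ≠ none → s₂ v = 0) (h₁' : ∀ v, D.S₁.T.par v ≠ none → t₁ v = 0)
    (h₂' : ∀ v, D.S₂.T.par v ≠ none → t₂ v = 0) (h : toLk D s₁ s₂ = toLk D t₁ t₂) :
    s₁ = t₁ ∧ s₂ = t₂ := by
  have a := toLk_sum h₁ h₂
  have b := toLk_sum h₁' h₂'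
  rw [h] at a
  exact ⟨a.1.symm.trans b.1, neg_injective (a.2.symm.trans b.2)⟩

theorem linkSet_zero {par : E → Option E} {h : ℕ} {s : E → ℤ} (hs : s ∈ linkSet par h) :
    ∀ v, par v ≠ none → s v = 0 := by
  intro v hv
  unfold linkSet at hs
  rw [Fintype.mem_piFinset] at hs
  have := hs v
  rw [if_neg hv, mem_singleton] at this
  exact this

/-- **the hard link mass** -/
theorem hard_sum (G₁ : Geo D.S₁ r₁ R c m₁ B₁ h₀) (G₂ : Geo D.S₂ r₂ R c m₂ B₂ h₀)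
    {Γ : ℝ} (hΓ : 0 ≤ Γ)
    (hG : ∀ i j : Lk D, (hardN D.S₁.J D.S₂.J (Lor.ev (el D i)) (Lor.ev (el D j)) : ℝ) *
      D.μ (el D i) ≤ Γ * Zc D * D.μ (el D j))
    (hq : D.θ ^ 2 * (Γ * Fintype.card (Lk D) ^ 2) ≤ 1 / 2) (h : ℕ) :
    ∑ s₁ ∈ linkSet D.S₁.T.par h, ∑ s₂ ∈ linkSet D.S₂.T.par h,
      gN D.S₁.J D.S₂.J (Gf D) h s₁ s₂ ≤ 2 * Zc D := by
  classical
  -- a large window
  obtain ⟨W, hW⟩ : ∃ W : ℕ, ∀ z ∈ D.S₁.J, ∀ e, |z e| + h ≤ W := by
    refine ⟨(D.S₁.J.sup fun z => univ.sup fun e => (z e).natAbs) + h, fun z hz e => ?_⟩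
    have h1 : (z e).natAbs ≤ D.S₁.J.sup fun z => univ.sup fun e => (z e).natAbs :=
      (Finset.le_sup (f := fun e => (z e).natAbs) (mem_univ e)).trans
        (Finset.le_sup (f := fun z : E → ℤ => univ.sup fun e => (z e).natAbs) hz)
    have h2 : |z e| = ((z e).natAbs : ℤ) := (Int.natCast_natAbs _).symm
    rw [h2]
    exact_mod_cast Nat.add_le_add_right h1 h
  set X := Fintype.piFinset fun _ : E => Icc (-(W : ℤ)) (-(W : ℤ) + (2 * W : ℕ)) with hXdef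
  have hmemX : ∀ x : E → ℤ, (∀ e, |x e| ≤ W) → x ∈ X := by
    intro x hx
    rw [hXdef, Fintype.mem_piFinset]
    intro e
    have := abs_le.1 (hx e)
    rw [mem_Icc]
    push_cast
    constructor <;> linarith [this.1, this.2]
  have hcl : ∀ γ : E ⊕ E → ℤ, hc X D.S₁.J D.S₂.J γ ≤
      linkCount D.S₁.J D.S₂.J (fun e => -γ (Sum.inl e)) (fun e => γ (Sum.inr e)) := by
    intro γ
    unfold hc linkCount
    have : (X.filter fun x => (x + fun e => γ (Sum.inl e)) ∈ D.S₁.J ∧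
        (x - fun e => γ (Sum.inr e)) ∈ D.S₂.J).card ≤
        (D.S₁.J.filter fun z => (fun v => z v + -γ (Sum.inl v) - γ (Sum.inr v)) ∈ D.S₂.J).card := by
      refine Finset.card_le_card_of_injOn (fun x => x + fun e => γ (Sum.inl e)) ?_ ?_
      · intro x hx
        simp only [Finset.coe_filter, Set.mem_ofPred_eq] at hx ⊢
        refine ⟨hx.2.1, ?_⟩
        have := hx.2.2
        convert this using 1
        funext v
        simp
      · intro x _ y _ hxy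
        exact add_left_injective _ hxy
    exact_mod_cast this
  have hcg : ∀ s₁ s₂ : E → ℤ, (∀ e, |s₁ e| ≤ (h : ℤ)) → ∀ γ : E ⊕ E → ℤ,
      (fun e => γ (Sum.inl e)) = s₁ → (fun e => γ (Sum.inr e)) = -s₂ →
      (hardN D.S₁.J D.S₂.J s₁ s₂ : ℝ) ≤ hc X D.S₁.J D.S₂.J γ := by
    intro s₁ s₂ hs γ h1 h2
    unfold hc hardN
    rw [h1, h2]
    have : (D.S₁.J.filter fun z => (fun v => z v - s₁ v + s₂ v) ∈ D.S₂.J).card ≤
        (X.filter fun x => (x + s₁) ∈ D.S₁.J ∧ (x - -s₂) ∈ D.S₂.J).card := by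
      refine Finset.card_le_card_of_injOn (fun z => z - s₁) ?_ ?_
      · intro z hz
        simp only [Finset.coe_filter, Set.mem_ofPred_eq] at hz ⊢
        refine ⟨hmemX _ fun e => ?_, ?_, ?_⟩
        · have g1 := hW z hz.1 e
          have g2 := hs e
          have g3 := abs_sub (z e) (s₁ e)
          simp only [Pi.sub_apply]
          linarith
        · rw [sub_add_cancel]; exact hz.1
        · rw [sub_neg_eq_add]
          exact hz.2
      · intro x _ y _ hxy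
        exact sub_left_injective hxy
    exact_mod_cast this
  have hZ : Zc D ≤ hc X D.S₁.J D.S₂.J 0 := by
    have h1 := hcg 0 0 (fun e => by simp) 0 rfl (by funext e; simp)
    have h2 : hardN D.S₁.J D.S₂.J 0 0 = (D.S₁.J ∩ D.S₂.J).card := by
      rw [hardN_eq, ← linkCount_zero D.S₁.J D.S₂.J 0]
      apply linkCount_congr
      intro v; simp
    rw [h2] at h1
    exact h1
  have hpos : 0 < hc X D.S₁.J D.S₂.J 0 := (Zc_pos G₁ G₂).trans_le hZ
  have h0 : hc X D.S₁.J D.S₂.J 0 ≤ Zc D := by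
    have h1 := hcl 0
    have h2 : linkCount D.S₁.J D.S₂.J (fun e => -(0 : E ⊕ E → ℤ) (Sum.inl e))
        (fun e => (0 : E ⊕ E → ℤ) (Sum.inr e)) = (D.S₁.J ∩ D.S₂.J).card := by
      rw [← linkCount_zero D.S₁.J D.S₂.J 0]
      apply linkCount_congr
      intro v; simp
    rw [h2] at h1
    exact h1
  have hone : ∀ i j : Lk D, wt D i / wt D j *
      hc X D.S₁.J D.S₂.J (Lor.ev (Gau.tok D i) - Lor.ev (Gau.tok D j)) ≤ Γ * Zc D := by
    intro i j
    have h1 := hcl (Lor.ev (Gau.tok D i) - Lor.ev (Gau.tok D j))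
    rw [linkCount_tok] at h1
    have h2 := hG i j
    have p1 : 0 < D.μ (el D j) := μ_pos D _
    have p2 : 0 < D.μ (el D i) := μ_pos D _
    calc wt D i / wt D j * hc X D.S₁.J D.S₂.J (Lor.ev (Gau.tok D i) - Lor.ev (Gau.tok D j))
        ≤ D.μ (el D i) / D.μ (el D j) *
          (hardN D.S₁.J D.S₂.J (Lor.ev (el D i)) (Lor.ev (el D j))) :=
          mul_le_mul_of_nonneg_left h1 (div_pos p2 p1).le
      _ = ((hardN D.S₁.J D.S₂.J (Lor.ev (el D i)) (Lor.ev (el D j)) : ℝ) *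
          D.μ (el D i)) / D.μ (el D j) := by ring
      _ ≤ (Γ * Zc D * D.μ (el D j)) / D.μ (el D j) := div_le_div_of_nonneg_right h2 p1.le
      _ = Γ * Zc D := by field_simp
  -- the sum over the link vectors
  set P := linkSet D.S₁.T.par h ×ˢ linkSet D.S₂.T.par h with hP
  have hinj : Set.InjOn (fun p : (E → ℤ) × (E → ℤ) => toLk D p.1 p.2) (P : Set _) := by
    intro p hp q hq hpq
    rw [hP, Finset.mem_coe, mem_product] at hp hq
    obtain ⟨h3, h4⟩ := toLk_inj (linkSet_zero hp.1) (linkSet_zero hp.2) (linkSet_zero hq.1)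
      (linkSet_zero hq.2) hpq
    exact Prod.ext h3 h4
  have h1 := hc_sum_le (D := D) G₁.sub G₂.sub G₁.J G₂.J (fun _ => -(W : ℤ)) (fun _ => 2 * W)
    hpos hZ hΓ hone hq (P.image fun p => toLk D p.1 p.2)
  rw [Finset.sum_image hinj] at h1
  rw [← Finset.sum_product']
  refine le_trans (Finset.sum_le_sum fun p hp => ?_) (h1.trans (by linarith))
  rw [mem_product] at hp
  have z1 := linkSet_zero hp.1
  have z2 := linkSet_zero hp.2
  rw [← Gf_toLk z1 z2]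
  unfold gN
  split_ifs with hs
  · refine mul_le_mul_of_nonneg_left ?_ (Gf_nonneg D _ _)
    refine hcg p.1 p.2 (fun e => ?_) _ (toLk_sum z1 z2).1 (toLk_sum z1 z2).2
    have g1 : |p.1 e| ≤ ∑ v, |p.1 v| :=
      single_le_sum (f := fun v => |p.1 v|) (fun v _ => abs_nonneg _) (mem_univ e)
    have g2 : 0 ≤ ∑ v, |p.2 v| := sum_nonneg fun v _ => abs_nonneg _
    linarith
  · exact mul_nonneg (Gf_nonneg D _ _) (by unfold hc; positivity)

end Crest.Agent.R302.Mass4
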