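import Crest.Agent.R302.Mass425C

/-!
# R302 (helper425), MASS4, part D: the far slacks and the final theorem
-/

set_option autoImplicit false
set_option linter.unusedSectionVars false

namespace Crest.Agent.R302.Mass4

open Finset Crest.Agent.R302.Facet Crest.Agent.R302.Tail907 Crest.Agent.R302.Stage
open Crest.Agent.R302.Inst hiding kap tok
open Crest.Agent.R302.Lor (mon)
open Crest.Agent.R302.Gau (Lk el wt sv bx1)

variable {E : Type*} [Fintype E] [DecidableEq E]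

theorem rootPart_bs {T : MP3.Forest E} {x z : E → ℤ} (v : E) (h : T.par v = none) :
    rootPart T.par (bs T (z - x)) v = bs T z v - bs T x v := by
  rw [rootPart_apply_none h, bs_sub]

theorem rootPart_ne {T : MP3.Forest E} (τ : E → ℤ) :
    ∀ v, T.par v ≠ none → rootPart T.par τ v = 0 := fun _ hv => rootPart_apply_ne hv _

/-- the kernel product of one side -/
theorem fk_prod (S : Side E) (x : E → ℤ) (β : S.Blk → ℤ) (z : E → ℤ) :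
    ∏ a, S.fk x β z a = if S.blk z = β then prodK S.T.par S.κ (bs S.T (z - x)) else 0 := by
  split_ifs with h
  · rw [prodK_eq]
    refine Finset.prod_congr rfl fun a _ => ?_
    unfold Side.fk
    by_cases ha : S.T.par a = none
    · rw [dif_pos ha, if_pos ha, if_pos]
      exact congrFun h ⟨a, ha⟩
    · rw [dif_neg ha, if_neg ha, bs_sub]
  · exact fk_prod_eq_zero S x β z h

variable {D : SD E}

/-- the state of a triple -/
noncomputable def stz (D : SD E) (x z₁ z₂ : E → ℤ) : St D := (x, D.S₁.blk z₁, D.S₂.blk z₂)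

theorem sv_stz (x z₁ z₂ : E → ℤ) : sv D (stz D x z₁ z₂) =
    toLk D (rootPart D.S₁.T.par (bs D.S₁.T (z₁ - x))) (rootPart D.S₂.T.par (bs D.S₂.T (z₂ - x))) := by
  funext i
  rcases i with r | r
  · show bs D.S₁.T z₁ r - bs D.S₁.T x r = rootPart D.S₁.T.par (bs D.S₁.T (z₁ - x)) r
    rw [rootPart_bs _ r.2]
  · show -(bs D.S₂.T z₂ r - bs D.S₂.T x r) = -rootPart D.S₂.T.par (bs D.S₂.T (z₂ - x)) r
    rw [rootPart_bs _ r.2]

theorem u_stz (hw : ∀ β, D.w β = 0) (g₁ : Side.Gauge D.S₁ D.μ) (g₂ : Side.Gauge D.S₂ D.μ)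
    (x z₁ z₂ : E → ℤ) : D.u (stz D x z₁ z₂) =
    Gf D (rootPart D.S₁.T.par (bs D.S₁.T (z₁ - x))) (rootPart D.S₂.T.par (bs D.S₂.T (z₂ - x))) := by
  rw [u_eq D hw g₁ g₂, sv_stz, Gf_toLk (rootPart_ne _) (rootPart_ne _)]

theorem nlink_stz (x z₁ z₂ : E → ℤ) : nlink D.S₁.T D.S₂.T x z₁ z₂ =
    ((∑ i, (sv D (stz D x z₁ z₂) i).natAbs : ℕ) : ℤ) := by
  rw [sv_stz]
  unfold nlink
  rw [Fintype.sum_sum_type]
  have key : ∀ (T : MP3.Forest E) (τ : E → ℤ), ∑ v, |rootPart T.par τ v| =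
      ∑ r : {a : E // T.par a = none}, |rootPart T.par τ r| := by
    intro T τ
    rw [← Finset.sum_subtype (p := fun a => T.par a = none)
      (univ.filter (fun a => T.par a = none)) (fun a => by simp) (fun a => |rootPart T.par τ a|)]
    symm
    apply Finset.sum_subset (Finset.filter_subset _ _)
    intro v _ hv
    rw [rootPart_ne τ v (by simpa using hv), abs_zero]
  rw [key, key]
  push_cast [Int.natCast_natAbs]
  congr 1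
  exact Finset.sum_congr rfl fun r _ => (abs_neg _).symm

/-- weight of a triple -/
theorem wt3_stz (hw : ∀ β, D.w β = 0) (g₁ : Side.Gauge D.S₁ D.μ) (g₂ : Side.Gauge D.S₂ D.μ)
    (x z₁ z₂ : E → ℤ) : wt3 D.S₁.T D.S₂.T D.S₁.κ D.S₂.κ (Gf D) x z₁ z₂ =
    D.u (stz D x z₁ z₂) * (prodK D.S₁.T.par D.S₁.κ (bs D.S₁.T (z₁ - x)) *
      prodK D.S₂.T.par D.S₂.κ (bs D.S₂.T (z₂ - x))) := by
  unfold wt3
  rw [u_stz hw g₁ g₂]

section OK

variable (h : D.OK)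

include h

/-- `ff` as a sum over the points with given block contents -/
theorem ff₁_eq (x : E → ℤ) (β : D.S₁.Blk → ℤ) : D.S₁.ff x β =
    ∑ z ∈ D.S₁.J, if D.S₁.blk z = β then prodK D.S₁.T.par D.S₁.κ (bs D.S₁.T (z - x)) else 0 := by
  unfold Side.ff
  refine Finset.sum_congr rfl fun z _ => ?_
  rw [h.g₁, one_mul, fk_prod]

theorem ff₂_eq (x : E → ℤ) (β : D.S₂.Blk → ℤ) : D.S₂.ff x β =
    ∑ z ∈ D.S₂.J, if D.S₂.blk z = β then prodK D.S₂.T.par D.S₂.κ (bs D.S₂.T (z - x)) else 0 := by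
  unfold Side.ff
  refine Finset.sum_congr rfl fun z _ => ?_
  rw [h.g₂, one_mul, fk_prod]

open Classical in
theorem nf₁_eq (B : E → ℕ) (x : E → ℤ) (β : D.S₁.Blk → ℤ) : nf D.S₁ B x β =
    ∑ z ∈ D.S₁.J, if NearZ D.S₁.T B x z then
      (if D.S₁.blk z = β then prodK D.S₁.T.par D.S₁.κ (bs D.S₁.T (z - x)) else 0) else 0 := by
  unfold nf
  rw [Finset.sum_filter]
  refine Finset.sum_congr rfl fun z _ => ?_
  rw [h.g₁, one_mul, fk_prod]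

open Classical in
theorem nf₂_eq (B : E → ℕ) (x : E → ℤ) (β : D.S₂.Blk → ℤ) : nf D.S₂ B x β =
    ∑ z ∈ D.S₂.J, if NearZ D.S₂.T B x z then
      (if D.S₂.blk z = β then prodK D.S₂.T.par D.S₂.κ (bs D.S₂.T (z - x)) else 0) else 0 := by
  unfold nf
  rw [Finset.sum_filter]
  refine Finset.sum_congr rfl fun z _ => ?_
  rw [h.g₂, one_mul, fk_prod]

theorem prodK₁_nonneg (τ : E → ℤ) : 0 ≤ prodK D.S₁.T.par D.S₁.κ τ :=
  prodK_nonneg h.κ₁ τ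

theorem prodK₂_nonneg (τ : E → ℤ) : 0 ≤ prodK D.S₂.T.par D.S₂.κ τ :=
  prodK_nonneg h.κ₂ τ

open Classical in
/-- `FG` as a double sum -/
theorem FG_double (σ : St D) : D.FG σ = ∑ z₁ ∈ D.S₁.J, ∑ z₂ ∈ D.S₂.J,
    if stz D σ.1 z₁ z₂ = σ then prodK D.S₁.T.par D.S₁.κ (bs D.S₁.T (z₁ - σ.1)) *
      prodK D.S₂.T.par D.S₂.κ (bs D.S₂.T (z₂ - σ.1)) else 0 := by
  unfold SD.FG
  rw [ff₁_eq h, ff₂_eq h, Finset.sum_mul_sum]
  refine Finset.sum_congr rfl fun z₁ _ => Finset.sum_congr rfl fun z₂ _ => ?_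
  have e : stz D σ.1 z₁ z₂ = σ ↔ D.S₁.blk z₁ = σ.2.1 ∧ D.S₂.blk z₂ = σ.2.2 := by
    constructor
    · intro hs
      exact ⟨congrArg (fun s : St D => s.2.1) hs, congrArg (fun s : St D => s.2.2) hs⟩
    · rintro ⟨h1, h2⟩
      exact Prod.ext rfl (Prod.ext h1 h2)
  by_cases h1 : D.S₁.blk z₁ = σ.2.1 <;> by_cases h2 : D.S₂.blk z₂ = σ.2.2 <;> simp [e, h1, h2]

/-- a triple with a far slack -/
def Big (D : SD E) (B₁ B₂ : E → ℕ) (x z₁ z₂ : E → ℤ) : Prop :=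
  ¬ (NearZ D.S₁.T B₁ x z₁ ∧ NearZ D.S₂.T B₂ x z₂)

open Classical in
/-- the far part as a double sum -/
theorem TG_double (B₁ B₂ : E → ℕ) (σ : St D) : TG D B₁ B₂ σ = ∑ z₁ ∈ D.S₁.J, ∑ z₂ ∈ D.S₂.J,
    if Big D B₁ B₂ σ.1 z₁ z₂ then (if stz D σ.1 z₁ z₂ = σ then
      prodK D.S₁.T.par D.S₁.κ (bs D.S₁.T (z₁ - σ.1)) *
      prodK D.S₂.T.par D.S₂.κ (bs D.S₂.T (z₂ - σ.1)) else 0) else 0 := by
  have h1 := FG_eq D B₁ B₂ σ
  have h2 : nf D.S₁ B₁ σ.1 σ.2.1 * nf D.S₂ B₂ σ.1 σ.2.2 = ∑ z₁ ∈ D.S₁.J, ∑ z₂ ∈ D.S₂.J,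
      if ¬ Big D B₁ B₂ σ.1 z₁ z₂ then (if stz D σ.1 z₁ z₂ = σ then
      prodK D.S₁.T.par D.S₁.κ (bs D.S₁.T (z₁ - σ.1)) *
      prodK D.S₂.T.par D.S₂.κ (bs D.S₂.T (z₂ - σ.1)) else 0) else 0 := by
    rw [nf₁_eq h, nf₂_eq h, Finset.sum_mul_sum]
    refine Finset.sum_congr rfl fun z₁ _ => Finset.sum_congr rfl fun z₂ _ => ?_
    have e : stz D σ.1 z₁ z₂ = σ ↔ D.S₁.blk z₁ = σ.2.1 ∧ D.S₂.blk z₂ = σ.2.2 := by
      constructor
      · intro hs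
        exact ⟨congrArg (fun s : St D => s.2.1) hs, congrArg (fun s : St D => s.2.2) hs⟩
      · rintro ⟨h1, h2⟩
        exact Prod.ext rfl (Prod.ext h1 h2)
    have hB : ¬ Big D B₁ B₂ σ.1 z₁ z₂ ↔ NearZ D.S₁.T B₁ σ.1 z₁ ∧ NearZ D.S₂.T B₂ σ.1 z₂ := by
      unfold Big; exact not_not
    by_cases n1 : NearZ D.S₁.T B₁ σ.1 z₁ <;> by_cases n2 : NearZ D.S₂.T B₂ σ.1 z₂ <;>
      by_cases h1 : D.S₁.blk z₁ = σ.2.1 <;> by_cases h2 : D.S₂.blk z₂ = σ.2.2 <;>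
      simp [e, h1, h2, n1, n2, hB]
  rw [FG_double h, h2] at h1
  have h3 : TG D B₁ B₂ σ = ∑ z₁ ∈ D.S₁.J, ∑ z₂ ∈ D.S₂.J,
      ((if stz D σ.1 z₁ z₂ = σ then prodK D.S₁.T.par D.S₁.κ (bs D.S₁.T (z₁ - σ.1)) *
        prodK D.S₂.T.par D.S₂.κ (bs D.S₂.T (z₂ - σ.1)) else 0) -
      (if ¬ Big D B₁ B₂ σ.1 z₁ z₂ then (if stz D σ.1 z₁ z₂ = σ then
        prodK D.S₁.T.par D.S₁.κ (bs D.S₁.T (z₁ - σ.1)) *
        prodK D.S₂.T.par D.S₂.κ (bs D.S₂.T (z₂ - σ.1)) else 0) else 0)) := by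
    simp only [Finset.sum_sub_distrib]
    linarith
  rw [h3]
  refine Finset.sum_congr rfl fun z₁ _ => Finset.sum_congr rfl fun z₂ _ => ?_
  by_cases hb : Big D B₁ B₂ σ.1 z₁ z₂ <;> simp [hb]

/-- exchange of the sums -/
theorem swap_sum (P : (E → ℤ) → (E → ℤ) → (E → ℤ) → Prop) [∀ x z₁ z₂, Decidable (P x z₁ z₂)]
    (hw : ∀ β, D.w β = 0) (g₁ : Side.Gauge D.S₁ D.μ) (g₂ : Side.Gauge D.S₂ D.μ) :
    ∑ σ ∈ D.bx, D.u σ * (∑ z₁ ∈ D.S₁.J, ∑ z₂ ∈ D.S₂.J,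
      if P σ.1 z₁ z₂ then (if stz D σ.1 z₁ z₂ = σ then
        prodK D.S₁.T.par D.S₁.κ (bs D.S₁.T (z₁ - σ.1)) *
        prodK D.S₂.T.par D.S₂.κ (bs D.S₂.T (z₂ - σ.1)) else 0) else 0) ≤
    ∑ x ∈ bx1 D, ∑ z₁ ∈ D.S₁.J, ∑ z₂ ∈ D.S₂.J,
      (if P x z₁ z₂ then wt3 D.S₁.T D.S₂.T D.S₁.κ D.S₂.κ (Gf D) x z₁ z₂ else 0) := by
  classical
  unfold SD.bx
  rw [Finset.sum_product]
  refine Finset.sum_le_sum fun x _ => ?_
  simp only [Finset.mul_sum]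
  rw [Finset.sum_comm]
  refine Finset.sum_le_sum fun z₁ _ => ?_
  rw [Finset.sum_comm]
  refine Finset.sum_le_sum fun z₂ _ => ?_
  by_cases hP : P x z₁ z₂
  · simp only [hP, if_true]
    rw [wt3_stz hw g₁ g₂]
    have hk : 0 ≤ prodK D.S₁.T.par D.S₁.κ (bs D.S₁.T (z₁ - x)) *
        prodK D.S₂.T.par D.S₂.κ (bs D.S₂.T (z₂ - x)) :=
      mul_nonneg (prodK₁_nonneg h _) (prodK₂_nonneg h _)
    have e : ∀ y : (D.S₁.Blk → ℤ) × (D.S₂.Blk → ℤ), stz D x z₁ z₂ = (x, y) ↔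
        y = (D.S₁.blk z₁, D.S₂.blk z₂) := by
      intro y
      unfold stz
      constructor
      · intro hs
        exact (Prod.ext_iff.1 hs).2.symm
      · rintro rfl; rfl
    calc ∑ y ∈ (Fintype.piFinset fun _ => Icc (-(D.Lb : ℤ)) D.Lb) ×ˢ
          (Fintype.piFinset fun _ => Icc (-(D.Lb : ℤ)) D.Lb), D.u (x, y) *
          (if stz D x z₁ z₂ = (x, y) then prodK D.S₁.T.par D.S₁.κ (bs D.S₁.T (z₁ - x)) *
            prodK D.S₂.T.par D.S₂.κ (bs D.S₂.T (z₂ - x)) else 0)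
        = ∑ y ∈ (Fintype.piFinset fun _ => Icc (-(D.Lb : ℤ)) D.Lb) ×ˢ
          (Fintype.piFinset fun _ => Icc (-(D.Lb : ℤ)) D.Lb),
          (if y = (D.S₁.blk z₁, D.S₂.blk z₂) then D.u (stz D x z₁ z₂) *
            (prodK D.S₁.T.par D.S₁.κ (bs D.S₁.T (z₁ - x)) *
            prodK D.S₂.T.par D.S₂.κ (bs D.S₂.T (z₂ - x))) else 0) := by
          refine Finset.sum_congr rfl fun y _ => ?_
          by_cases hy : y = (D.S₁.blk z₁, D.S₂.blk z₂)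
          · rw [if_pos ((e y).2 hy), if_pos hy, (e y).2 hy]
          · rw [if_neg (fun h' => hy ((e y).1 h')), if_neg hy, mul_zero]
      _ ≤ _ := by
          rw [Finset.sum_ite_eq']
          split_ifs
          · exact le_rfl
          · exact mul_nonneg (SD.u_pos _).le hk
  · simp only [hP, if_false, mul_zero, Finset.sum_const_zero]; exact le_rfl

/-- the triples with many links -/
theorem many_links (hw : ∀ β, D.w β = 0) (g₁ : Side.Gauge D.S₁ D.μ) (g₂ : Side.Gauge D.S₂ D.μ)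
    (hLb₁ : ∀ z ∈ D.S₁.J, ∀ r, |D.S₁.blk z r| ≤ D.Lb)
    (hLb₂ : ∀ z ∈ D.S₂.J, ∀ r, |D.S₂.blk z r| ≤ D.Lb) (k : ℕ) :
    ∑ x ∈ bx1 D, ∑ z₁ ∈ D.S₁.J, ∑ z₂ ∈ D.S₂.J,
      (if (k : ℤ) < nlink D.S₁.T D.S₂.T x z₁ z₂ then
        wt3 D.S₁.T D.S₂.T D.S₁.κ D.S₂.κ (Gf D) x z₁ z₂ else 0) ≤
    ∑ σ ∈ D.bx.filter (fun σ => k < ∑ i, (sv D σ i).natAbs), D.nuG σ := by
  classical
  rw [Finset.sum_filter]
  unfold SD.bx
  rw [Finset.sum_product]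
  refine Finset.sum_le_sum fun x _ => ?_
  set Y : Finset ((D.S₁.Blk → ℤ) × (D.S₂.Blk → ℤ)) :=
    (Fintype.piFinset fun _ => Icc (-(D.Lb : ℤ)) D.Lb) ×ˢ
      (Fintype.piFinset fun _ => Icc (-(D.Lb : ℤ)) D.Lb) with hY
  have e0 : ∀ y ∈ Y, (if k < ∑ i, (sv D (x, y) i).natAbs then D.nuG (x, y) else 0) =
      ∑ z₁ ∈ D.S₁.J, ∑ z₂ ∈ D.S₂.J, (if y = (D.S₁.blk z₁, D.S₂.blk z₂) then
        (if (k : ℤ) < nlink D.S₁.T D.S₂.T x z₁ z₂ then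
        wt3 D.S₁.T D.S₂.T D.S₁.κ D.S₂.κ (Gf D) x z₁ z₂ else 0) else 0) := by
    intro y _
    have e : ∀ z₁ z₂, stz D x z₁ z₂ = (x, y) ↔ y = (D.S₁.blk z₁, D.S₂.blk z₂) := by
      intro z₁ z₂
      unfold stz
      constructor
      · intro hs
        exact (Prod.ext_iff.1 hs).2.symm
      · rintro rfl; rfl
    by_cases hk : k < ∑ i, (sv D (x, y) i).natAbs
    · rw [if_pos hk]
      unfold SD.nuG
      rw [FG_double h, Finset.mul_sum]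
      refine Finset.sum_congr rfl fun z₁ _ => ?_
      rw [Finset.mul_sum]
      refine Finset.sum_congr rfl fun z₂ _ => ?_
      by_cases hy : y = (D.S₁.blk z₁, D.S₂.blk z₂)
      · have hs := (e z₁ z₂).2 hy
        rw [if_pos hy, if_pos hs, wt3_stz hw g₁ g₂, nlink_stz, hs, if_pos (by exact_mod_cast hk)]
      · rw [if_neg hy, if_neg (fun h' => hy ((e z₁ z₂).1 h')), mul_zero]
    · rw [if_neg hk]
      symm
      refine Finset.sum_eq_zero fun z₁ _ => Finset.sum_eq_zero fun z₂ _ => ?_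
      by_cases hy : y = (D.S₁.blk z₁, D.S₂.blk z₂)
      · have hs := (e z₁ z₂).2 hy
        rw [if_pos hy, nlink_stz, hs, if_neg (by exact_mod_cast hk)]
      · rw [if_neg hy]
  have e1 : ∑ y ∈ Y, (if k < ∑ i, (sv D (x, y) i).natAbs then D.nuG (x, y) else 0) =
      ∑ z₁ ∈ D.S₁.J, ∑ z₂ ∈ D.S₂.J, ∑ y ∈ Y, (if y = (D.S₁.blk z₁, D.S₂.blk z₂) then
        (if (k : ℤ) < nlink D.S₁.T D.S₂.T x z₁ z₂ then
        wt3 D.S₁.T D.S₂.T D.S₁.κ D.S₂.κ (Gf D) x z₁ z₂ else 0) else 0) := by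
    rw [Finset.sum_congr rfl e0, Finset.sum_comm]
    exact Finset.sum_congr rfl fun z₁ _ => Finset.sum_comm
  rw [e1]
  refine Finset.sum_le_sum fun z₁ hz₁ => ?_
  refine Finset.sum_le_sum fun z₂ hz₂ => ?_
  have hmem : (D.S₁.blk z₁, D.S₂.blk z₂) ∈ Y := by
    rw [hY, mem_product, Fintype.mem_piFinset, Fintype.mem_piFinset]
    exact ⟨fun r => by rw [mem_Icc]; exact abs_le.1 (hLb₁ z₁ hz₁ r),
      fun r => by rw [mem_Icc]; exact abs_le.1 (hLb₂ z₂ hz₂ r)⟩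
  rw [Finset.sum_ite_eq', if_pos hmem]

end OK

variable {r₁ r₂ : Finset E → ℤ} {R : ℤ} {c : E → ℤ} {m₁ m₂ B₁ B₂ : E → ℕ} {h₀ : ℕ}

/-- **MASS4**: the mass of the small acceptance region in a fat stage. -/
theorem mass4 (h : D.OK) (hw : ∀ β, D.w β = 0)
    (g₁ : Side.Gauge D.S₁ D.μ) (g₂ : Side.Gauge D.S₂ D.μ)
    (G₁ : Geo D.S₁ r₁ R c m₁ B₁ h₀) (G₂ : Geo D.S₂ r₂ R c m₂ B₂ h₀) (hh : 2 ≤ h₀)
    (hX : ∀ z ∈ D.S₁.J, z ∈ D.S₂.J → z ∈ bx1 D)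
    (hLb₁ : ∀ z ∈ D.S₁.J, ∀ r, |D.S₁.blk z r| ≤ D.Lb)
    (hLb₂ : ∀ z ∈ D.S₂.J, ∀ r, |D.S₂.blk z r| ≤ D.Lb)
    {A ε : ℝ} (hA : 1 ≤ A) (hε : 0 ≤ ε)
    (D₁ : SideData D.S₁.T D.S₁.κ r₁ c m₁ h₀ (fun a => B₁ a) A ε)
    (D₂ : SideData D.S₂.T D.S₂.κ r₂ c m₂ h₀ (fun a => B₂ a) A ε)
    {Γ : ℝ} (hΓ : 0 ≤ Γ)
    (hG : ∀ i j : Lk D, (hardN D.S₁.J D.S₂.J (Lor.ev (el D i)) (Lor.ev (el D j)) : ℝ) *
      D.μ (el D i) ≤ Γ * Zc D * D.μ (el D j))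
    (hq : D.θ ^ 2 * (2 * Γ * Fintype.card (Lk D) ^ 2) ≤ 1 / 2) {δ : ℝ} (hδ : 0 ≤ δ) :
    ∑ σ ∈ D.bx.filter (fun σ => D.FG σ < δ), D.nuG σ ≤
      4 * δ * Zc D + ∑ σ ∈ D.bx.filter (fun σ => h₀ < ∑ i, (sv D σ i).natAbs), D.nuG σ +
        4 * Fintype.card E * (ε * A ^ (2 * Fintype.card E)) * Zc D := by
  classical
  have h1 := small_accept h B₁ B₂ hδ
  have h2 := near_mass hw g₁ g₂ G₁ G₂ hh hX hΓ hG hq
  have h3 : ∑ σ ∈ D.bx, D.u σ * TG D B₁ B₂ σ ≤ ∑ x ∈ bx1 D, ∑ z₁ ∈ D.S₁.J, ∑ z₂ ∈ D.S₂.J,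
      (if Big D B₁ B₂ x z₁ z₂ then wt3 D.S₁.T D.S₂.T D.S₁.κ D.S₂.κ (Gf D) x z₁ z₂ else 0) := by
    simp only [TG_double h]
    exact swap_sum h (Big D B₁ B₂) hw g₁ g₂
  have h4 := slack_tail G₁.sub G₂.sub G₁.cen G₂.cen D.S₁.J D.S₂.J G₁.J G₂.J D₁ D₂ hA hε (Gf D)
    (Gf_nonneg D) (bx1 D) (Big D B₁ B₂) (fun x z₁ _ z₂ _ hb => by
      right
      unfold Big at hb
      rcases not_and_or.1 hb with h5 | h5
      · left
        unfold NearZ at h5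
        push Not at h5
        obtain ⟨a, ha, hlt⟩ := h5
        exact ⟨a, ha, by rw [bs_sub]; exact hlt⟩
      · right
        unfold NearZ at h5
        push Not at h5
        obtain ⟨a, ha, hlt⟩ := h5
        exact ⟨a, ha, by rw [bs_sub]; exact hlt⟩)
  have h5 := many_links h hw g₁ g₂ hLb₁ hLb₂ h₀
  have hq' : D.θ ^ 2 * (Γ * Fintype.card (Lk D) ^ 2) ≤ 1 / 2 := by
    refine le_trans ?_ hq
    apply mul_le_mul_of_nonneg_left _ (by positivity)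
    have : 0 ≤ Γ * (Fintype.card (Lk D) : ℝ) ^ 2 := by positivity
    nlinarith
  have h6 := hard_sum G₁ G₂ hΓ hG hq' h₀
  have h7 : 0 ≤ 2 * (Fintype.card E : ℝ) * (ε * A ^ (2 * Fintype.card E)) := by positivity
  have h8 := mul_le_mul_of_nonneg_left h6 h7
  have h9 := mul_le_mul_of_nonneg_left h2 hδ
  have hfin : ∑ σ ∈ D.bx.filter (fun σ => D.FG σ < δ), D.nuG σ ≤
      δ * (4 * Zc D) + (∑ σ ∈ D.bx.filter (fun σ => h₀ < ∑ i, (sv D σ i).natAbs), D.nuG σ +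
        2 * (Fintype.card E : ℝ) * (ε * A ^ (2 * Fintype.card E)) * (2 * Zc D)) := by
    linarith
  refine hfin.trans (le_of_eq ?_)
  ring

/-- thin stages: `FG` has the values `0` and `1`, the small acceptance region has mass `0` -/
theorem mass4_thin (h : D.OK) (h₁ : ∀ a, D.S₁.T.par a = none) (h₂ : ∀ a, D.S₂.T.par a = none)
    {δ : ℝ} (hδ : δ ≤ 1) : ∑ σ ∈ D.bx.filter (fun σ => D.FG σ < δ), D.nuG σ = 0 := by
  classical
  refine Finset.sum_eq_zero fun σ hσ => ?_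
  have hlt := (mem_filter.1 hσ).2
  have key : ∀ (S : Side E), (∀ a, S.T.par a = none) → (∀ z, S.g z = 1) →
      ∀ x β, S.ff x β = 0 ∨ S.ff x β = 1 := by
    intro S hS hg x β
    have e : ∀ z, S.g z * ∏ a, S.fk x β z a = if S.blk z = β then 1 else 0 := by
      intro z
      rw [hg, one_mul, fk_prod]
      congr 1
      rw [prodK_eq]
      exact Finset.prod_eq_one fun a _ => by rw [if_pos (hS a)]
    have hinj : ∀ z z', S.blk z = S.blk z' → z = z' := by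
      intro z z' hzz
      have h3 : ∀ a, bs S.T z a = bs S.T z' a := fun a => congrFun hzz ⟨a, hS a⟩
      rw [eq_sum_dq S.T z, eq_sum_dq S.T z']
      exact Finset.sum_congr rfl fun a _ => by rw [h3]
    unfold Side.ff
    simp only [e]
    by_cases hz : ∃ z ∈ S.J, S.blk z = β
    · right
      obtain ⟨z, hz, hb⟩ := hz
      rw [Finset.sum_eq_single z]
      · rw [if_pos hb]
      · intro z' _ hne
        rw [if_neg]
        intro hb'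
        exact hne (hinj _ _ (hb'.trans hb.symm))
      · intro h'; exact absurd hz h'
    · left
      refine Finset.sum_eq_zero fun z hz' => ?_
      rw [if_neg]
      intro hb
      exact hz ⟨z, hz', hb⟩
  unfold SD.nuG
  unfold SD.FG at hlt ⊢
  rcases key D.S₁ h₁ h.g₁ σ.1 σ.2.1 with h3 | h3
  · rw [h3]; ring
  · rcases key D.S₂ h₂ h.g₂ σ.1 σ.2.2 with h4 | h4
    · rw [h4]; ring
    · rw [h3, h4] at hlt
      linarith

end Crest.Agent.R302.Mass4
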