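import Crest.Agent.R302.Mass425D
import Crest.Agent.R302.KapR151
import Crest.Agent.R302.Gau970F

/-!
# R302 (helper425), MASS4, part E: the slack data for the kernels `kapR`, numeric form of MASS4
-/

set_option autoImplicit false
set_option linter.unusedSectionVars false

namespace Crest.Agent.R302.Mass4

open Finset Crest.Agent.R302.Facet Crest.Agent.R302.Tail907 Crest.Agent.R302.Stage
open Crest.Agent.R302.Inst hiding kap tok
open Crest.Agent.R302.Lor (mon)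
open Crest.Agent.R302.Gau (Lk el wt sv bx1)

variable {E : Type*} [Fintype E] [DecidableEq E]

/-- **slack data of `kapR`** with an arbitrary threshold -/
theorem sideData_kapR {T : MP3.Forest E} {κ : E → ℤ → ℝ} {r : Finset E → ℤ} {c : E → ℤ}
    {m : E → ℕ} {h₀ : ℕ} {k : E → ℕ} {bt : E → ℤ} {lam Cb : ℝ}
    (hκ : ∀ a, T.par a ≠ none → κ a = kapR (k a))
    (edge : ∀ p q, T.par p = some q → 8 * kap (Fintype.card E) ≤ m p ∧
      2 * (4 * Fintype.card E + 2) * h₀ ≤ m p ∧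
      ∀ U, (p ∈ U ∧ q ∉ U ∨ q ∈ U ∧ p ∉ U) → (m p : ℤ) ≤ slk r c U)
    (hm : ∀ a, T.par a ≠ none → (2 : ℝ) ^ k a * lam ≤ m a)
    (hlam : 128 * (kap (Fintype.card E) : ℝ) ≤ lam) (hl0 : 0 < lam) (hCb : 0 < Cb)
    (hbt : ∀ a, T.par a ≠ none → (m a : ℝ) ≤ Cb * ((bt a : ℝ) + 1)) :
    SideData T κ r c m h₀ bt (9 / 4) (Real.exp (-(lam / (16 * Cb)))) where
  edge := edge
  nonneg := fun p hp t => by rw [hκ p hp]; exact KapR.kapR_nonneg _ _
  full := by
    intro p hp I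
    rw [hκ p hp]
    have hk2 : (0 : ℝ) < 2 ^ k p := by positivity
    have h1 := hm p hp
    have hm0 : (0 : ℝ) < m p := lt_of_lt_of_le (by positivity) h1
    have hkap : (0 : ℝ) ≤ kap (Fintype.card E) := Nat.cast_nonneg _
    have hc : 8 * (kap (Fintype.card E) : ℝ) / m p * 2 ^ k p ≤ 1 / 8 := by
      rw [div_mul_eq_mul_div, div_le_iff₀ hm0]
      nlinarith
    refine (KapR.sum_kapR_exp_le (k p) (by positivity) hc I).trans ?_
    linarith
  tail := by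
    intro p hp I
    rw [hκ p hp]
    have hk2 : (0 : ℝ) < 2 ^ k p := by positivity
    have h1 := hm p hp
    have hm0 : (0 : ℝ) < m p := lt_of_lt_of_le (by positivity) h1
    have hkap : (0 : ℝ) ≤ kap (Fintype.card E) := Nat.cast_nonneg _
    set c₁ : ℝ := 8 * (kap (Fintype.card E) : ℝ) / m p with hc₁
    set c₂ : ℝ := 1 / (8 * 2 ^ k p) with hc₂
    have e2 : c₂ * 2 ^ k p ≤ 1 / 8 := by
      rw [hc₂]; field_simp; norm_num
    have h3 : lam / (8 * m p) ≤ c₂ := by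
      rw [hc₂, div_le_div_iff₀ (by positivity) (by positivity)]
      nlinarith
    have h4 : c₁ ≤ lam / (16 * m p) := by
      rw [hc₁, div_le_div_iff₀ hm0 (by positivity)]
      nlinarith
    have h5 : lam / (16 * m p) ≤ c₂ - c₁ := by
      have : lam / (8 * m p) = 2 * (lam / (16 * m p)) := by field_simp; ring
      linarith
    have h6 := hbt p hp
    have hbt0 : 0 < (bt p : ℝ) + 1 := by
      by_contra hcon
      push Not at hcon
      nlinarith
    have h7 : lam / (16 * Cb) ≤ (c₂ - c₁) * ((bt p : ℝ) + 1) := by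
      calc lam / (16 * Cb) = lam / (16 * m p) * (m p / Cb) := by field_simp
        _ ≤ (c₂ - c₁) * ((bt p : ℝ) + 1) := by
            apply mul_le_mul h5 _ (by positivity) (le_trans (by positivity) h5)
            rw [div_le_iff₀ hCb]; linarith
    calc ∑ t ∈ I.filter (fun t => bt p < |t|), kapR (k p) t * Real.exp (c₁ * |(t : ℝ)|)
        ≤ ∑ t ∈ I.filter (fun t => bt p < |t|), Real.exp (-(lam / (16 * Cb))) *
            (kapR (k p) t * Real.exp (c₂ * |(t : ℝ)|)) := by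
          refine Finset.sum_le_sum fun t ht => ?_
          have h8 := (mem_filter.1 ht).2
          have h9 : (bt p : ℝ) + 1 ≤ |(t : ℝ)| := by
            have : bt p + 1 ≤ |t| := h8
            exact_mod_cast this
          rw [mul_left_comm, ← Real.exp_add]
          refine mul_le_mul_of_nonneg_left (Real.exp_le_exp.2 ?_) (KapR.kapR_nonneg _ _)
          have h10 : (c₂ - c₁) * ((bt p : ℝ) + 1) ≤ (c₂ - c₁) * |(t : ℝ)| :=
            mul_le_mul_of_nonneg_left h9 (le_trans (by positivity) h5)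
          linarith
      _ = Real.exp (-(lam / (16 * Cb))) * ∑ t ∈ I.filter (fun t => bt p < |t|),
            kapR (k p) t * Real.exp (c₂ * |(t : ℝ)|) := by rw [Finset.mul_sum]
      _ ≤ Real.exp (-(lam / (16 * Cb))) * (9 / 4) := by
          refine mul_le_mul_of_nonneg_left ?_ (Real.exp_pos _).le
          refine (KapR.sum_kapR_exp_le (k p) (by positivity) e2 _).trans ?_
          linarith
      _ = _ := by ring

variable {D : SD E} {r₁ r₂ : Finset E → ℤ} {R : ℤ} {c : E → ℤ} {m₁ m₂ : E → ℕ} {h₀ : ℕ}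

/-- geometric and kernel data of one side with kernels `kapR` -/
structure KGeo (S : Side E) (r : Finset E → ℤ) (R : ℤ) (c : E → ℤ) (m k : E → ℕ) (h₀ : ℕ)
    (lam : ℝ) : Prop where
  sub : SubM r R
  cen : MemJ r R c
  J : ∀ z, z ∈ S.J ↔ MemJ r R z
  cap : ∀ a b, S.T.par a = some b → 8 * kap (Fintype.card E) ≤ m a ∧
    2 * (4 * Fintype.card E + 2) * h₀ ≤ m a ∧
    ∀ A, (a ∈ A ∧ b ∉ A ∨ b ∈ A ∧ a ∉ A) → (m a : ℤ) ≤ slk r c A
  ker : ∀ a, S.T.par a ≠ none → S.κ a = kapR (k a)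
  scale : ∀ a, S.T.par a ≠ none → (2 : ℝ) ^ k a * lam ≤ m a

/-- the threshold of the near slacks -/
def Bth (n : ℕ) (m : E → ℕ) (a : E) : ℕ := m a / (64 * n * kap n)

theorem KGeo.geo {S : Side E} {r : Finset E → ℤ} {m k : E → ℕ} {lam : ℝ}
    (h : KGeo S r R c m k h₀ lam) : Geo S r R c m (Bth (Fintype.card E) m) h₀ where
  sub := h.sub
  cen := h.cen
  J := h.J
  cap := h.cap
  small := fun _ _ => Nat.mul_div_le _ _

theorem KGeo.side {S : Side E} {r : Finset E → ℤ} {m k : E → ℕ} {lam : ℝ}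
    (h : KGeo S r R c m k h₀ lam) (hlam : 128 * (kap (Fintype.card E) : ℝ) ≤ lam) (hl0 : 0 < lam)
    (hn : 1 ≤ Fintype.card E) :
    SideData S.T S.κ r c m h₀ (fun a => (Bth (Fintype.card E) m a : ℤ)) (9 / 4)
      (Real.exp (-(lam / (16 * (64 * Fintype.card E * kap (Fintype.card E)))))) := by
  have hk := kap_pos hn
  have hC : 0 < 64 * Fintype.card E * kap (Fintype.card E) := by positivity
  refine sideData_kapR h.ker h.cap h.scale hlam hl0 (by exact_mod_cast hC) fun a _ => ?_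
  have h1 := Nat.lt_mul_div_succ (m a) hC
  unfold Bth
  have h2 : (m a : ℝ) ≤ ((64 * Fintype.card E * kap (Fintype.card E) : ℕ) : ℝ) *
      ((m a / (64 * Fintype.card E * kap (Fintype.card E)) + 1 : ℕ) : ℝ) := by
    exact_mod_cast h1.le
  push_cast at h2 ⊢
  exact h2

/-- **MASS4, numeric form** -/
theorem mass4_num {k₁ k₂ : E → ℕ} {lam : ℝ} (h : D.OK) (hw : ∀ β, D.w β = 0)
    (g₁ : Side.Gauge D.S₁ D.μ) (g₂ : Side.Gauge D.S₂ D.μ)
    (G₁ : KGeo D.S₁ r₁ R c m₁ k₁ h₀ lam) (G₂ : KGeo D.S₂ r₂ R c m₂ k₂ h₀ lam)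
    (hn : 1 ≤ Fintype.card E) (hh : 2 ≤ h₀)
    (hX : ∀ z ∈ D.S₁.J, z ∈ D.S₂.J → z ∈ bx1 D)
    (hLb₁ : ∀ z ∈ D.S₁.J, ∀ r, |D.S₁.blk z r| ≤ D.Lb)
    (hLb₂ : ∀ z ∈ D.S₂.J, ∀ r, |D.S₂.blk z r| ≤ D.Lb)
    (hlam : 128 * (kap (Fintype.card E) : ℝ) ≤ lam) (hl0 : 0 < lam)
    {Γ : ℝ} (hΓ : 0 ≤ Γ)
    (hG : ∀ i j : Lk D, (hardN D.S₁.J D.S₂.J (Lor.ev (el D i)) (Lor.ev (el D j)) : ℝ) *
      D.μ (el D i) ≤ Γ * Zc D * D.μ (el D j))
    (hq : D.θ ^ 2 * (2 * Γ * Fintype.card (Lk D) ^ 2) ≤ 1 / 2)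
    (hL : Gau.LzD D) (hpos : 0 < Gau.AA D 0) (hAA : Gau.AA D 0 ≤ 2 * Zc D) {K : ℝ}
    (hK : ∑ i : Lk D, ∑ j : Lk D, wt D i / wt D j *
      Gau.AA D (Lor.ev (Gau.tok D i) - Lor.ev (Gau.tok D j)) ≤ K * Gau.AA D 0)
    (hqK : D.θ ^ 2 * K ≤ 1 / 2) (hK0 : 0 ≤ K) {j : ℕ} (hj : 2 * j ≤ h₀ + 1)
    {δ : ℝ} (hδ : 0 ≤ δ) :
    ∑ σ ∈ D.bx.filter (fun σ => D.FG σ < δ), D.nuG σ ≤
      (4 * δ + 4 * (1 / 2) ^ j + 4 * Fintype.card E *
        (Real.exp (-(lam / (16 * (64 * Fintype.card E * kap (Fintype.card E))))) *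
          (9 / 4) ^ (2 * Fintype.card E))) * Zc D := by
  have h1 := mass4 h hw g₁ g₂ G₁.geo G₂.geo hh hX hLb₁ hLb₂ (by norm_num) (Real.exp_pos _).le
    (G₁.side hlam hl0 hn) (G₂.side hlam hl0 hn) hΓ hG hq hδ
  have h2 : ∑ σ ∈ D.bx.filter (fun σ => h₀ < ∑ i, (sv D σ i).natAbs), D.nuG σ ≤
      4 * (1 / 2) ^ j * Zc D := by
    have h3 := Gau.links_tail hL hpos hK (lt_of_le_of_lt hqK (by norm_num)) j
    have h4 : ∑ σ ∈ D.bx.filter (fun σ => h₀ < ∑ i, (sv D σ i).natAbs), D.nuG σ ≤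
        ∑ σ ∈ D.bx.filter (fun σ => 2 * j ≤ (∑ r, (σ.2.1 r - D.S₁.blk σ.1 r).natAbs) +
          ∑ r, (σ.2.2 r - D.S₂.blk σ.1 r).natAbs), D.nuG σ := by
      refine Finset.sum_le_sum_of_subset_of_nonneg ?_ fun σ _ _ => SD.nuG_nonneg h σ
      intro σ hσ
      rw [mem_filter] at hσ ⊢
      refine ⟨hσ.1, ?_⟩
      have h5 : ∑ i, (sv D σ i).natAbs = (∑ r, (σ.2.1 r - D.S₁.blk σ.1 r).natAbs) +
          ∑ r, (σ.2.2 r - D.S₂.blk σ.1 r).natAbs := by
        rw [Fintype.sum_sum_type]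
        congr 1
        refine Finset.sum_congr rfl fun r _ => ?_
        show (-(σ.2.2 r - D.S₂.blk σ.1 r)).natAbs = _
        rw [Int.natAbs_neg]
      have h6 := hσ.2
      omega
    refine h4.trans (h3.trans ?_)
    have hq0 : 0 ≤ D.θ ^ 2 * K := mul_nonneg (sq_nonneg _) hK0
    have h7 : (D.θ ^ 2 * K) ^ j / (1 - D.θ ^ 2 * K) ≤ 2 * (1 / 2) ^ j := by
      rw [div_le_iff₀ (by linarith)]
      have h8 : (D.θ ^ 2 * K) ^ j ≤ (1 / 2) ^ j := pow_le_pow_left₀ hq0 hqK j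
      have h9 : (0 : ℝ) ≤ (1 / 2) ^ j := by positivity
      nlinarith
    calc (D.θ ^ 2 * K) ^ j / (1 - D.θ ^ 2 * K) * Gau.AA D 0
        ≤ (2 * (1 / 2) ^ j) * (2 * Zc D) := by
          apply mul_le_mul h7 hAA hpos.le (by positivity)
      _ = _ := by ring
  have : (4 * δ + 4 * (1 / 2) ^ j + 4 * Fintype.card E *
        (Real.exp (-(lam / (16 * (64 * Fintype.card E * kap (Fintype.card E))))) *
          (9 / 4) ^ (2 * Fintype.card E))) * Zc D = 4 * δ * Zc D + 4 * (1 / 2) ^ j * Zc D +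
      4 * Fintype.card E *
        (Real.exp (-(lam / (16 * (64 * Fintype.card E * kap (Fintype.card E))))) *
          (9 / 4) ^ (2 * Fintype.card E)) * Zc D := by ring
  rw [this]
  linarith

end Crest.Agent.R302.Mass4
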