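import Crest.Agent.R302.Num166
import Crest.Agent.R302.Center970B

/-!
# R302, numbers (helper166): the tails and side conditions of `badm_sdA` and `farM_le'` for the concrete parameters
-/

set_option autoImplicit false

namespace Crest.Agent.R302.Num

open Crest.Agent.R302.Smp Crest.Agent.R302.Top Crest.Agent.R302.Cst Crest.Agent.R302.Prog

/-- (b), generic -/
theorem tf_aux {x : ℕ} (hx : 2 ^ 16 ≤ x) {q : ℝ} (hq0 : 0 ≤ q) (hq : q ≤ 1 / 2) :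
    4 * q ^ (x ^ 4 + 1) ≤ (1 / 2) ^ (x ^ 3 + 1) := by
  have h1 : q ^ (x ^ 4 + 1) ≤ (1 / 2) ^ (x ^ 4 + 1) := pow_le_pow_left₀ hq0 hq _
  have h2 : (1 / 2 : ℝ) ^ (x ^ 4 + 1) ≤ (1 / 2) ^ (x ^ 3 + 1 + 2) := by
    apply pow_le_pow_of_le_one (by norm_num) (by norm_num)
    have e : x ^ 4 = x ^ 3 * x := by ring
    have h3 : 1 ≤ x ^ 3 := Nat.one_le_pow _ _ (by omega)
    rw [e]
    nlinarith
  rw [pow_add _ (x ^ 3 + 1) 2] at h2
  linarith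

/-- (a), generic -/
theorem tb_aux {x n : ℕ} (hx : 2 ^ 16 ≤ x) (hn : n ≤ x) {q y : ℝ} (hq0 : 0 ≤ q) (hq : q ≤ 1 / 2)
    (hy : (x : ℝ) ^ 4 ≤ y) :
    4 * q ^ (x ^ 4 + 1) + 4 * (n : ℝ) * ((9 / 4 * Real.exp (-y)) * (9 / 4) ^ (2 * n)) ≤
      1 / 2 ^ (x ^ 3) := by
  have h1 := tf_aux hx hq0 hq
  have h2 : Real.exp (-y) ≤ (1 / 2) ^ (x ^ 4) := exp_neg_le (by push_cast; exact hy)
  have h3 : (9 / 4 : ℝ) ^ (2 * n) ≤ 2 ^ (4 * x) := by
    calc (9 / 4 : ℝ) ^ (2 * n) ≤ 4 ^ (2 * n) := pow_le_pow_left₀ (by norm_num) (by norm_num) _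
      _ = 2 ^ (4 * n) := by
          rw [show (4 : ℝ) = 2 ^ 2 by norm_num, ← pow_mul]
          congr 1
          ring
      _ ≤ 2 ^ (4 * x) := pow_le_pow_right₀ (by norm_num) (by omega)
  have h4 : 4 * (n : ℝ) * (9 / 4) ≤ 2 ^ (x + 4) := by
    have h5 : (n : ℝ) ≤ 2 ^ x := by
      have : n < 2 ^ x := lt_of_le_of_lt hn Nat.lt_two_pow_self
      exact_mod_cast this.le
    rw [pow_add]
    linarith
  have h6 : 4 * (n : ℝ) * ((9 / 4 * Real.exp (-y)) * (9 / 4) ^ (2 * n)) ≤ (1 / 2) ^ (x ^ 3 + 1) := by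
    calc 4 * (n : ℝ) * ((9 / 4 * Real.exp (-y)) * (9 / 4) ^ (2 * n))
        = 4 * (n : ℝ) * (9 / 4) * (Real.exp (-y) * (9 / 4) ^ (2 * n)) := by ring
      _ ≤ 2 ^ (x + 4) * ((1 / 2) ^ (x ^ 4) * 2 ^ (4 * x)) := by
          apply mul_le_mul h4 _ (by positivity) (by positivity)
          exact mul_le_mul h2 h3 (by positivity) (by positivity)
      _ = (1 / 2) ^ (x ^ 4) * 2 ^ (5 * x + 4) := by
          rw [show 5 * x + 4 = (x + 4) + 4 * x by ring, pow_add 2 (x + 4) (4 * x)]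
          ring
      _ ≤ (1 / 2) ^ ((5 * x + 4) + (x ^ 3 + 1)) * 2 ^ (5 * x + 4) := by
          apply mul_le_mul_of_nonneg_right _ (by positivity)
          apply pow_le_pow_of_le_one (by norm_num) (by norm_num)
          have e : x ^ 4 = x ^ 3 * x := by ring
          have e2 : x ^ 3 = x * x * x := by ring
          have h5 : 10 * x ≤ x ^ 3 := by
            rw [e2]
            apply Nat.mul_le_mul_right
            nlinarith
          have h7 : 3 * x ^ 3 ≤ x ^ 4 := by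
            rw [e]
            nlinarith
          omega
      _ = (1 / 2) ^ (x ^ 3 + 1) := by
          rw [pow_add, mul_right_comm, ← mul_pow]
          norm_num
  have e : (1 : ℝ) / 2 ^ (x ^ 3) = (1 / 2) ^ (x ^ 3 + 1) + (1 / 2) ^ (x ^ 3 + 1) := by
    rw [pow_succ, one_div_pow]
    ring
  rw [e]
  exact add_le_add h1 h6

theorem dk16_aux {X : ℝ} (hX : 65536 ≤ X) : X ^ 4 ≤ X ^ 75 / 16 := by
  rw [le_div_iff₀ (by norm_num)]
  have hX1 : (1 : ℝ) ≤ X := by linarith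
  calc X ^ 4 * 16 ≤ X ^ 4 * X := by gcongr; linarith
    _ = X ^ 5 := by ring
    _ ≤ X ^ 75 := pow_le_pow_right₀ hX1 (by norm_num)

theorem dk16 (s : SIn) : (XX s : ℝ) ^ 4 ≤ (cPar.dk s : ℝ) / 16 := by
  rw [dk_cast]
  exact dk16_aux (XX_geR s)

/-- **(a)** -/
theorem tb_le (s : SIn) {q : ℝ} (hq0 : 0 ≤ q) (hq : q ≤ 1 / 2) :
    4 * q ^ (XX s ^ 4 + 1) +
      4 * (sn s : ℝ) * ((9 / 4 * Real.exp (-((cPar.dk s : ℝ) / 16))) * (9 / 4) ^ (2 * sn s)) ≤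
      1 / 2 ^ (XX s ^ 3) :=
  tb_aux (XX_ge s) ((Nat.le_succ _).trans (sn_le s)) hq0 hq (dk16 s)

/-- **(b)** -/
theorem tf_le (s : SIn) {q : ℝ} (hq0 : 0 ≤ q) (hq : q ≤ 1 / 2) :
    4 * q ^ (XX s ^ 4 + 1) ≤ 1 / 2 ^ (XX s ^ 3) := by
  refine (tf_aux (XX_ge s) hq0 hq).trans ?_
  rw [pow_succ, one_div_pow]
  have : (0 : ℝ) ≤ 1 / 2 ^ (XX s ^ 3) := by positivity
  linarith

/-- the two ratios are at most `1/2` -/
theorem qE_half (s : SIn) : 0 ≤ 1 / (XX s : ℝ) ∧ 1 / (XX s : ℝ) ≤ 1 / 2 := by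
  have h := XX_geR s
  exact ⟨by positivity, one_div_le_one_div_of_le (by norm_num) (by linarith)⟩

theorem qM_half (s : SIn) : 0 ≤ 1 / (XX s : ℝ) ^ 63 ∧ 1 / (XX s : ℝ) ^ 63 ≤ 1 / 2 := by
  have h := XX_geR s
  refine ⟨by positivity, one_div_le_one_div_of_le (by norm_num) ?_⟩
  calc (2 : ℝ) ≤ XX s := by linarith
    _ = (XX s : ℝ) ^ 1 := (pow_one _).symm
    _ ≤ (XX s : ℝ) ^ 63 := pow_le_pow_right₀ (by linarith) (by norm_num)

/-! ### side conditions -/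

section side

variable (s : SIn)

theorem one_le_XXp (c : ℕ) : 1 ≤ XX s ^ c := Nat.one_le_pow _ _ (by have := XX_ge s; omega)

theorem XXp_mono {a b : ℕ} (h : a ≤ b) : XX s ^ a ≤ XX s ^ b :=
  Nat.pow_le_pow_right (by have := XX_ge s; omega) h

theorem sd_lam : sn s + 1 ≤ XX s ^ 6 :=
  (sn_le s).trans (by simpa using XXp_mono s (a := 1) (b := 6) (by norm_num))

theorem sd_Kw : 2 * sn s * XX s ^ 4 ≤ XX s ^ 6 := by
  have h1 : sn s ≤ XX s := (Nat.le_succ _).trans (sn_le s)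
  calc 2 * sn s * XX s ^ 4 ≤ 2 * XX s * XX s ^ 4 :=
        Nat.mul_le_mul_right _ (Nat.mul_le_mul_left _ h1)
    _ = 2 * XX s ^ 5 := by ring
    _ ≤ XX s ^ 6 := c_mul_pw (XX_ge s) (by norm_num)

theorem sd_dk : 128 * Facet.kap (sn s) ≤ cPar.dk s := by
  show 128 * Facet.kap (sn s) ≤ XX s ^ 75
  calc 128 * Facet.kap (sn s) ≤ 128 * XX s ^ 9 :=
        Nat.mul_le_mul_left _ (kap_le' (XX_ge s) (sn_le s))
    _ ≤ XX s ^ 75 := c_mul_pw' (XX_ge s) (by norm_num) (by norm_num)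

theorem sd_w : 8 * Facet.kap (sn s) ≤ cPar.w₁ s := by
  show 8 * Facet.kap (sn s) ≤ XX s ^ 112
  calc 8 * Facet.kap (sn s) ≤ 8 * XX s ^ 9 :=
        Nat.mul_le_mul_left _ (kap_le' (XX_ge s) (sn_le s))
    _ ≤ XX s ^ 112 := c_mul_pw' (XX_ge s) (by norm_num) (by norm_num)

theorem sd_w' : 2 * (4 * sn s + 2) * XX s ^ 6 ≤ cPar.w₁ s := by
  show 2 * (4 * sn s + 2) * XX s ^ 6 ≤ XX s ^ 112
  have h1 := sn_le s
  calc 2 * (4 * sn s + 2) * XX s ^ 6 ≤ 8 * XX s * XX s ^ 6 :=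
        Nat.mul_le_mul_right _ (by omega)
    _ = 8 * XX s ^ 7 := by ring
    _ ≤ XX s ^ 112 := c_mul_pw' (XX_ge s) (by norm_num) (by norm_num)

theorem sd_wZ : (8 * Facet.kap (sn s) : ℤ) ≤ (cPar.w₁ s : ℤ) := by exact_mod_cast sd_w s

theorem sd_wZ' : (2 * (4 * sn s + 2) * (XX s ^ 6 : ℕ) : ℤ) ≤ (cPar.w₁ s : ℤ) := by
  exact_mod_cast sd_w' s

theorem sd_dk0 : 0 < cPar.dk s := one_le_XXp s 75

theorem sd_dkw : cPar.dk s ≤ cPar.w₁ s := XXp_mono s (by norm_num)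

theorem sd_dkwZ : (cPar.dk s : ℤ) ≤ (cPar.w₁ s : ℤ) := by exact_mod_cast sd_dkw s

theorem sd_C : 1 ≤ Center.cC (sn s) ∨ sn s = 0 := by
  rcases Nat.eq_zero_or_pos (sn s) with h | h
  · exact Or.inr h
  · left
    have : 0 < Center.cC (sn s) := by
      unfold Center.cC
      positivity
    exact this

theorem sd_G_nat : XX s ^ 6 * (8 * sn s ^ 3 * Center.cC (sn s) + sn s * (3 * sn s + 4)) + XX s ^ 6 + 2 ≤
    XX s ^ 18 := by
  have hX := XX_ge s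
  have hn : sn s ≤ XX s := (Nat.le_succ _).trans (sn_le s)
  have hC := cC_le hX (sn_le s)
  generalize XX s = x at *
  generalize sn s = n at *
  generalize Center.cC n = c at *
  have h3 : n ^ 3 ≤ x ^ 3 := Nat.pow_le_pow_left hn 3
  have a1 : 8 * n ^ 3 * c ≤ 8 * x ^ 10 := by
    calc 8 * n ^ 3 * c ≤ 8 * x ^ 3 * x ^ 7 := Nat.mul_le_mul (Nat.mul_le_mul_left _ h3) hC
      _ = 8 * x ^ 10 := by ring
  have a2 : n * (3 * n + 4) ≤ x ^ 3 := by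
    calc n * (3 * n + 4) ≤ x * (x * x) := Nat.mul_le_mul hn (by nlinarith)
      _ = x ^ 3 := by ring
  have a3 : x ^ 3 ≤ x ^ 10 := Nat.pow_le_pow_right (by omega) (by norm_num)
  have a4 : 8 * n ^ 3 * c + n * (3 * n + 4) ≤ 9 * x ^ 10 := by omega
  have a5 : x ^ 6 * (8 * n ^ 3 * c + n * (3 * n + 4)) ≤ 9 * x ^ 16 := by
    calc _ ≤ x ^ 6 * (9 * x ^ 10) := Nat.mul_le_mul_left _ a4
      _ = 9 * x ^ 16 := by ring
  have a6 : x ^ 6 ≤ x ^ 16 := Nat.pow_le_pow_right (by omega) (by norm_num)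
  have a7 : 1 ≤ x ^ 16 := Nat.one_le_pow _ _ (by omega)
  have a8 : 12 * x ^ 16 ≤ x ^ 18 := c_mul_pw' hX (by norm_num) (by norm_num)
  omega

/-- the window condition of `badm_sdA` -/
theorem sd_G : ((XX s ^ 6 * (8 * sn s ^ 3 * Center.cC (sn s) + sn s * (3 * sn s + 4)) + XX s ^ 6 + 2 : ℕ) :
    ℝ) ≤ G0 s := by
  unfold G0
  exact_mod_cast sd_G_nat s

end side

end Crest.Agent.R302.Num
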