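import Crest.Agent.R302.MassSdA151
import Crest.Agent.R302.Inst536
import Crest.Agent.R302.Num166B

/-!
# R302 (helper151): the mass bundle of the two concrete chains `Dc`

* `good_c` : the gauge condition with constant `128`;
* `massIn_c`, `rat_c`, `mf_c`, `mf_cE` (`a = 2 ss`), `mf_cM` (`a = 33 ss`).
-/

set_option autoImplicit false
set_option linter.unusedSectionVars false

namespace Crest.Agent.R302.Fields

open Finset Crest.Agent.R302.Inst Crest.Agent.R302.Stage Crest.Agent.R302.AnnBox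
open Crest.Agent.R302.Loop Crest.Agent.R302.Prog
open Crest.Agent.R302.Smp Crest.Agent.R302.Top Crest.Agent.R302.Facet
open Crest.Agent.R302.Cst
open Crest.Agent.R302.Conc (sdA parOf ellOf)
open Crest.Agent.R302.ORAM
open Crest.Agent.R302.Mass151 (XOK)

/-- the numbers of the concrete parameters -/
theorem xok_c {n R m : ℕ} {r₁ r₂ : Finset (Fin n) → ℕ} {lo hi : Fin n → ℤ} {𝒜 : AnnData n}
    (h : IsInst (Prog.prg cPar) n R m r₁ r₂ lo hi 𝒜) (a : ℕ) :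
    XOK n 𝒜.R (parOf cPar (inp n R m lo hi) a) (XX (inp n R m lo hi))
      (ss (inp n R m lo hi)) where
  hX := XX_eq _
  h16 := XX_ge _
  hs := c_mul_s_le (by norm_num)
  hn := sn_le (inp n R m lo hi)
  n0 := h.n0
  dk := rfl
  w := rfl
  Lb := by
    rw [h.AR]
    exact_mod_cast R_le_Lb (inp n R m lo hi)
  M := by
    rw [h.AR]
    have h1 : R < 2 ^ XX (inp n R m lo hi) := R_lt
    have h2 : (2 : ℕ) ^ XX (inp n R m lo hi) ≤ 2 ^ (5 * XX (inp n R m lo hi)) :=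
      Nat.pow_le_pow_right (by norm_num) (by omega)
    have h3 : R + 1 ≤ cPar.M (inp n R m lo hi) := h1.trans_le h2
    exact_mod_cast h3

section

variable {n R m : ℕ} {r₁ r₂ : Finset (Fin n) → ℕ} {lo hi : Fin n → ℤ} {𝒜 : AnnData n}

/-- **the gauge condition of all pairs** -/
theorem good_c (h : IsInst (Prog.prg cPar) n R m r₁ r₂ lo hi 𝒜) {t : ℕ}
    (ht : t < (Prog.prg cPar).T (inp n R m lo hi)) {g : List ℤ}
    (hg : GoodR n (Prog.repT cPar (rq r₁ r₂) (inp n R m lo hi) t) (Smp.NN 𝒜 (t + 1))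
      (𝒜.Z (t + 1)) 64 g) (a : ℕ) (u v : Fin n) :
    𝒜.Nst (t + 1) v u * (Dc 𝒜 (rq r₁ r₂) (inp n R m lo hi) t a g).μ u ≤
      128 * 𝒜.Z (t + 1) * (Dc 𝒜 (rq r₁ r₂) (inp n R m lo hi) t a g).μ v := by
  have hMM : ∀ b, Prog.matT cPar (rq r₁ r₂) (inp n R m lo hi) t b =
      Rep646.stMat (rq r₁ r₂) (inp n R m lo hi) 𝒜.L b (t + 1) := by
    intro b
    unfold Prog.matT Rep646.stMat Prog.loT Prog.hiT
    rw [Conc.tt_eq cPar ht, h.AL]
    rfl
  have hrep : ∀ u, Prog.repT cPar (rq r₁ r₂) (inp n R m lo hi) t u =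
      (Rep646.repL n (cPar.w₁ (inp n R m lo hi))
      (Rep646.stMat (rq r₁ r₂) (inp n R m lo hi) 𝒜.L false (t + 1))
      (Rep646.stMat (rq r₁ r₂) (inp n R m lo hi) 𝒜.L true (t + 1))).getD u 0 := by
    intro u
    unfold Prog.repT
    rw [hMM, hMM]
    rfl
  obtain ⟨_, b2⟩ := Rep646.blk_inst h (w₁ := (cPar.w₁ (inp n R m lo hi) : ℤ))
    (kap_w1 (inp n R m lo hi)) (cA_lt_w1 (inp n R m lo hi)) (t + 1)
  have hblk : ∀ u < n, ∀ v < n, Smp.NN 𝒜 (t + 1) u v ≤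
      2 * Smp.NN 𝒜 (t + 1) (Prog.repT cPar (rq r₁ r₂) (inp n R m lo hi) t u)
        (Prog.repT cPar (rq r₁ r₂) (inp n R m lo hi) t v) := by
    intro u hu v hv
    rw [hrep u, hrep v]
    exact b2 u hu v hv
  have key := Gau.good_of (D := Dc 𝒜 (rq r₁ r₂) (inp n R m lo hi) t a g) hg
    (by norm_num : (0 : ℝ) ≤ 2) hblk (fun _ => rfl) u v
  rw [Smp.NN_eq] at key
  have e : (2 : ℝ) * 64 = 128 := by norm_num
  rw [e] at key
  exact key

variable (h : IsInst (Prog.prg cPar) n R m r₁ r₂ lo hi 𝒜) {t : ℕ}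
    (ht : t < (Prog.prg cPar).T (inp n R m lo hi)) {g : List ℤ}
    (hg : GoodR n (Prog.repT cPar (rq r₁ r₂) (inp n R m lo hi) t) (Smp.NN 𝒜 (t + 1))
      (𝒜.Z (t + 1)) 64 g)

include h ht hg

/-- **the mass bundle** -/
theorem massIn_c (a : ℕ) :
    Gau.MassIn (Dc 𝒜 (rq r₁ r₂) (inp n R m lo hi) t a g) (𝒜.Z (t + 1))
      (fun u v => 𝒜.Nst (t + 1) v u) 128 (1 / (XX (inp n R m lo hi) : ℝ) ^ 62) :=
  Mass151.massIn_sdA (P := parOf cPar (inp n R m lo hi) a)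
    (ell := ellOf cPar (rq r₁ r₂) (inp n R m lo hi) t g) (ConcF.inst_pos₁ h) (ConcF.inst_pos₂ h)
    (xok_c h a) (repC_c h ht a) (ell_c h ht g) (good_c h ht hg a)

omit hg in
/-- **the one-link masses** -/
theorem rat_c (a : ℕ) : Rat 𝒜 (t + 1) (Dc 𝒜 (rq r₁ r₂) (inp n R m lo hi) t a g) :=
  Mass151.rat_sdA (P := parOf cPar (inp n R m lo hi) a)
    (ell := ellOf cPar (rq r₁ r₂) (inp n R m lo hi) t g) (ConcF.inst_pos₁ h) (ConcF.inst_pos₂ h)
    (xok_c h a) (repC_c h ht a) (ell_c h ht g)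

/-- **the mass facts** -/
theorem mf_c (a : ℕ) {q : ℝ}
    (hq : ((1 / 2 : ℝ) ^ a) ^ 2 * (2 * 128 * (2 * (sn (inp n R m lo hi) : ℝ)) ^ 2) ≤ q)
    (hq1 : q ≤ 1 / 2) :
    MF 𝒜 (t + 1) (Dc 𝒜 (rq r₁ r₂) (inp n R m lo hi) t a g)
      (1 / (XX (inp n R m lo hi) : ℝ) ^ 61) (1 / (XX (inp n R m lo hi) : ℝ) ^ 62 + 4 * q) :=
  Mass151.mf_sdA (P := parOf cPar (inp n R m lo hi) a)
    (ell := ellOf cPar (rq r₁ r₂) (inp n R m lo hi) t g) (ConcF.inst_pos₁ h) (ConcF.inst_pos₂ h)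
    (xok_c h a) (repC_c h ht a) (ell_c h ht g) (good_c h ht hg a) hq hq1

omit h ht hg in
theorem MF.mono {D : SD (Fin n)} {t : ℕ} {ε₁ ε₂ ε₁' ε₂' : ℝ} (h : MF 𝒜 t D ε₁ ε₂)
    (h1 : ε₁ ≤ ε₁') (h2 : ε₂ ≤ ε₂') : MF 𝒜 t D ε₁' ε₂' :=
  ⟨h.ok, h.sub, h.out, h.inb, h.s1.trans (mul_le_mul_of_nonneg_right h1 (𝒜.Z_pos t).le),
    h.s2.trans (mul_le_mul_of_nonneg_right h2 (𝒜.Z_pos t).le)⟩

/-- the estimator chain -/
theorem mf_cE : MF 𝒜 (t + 1) (Dc 𝒜 (rq r₁ r₂) (inp n R m lo hi) t (2 * ss (inp n R m lo hi)) g)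
    (1 / (XX (inp n R m lo hi) : ℝ) ^ 61) (1 / 8) := by
  refine (mf_c h ht hg _ (Num.qE_le _) (Num.qE_half _).2).mono le_rfl ?_
  have hX := XX_geR (inp n R m lo hi)
  generalize (XX (inp n R m lo hi) : ℝ) = X at hX ⊢
  have h1 : 1 / X ^ 62 ≤ 1 / X := by
    apply one_div_le_one_div_of_le (by linarith)
    exact le_self_pow₀ (by linarith) (by norm_num)
  have h2 : 1 / X ≤ 1 / 65536 := one_div_le_one_div_of_le (by norm_num) hX
  linarith

/-- the mover chain -/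
theorem mf_cM : MF 𝒜 (t + 1) (Dc 𝒜 (rq r₁ r₂) (inp n R m lo hi) t (33 * ss (inp n R m lo hi)) g)
    (1 / (XX (inp n R m lo hi) : ℝ) ^ 61) (1 / (XX (inp n R m lo hi) : ℝ) ^ 61) := by
  refine (mf_c h ht hg _ (Num.qM_le _) (Num.qM_half _).2).mono le_rfl ?_
  have hX := XX_geR (inp n R m lo hi)
  generalize (XX (inp n R m lo hi) : ℝ) = X at hX ⊢
  have h0 : 0 < X := by linarith
  have h1 : 1 / X ^ 63 ≤ 1 / X ^ 62 :=
    one_div_le_one_div_of_le (by positivity) (pow_le_pow_right₀ (by linarith) (by norm_num))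
  have h2 : 5 * (1 / X ^ 62) ≤ 1 / X ^ 61 := by
    rw [mul_one_div, div_le_div_iff₀ (by positivity) (by positivity), one_mul]
    calc 5 * X ^ 61 ≤ X * X ^ 61 := by gcongr; linarith
      _ = X ^ 62 := by ring
  linarith

end

end Crest.Agent.R302.Fields
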