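import Crest.Agent.R302.Num272B

/-!
# R302, numbers C (helper272): powers of `X` and of `2 ^ X`
-/

set_option autoImplicit false

namespace Crest.Agent.R302.Num

open Crest.Agent.R302.Smp Crest.Agent.R302.Top Crest.Agent.R302.Cst Crest.Agent.R302.AnnBox
open Crest.Agent.R302.Prog Crest.Agent.R302.T893 Crest.Agent.R302.Inst

/-! ### real constants -/

section real

variable {X : ℝ}

theorem one_le_of (hX : 2 ^ 20 ≤ X) : 1 ≤ X := le_trans (by norm_num) hX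

/-- absorb a constant -/
theorem cpw (hX : 2 ^ 20 ≤ X) {c : ℝ} (hc : c ≤ 2 ^ 20) (a : ℕ) : c * X ^ a ≤ X ^ (a + 1) := by
  have h0 : 0 ≤ X ^ a := by have := one_le_of hX; positivity
  rw [pow_succ, mul_comm (X ^ a)]
  exact mul_le_mul_of_nonneg_right (hc.trans hX) h0

theorem pw_le (hX : 2 ^ 20 ≤ X) {a b : ℕ} (h : a ≤ b) : X ^ a ≤ X ^ b :=
  pow_le_pow_right₀ (one_le_of hX) h

theorem kap_le_X (hX : 2 ^ 20 ≤ X) {θ : ℝ} (hθ : 0 < θ) (h : θ⁻¹ ≤ X ^ 33) : kap θ 1 ≤ X ^ 67 := by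
  unfold kap
  have h1 : Real.exp 1 ≤ 3 := by have := Real.exp_one_lt_d9; linarith
  have hX1 := one_le_of hX
  calc (θ⁻¹ * Real.exp 1) ^ 2 ≤ (X ^ 33 * 3) ^ 2 := by
        apply pow_le_pow_left₀ (by positivity)
        exact mul_le_mul h h1 (Real.exp_pos 1).le (by positivity)
    _ = 9 * X ^ 66 := by ring
    _ ≤ X ^ 67 := cpw hX (by norm_num) 66

variable {n N : ℕ} {κ θ : ℝ}

theorem PPn_le (hX : 2 ^ 20 ≤ X) (hN : (N : ℝ) ≤ 2 * X) (hκ0 : 0 ≤ κ) (hκ : κ ≤ X ^ 67) (hθ : 0 < θ)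
    (h : θ⁻¹ ≤ X ^ 33) : PPn N κ (X ^ 18) (X ^ 76) (X ^ 112) θ ≤ X ^ 462 := by
  unfold PPn
  have hX1 := one_le_of hX
  have e1 : X ^ 112 / θ ≤ X ^ 145 := by
    rw [div_eq_mul_inv]
    calc X ^ 112 * θ⁻¹ ≤ X ^ 112 * X ^ 33 := mul_le_mul_of_nonneg_left h (by positivity)
      _ = X ^ 145 := by rw [← pow_add]
  have e0 : 0 ≤ X ^ 112 / θ := by positivity
  have e2 : X ^ 76 ≤ X ^ 145 := pw_le hX (by norm_num)
  have e3 : (1 : ℝ) ≤ X ^ 230 := one_le_pow₀ hX1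
  have e4 : 4 * κ * X ^ 18 * (X ^ 76 + X ^ 112 / θ) + 1 ≤ 9 * X ^ 230 := by
    have : 4 * κ * X ^ 18 * (X ^ 76 + X ^ 112 / θ) ≤ 4 * X ^ 67 * X ^ 18 * (X ^ 145 + X ^ 145) := by
      gcongr
    have e5 : 4 * X ^ 67 * X ^ 18 * (X ^ 145 + X ^ 145) = 8 * X ^ 230 := by ring
    linarith
  calc (N : ℝ) * (4 * κ * X ^ 18 * (X ^ 76 + X ^ 112 / θ) + 1) ^ 2 ≤ (2 * X) * (9 * X ^ 230) ^ 2 := by
        apply mul_le_mul hN _ (by positivity) (by positivity)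
        exact pow_le_pow_left₀ (by positivity) e4 2
    _ = 162 * X ^ 461 := by ring
    _ ≤ X ^ 462 := cpw hX (by norm_num) 461

theorem CC_le (hX : 2 ^ 20 ≤ X) (hN : (N : ℝ) ≤ 2 * X) (hκ0 : 0 ≤ κ) (hκ : κ ≤ X ^ 67) {PP : ℝ}
    (hP0 : 0 ≤ PP) (hP : PP ≤ X ^ 462) : CC N κ PP ≤ X ^ 800 := by
  unfold CC C1
  have hX1 := one_le_of hX
  have e1 : X ^ 67 ≤ X ^ 664 := pw_le hX (by norm_num)
  have e2 : 4 * κ + 16 * N * κ ^ 3 * PP ≤ 36 * X ^ 664 := by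
    have h1 : 16 * (N : ℝ) * κ ^ 3 * PP ≤ 16 * (2 * X) * (X ^ 67) ^ 3 * X ^ 462 := by gcongr
    have h2 : 16 * (2 * X) * (X ^ 67) ^ 3 * X ^ 462 = 32 * X ^ 664 := by ring
    have h3 : 4 * κ ≤ 4 * X ^ 664 := by linarith
    linarith
  calc (N : ℝ) * (4 * κ + 16 * N * κ ^ 3 * PP) * κ ^ 2 ≤ (2 * X) * (36 * X ^ 664) * (X ^ 67) ^ 2 := by
        gcongr
    _ = 72 * X ^ 799 := by ring
    _ ≤ X ^ 800 := cpw hX (by norm_num) 799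

theorem A0n_le (hX : 2 ^ 20 ≤ X) (hn : (n : ℝ) ≤ X) (hN : (N : ℝ) ≤ 2 * X) (hκ1 : 1 ≤ κ)
    (hκ : κ ≤ X ^ 67) (hθ : 0 < θ) (h : θ⁻¹ ≤ X ^ 33) :
    A0n n N κ (X ^ 18) (X ^ 76) (X ^ 112) θ ≤ X ^ 1262 := by
  have hκ0 : 0 ≤ κ := by linarith
  have hX1 := one_le_of hX
  have hP0 : 0 ≤ PPn N κ (X ^ 18) (X ^ 76) (X ^ 112) θ := by unfold PPn; positivity
  have h1 := CC_le hX hN hκ0 hκ hP0 (PPn_le hX hN hκ0 hκ hθ h)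
  have h0 := CC_nonneg (N := N) hκ1 hP0
  unfold A0n
  set C := CC N κ (PPn N κ (X ^ 18) (X ^ 76) (X ^ 112) θ) with hC
  have t1 : 144 * (C * (2 * X ^ 18 * (n * N ^ 2 * X ^ 76)) ^ 2) ≤ 9216 * X ^ 994 := by
    calc 144 * (C * (2 * X ^ 18 * (n * N ^ 2 * X ^ 76)) ^ 2)
        ≤ 144 * (X ^ 800 * (2 * X ^ 18 * (X * (2 * X) ^ 2 * X ^ 76)) ^ 2) := by gcongr
      _ = 9216 * X ^ 994 := by ring
  have t2 : 18 * ((n : ℝ) * N) ≤ 36 * X ^ 2 := by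
    calc 18 * ((n : ℝ) * N) ≤ 18 * (X * (2 * X)) := by gcongr
      _ = 36 * X ^ 2 := by ring
  have t3 : 6 * κ ^ 3 * (C * (X ^ 18 * X ^ 112) ^ 2) ≤ 6 * X ^ 1261 := by
    calc 6 * κ ^ 3 * (C * (X ^ 18 * X ^ 112) ^ 2)
        ≤ 6 * (X ^ 67) ^ 3 * (X ^ 800 * (X ^ 18 * X ^ 112) ^ 2) := by gcongr
      _ = 6 * X ^ 1261 := by ring
  have u1 : X ^ 994 ≤ X ^ 1261 := pw_le hX (by norm_num)
  have u2 : X ^ 2 ≤ X ^ 1261 := pw_le hX (by norm_num)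
  have u3 : 9258 * X ^ 1261 ≤ X ^ 1262 := cpw hX (by norm_num) 1261
  linarith

/-- the constant of the link inequality -/
theorem KL_le (hX : 2 ^ 20 ≤ X) {V : Type*} [Fintype V] (hV : (Fintype.card V : ℝ) ≤ X) {k : ℕ}
    (hk : (k : ℝ) ≤ 2 * X ^ 4) : Link.KL V k ≤ X ^ 21 := by
  unfold Link.KL Link.Kst
  have hX1 := one_le_of hX
  have e4 : (1 : ℝ) ≤ X ^ 4 := one_le_pow₀ hX1
  have e5 : (1 : ℝ) ≤ X ^ 5 := one_le_pow₀ hX1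
  have h1 : (k : ℝ) + 1 ≤ 3 * X ^ 4 := by linarith
  have h2 : ((k * Fintype.card V : ℕ) : ℝ) + 2 ≤ 4 * X ^ 5 := by
    push_cast
    have : (k : ℝ) * Fintype.card V ≤ 2 * X ^ 4 * X := by gcongr
    have e : 2 * X ^ 4 * X = 2 * X ^ 5 := by ring
    linarith
  calc ((k : ℝ) + 1) ^ 2 * (Fintype.card V * (((k * Fintype.card V : ℕ) : ℝ) + 2) ^ 2 / 2) *
        Fintype.card V
      ≤ (3 * X ^ 4) ^ 2 * (X * (4 * X ^ 5) ^ 2 / 2) * X := by gcongr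
    _ = 72 * X ^ 20 := by ring
    _ ≤ X ^ 21 := cpw hX (by norm_num) 20

/-- `A` of `S1_prog` -/
theorem hA1_real (hX : 2 ^ 20 ≤ X) {A0 : ℝ} (hA : A0 ≤ X ^ 1262) (hκ1 : 1 ≤ κ)
    (hκ : κ ≤ X ^ 67) : 3 * A0 * κ ^ 3 ≤ X ^ 1500 := by
  have hX1 := one_le_of hX
  have hκ0 : 0 ≤ κ := by linarith
  calc 3 * A0 * κ ^ 3 ≤ 3 * X ^ 1262 * (X ^ 67) ^ 3 := by gcongr
    _ = 3 * X ^ 1463 := by ring
    _ ≤ X ^ 1464 := cpw hX (by norm_num) 1463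
    _ ≤ X ^ 1500 := pw_le hX (by norm_num)

theorem pre_le (hX : 2 ^ 20 ≤ X) (hn : (n : ℝ) ≤ X) {A0 : ℝ} (hA : A0 ≤ X ^ 1262) (hA0 : 0 ≤ A0)
    (hκ1 : 1 ≤ κ) (hκ : κ ≤ X ^ 67) :
    1 + (2 * n ^ 2 : ℕ) * (6 * A0 * κ ^ 3) ≤ X ^ 1466 := by
  have hX1 := one_le_of hX
  have hκ0 : 0 ≤ κ := by linarith
  have h1 : ((2 * n ^ 2 : ℕ) : ℝ) * (6 * A0 * κ ^ 3) ≤ 12 * X ^ 1465 := by
    push_cast
    calc 2 * (n : ℝ) ^ 2 * (6 * A0 * κ ^ 3) ≤ 2 * X ^ 2 * (6 * X ^ 1262 * (X ^ 67) ^ 3) := by gcongr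
      _ = 12 * X ^ 1465 := by ring
  have h2 : (1 : ℝ) ≤ X ^ 1465 := one_le_pow₀ hX1
  have h3 : 13 * X ^ 1465 ≤ X ^ 1466 := cpw hX (by norm_num) 1465
  linarith

theorem hA2_real (hX : 2 ^ 20 ≤ X) (hn : (n : ℝ) ≤ X) {A0 : ℝ} (hA : A0 ≤ X ^ 1262) (hA0 : 0 ≤ A0)
    (hκ1 : 1 ≤ κ) (hκ : κ ≤ X ^ 67) {V : Type*} [Fintype V] (hV : (Fintype.card V : ℝ) ≤ X) {k : ℕ}
    (hk : (k : ℝ) ≤ 2 * X ^ 4) :
    (1 + (2 * n ^ 2 : ℕ) * (6 * A0 * κ ^ 3)) * Link.KL V k ≤ X ^ 1500 := by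
  have hX1 := one_le_of hX
  have h1 := pre_le hX hn hA hA0 hκ1 hκ
  have h2 := KL_le hX hV hk
  have h3 := Link.KL_nonneg V k
  calc (1 + (2 * n ^ 2 : ℕ) * (6 * A0 * κ ^ 3)) * Link.KL V k ≤ X ^ 1466 * X ^ 21 :=
        mul_le_mul h1 h2 h3 (by positivity)
    _ = X ^ 1487 := by rw [← pow_add]
    _ ≤ X ^ 1500 := pw_le hX (by norm_num)

/-! ### the defect constant -/

theorem C2_le {x : ℕ} (hx : 2 ^ 20 ≤ x) {m : ℕ} (hm : m ≤ 2 * 2 ^ (5 * x)) (hn : n ≤ x)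
    (hκ1 : 1 ≤ κ) (hκ : κ + 1 ≤ 2 ^ x) : C2 m n κ ≤ 2 ^ (15 * x ^ 2) := by
  have hκ0 : 0 ≤ κ := by linarith
  have hm1 : ((m : ℝ) + 1) ≤ 2 ^ (5 * x + 2) := by
    have h1 : (m : ℝ) ≤ 2 * 2 ^ (5 * x) := by exact_mod_cast hm
    have h2 : (1 : ℝ) ≤ 2 ^ (5 * x) := one_le_pow₀ (by norm_num)
    rw [pow_add]
    linarith
  have hm0 : (0 : ℝ) ≤ m := Nat.cast_nonneg _
  have h1 : 1 + 2 * κ * ((m : ℝ) + 1) ≤ 2 ^ (7 * x) := by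
    have h3 : (1 : ℝ) ≤ 2 ^ (6 * x + 3) := one_le_pow₀ (by norm_num)
    have h4 : 2 * κ * ((m : ℝ) + 1) ≤ 2 ^ (6 * x + 3) := by
      calc 2 * κ * ((m : ℝ) + 1) ≤ 2 * 2 ^ x * 2 ^ (5 * x + 2) := by
            apply mul_le_mul (by linarith) hm1 (by positivity) (by positivity)
        _ = 2 ^ (6 * x + 3) := by
            rw [← pow_succ', ← pow_add]; congr 1; omega
    calc 1 + 2 * κ * ((m : ℝ) + 1) ≤ 2 ^ (6 * x + 3) + 2 ^ (6 * x + 3) := add_le_add h3 h4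
      _ = 2 ^ (6 * x + 3 + 1) := by ring
      _ ≤ 2 ^ (7 * x) := pow_le_pow_right₀ (by norm_num) (by omega)
  unfold C2
  have h5 : ((1 + 2 * κ * ((m : ℝ) + 1)) ^ n) ^ 2 ≤ 2 ^ (14 * x ^ 2) := by
    rw [← pow_mul]
    calc (1 + 2 * κ * ((m : ℝ) + 1)) ^ (n * 2) ≤ (2 ^ (7 * x)) ^ (n * 2) :=
          pow_le_pow_left₀ (by positivity) h1 _
      _ = 2 ^ (7 * x * (n * 2)) := by rw [← pow_mul]
      _ ≤ 2 ^ (14 * x ^ 2) := by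
          apply pow_le_pow_right₀ (by norm_num)
          calc 7 * x * (n * 2) ≤ 7 * x * (x * 2) :=
                Nat.mul_le_mul_left _ (Nat.mul_le_mul_right _ hn)
            _ = 14 * x ^ 2 := by ring
  have hκ' : 1 + κ ≤ 2 ^ x := by linarith
  have hκ'' : κ ≤ 2 ^ x := by linarith
  calc 8 * ((m : ℝ) + 1) ^ 2 * (1 + κ) ^ 2 * κ ^ 3 * ((1 + 2 * κ * ((m : ℝ) + 1)) ^ n) ^ 2
      ≤ 2 ^ 3 * (2 ^ (5 * x + 2)) ^ 2 * (2 ^ x) ^ 2 * (2 ^ x) ^ 3 * 2 ^ (14 * x ^ 2) := by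
        gcongr
        norm_num
    _ = 2 ^ (3 + (5 * x + 2) * 2 + x * 2 + x * 3 + 14 * x ^ 2) := by
        rw [← pow_mul, ← pow_mul, ← pow_mul, ← pow_add, ← pow_add, ← pow_add, ← pow_add]
    _ ≤ 2 ^ (15 * x ^ 2) := by
        apply pow_le_pow_right₀ (by norm_num)
        have : 2 ^ 20 * x ≤ x ^ 2 := by rw [pow_two x]; exact Nat.mul_le_mul_right _ hx
        omega

theorem two_pow_x (x : ℕ) : (1 : ℝ) ≤ 2 ^ x := one_le_pow₀ (by norm_num)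

theorem KSn_le {x : ℕ} (hX : 2 ^ 20 ≤ (x : ℝ)) (h2 : (x : ℝ) ^ 840 ≤ 2 ^ x) (hn : (n : ℝ) ≤ x)
    (hN : (N : ℝ) ≤ 2 * x) (hκ1 : 1 ≤ κ) (hκ : κ ≤ (x : ℝ) ^ 67) (hθ : 0 < θ)
    (h : θ⁻¹ ≤ (x : ℝ) ^ 33) {mx : ℝ} (hmx0 : 0 ≤ mx) (hmx : mx ≤ 2 ^ (4 * x)) :
    KSn n N κ ((x : ℝ) ^ 18) ((x : ℝ) ^ 76) ((x : ℝ) ^ 112) θ mx ≤ 2 ^ (9 * x) := by
  have hκ0 : 0 ≤ κ := by linarith
  have hX1 := one_le_of hX
  have hP0 : 0 ≤ PPn N κ ((x : ℝ) ^ 18) ((x : ℝ) ^ 76) ((x : ℝ) ^ 112) θ := by unfold PPn; positivity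
  have h1 := CC_le hX hN hκ0 hκ hP0 (PPn_le hX hN hκ0 hκ hθ h)
  have h0 := CC_nonneg (N := N) hκ1 hP0
  unfold KSn
  set C := CC N κ (PPn N κ ((x : ℝ) ^ 18) ((x : ℝ) ^ 76) ((x : ℝ) ^ 112) θ) with hC
  calc (n : ℝ) * N * (C * ((x : ℝ) ^ 18 * mx) ^ 2)
      ≤ x * (2 * x) * ((x : ℝ) ^ 800 * ((x : ℝ) ^ 18 * 2 ^ (4 * x)) ^ 2) := by gcongr
    _ = (2 * (x : ℝ) ^ 838) * (2 ^ (4 * x)) ^ 2 := by ring
    _ ≤ 2 ^ x * (2 ^ (4 * x)) ^ 2 := by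
        apply mul_le_mul_of_nonneg_right _ (by positivity)
        exact (cpw hX (by norm_num) 838).trans ((pw_le hX (by norm_num)).trans h2)
    _ = 2 ^ (9 * x) := by
        rw [← pow_mul, ← pow_add]; congr 1; omega

theorem CD_le {x : ℕ} (hx : 2 ^ 20 ≤ x) (h2 : (x : ℝ) ^ 840 ≤ 2 ^ x) {m : ℕ}
    (hm : m ≤ 2 * 2 ^ (5 * x)) (hn : n ≤ x) (hN : (N : ℝ) ≤ 2 * x) (hκ1 : 1 ≤ κ)
    (hκ : κ ≤ (x : ℝ) ^ 67) {KS : ℝ} (hK0 : 0 ≤ KS) (hK : KS ≤ 2 ^ (9 * x)) :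
    CD n N m κ KS ≤ 2 ^ (17 * x ^ 2) := by
  have hX : 2 ^ 20 ≤ (x : ℝ) := by exact_mod_cast hx
  have hX1 := one_le_of hX
  have hκ0 : 0 ≤ κ := by linarith
  have hnR : (n : ℝ) ≤ x := by exact_mod_cast hn
  have hκx : κ ^ 3 ≤ 2 ^ x := by
    calc κ ^ 3 ≤ ((x : ℝ) ^ 67) ^ 3 := pow_le_pow_left₀ hκ0 hκ 3
      _ = (x : ℝ) ^ 201 := by rw [← pow_mul]
      _ ≤ 2 ^ x := (pw_le hX (by norm_num)).trans h2
  have hκ2 : κ + 1 ≤ 2 ^ x := by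
    have e1 : κ ≤ κ ^ 3 := by
      calc κ = κ ^ 1 := (pow_one κ).symm
        _ ≤ κ ^ 3 := pow_le_pow_right₀ hκ1 (by norm_num)
    have e2 : (x : ℝ) ^ 67 + 1 ≤ (x : ℝ) ^ 68 := by
      have h3 : 2 * (x : ℝ) ^ 67 ≤ (x : ℝ) ^ 68 := cpw hX (by norm_num) 67
      have h1 : (1 : ℝ) ≤ (x : ℝ) ^ 67 := one_le_pow₀ hX1
      linarith
    have e3 : (x : ℝ) ^ 68 ≤ 2 ^ x := (pw_le hX (by norm_num)).trans h2
    linarith
  have hC := C2_le hx hm hn hκ1 hκ2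
  have hC0 := C2_nonneg (m := m) (n := n) hκ1
  have hnN : (n : ℝ) * N ≤ 2 ^ x := by
    calc (n : ℝ) * N ≤ x * (2 * x) := by gcongr
      _ = 2 * (x : ℝ) ^ 2 := by ring
      _ ≤ (x : ℝ) ^ 3 := cpw hX (by norm_num) 2
      _ ≤ 2 ^ x := (pw_le hX (by norm_num)).trans h2
  have hnN0 : (0 : ℝ) ≤ (n : ℝ) * N := by positivity
  unfold CD
  set y : ℝ := 2 ^ x with hy
  have hy1 : 1 ≤ y := two_pow_x x
  have hK' : KS ≤ y ^ 9 := by rw [hy, ← pow_mul, mul_comm x 9]; exact hK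
  have t1 : 24 * KS ≤ 24 * y ^ 13 := by
    have : y ^ 9 ≤ y ^ 13 := pow_le_pow_right₀ hy1 (by norm_num)
    linarith
  have t2 : (72 * KS + 48 * κ ^ 3 * KS + 48 * ((n : ℝ) * N) ^ 2) * ((n : ℝ) * N) ≤ 168 * y ^ 13 := by
    calc (72 * KS + 48 * κ ^ 3 * KS + 48 * ((n : ℝ) * N) ^ 2) * ((n : ℝ) * N)
        ≤ (72 * y ^ 9 + 48 * y * y ^ 9 + 48 * y ^ 2) * y := by gcongr
      _ = 72 * y ^ 10 + 48 * y ^ 11 + 48 * y ^ 3 := by ring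
      _ ≤ 168 * y ^ 13 := by
          have a1 : y ^ 10 ≤ y ^ 13 := pow_le_pow_right₀ hy1 (by norm_num)
          have a2 : y ^ 11 ≤ y ^ 13 := pow_le_pow_right₀ hy1 (by norm_num)
          have a3 : y ^ 3 ≤ y ^ 13 := pow_le_pow_right₀ hy1 (by norm_num)
          linarith
  have t3 : 2 * ((n : ℝ) * N) * C2 m n κ ≤ 2 * y * 2 ^ (15 * x ^ 2) := by
    gcongr
  have t4 : y ^ 13 ≤ y * 2 ^ (15 * x ^ 2) := by
    rw [hy, ← pow_mul, ← pow_add]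
    apply pow_le_pow_right₀ (by norm_num)
    have : 2 ^ 20 * x ≤ x ^ 2 := by rw [pow_two x]; exact Nat.mul_le_mul_right _ hx
    omega
  have t5 : 2 * y * 2 ^ (15 * x ^ 2) + 192 * (y * 2 ^ (15 * x ^ 2)) ≤ 2 ^ (17 * x ^ 2) := by
    have e1 : 2 * y * 2 ^ (15 * x ^ 2) + 192 * (y * 2 ^ (15 * x ^ 2)) ≤
        2 ^ 8 * (y * 2 ^ (15 * x ^ 2)) := by
      have : 0 ≤ y * 2 ^ (15 * x ^ 2) := by positivity
      nlinarith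
    refine e1.trans ?_
    rw [hy, ← pow_add, ← pow_add]
    apply pow_le_pow_right₀ (by norm_num)
    have : 2 ^ 20 * x ≤ x ^ 2 := by rw [pow_two x]; exact Nat.mul_le_mul_right _ hx
    omega
  linarith

/-- **`d ≤ ρ Z`** : the number -/
theorem drho_real {x : ℕ} (hx : 2 ^ 20 ≤ x) (h2 : (x : ℝ) ^ 1470 ≤ 2 ^ x) {C F tb tf : ℝ}
    (hC0 : 0 ≤ C) (hC : C ≤ 2 ^ (17 * x ^ 2)) (hF0 : 0 ≤ F) (hF : F ≤ (x : ℝ) ^ 1466)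
    (hb0 : 0 ≤ tb) (hb : tb ≤ 1 / 2 ^ (x ^ 3)) (hf0 : 0 ≤ tf) (hf : tf ≤ 1 / 2 ^ (x ^ 3)) :
    C * tb + F * (8 * tf) ≤ 1 / 2 ^ x := by
  have hX : 2 ^ 20 ≤ (x : ℝ) := by exact_mod_cast hx
  have hxx : 2 ^ 20 * x ≤ x ^ 2 := by rw [pow_two x]; exact Nat.mul_le_mul_right _ hx
  have hxxx : 2 ^ 20 * x ^ 2 ≤ x ^ 3 := by rw [pow_succ x 2, mul_comm (x ^ 2)]; exact Nat.mul_le_mul_right _ hx
  have hF' : 8 * F ≤ 2 ^ (17 * x ^ 2) := by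
    calc 8 * F ≤ 8 * (x : ℝ) ^ 1466 := by linarith
      _ ≤ (x : ℝ) ^ 1467 := cpw hX (by norm_num) 1466
      _ ≤ 2 ^ x := (pw_le hX (by norm_num)).trans h2
      _ ≤ 2 ^ (17 * x ^ 2) := pow_le_pow_right₀ (by norm_num) (by omega)
  calc C * tb + F * (8 * tf) = C * tb + (8 * F) * tf := by ring
    _ ≤ 2 ^ (17 * x ^ 2) * (1 / 2 ^ (x ^ 3)) + 2 ^ (17 * x ^ 2) * (1 / 2 ^ (x ^ 3)) := by
        apply add_le_add
        · exact mul_le_mul hC hb hb0 (by positivity)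
        · exact mul_le_mul hF' hf hf0 (by positivity)
    _ = 2 ^ (17 * x ^ 2 + 1) / 2 ^ (x ^ 3) := by rw [pow_succ]; ring
    _ ≤ 1 / 2 ^ x := by
        rw [div_le_div_iff₀ (by positivity) (by positivity), one_mul, ← pow_add]
        apply pow_le_pow_right₀ (by norm_num)
        omega

/-- **the final inequality of `poincD_final`** -/
theorem hnum_real {x : ℕ} (hX : 2 ^ 20 ≤ (x : ℝ)) (h2 : (x : ℝ) ^ 5000 ≤ 2 ^ x) {ρ τ : ℝ}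
    (hρ : ρ ≤ 1 / 2 ^ x) (hτ : τ ≤ 4 * (1 / (x : ℝ) ^ 1630) + 1 / 2 ^ x) :
    256 * ρ + 512 * ((x : ℝ) ^ 1500 * (4 * (x : ℝ) ^ 3)) * τ ≤ (1 / (x : ℝ) ^ 61) ^ 2 := by
  have hX1 := one_le_of hX
  set X : ℝ := (x : ℝ) with hXd
  have h3 : (1 : ℝ) / 2 ^ x ≤ 1 / X ^ 5000 := one_div_le_one_div_of_le (by positivity) h2
  have h4 : 1 / X ^ 5000 ≤ 1 / X ^ 1630 :=
    one_div_le_one_div_of_le (by positivity) (pw_le hX (by norm_num))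
  have h5 : τ ≤ 5 * (1 / X ^ 1630) := by linarith
  have h6 : 512 * (X ^ 1500 * (4 * X ^ 3)) * τ ≤ 512 * (X ^ 1500 * (4 * X ^ 3)) * (5 * (1 / X ^ 1630)) :=
    mul_le_mul_of_nonneg_left h5 (by positivity)
  have h7 : 512 * (X ^ 1500 * (4 * X ^ 3)) * (5 * (1 / X ^ 1630)) = 10240 / X ^ 127 := by
    have : X ^ 1630 = X ^ 1503 * X ^ 127 := by rw [← pow_add]
    rw [this]
    field_simp
    ring
  have h8 : ρ ≤ 1 / X ^ 127 := by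
    refine hρ.trans (h3.trans ?_)
    exact one_div_le_one_div_of_le (by positivity) (pw_le hX (by norm_num))
  have h9 : (1 / X ^ 61) ^ 2 = 1 / X ^ 122 := by rw [div_pow, one_pow, ← pow_mul]
  rw [h9]
  have h10 : 10496 / X ^ 127 ≤ 1 / X ^ 122 := by
    rw [div_le_div_iff₀ (by positivity) (by positivity), one_mul]
    calc 10496 * X ^ 122 ≤ X ^ 123 := cpw hX (by norm_num) 122
      _ ≤ X ^ 127 := pw_le hX (by norm_num)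
  have h11 : 10496 / X ^ 127 = 256 * (1 / X ^ 127) + 10240 / X ^ 127 := by ring
  linarith

/-- number of steps -/
theorem steps_real (hX : 2 ^ 20 ≤ X) {L : ℝ} (hL : L ≤ X) :
    L ≤ 1 / X ^ 1630 / (X ^ 1500 * (4 * X ^ 3)) * X ^ 3135 := by
  have hX1 := one_le_of hX
  have h : 1 / X ^ 1630 / (X ^ 1500 * (4 * X ^ 3)) * X ^ 3135 = X ^ 2 / 4 := by
    have : X ^ 3135 = X ^ 1630 * X ^ 1500 * X ^ 3 * X ^ 2 := by
      rw [← pow_add, ← pow_add, ← pow_add]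
    rw [this]
    field_simp
  rw [h]
  have : 4 * X ≤ X * X := mul_le_mul_of_nonneg_right (le_trans (by norm_num) hX) (by linarith)
  nlinarith

/-- error of the program -/
theorem es_real (hX : 2 ^ 20 ≤ X) (hn : (n : ℝ) ≤ X) :
    X ^ 3135 * (1 / X ^ 3210 + (n * (1 / X ^ 3210) + n * (1 / X ^ 3210))) ≤ 1 / X ^ 61 := by
  have hX1 := one_le_of hX
  have e : X ^ 3135 * (1 / X ^ 3210 + (n * (1 / X ^ 3210) + n * (1 / X ^ 3210))) =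
      (1 + 2 * n) / X ^ 75 := by
    have : X ^ 3210 = X ^ 3135 * X ^ 75 := by rw [← pow_add]
    rw [this]
    field_simp
    ring
  rw [e, div_le_div_iff₀ (by positivity) (by positivity), one_mul]
  have h1 : (1 : ℝ) + 2 * n ≤ 3 * X := by linarith
  calc (1 + 2 * (n : ℝ)) * X ^ 61 ≤ 3 * X * X ^ 61 := mul_le_mul_of_nonneg_right h1 (by positivity)
    _ = 3 * X ^ 62 := by ring
    _ ≤ X ^ 63 := cpw hX (by norm_num) 62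
    _ ≤ X ^ 75 := pw_le hX (by norm_num)

/-- the one-link constant -/
theorem q_real (hX : 2 ^ 20 ≤ X) (hn : (n : ℝ) ≤ X) {a b : ℕ} {θ : ℝ} (hθ : θ = 1 / X ^ a)
    (hb : b + 3 = 2 * a) : θ ^ 2 * (2 * 128 * (2 * n) ^ 2) ≤ 1 / X ^ b := by
  have hX1 := one_le_of hX
  rw [hθ, div_pow, one_pow, ← pow_mul, mul_comm a 2, ← hb, div_mul_eq_mul_div, one_mul,
    div_le_div_iff₀ (by positivity) (by positivity), one_mul]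
  calc 2 * 128 * (2 * (n : ℝ)) ^ 2 * X ^ b ≤ 2 * 128 * (2 * X) ^ 2 * X ^ b := by gcongr
    _ = 1024 * X ^ (b + 2) := by ring
    _ ≤ X ^ (b + 3) := cpw hX (by norm_num) (b + 2)

end real

/-! ### for an input -/

section input

variable (s : SIn)

theorem XR_ge : (2 : ℝ) ^ 20 ≤ (XX s : ℝ) := by exact_mod_cast XX_ge20 s

theorem pow_le_two_powR {c : ℕ} (hc : c ≤ 50000) : (XX s : ℝ) ^ c ≤ 2 ^ XX s := by
  exact_mod_cast pow_le_two_pow s hc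

theorem snR : (sn s : ℝ) ≤ (XX s : ℝ) := by exact_mod_cast (Nat.le_succ _).trans (sn_le s)

theorem NR : ((2 * sn s + 1 : ℕ) : ℝ) ≤ 2 * (XX s : ℝ) := by exact_mod_cast two_n_le s

/-- `θ` -/
noncomputable def th (a : ℕ) : ℝ := (1 / 2) ^ a

theorem th_pos (a : ℕ) : 0 < th a := by unfold th; positivity

theorem th_inv {a : ℕ} (ha : a ≤ 33 * ss s) : (th a)⁻¹ ≤ (XX s : ℝ) ^ 33 := by
  unfold th
  rw [one_div, inv_pow, inv_inv]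
  exact_mod_cast two_pow_a_le s ha

theorem th_eq (c : ℕ) : th (c * ss s) = 1 / (XX s : ℝ) ^ c := half_pow s c

theorem kap_th_ge (a : ℕ) : 1 ≤ kap (th a) 1 := by
  unfold kap
  have h1 : 1 ≤ (th a)⁻¹ := (one_le_inv₀ (th_pos a)).2 (pow_le_one₀ (by norm_num) (by norm_num))
  have h2 : 1 ≤ Real.exp 1 := Real.one_le_exp (by norm_num)
  exact one_le_pow₀ (one_le_mul_of_one_le_of_one_le h1 h2)

theorem kap_th_le {a : ℕ} (ha : a ≤ 33 * ss s) : kap (th a) 1 ≤ (XX s : ℝ) ^ 67 :=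
  kap_le_X (XR_ge s) (th_pos a) (th_inv s ha)

/-- `A0` of `S1_prog` at the concrete parameters -/
noncomputable def A00 (a : ℕ) : ℝ :=
  A0n (sn s) (2 * sn s + 1) (kap (th a) 1) (G0 s) ((XX s ^ 76 : ℕ) : ℝ) ((cPar.w₁ s : ℤ) : ℝ) (th a)

theorem w1_real : ((cPar.w₁ s : ℤ) : ℝ) = (XX s : ℝ) ^ 112 := by
  show (((XX s ^ 112 : ℕ) : ℤ) : ℝ) = _
  push_cast
  rfl

theorem A00_le {a : ℕ} (ha : a ≤ 33 * ss s) : A00 s a ≤ (XX s : ℝ) ^ 1262 := by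
  unfold A00 G0
  rw [w1_real]
  push_cast
  exact A0n_le (XR_ge s) (snR s) (NR s |>.trans' (by push_cast; exact le_rfl)) (kap_th_ge a)
    (kap_th_le s ha) (th_pos a) (th_inv s ha)

end input

end Crest.Agent.R302.Num
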