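import Crest.Agent.R302.Fields536
import Crest.Agent.R302.Code725B
import Crest.Agent.R302.Rep646B
import Crest.Agent.R302.Gau970E

/-!
R302 (helper536), STAGE: `ChainOK` of the concrete program at one stage, from the mass facts and the mixing of
the two concrete chains (`D` = estimators with link exponent `aE`, movers with link exponent `aM`).
-/

set_option autoImplicit false
set_option linter.unusedSectionVars false

namespace Crest.Agent.R302.Fields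

open Finset Crest.Agent.R302.Inst Crest.Agent.R302.Stage Crest.Agent.R302.AnnBox
open Crest.Agent.R302.Loop Crest.Agent.R302.Mix Crest.Agent.R302.Step Crest.Agent.R302.Prog
open Crest.Agent.R302.Slk Crest.Agent.R302.Smp Crest.Agent.R302.Top Crest.Agent.R302.Facet
open Crest.Agent.R302.Conc (sdA sdOf parOf ellOf jF mem_jF mA code_prg mem_ks₁ mem_ks₂ matT₁ matT₂)
open Crest.Agent.R302.Lor (ev)
open Crest.Agent.R302.ORAM
open Crest.Agent.R309.MC Crest.Agent.R309.Tape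

variable {n : ℕ}

/-- the point mass -/
noncomputable def ptL {S : Type*} (s : S) : Law S where
  supp := {s}
  wt := fun _ => 1
  nonneg := fun _ _ => zero_le_one
  sum_eq := by simp

/-- input of one stage: the mass facts and the mixing of the chain in `T` steps -/
structure StIn (𝒜 : AnnData n) (t : ℕ) (D : SD (Fin n)) (T : ℕ) (ε₁ ε₂ η : ℝ) : Prop where
  mf : MF 𝒜 (t + 1) D ε₁ ε₂
  mix : ∃ (c e : ℝ) (L : ℕ), 0 < c ∧ c ≤ 1 ∧ 0 ≤ e ∧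
    PoincD (fun σ : D.bx => D.nuG σ) D.Kch c e ∧
    128 * e ≤ c * mass (fun σ : D.bx => D.nuG σ) * η ^ 2 ∧ 8 ≤ η ^ 2 * 2 ^ L ∧ (L : ℝ) ≤ c * T

/-- the mass facts of `sdA` from the sums over all perfect points -/
theorem MF.of_sdA {𝒜 : AnnData n} {t : ℕ} {P : Conc.Par} {ell : Fin n → ℤ} {ε₁ ε₂ : ℝ}
    (hOK : (sdA 𝒜 t P ell).OK)
    (inb : ∀ x ∈ 𝒜.PH 0, (sdA 𝒜 t P ell).pf x ∈ (sdA 𝒜 t P ell).bx)
    (s1 : ∑ x ∈ 𝒜.PH 0, |(sdA 𝒜 t P ell).nuG ((sdA 𝒜 t P ell).pf x) -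
      stW 𝒜.L 𝒜.x₀ 0 t x| ≤ ε₁ * 𝒜.Z t)
    (s2 : |∑ σ ∈ (sdA 𝒜 t P ell).bx, (sdA 𝒜 t P ell).nuG σ - 𝒜.Z t| ≤ ε₂ * 𝒜.Z t) :
    MF 𝒜 t (sdA 𝒜 t P ell) ε₁ ε₂ := by
  have hmem : ∀ x, x ∈ PP (sdA 𝒜 t P ell) ↔
      (MemJ 𝒜.r₁ 𝒜.R x ∧ InCube 𝒜.x₀ (stQ n 𝒜.L t) x) ∧
        (MemJ 𝒜.r₂ 𝒜.R x ∧ InCube 𝒜.x₀ (stQ n 𝒜.L t) x) := by
    intro x
    rw [mem_PP, ← 𝒜.mem_stR 𝒜.sub₁, ← 𝒜.mem_stR 𝒜.sub₂, ← mem_jF 𝒜 𝒜.sub₁, ← mem_jF 𝒜 𝒜.sub₂]
    rfl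
  have hsub : PP (sdA 𝒜 t P ell) ⊆ 𝒜.PH 0 := by
    intro x hx
    obtain ⟨⟨h1, _⟩, h2, _⟩ := (hmem x).1 hx
    exact (𝒜.mem_P x).2 ⟨h1, h2⟩
  refine ⟨hOK, hsub, fun x hx hx' => ?_, fun x hx => inb x (hsub hx), ?_, s2⟩
  · unfold stW
    rw [if_neg]
    rintro ⟨hc, _⟩
    obtain ⟨h1, h2⟩ := (𝒜.mem_P x).1 hx
    exact hx' ((hmem x).2 ⟨⟨h1, hc⟩, h2, hc⟩)
  · exact (sum_le_sum_of_subset_of_nonneg hsub fun x _ _ => abs_nonneg _).trans s1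

section prg

variable {P : Prog.Par} {R m : ℕ} {r₁ r₂ : Finset (Fin n) → ℕ} {lo hi : Fin n → ℤ}
  {𝒜 : AnnData n}

/-- **`ChainOK` of the concrete program at one stage** -/
theorem chainOK_prg (h : IsInst (Prog.prg P) n R m r₁ r₂ lo hi 𝒜) {t : ℕ}
    (ht : t < (Prog.prg P).T (inp n R m lo hi)) {ε₁ εE εM η es : ℝ} (hrp : P.rp = Rep646.repL)
    (hε₁ : ε₁ ≤ 1 / 8) (hεE : εE ≤ 1 / 8) (hεM : εM ≤ 1 / 8) (hη : 0 ≤ η)
    (hw : 16 * n * Facet.kap n + (4 * n + 2) ≤ (P.w₁ (inp n R m lo hi) : ℤ))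
    (hw' : (cA n : ℤ) < P.w₁ (inp n R m lo hi))
    (hB₁ : ∀ e : Fin n, slkLen (StageL.kV (P.dk (inp n R m lo hi))
      (GeoSpec.nnForest (mA 𝒜 𝒜.r₁ (t + 1)) (P.w₁ (inp n R m lo hi))) (mA 𝒜 𝒜.r₁ (t + 1)) e)
      (P.N (inp n R m lo hi)) ≤ P.B (inp n R m lo hi))
    (hB₂ : ∀ e : Fin n, slkLen (StageL.kV (P.dk (inp n R m lo hi))
      (GeoSpec.nnForest (mA 𝒜 𝒜.r₂ (t + 1)) (P.w₁ (inp n R m lo hi))) (mA 𝒜 𝒜.r₂ (t + 1)) e)
      (P.N (inp n R m lo hi)) ≤ P.B (inp n R m lo hi))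
    (hesE : P.TE (inp n R m lo hi) * ((1 / 2 : ℝ) ^ P.kmax (inp n R m lo hi) +
        (n * (1 / 2 ^ P.N (inp n R m lo hi)) + n * (1 / 2 ^ P.N (inp n R m lo hi)))) ≤ es)
    (hesM : P.TM (inp n R m lo hi) * ((1 / 2 : ℝ) ^ P.kmax (inp n R m lo hi) +
        (n * (1 / 2 ^ P.N (inp n R m lo hi)) + n * (1 / 2 ^ P.N (inp n R m lo hi)))) ≤ es)
    (HE : ∀ g : List ℤ,
      GoodR n (Prog.repT P (rq r₁ r₂) (inp n R m lo hi) t) (Smp.NN 𝒜 (t + 1)) (𝒜.Z (t + 1)) 64 g →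
      StIn 𝒜 t (sdA 𝒜 (t + 1) (parOf P (inp n R m lo hi) (P.aE (inp n R m lo hi)))
        (ellOf P (rq r₁ r₂) (inp n R m lo hi) t g)) (P.TE (inp n R m lo hi)) ε₁ εE η ∧
      Rat 𝒜 (t + 1) (sdA 𝒜 (t + 1) (parOf P (inp n R m lo hi) (P.aE (inp n R m lo hi)))
        (ellOf P (rq r₁ r₂) (inp n R m lo hi) t g)))
    (HM : ∀ g : List ℤ,
      GoodR n (Prog.repT P (rq r₁ r₂) (inp n R m lo hi) t) (Smp.NN 𝒜 (t + 1)) (𝒜.Z (t + 1)) 64 g →
      StIn 𝒜 t (sdA 𝒜 (t + 1) (parOf P (inp n R m lo hi) (P.aM (inp n R m lo hi)))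
        (ellOf P (rq r₁ r₂) (inp n R m lo hi) t g)) (P.TM (inp n R m lo hi)) ε₁ εM η) :
    ∃ π : List ℤ → Law Step.St,
      ChainOK ((Prog.prg P).ch (rq r₁ r₂) (inp n R m lo hi)) n t (𝒜.stLaw t) (𝒜.stLaw (t + 1)) π
        (Smp.NN 𝒜 t) (Smp.NN 𝒜 (t + 1)) (𝒜.Z t) (𝒜.Z (t + 1)) 2 2 (es + 4 * ε₁ + η)
        (es + 4 * ε₁ + η + 2 * (ε₁ + εM)) := by
  classical
  set s := inp n R m lo hi with hs
  set Q := rq r₁ r₂ with hQ
  -- the law of the estimators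
  let G : List ℤ → Prop := fun g =>
    GoodR n (Prog.repT P Q s t) (Smp.NN 𝒜 (t + 1)) (𝒜.Z (t + 1)) 64 g
  let DE : List ℤ → SD (Fin n) := fun g => sdA 𝒜 (t + 1) (parOf P s (P.aE s)) (ellOf P Q s t g)
  let DM : List ℤ → SD (Fin n) := fun g => sdA 𝒜 (t + 1) (parOf P s (P.aM s)) (ellOf P Q s t g)
  have posE : ∀ g, G g → 0 < mass (fun σ : (DE g).bx => (DE g).nuG σ) := fun g hg =>
    (HE g hg).1.mf.mass_pos (by linarith)
  have posM : ∀ g, G g → 0 < mass (fun σ : (DM g).bx => (DM g).nuG σ) := fun g hg =>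
    (HM g hg).mf.mass_pos (by linarith)
  let π : List ℤ → Law Step.St := fun g =>
    if hg : G g then stat (fun σ : (DE g).bx => (DE g).nuG σ)
      (fun σ => SD.nuG_nonneg (HE g hg).1.mf.ok σ.1) (posE g hg) (fun σ => Step.enc (DE g) σ.1)
    else ptL ([], [], [])
  have hπ : ∀ g (hg : G g), π g = stat (fun σ : (DE g).bx => (DE g).nuG σ)
      (fun σ => SD.nuG_nonneg (HE g hg).1.mf.ok σ.1) (posE g hg)
      (fun σ => Step.enc (DE g) σ.1) := fun g hg => dif_pos hg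
  -- components
  have hMM : ∀ b, Prog.matT P Q s t b = Rep646.stMat Q s 𝒜.L b (t + 1) := by
    intro b
    unfold Prog.matT Rep646.stMat Prog.loT Prog.hiT
    rw [Conc.tt_eq P ht, h.AL]
    rfl
  have hrep : ∀ u, Prog.repT P Q s t u = (Rep646.repL n (P.w₁ s)
      (Rep646.stMat Q s 𝒜.L false (t + 1)) (Rep646.stMat Q s 𝒜.L true (t + 1))).getD u 0 := by
    intro u
    unfold Prog.repT
    rw [hrp, hMM, hMM]
    rfl
  obtain ⟨b1, b2⟩ := Rep646.blk_inst h hw hw' (t + 1)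
  have hM₁ : ∀ a b : Fin n, ((Rep646.stMat Q s 𝒜.L false (t + 1)).getD a []).getD b 0 =
      Rep646.stM 𝒜 𝒜.r₁ (t + 1) a b := fun a b => by
    have := Rep646.stMat_getD h false (t + 1) a b
    simpa using this
  have hM₂ : ∀ a b : Fin n, ((Rep646.stMat Q s 𝒜.L true (t + 1)).getD a []).getD b 0 =
      Rep646.stM 𝒜 𝒜.r₂ (t + 1) a b := fun a b => by
    have := Rep646.stMat_getD h true (t + 1) a b
    simpa using this
  have rlt : ∀ u < n, Prog.repT P Q s t u < n := fun u hu => by rw [hrep]; exact b1 u hu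
  have ridem : ∀ u < n, Prog.repT P Q s t (Prog.repT P Q s t u) = Prog.repT P Q s t u := by
    intro u hu
    rw [hrep, hrep]
    exact Rep646.repL_idem hM₁ hM₂ hu
  -- lengths of the slacks
  have kB₁ : ∀ (a : ℕ) (g : List ℤ), ∀ k ∈ (Prog.prm P Q s t a g).ks₁,
      slkLen k (P.N s) ≤ P.B s := fun a g k hk => by
    obtain ⟨e, rfl⟩ := mem_ks₁ h ht a g hk; exact hB₁ e
  have kB₂ : ∀ (a : ℕ) (g : List ℤ), ∀ k ∈ (Prog.prm P Q s t a g).ks₂,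
      slkLen k (P.N s) ≤ P.B s := fun a g k hk => by
    obtain ⟨e, rfl⟩ := mem_ks₂ h ht a g hk; exact hB₂ e
  refine ⟨π, chainOK_ann rlt ?_ ?_ ?_ ?_ ?_⟩
  · -- conv
    intro g hg φ hφ
    have hg' : G g := hg
    obtain ⟨⟨mf, c, e, L, c0, c1, e0, hP, hec, hL, hT⟩, _⟩ := HE g hg'
    have key := conv_stage (kmax := P.kmax s) mf hε₁ hεE (code_prg h ht (P.aE s) g) (kB₁ _ g) (kB₂ _ g)
      (posE g hg') hP c0 c1 e0 hη hL hT hec φ hφ
    rw [hπ g hg']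
    refine le_trans (le_of_eq ?_) (key.trans ?_)
    · rfl
    · linarith [hesE]
  · -- rat
    intro g hg u hu v hv
    have hg' : G g := hg
    obtain ⟨⟨mf, _⟩, hr⟩ := HE g hg'
    have key := rat_stage mf hεE hr (code_prg h ht (P.aE s) g) (posE g hg')
      ⟨Prog.repT P Q s t u, rlt u hu⟩ ⟨Prog.repT P Q s t v, rlt v hv⟩
    rw [hπ g hg']
    have e1 : ∀ w (hw : w < n), (DE g).ell ⟨Prog.repT P Q s t w, rlt w hw⟩ =
        g.getD (Prog.repT P Q s t w) 0 := by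
      intro w hw
      show ellOf P Q s t g _ = _
      unfold ellOf
      rw [ridem w hw]
    have e2 := e1 u hu
    have e3 := e1 v hv
    have e4 := Smp.NN_eq 𝒜 (t + 1) ⟨Prog.repT P Q s t u, rlt u hu⟩ ⟨Prog.repT P Q s t v, rlt v hv⟩
    rw [← e4] at key
    have key' : |2 ^ (2 * (DE g).a) * (stat (fun σ : (DE g).bx => (DE g).nuG σ)
        (fun σ => SD.nuG_nonneg mf.ok σ.1) (posE g hg') (fun σ => Step.enc (DE g) σ.1)).E
        (fun y => ind (Prog.evT P Q s t (Prog.repT P Q s t u) (Prog.repT P Q s t v) y = true)) -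
        Smp.NN 𝒜 (t + 1) (Prog.repT P Q s t u) (Prog.repT P Q s t v) *
          (2 : ℝ) ^ ((DE g).ell ⟨Prog.repT P Q s t u, rlt u hu⟩) /
          (𝒜.Z (t + 1) * (2 : ℝ) ^ ((DE g).ell ⟨Prog.repT P Q s t v, rlt v hv⟩))| ≤
        1 / 4 * (Smp.NN 𝒜 (t + 1) (Prog.repT P Q s t u) (Prog.repT P Q s t v) *
          (2 : ℝ) ^ ((DE g).ell ⟨Prog.repT P Q s t u, rlt u hu⟩) /
          (𝒜.Z (t + 1) * (2 : ℝ) ^ ((DE g).ell ⟨Prog.repT P Q s t v, rlt v hv⟩))) := key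
    rw [e2, e3] at key'
    exact key'
  · -- move
    intro g hg φ hφ d hd
    have hg' : G g := hg
    obtain ⟨mf, c, e, L, c0, c1, e0, hP, hec, hL, hT⟩ := HM g hg'
    refine move_of (run := fun x l => Prog.runT P Q s t (P.aM s) (P.TM s) g x l)
      (π₂ := stat (fun σ : (DM g).bx => (DM g).nuG σ)
      (fun σ => SD.nuG_nonneg mf.ok σ.1) (posM g hg') (fun σ => Step.enc (DM g) σ.1))
      (out := fun y => Prog.outT P Q s t y) (ρ := P.TM s * Prog.bitsS P s)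
      (fun ψ hψ => ?_) (fun ψ hψ d' _ => ?_) φ hφ d hd
    · have key := conv_stage (kmax := P.kmax s) mf hε₁ hεM (code_prg h ht (P.aM s) g) (kB₁ _ g) (kB₂ _ g)
        (posM g hg') hP c0 c1 e0 hη hL hT hec ψ hψ
      refine le_trans (le_of_eq ?_) (key.trans ?_)
      · rfl
      · linarith [hesM]
    · exact perf_stage mf (code_prg h ht (P.aM s) g) (posM g hg') ψ hψ d'
  · exact Gau.tri_Nst' 𝒜 (t + 1)
  · intro u hu v hv
    have := b2 u hu v hv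
    rw [← hrep u, ← hrep v] at this
    exact this

end prg

end Crest.Agent.R302.Fields
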