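import Crest.Agent.R302.MassSt151
import Crest.Agent.R302.ConcFacts342B
import Crest.Agent.R302.ConcFacts351
import Crest.Agent.R302.Stage536Y
import Crest.Agent.R302.Num272C

/-!
# R302 (helper151): the mass bundle of the concrete stages

* `std_sdA`   : `StD` for `sdA 𝒜 t P ell` with the numbers of `NumMass151` (`X = 2 ^ s`);
* `massIn_sdA`, `s1_sdA`, `rat_sdA`, `mf_sdA` : generic parameters `XOK`;
* `massIn_prg`, `mf_prg`, `rat_prg` : the concrete program `cPar`, both link costs.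
-/

set_option autoImplicit false
set_option linter.unusedSectionVars false

namespace Crest.Agent.R302.Mass151

open Finset Crest.Agent.R302.Facet Crest.Agent.R302.Inst Crest.Agent.R302.Stage
open Crest.Agent.R302.AnnBox Crest.Agent.R302.ConcF Crest.Agent.R302.GeoSpec
open Crest.Agent.R302.Conc (sdA sdOf parOf ellOf jF mem_jF mA)
open Crest.Agent.R302.StageL (kV)

variable {n : ℕ}

/-- the numbers of a stage: `X = 2 ^ s` -/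
structure XOK (n : ℕ) (R : ℤ) (P : Conc.Par) (X s : ℕ) : Prop where
  hX : X = 2 ^ s
  h16 : 2 ^ 16 ≤ X
  hs : 64 * s ≤ X
  hn : n + 1 ≤ X
  n0 : 0 < n
  dk : P.dk = X ^ 75
  w : P.w₁ = ((X ^ 112 : ℕ) : ℤ)
  Lb : R ≤ P.Lb
  M : R + 1 ≤ P.M

namespace XOK

variable {R : ℤ} {P : Conc.Par} {X s : ℕ}

theorem X0 (h : XOK n R P X s) : 0 < X := by have := h.h16; omega

theorem XR (h : XOK n R P X s) : (65536 : ℝ) ≤ X := by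
  have : (65536 : ℕ) ≤ X := by simpa using h.h16
  exact_mod_cast this

theorem dk0 (h : XOK n R P X s) : 0 < P.dk := by rw [h.dk]; exact Nat.pow_pos h.X0

theorem w75 (h : XOK n R P X s) : X ^ 75 ≤ X ^ 112 := Nat.pow_le_pow_right h.X0 (by norm_num)

theorem dkw (h : XOK n R P X s) : (P.dk : ℤ) ≤ P.w₁ := by
  rw [h.dk, h.w]
  exact_mod_cast h.w75

theorem cAw (h : XOK n R P X s) : (cA n : ℤ) < P.w₁ := by
  rw [h.w]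
  have h1 := Cst.cA_le h.h16 h.hn
  have h2 : X ^ 12 < X ^ 112 := Nat.pow_lt_pow_right (by have := h.h16; omega) (by norm_num)
  exact_mod_cast lt_of_le_of_lt h1 h2

theorem big (h : XOK n R P X s) : 4 * n * (P.dk : ℤ) ≤ P.w₁ := by
  rw [h.dk, h.w]
  have h1 : n ≤ X := by have := h.hn; omega
  have h2 : 4 * n * X ^ 75 ≤ X ^ 112 := by
    calc 4 * n * X ^ 75 ≤ 4 * X * X ^ 75 :=
          Nat.mul_le_mul_right _ (Nat.mul_le_mul_left _ h1)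
      _ = 4 * X ^ 76 := by ring
      _ ≤ X ^ 112 := Cst.c_mul_pw' h.h16 (by norm_num) (by norm_num)
  exact_mod_cast h2

end XOK

/-! ### the stage weight -/

theorem om_sdA (𝒜 : AnnData n) (t : ℕ) (P : Conc.Par) (ell : Fin n → ℤ)
    (hw : (cA n : ℤ) < P.w₁) (z : Fin n → ℤ) :
    om (sdA 𝒜 t P ell) z = stOm n 𝒜.L t 𝒜.x₀ z := by
  unfold om
  rw [stOm_eq]
  have e : (sdA 𝒜 t P ell).w ((sdA 𝒜 t P ell).S₁.blk z) =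
      (stH n 𝒜.L t 𝒜.x₀ (StageL.ext (sdA 𝒜 t P ell).S₁.T ((sdA 𝒜 t P ell).S₁.blk z)) : ℤ) := rfl
  rw [e]
  by_cases ht : t < T0 n 𝒜.L
  · rw [ext_blk_thin (S := (sdA 𝒜 t P ell).S₁) (fun a => (sdA_thin 𝒜 t P ell ht.le hw a).1),
      zpow_neg, zpow_natCast, one_div, inv_pow]
  · have h0 : ∀ y, stH n 𝒜.L t 𝒜.x₀ y = 0 := fun y => by unfold stH; rw [if_neg ht]
    rw [h0, h0]
    simp

/-! ### the stage data -/

section gen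

variable {𝒜 : AnnData n} {P : Conc.Par} {t : ℕ} {ell : Fin n → ℤ} {rep : Fin n → Fin n}
  {X s : ℕ}

/-- slack and exponent functions of the two sides -/
noncomputable def mS (𝒜 : AnnData n) (P : Conc.Par) (t : ℕ) (r : Finset (Fin n) → ℤ) :
    Fin n → ℕ := mW (nnForest (mA 𝒜 r t) P.w₁) (mA 𝒜 r t)

noncomputable def kS (𝒜 : AnnData n) (P : Conc.Par) (t : ℕ) (r : Finset (Fin n) → ℤ) :
    Fin n → ℕ := kV P.dk (nnForest (mA 𝒜 r t) P.w₁) (mA 𝒜 r t)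

theorem std_sdA (hx : XOK n 𝒜.R P X s) (hr : RepC 𝒜 P t rep)
    (hl : ∃ f : Fin n → ℤ, ∀ e, ell e = f (rep e)) :
    StD (sdA 𝒜 t P ell) 𝒜 t (mS 𝒜 P t 𝒜.r₁) (kS 𝒜 P t 𝒜.r₁) (mS 𝒜 P t 𝒜.r₂)
      (kS 𝒜 P t 𝒜.r₂) (fun p => 8 * 2 ^ kS 𝒜 P t 𝒜.r₁ p * (64 * s))
      (fun p => 8 * 2 ^ kS 𝒜 P t 𝒜.r₂ p * (64 * s)) (8 / (X : ℝ) ^ 66) (36 / (X : ℝ) ^ 64)
      (9 / 4 / (X : ℝ) ^ 64) := by
  obtain ⟨f, hf⟩ := hl
  have S₁ := stSide₁ 𝒜 t P ell hx.dk0 hx.dkw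
  have S₂ := stSide₂ 𝒜 t P ell hx.dk0 hx.dkw
  have c : Fintype.card (Fin n) + 1 ≤ X := by rw [Fintype.card_fin]; exact hx.hn
  have k₁ : ∀ p, (sdA 𝒜 t P ell).S₁.T.par p ≠ none →
      2 ^ kS 𝒜 P t 𝒜.r₁ p * X ^ 75 ≤ mS 𝒜 P t 𝒜.r₁ p := fun p hp => by
    have := S₁.k_le hp
    rw [hx.dk] at this
    have e : kS 𝒜 P t 𝒜.r₁ p = kV (X ^ 75) (sdA 𝒜 t P ell).S₁.T (TreeNN.mcap (𝒜.stR 𝒜.r₁ t) 𝒜.x₀) p := by
      unfold kS; rw [hx.dk]; rfl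
    rw [e]
    exact this
  have k₂ : ∀ p, (sdA 𝒜 t P ell).S₂.T.par p ≠ none →
      2 ^ kS 𝒜 P t 𝒜.r₂ p * X ^ 75 ≤ mS 𝒜 P t 𝒜.r₂ p := fun p hp => by
    have := S₂.k_le hp
    rw [hx.dk] at this
    have e : kS 𝒜 P t 𝒜.r₂ p = kV (X ^ 75) (sdA 𝒜 t P ell).S₂.T (TreeNN.mcap (𝒜.stR 𝒜.r₂ t) 𝒜.x₀) p := by
      unfold kS; rw [hx.dk]; rfl
    rw [e]
    exact this
  exact
    { ok :=
        { s₁ := S₁.sideOK
          s₂ := S₂.sideOK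
          alt := sdA_cases 𝒜 t P ell hx.cAw
          gau₁ := fun a b h => by
            show ell a = ell b
            rw [hf, hf, hr.1 a b h]
          gau₂ := fun a b h => by
            show ell a = ell b
            rw [hf, hf, hr.2 a b h] }
      om_eq := fun z _ => om_sdA 𝒜 t P ell hx.cAw z
      e₁ := etaOK_X hx.h16 c k₁
      e₂ := etaOK_X hx.h16 c k₂
      t₁ := tauOK_X hx.hX hx.h16 hx.hs c k₁
      t₂ := tauOK_X hx.hX hx.h16 hx.hs c k₂ }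

/-- the conditions of 342's facts -/
theorem XOK.parOK (hx : XOK n 𝒜.R P X s)
    (hlo₁ : ∀ z, MemJ 𝒜.r₁ 𝒜.R z → ∀ v, 0 ≤ z v)
    (hlo₂ : ∀ z, MemJ 𝒜.r₂ 𝒜.R z → ∀ v, 0 ≤ z v) : ParOK 𝒜 P :=
  ⟨hx.cAw, hx.dk0, hx.big, hx.Lb, hlo₁, hlo₂⟩

/-! ### windows -/

section win

variable (hlo₁ : ∀ z, MemJ 𝒜.r₁ 𝒜.R z → ∀ v, 0 ≤ z v) (hlo₂ : ∀ z, MemJ 𝒜.r₂ 𝒜.R z → ∀ v, 0 ≤ z v)
include hlo₁ hlo₂

/-- a coordinate in `[-1, R + 1]` is in the window -/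
theorem win_x (hx : XOK n 𝒜.R P X s) {x : Fin n → ℤ} {e : Fin n} (h1 : -1 ≤ x e)
    (h2 : x e ≤ 𝒜.R) :
    x e ∈ Icc ((sdA 𝒜 t P ell).c e - (sdA 𝒜 t P ell).M)
      ((sdA 𝒜 t P ell).c e + (sdA 𝒜 t P ell).M) := by
  have h7 : 𝒜.x₀ e ≤ 𝒜.R := by
    have h8 := 𝒜.mem₁.2
    rw [← h8]
    exact single_le_sum (f := 𝒜.x₀) (fun v _ => hlo₁ _ 𝒜.mem₁ v) (mem_univ e)
  have h8 := hlo₁ _ 𝒜.mem₁ e
  have h9 := hx.M
  rw [mem_Icc]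
  show 𝒜.x₀ e - (P.M : ℤ) ≤ x e ∧ x e ≤ 𝒜.x₀ e + (P.M : ℤ)
  constructor <;> linarith

theorem coord_le {z : Fin n → ℤ} (hz : MemJ 𝒜.r₁ 𝒜.R z ∨ MemJ 𝒜.r₂ 𝒜.R z) (e : Fin n) :
    0 ≤ z e ∧ z e ≤ 𝒜.R := by
  have h0 : ∀ v, 0 ≤ z v := by
    rcases hz with h | h
    · exact hlo₁ z h
    · exact hlo₂ z h
  have hR : ∑ v, z v = 𝒜.R := by
    rcases hz with h | h
    · exact h.2
    · exact h.2
  refine ⟨h0 e, ?_⟩
  rw [← hR]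
  exact single_le_sum (f := z) (fun v _ => h0 v) (mem_univ e)

/-- perfect states over common bases are in the box -/
theorem pf_mem (hx : XOK n 𝒜.R P X s) {x : Fin n → ℤ} (h₁ : MemJ 𝒜.r₁ 𝒜.R x) :
    (sdA 𝒜 t P ell).pf x ∈ (sdA 𝒜 t P ell).bx := by
  have h0 := hlo₁ x h₁
  have hR := h₁.2
  unfold SD.bx SD.pf
  rw [mem_product, mem_product, Fintype.mem_piFinset, Fintype.mem_piFinset, Fintype.mem_piFinset]
  refine ⟨fun e => ?_, fun r => ?_, fun r => ?_⟩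
  · obtain ⟨a, b⟩ := coord_le hlo₁ hlo₂ (Or.inl h₁) e
    exact win_x hlo₁ hlo₂ hx (by linarith) b
  · exact mem_Icc.2 (abs_le.1 ((ConcF.bs_abs_le h0 hR _).trans hx.Lb))
  · exact mem_Icc.2 (abs_le.1 ((ConcF.bs_abs_le h0 hR _).trans hx.Lb))

/-- states over one-link pairs are in the box -/
theorem lk_mem (hx : XOK n 𝒜.R P X s) {z z' x : Fin n → ℤ} (hz : z ∈ (sdA 𝒜 t P ell).S₁.J)
    (hz' : z' ∈ (sdA 𝒜 t P ell).S₂.J) (h : ∃ u, z = x + Lor.ev u) :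
    ((x, (sdA 𝒜 t P ell).S₁.blk z, (sdA 𝒜 t P ell).S₂.blk z') : Stage.St (sdA 𝒜 t P ell)) ∈
      (sdA 𝒜 t P ell).bx := by
  have m1 := ((𝒜.mem_stR 𝒜.sub₁ t z).1 ((mem_jF 𝒜 𝒜.sub₁ t z).1 hz)).1
  have m2 := ((𝒜.mem_stR 𝒜.sub₂ t z').1 ((mem_jF 𝒜 𝒜.sub₂ t z').1 hz')).1
  obtain ⟨u, hu⟩ := h
  unfold SD.bx
  rw [mem_product, mem_product, Fintype.mem_piFinset, Fintype.mem_piFinset, Fintype.mem_piFinset]
  refine ⟨fun e => ?_, fun r => ?_, fun r => ?_⟩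
  · obtain ⟨a, b⟩ := coord_le hlo₁ hlo₂ (Or.inl m1) e
    have h1 : z e = x e + Lor.ev u e := by rw [hu]; rfl
    have h2 : 0 ≤ Lor.ev u e ∧ Lor.ev u e ≤ 1 := by
      unfold Lor.ev
      rw [Pi.single_apply]
      split_ifs <;> simp
    exact win_x hlo₁ hlo₂ hx (by linarith) (by linarith)
  · exact mem_Icc.2 (abs_le.1 ((ConcF.bs_abs_le (hlo₁ z m1) m1.2 _).trans hx.Lb))
  · exact mem_Icc.2 (abs_le.1 ((ConcF.bs_abs_le (hlo₂ z' m2) m2.2 _).trans hx.Lb))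

/-! ### the bundle -/

theorem lz_sdA (hx : XOK n 𝒜.R P X s) (hr : RepC 𝒜 P t rep)
    (hl : ∃ f : Fin n → ℤ, ∀ e, ell e = f (rep e)) : Gau.LzD (sdA 𝒜 t P ell) :=
  let S := facts_sdA (hx.parOK hlo₁ hlo₂) hr hl
  Gau.LzD.of_shape (sdA_ok 𝒜 t P ell hx.dk0 hx.dkw) S.sh₁ S.sh₂ (std_sdA hx hr hl).ok.g₁
    (std_sdA hx hr hl).ok.g₂

/-- **the bundle of 970 / 425** -/
theorem massIn_sdA (hx : XOK n 𝒜.R P X s) (hr : RepC 𝒜 P t rep)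
    (hl : ∃ f : Fin n → ℤ, ∀ e, ell e = f (rep e)) {Γ : ℝ}
    (good : ∀ u v : Fin n, 𝒜.Nst t v u * (sdA 𝒜 t P ell).μ u ≤
      Γ * 𝒜.Z t * (sdA 𝒜 t P ell).μ v) :
    Gau.MassIn (sdA 𝒜 t P ell) (𝒜.Z t) (fun u v => 𝒜.Nst t v u) Γ (1 / (X : ℝ) ^ 62) := by
  have hX := hx.XR
  have hX0 : (0 : ℝ) < X := by linarith
  have e1 : 1 / (X : ℝ) ^ 62 ≤ 1 / 4 := by
    apply one_div_le_one_div_of_le (by norm_num)
    calc (4 : ℝ) ≤ X := by linarith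
      _ ≤ (X : ℝ) ^ 62 := le_self_pow₀ (by linarith) (by norm_num)
  refine (std_sdA hx hr hl).massIn (lz_sdA hlo₁ hlo₂ hx hr hl) (by positivity) e1 ?_
    (lo_X hx.h16 hx.hn) (fun x h₁ _ => ?_) good
  · refine (exp_up_X hx.h16 hx.hn).trans ?_
    have : (1 : ℝ) / (X : ℝ) ^ 63 ≤ 1 / (X : ℝ) ^ 62 :=
      one_div_le_one_div_of_le (by positivity) (pow_le_pow_right₀ (by linarith) (by norm_num))
    linarith
  · exact pf_mem hlo₁ hlo₂ hx ((𝒜.mem_stR 𝒜.sub₁ t x).1 h₁).1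

theorem rat_sdA (hx : XOK n 𝒜.R P X s) (hr : RepC 𝒜 P t rep)
    (hl : ∃ f : Fin n → ℤ, ∀ e, ell e = f (rep e)) : Fields.Rat 𝒜 t (sdA 𝒜 t P ell) := by
  classical
  intro u v
  have hX := hx.XR
  have hX0 : (0 : ℝ) < X := by linarith
  have c : Fintype.card (Fin n) + 1 ≤ X := by rw [Fintype.card_fin]; exact hx.hn
  have c1 : 1 ≤ Fintype.card (Fin n) := by rw [Fintype.card_fin]; exact hx.n0
  have S₁ := stSide₁ 𝒜 t P ell hx.dk0 hx.dkw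
  have S₂ := stSide₂ 𝒜 t P ell hx.dk0 hx.dkw
  obtain ⟨q, h1, h2⟩ := (std_sdA hx hr hl).rat (m3OK_X (V := Fin n) hx.h16 c1 c hx.w75)
    (fun p hp => by rw [← hx.w]; exact S₁.w_le_mW hp)
    (fun p hp => by rw [← hx.w]; exact S₂.w_le_mW hp)
    (fun z hz z' hz' x h1 _ => lk_mem hlo₁ hlo₂ hx hz hz' h1) u v
  refine ⟨q, ?_, h2.trans ?_⟩
  · rw [← h1]
  · apply mul_le_mul_of_nonneg_right _ (𝒜.Nst_nonneg t v u)
    apply one_div_le_one_div_of_le (by norm_num)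
    calc (16 : ℝ) ≤ X := by linarith
      _ ≤ (X : ℝ) ^ 61 := le_self_pow₀ (by linarith) (by norm_num)

theorem s1_sdA (hx : XOK n 𝒜.R P X s) (hr : RepC 𝒜 P t rep)
    (hl : ∃ f : Fin n → ℤ, ∀ e, ell e = f (rep e)) :
    ∑ x ∈ 𝒜.PH 0, |(sdA 𝒜 t P ell).nuG ((sdA 𝒜 t P ell).pf x) - stW 𝒜.L 𝒜.x₀ 0 t x| ≤
      1 / (X : ℝ) ^ 61 * 𝒜.Z t := by
  have hX := hx.XR
  have hX0 : (0 : ℝ) < X := by linarith
  refine (std_sdA hx hr hl).s1.trans (mul_le_mul_of_nonneg_right ?_ (𝒜.Z_pos t).le)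
  have h1 := lo_X hx.h16 hx.hn
  have h2 := exp_up_X hx.h16 hx.hn
  have h3 : (1 : ℝ) / (X : ℝ) ^ 63 ≤ 1 / (X : ℝ) ^ 62 :=
    one_div_le_one_div_of_le (by positivity) (pow_le_pow_right₀ (by linarith) (by norm_num))
  have h4 : 3 * (1 / (X : ℝ) ^ 62) ≤ 1 / (X : ℝ) ^ 61 := by
    rw [mul_one_div, div_le_div_iff₀ (by positivity) (by positivity), one_mul]
    calc 3 * (X : ℝ) ^ 61 ≤ X * (X : ℝ) ^ 61 := by gcongr; linarith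
      _ = (X : ℝ) ^ 62 := by ring
  linarith

theorem mf_sdA (hx : XOK n 𝒜.R P X s) (hr : RepC 𝒜 P t rep)
    (hl : ∃ f : Fin n → ℤ, ∀ e, ell e = f (rep e)) {Γ q : ℝ}
    (good : ∀ u v : Fin n, 𝒜.Nst t v u * (sdA 𝒜 t P ell).μ u ≤
      Γ * 𝒜.Z t * (sdA 𝒜 t P ell).μ v)
    (hq : (sdA 𝒜 t P ell).θ ^ 2 * (2 * Γ * (2 * n) ^ 2) ≤ q) (hq1 : q ≤ 1 / 2) :
    Fields.MF 𝒜 t (sdA 𝒜 t P ell) (1 / (X : ℝ) ^ 61) (1 / (X : ℝ) ^ 62 + 4 * q) := by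
  have : Nonempty (Fin n) := ⟨⟨0, hx.n0⟩⟩
  refine Fields.MF.of_sdA (sdA_ok 𝒜 t P ell hx.dk0 hx.dkw) (fun x h => ?_)
    (s1_sdA hlo₁ hlo₂ hx hr hl) ?_
  · exact pf_mem hlo₁ hlo₂ hx ((𝒜.mem_P x).1 h).1
  · exact (massIn_sdA hlo₁ hlo₂ hx hr hl good).mass_close (by rw [Fintype.card_fin]; exact hq) hq1

end win

end gen

end Crest.Agent.R302.Mass151
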