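import Crest.Agent.R302.NumMass151
import Crest.Agent.R302.Gau970H
import Crest.Agent.R302.Ann425E

/-!
# R302 (helper151): the mass bundle of one annealing stage

`StD D A t ..` : the chain data `D` belong to stage `t` of the annealing data `A`.
* `StD.s1`  : `∑_{x ∈ A.PH 0} |nuG (pf x) - stW 0 t x| ≤ (2 (2 n ε + 4 n ρ) + (exp (20 n η) - 1)) Z_t`;
* `StD.rat` : `∑_{EvG u v} nuG = 2^(-2a) 2^(ell u - ell v) s`, `|s - Nst t v u| ≤ ε₀ Nst t v u`;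
* `StD.massIn` : 970's bundle, hence `|mass - Z_t| ≤ (e + 4 q) Z_t`.
-/

set_option autoImplicit false

namespace Crest.Agent.R302.Mass151

open Finset Crest.Agent.R302.Facet Crest.Agent.R302.Inst
open Crest.Agent.R302.Stage Crest.Agent.R302.AnnBox

variable {n : ℕ}

/-- the chain data `D` belong to stage `t` -/
structure StD (D : SD (Fin n)) (A : AnnData n) (t : ℕ) (m₁ k₁ m₂ k₂ τ₁ τ₂ : Fin n → ℕ)
    (η ρ ε : ℝ) : Prop where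
  ok : StOK D (A.stR A.r₁ t) (A.stR A.r₂ t) A.R A.x₀ m₁ k₁ m₂ k₂
  om_eq : ∀ z, MemJ (A.stR A.r₁ t) A.R z → om D z = stOm n A.L t A.x₀ z
  e₁ : EtaOK D.S₁ m₁ k₁ η
  e₂ : EtaOK D.S₂ m₂ k₂ η
  t₁ : TauOK D.S₁ m₁ k₁ τ₁ ρ ε
  t₂ : TauOK D.S₂ m₂ k₂ τ₂ ρ ε

section

variable {D : SD (Fin n)} {A : AnnData n} {t : ℕ} {m₁ k₁ m₂ k₂ τ₁ τ₂ : Fin n → ℕ} {η ρ ε : ℝ}

/-- the counts with the weight `om D` -/
theorem StD.Ns_eq (h : StD D A t m₁ k₁ m₂ k₂ τ₁ τ₂ η ρ ε) (s : Fin n → ℤ)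
    (P : Finset (Fin n → ℤ)) (hP : ∀ x, x ∈ P ↔ MemJ (A.stR A.r₁ t) A.R x ∧
      MemJ (A.stR A.r₂ t) A.R (fun v => x v + s v)) :
    ∑ x ∈ P, om D x = A.Ns s t := by
  rw [A.Ns_eq s t P hP]
  exact sum_congr rfl fun x hx => h.om_eq x ((hP x).1 hx).1

theorem hs_eq (u v : Fin n) : Blk.hs u v = AnnBox.hs u v := rfl

/-- finite set of the hole states of type `s` in the stage box -/
theorem exists_PS (A : AnnData n) (t : ℕ) (s : Fin n → ℤ) : ∃ P : Finset (Fin n → ℤ), ∀ x, x ∈ P ↔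
    MemJ (A.stR A.r₁ t) A.R x ∧ MemJ (A.stR A.r₂ t) A.R (fun v => x v + s v) :=
  exists_PH (A.stR_sub A.sub₁ A.mem₁ t) s

/-- **the start mass** (`hsum` of `Warm272`) -/
theorem StD.s1 (h : StD D A t m₁ k₁ m₂ k₂ τ₁ τ₂ η ρ ε) :
    ∑ x ∈ A.PH 0, |D.nuG (D.pf x) - stW A.L A.x₀ 0 t x| ≤
      (2 * (2 * n * ε + 4 * n * ρ) + (Real.exp (20 * n * η) - 1)) * A.Z t := by
  classical
  obtain ⟨P, hP⟩ := exists_PS A t 0
  have hP0 : ∀ x, x ∈ P ↔ MemJ (A.stR A.r₁ t) A.R x ∧ MemJ (A.stR A.r₂ t) A.R x := by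
    intro x; rw [hP]; simp
  have hZ : ∑ x ∈ P, om D x = A.Z t := h.Ns_eq 0 P hP
  have hsub : P ⊆ A.PH 0 := by
    intro x hx
    have := (hP0 x).1 hx
    rw [A.mem_P]
    exact ⟨((A.mem_stR A.sub₁ t x).1 this.1).1, ((A.mem_stR A.sub₂ t x).1 this.2).1⟩
  have hin : ∀ x ∈ P, stW A.L A.x₀ 0 t x = om D x := by
    intro x hx
    have h1 := (hP0 x).1 hx
    have hc := ((A.mem_stR A.sub₁ t x).1 h1.1).2
    unfold stW
    rw [if_pos ⟨hc, by simpa using hc⟩, h.om_eq x h1.1]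
  have hout : ∀ x ∈ A.PH 0 \ P, stW A.L A.x₀ 0 t x = 0 := by
    intro x hx
    rw [mem_sdiff] at hx
    have h1 := (A.mem_P x).1 hx.1
    unfold stW
    rw [if_neg]
    rintro ⟨hc, _⟩
    exact hx.2 ((hP0 x).2 ⟨(A.mem_stR A.sub₁ t x).2 ⟨h1.1, hc⟩, (A.mem_stR A.sub₂ t x).2 ⟨h1.2, hc⟩⟩)
  have hpf : ∀ x, D.nuG (D.pf x) = Gau.F₁ D x * Gau.F₂ D x := fun x =>
    Gau.nuG_pf h.ok.g₁ h.ok.g₂ x
  have hF0 : ∀ x, 0 ≤ Gau.F₁ D x * Gau.F₂ D x := fun x => F₁F₂_nonneg h.ok x x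
  have a1 := lowW h.ok h.t₁ h.t₂ (s := 0) (by simp) (fun A => by simp) P hP
  have a2 := uppW h.ok h.e₁ h.e₂ (s := 0) (by simp) (fun A => by simp) P hP (A.PH 0)
  simp only [Pi.zero_apply, add_zero, Fintype.card_fin] at a1 a2
  rw [hZ] at a1 a2
  rw [sum_sub_distrib, hZ] at a1
  rw [← sum_sdiff hsub] at a2 ⊢
  have b1 : ∑ x ∈ P, |D.nuG (D.pf x) - stW A.L A.x₀ 0 t x| =
      A.Z t - ∑ x ∈ P, Gau.F₁ D x * Gau.F₂ D x := by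
    rw [← hZ, ← sum_sub_distrib]
    refine sum_congr rfl fun x hx => ?_
    rw [hin x hx, hpf, abs_sub_comm, abs_of_nonneg]
    linarith [F₁F₂_le h.ok x x]
  have b2 : ∑ x ∈ A.PH 0 \ P, |D.nuG (D.pf x) - stW A.L A.x₀ 0 t x| =
      ∑ x ∈ A.PH 0 \ P, Gau.F₁ D x * Gau.F₂ D x := by
    refine sum_congr rfl fun x hx => ?_
    rw [hout x hx, hpf, sub_zero, abs_of_nonneg (hF0 x)]
  rw [b1, b2]
  linarith

/-- **the one-link classes** (`hE`, `hs` of `rat_of`) -/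
theorem StD.rat (h : StD D A t m₁ k₁ m₂ k₂ τ₁ τ₂ η ρ ε) {w1 : ℤ} {m : ℕ} {ε₀ : ℝ}
    (hN : M3OK (Fin n) w1 m η ρ ε ε₀) (hw₁ : ∀ p, D.S₁.T.par p ≠ none → w1 ≤ m₁ p)
    (hw₂ : ∀ p, D.S₂.T.par p ≠ none → w1 ≤ m₂ p)
    (hbx : ∀ z ∈ D.S₁.J, ∀ z' ∈ D.S₂.J, ∀ x, (∃ u, z = x + Lor.ev u) → (∃ v, z' = x + Lor.ev v) →
      ((x, D.S₁.blk z, D.S₂.blk z') : St D) ∈ D.bx) (u v : Fin n) [DecidablePred (D.EvG u v)] :
    ∃ s : ℝ, ∑ σ ∈ D.bx.filter (D.EvG u v), D.nuG σ =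
        (1 / 2) ^ (2 * D.a) * 2 ^ (D.ell u - D.ell v) * s ∧
      |s - A.Nst t v u| ≤ ε₀ * A.Nst t v u := by
  obtain ⟨P, hP⟩ := exists_PS A t (hs v u)
  have h1 := mass3 h.ok h.e₁ h.e₂ h.t₁ h.t₂ hN hw₁ hw₂ hbx u v P hP
  rw [h.Ns_eq _ P hP] at h1
  exact h1

/-- **970's bundle** -/
theorem StD.massIn (h : StD D A t m₁ k₁ m₂ k₂ τ₁ τ₂ η ρ ε) (lz : Gau.LzD D) {Γ e : ℝ}
    (e0 : 0 ≤ e) (e1 : e ≤ 1 / 4) (hup : Real.exp (20 * n * η) ≤ 1 + e)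
    (hlo : 2 * n * ε + 4 * n * ρ ≤ e)
    (hpf : ∀ x, MemJ (A.stR A.r₁ t) A.R x → MemJ (A.stR A.r₂ t) A.R x → D.pf x ∈ D.bx)
    (good : ∀ u v : Fin n, A.Nst t v u * D.μ u ≤ Γ * A.Z t * D.μ v) :
    Gau.MassIn D (A.Z t) (fun u v => A.Nst t v u) Γ e where
  lz := lz
  Z0 := A.Z_pos t
  e0 := e0
  e1 := e1
  upp u v B := by
    obtain ⟨P, hP⟩ := exists_PS A t (hs v u)
    have h1 := hN_form h.ok h.e₁ h.e₂ u v P hP B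
    rw [h.Ns_eq _ P hP, Fintype.card_fin] at h1
    exact h1.trans (mul_le_mul_of_nonneg_right hup (A.Nst_nonneg t v u))
  diag u := A.Nst_self t u
  low := by
    obtain ⟨P, hP⟩ := exists_PS A t 0
    have hP0 : ∀ x, x ∈ P ↔ MemJ (A.stR A.r₁ t) A.R x ∧ MemJ (A.stR A.r₂ t) A.R x := by
      intro x; rw [hP]; simp
    refine ⟨P, fun x hx => hpf x ((hP0 x).1 hx).1 ((hP0 x).1 hx).2, ?_⟩
    have hZ : ∑ x ∈ P, om D x = A.Z t := h.Ns_eq 0 P hP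
    have a1 := lowW h.ok h.t₁ h.t₂ (s := 0) (by simp) (fun A => by simp) P hP
    simp only [Pi.zero_apply, add_zero, Fintype.card_fin] at a1
    rw [sum_sub_distrib, hZ] at a1
    have := mul_le_mul_of_nonneg_right hlo (A.Z_pos t).le
    linarith
  good := good

end

end Crest.Agent.R302.Mass151
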