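import Crest.Agent.R302.Mix497B

/-!
# R302, block MIX (helper497), part C: programs that implement the kernel only approximately
-/

set_option autoImplicit false
open Finset

namespace Crest.Agent.R302.Mix

open Crest.Agent.R309.MC Crest.Agent.R309.Tape Crest.Agent.R302.Loop

variable {α : Type*} [Fintype α] [DecidableEq α] {S : Type*}

theorem law_pt_succ (K : α → α → ℝ) (x : α) (t : ℕ) (g : α → ℝ) :
    ∑ y, law K (pt x) (t + 1) y * g y = ∑ z, K x z * ∑ y, law K (pt z) t y * g y := by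
  have e2 : ∀ y, law K (pt x) (t + 1) y = ∑ z, K x z * law K (pt z) t y := fun y => by
    rw [law_succ', push_pt, law_linear]
  simp only [e2, sum_mul, mul_sum]
  rw [sum_comm]
  exact sum_congr rfl fun z _ => sum_congr rfl fun y _ => by ring

/-- one-step error `δ` ⟹ `t`-step error `t δ` -/
theorem approx_steps {f : S → List Bool → S} {r : ℕ} {enc : α → S} {K : α → α → ℝ} (hK : IsKer K)
    {δ : ℝ} (h : ∀ (φ : S → ℝ), (∀ s, 0 ≤ φ s ∧ φ s ≤ 1) → ∀ x : α,
      |avg r (fun l => φ (f (enc x) l)) - ∑ y, K x y * φ (enc y)| ≤ δ) (t : ℕ)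
    (φ : S → ℝ) (hφ : ∀ s, 0 ≤ φ s ∧ φ s ≤ 1) (x : α) :
    |avg (t * r) (fun l => φ (runSteps f r t (enc x) l)) - ∑ y, law K (pt x) t y * φ (enc y)| ≤
      t * δ := by
  have key : ∀ (t : ℕ) (x : α), |(markov f r)^[t] φ (enc x) - ∑ y, law K (pt x) t y * φ (enc y)| ≤
      t * δ ∧ ∀ s, 0 ≤ (markov f r)^[t] φ s ∧ (markov f r)^[t] φ s ≤ 1 := by
    intro t
    induction t with
    | zero =>
      intro x
      refine ⟨?_, hφ⟩
      simp [law, pt]
    | succ t ih =>
      intro x
      have h01 := (ih x).2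
      have h01' : ∀ s, 0 ≤ (markov f r)^[t + 1] φ s ∧ (markov f r)^[t + 1] φ s ≤ 1 := by
        intro s
        rw [Function.iterate_succ_apply']
        exact avg_mem01 r fun l => h01 _
      refine ⟨?_, h01'⟩
      rw [Function.iterate_succ_apply', law_pt_succ]
      have h1 := h ((markov f r)^[t] φ) h01 x
      have h2 : |∑ z, K x z * (markov f r)^[t] φ (enc z) -
          ∑ z, K x z * ∑ y, law K (pt z) t y * φ (enc y)| ≤ t * δ := by
        rw [← sum_sub_distrib]
        refine (abs_sum_le_sum_abs _ _).trans ?_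
        calc ∑ z, |K x z * (markov f r)^[t] φ (enc z) - K x z * ∑ y, law K (pt z) t y * φ (enc y)|
            ≤ ∑ z, K x z * (t * δ) := by
              refine sum_le_sum fun z _ => ?_
              rw [← mul_sub, abs_mul, abs_of_nonneg (hK.nonneg x z)]
              exact mul_le_mul_of_nonneg_left (ih z).1 (hK.nonneg x z)
          _ = t * δ := by rw [← sum_mul, hK.sum_one, one_mul]
      have h3 := abs_sub_le (markov f r ((markov f r)^[t] φ) (enc x))
        (∑ z, K x z * (markov f r)^[t] φ (enc z))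
        (∑ z, K x z * ∑ y, law K (pt z) t y * φ (enc y))
      have h1' : |markov f r ((markov f r)^[t] φ) (enc x) -
          ∑ z, K x z * (markov f r)^[t] φ (enc z)| ≤ δ := h1
      push_cast
      linarith
  rw [Crest.Agent.R309.Tape.avg_runSteps]
  exact (key t x).1

/-- **The one-particle theorem for an approximate implementation** (`hA`: the `t`-step run is within `δ` of
the `t`-step kernel from every chain state). -/
theorem one_particle_approx {S' : Type*} {f : S → List Bool → S} {r : ℕ} {enc : α → S}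
    {K : α → α → ℝ} {w : α → ℝ} (hw : ∀ x, 0 ≤ w x) (hm : 0 < mass w)
    (hK : IsKer K) (hr : Rev w K) (hp : PSD w K) {c e : ℝ} (hc : PoincD w K c e) (hc0 : 0 < c)
    (hc1 : c ≤ 1) (he : 0 ≤ e) {H ε η δ : ℝ} (hH : 0 ≤ H) (hη : 0 ≤ η) (μ : Law S') (start : S' → S)
    (st : S' → α) (G : S' → Prop) (hst : ∀ x ∈ μ.supp, G x → enc (st x) = start x)
    (ρ : α → ℝ) (hρ0 : ∀ a, 0 ≤ ρ a) (hρ : ∑ a, ρ a ≤ ε) (hε : ε ≤ 1 / 2)
    (hdom : ∀ a, startLaw μ st a ≤ H * (w a / mass w) + ρ a) {t L : ℕ}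
    (hL : H ≤ η ^ 2 * 2 ^ L) (ht : (L : ℝ) ≤ c * t) (hec : 2 * e * H ^ 2 ≤ c * mass w * η ^ 2)
    (φ : S → ℝ) (hφ : ∀ s, 0 ≤ φ s ∧ φ s ≤ 1)
    (hA : ∀ x : α, |avg (t * r) (fun l => φ (runSteps f r t (enc x) l)) -
      ∑ y, law K (pt x) t y * φ (enc y)| ≤ δ) :
    |μ.E (fun x => avg (t * r) (fun l => φ (runSteps f r t (start x) l))) -
        ∑ x, w x / mass w * φ (enc x)| ≤ ε + η + δ + (1 - μ.E (fun x => ind (G x))) := by
  classical
  have h1 := warm hw hm hK hr hp hc hc0 hc1 he hH (startLaw μ st) ρ (startLaw_nonneg μ st)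
    (startLaw_sum μ st) hdom hρ0 hρ hε t (φ := fun a => φ (enc a)) (fun a => (hφ _).1)
    (fun a => (hφ _).2)
  have h2 := sqrt_err_le hc0 hc1 hm hη hL ht hec
  have h3 : |μ.E (fun x => avg (t * r) (fun l => φ (runSteps f r t (enc (st x)) l))) -
      ∑ y, law K (startLaw μ st) t y * φ (enc y)| ≤ δ := by
    rw [law_eq_sum_pt, ← μ.E_sub]
    refine (μ.abs_E_le _).trans ?_
    have := μ.E_mono (φ := fun x => |avg (t * r) (fun l => φ (runSteps f r t (enc (st x)) l)) -
      ∑ y, law K (pt (st x)) t y * φ (enc y)|) (ψ := fun _ => δ) (fun x _ => hA (st x))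
    rwa [μ.E_const] at this
  have h4 : |μ.E (fun x => avg (t * r) (fun l => φ (runSteps f r t (start x) l))) -
      μ.E (fun x => avg (t * r) (fun l => φ (runSteps f r t (enc (st x)) l)))| ≤
      1 - μ.E (fun x => ind (G x)) := by
    rw [← μ.E_sub]
    refine (μ.abs_E_le _).trans ?_
    have : 1 - μ.E (fun x => ind (G x)) = μ.E (fun x => 1 - ind (G x)) := by
      rw [μ.E_sub, μ.E_const]
    rw [this]
    refine μ.E_mono fun x hx => ?_
    by_cases hG : G x
    · rw [hst x hx hG, ind_of hG]; simp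
    · rw [ind_of_not hG, sub_zero]
      have a1 := avg_mem01 (t * r) (g := fun l => φ (runSteps f r t (start x) l)) (fun l => hφ _)
      have a2 := avg_mem01 (t * r) (g := fun l => φ (runSteps f r t (enc (st x)) l)) (fun l => hφ _)
      rw [abs_le]
      constructor <;> linarith [a1.1, a1.2, a2.1, a2.2]
  have h5 := abs_sub_le (μ.E (fun x => avg (t * r) (fun l => φ (runSteps f r t (start x) l))))
    (μ.E (fun x => avg (t * r) (fun l => φ (runSteps f r t (enc (st x)) l))))
    (∑ y, law K (startLaw μ st) t y * φ (enc y))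
  have h6 := abs_sub_le (μ.E (fun x => avg (t * r) (fun l => φ (runSteps f r t (start x) l))))
    (∑ y, law K (startLaw μ st) t y * φ (enc y)) (∑ x, w x / mass w * φ (enc x))
  linarith

end Crest.Agent.R302.Mix
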