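import Crest.Agent.R302.S1Conc893
import Crest.Agent.R302.ConcFacts342
import Crest.Agent.R302.Rep646B

/-!
R302 (helper893): block (S1) for the concrete stages, from helper342's `ConcF.Spec`.
-/

set_option autoImplicit false
set_option linter.unusedSectionVars false
set_option linter.unusedVariables false

namespace Crest.Agent.R302.T893

open Finset Lor
open Crest.Agent.R302.Tree (RTree)
open Crest.Agent.R302.Inst Crest.Agent.R302.Stage Crest.Agent.R302.Macro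
open Crest.Agent.R302.Inst.Side (Gauge)
open Crest.Agent.R302.GeoSpec Crest.Agent.R302.StageL Crest.Agent.R302.TreeNN
open Crest.Agent.R302.Conc Crest.Agent.R302.ConcF Crest.Agent.R302.AnnBox
open Crest.Agent.R302.Facet (MemJ SubM cap slk sep)

/-! ### bounds of the capacities -/

section Cap

variable {V : Type*} [Fintype V] [DecidableEq V]

theorem cap_self (r : Finset V → ℤ) (x : V → ℤ) (a : V) : cap r x a a = 0 := by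
  unfold Facet.cap
  rw [dif_neg]
  rintro ⟨A, hA⟩
  exact (Facet.mem_sep.1 hA).2 (Facet.mem_sep.1 hA).1

/-- capacities of nonnegative base polytopes are at most `R` -/
theorem cap_le_R {r : Finset V → ℤ} {R : ℤ} {x : V → ℤ} (hr : SubM r R) (hx : MemJ r R x)
    (hnn : ∀ z, MemJ r R z → ∀ a, 0 ≤ z a) (a b : V) : cap r x a b ≤ R := by
  have hR : 0 ≤ R := by
    rw [← hx.2]; exact Finset.sum_nonneg fun v _ => hnn x hx v
  by_cases hab : a = b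
  · subst hab
    rw [cap_self]; exact hR
  · -- the exchanged point
    set t := cap r x a b with ht
    have ht0 : 0 ≤ t := by
      rw [ht]
      unfold Facet.cap
      rw [dif_pos (Facet.sep_nonempty hab)]
      exact (Finset.le_inf'_iff _ _).2 fun A _ => Facet.slk_nonneg hx A
    have hz : MemJ r R (fun v => x v + t * ((if v = a then 1 else 0) - (if v = b then 1 else 0))) := by
      constructor
      · intro A
        rw [Finset.sum_add_distrib, ← Finset.mul_sum, Finset.sum_sub_distrib,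
          Finset.sum_ite_eq', Finset.sum_ite_eq']
        by_cases ha : a ∈ A
        · by_cases hb : b ∈ A
          · rw [if_pos ha, if_pos hb]
            have := hx.1 A
            linarith
          · rw [if_pos ha, if_neg hb]
            have h1 := Facet.cap_le (r := r) (x := x) ha hb
            unfold Facet.slk at h1
            linarith
        · by_cases hb : b ∈ A
          · rw [if_neg ha, if_pos hb]
            have := hx.1 A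
            linarith
          · rw [if_neg ha, if_neg hb]
            have := hx.1 A
            linarith
      · rw [Finset.sum_add_distrib, ← Finset.mul_sum, Finset.sum_sub_distrib,
          Finset.sum_ite_eq', Finset.sum_ite_eq', if_pos (Finset.mem_univ _),
          if_pos (Finset.mem_univ _), hx.2]
        ring
    have h1 := hnn _ hz b
    simp only [if_true, if_neg (Ne.symm hab)] at h1
    have h2 : x b ≤ R := by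
      rw [← hx.2]
      exact Finset.single_le_sum (fun v _ => hnn x hx v) (Finset.mem_univ b)
    linarith

end Cap

variable {n : ℕ}

theorem mcap_le_R {r : Finset (Fin n) → ℤ} {R : ℤ} {x : Fin n → ℤ} (hr : SubM r R)
    (hx : MemJ r R x) (hnn : ∀ z, MemJ r R z → ∀ a, 0 ≤ z a) (a b : Fin n) :
    mcap r x a b ≤ R :=
  (min_le_left _ _).trans (cap_le_R hr hx hnn a b)

theorem mcap_self (r : Finset (Fin n) → ℤ) (x : Fin n → ℤ) (a : Fin n) : mcap r x a a = 0 := by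
  unfold mcap; rw [cap_self, min_self]

/-- capacities at stage `t` are at most the radius -/
theorem mA_le_stQ (𝒜 : AnnData n) {r : Finset (Fin n) → ℤ} (hr : SubM r 𝒜.R)
    (hx : MemJ r 𝒜.R 𝒜.x₀) (t : ℕ) (a b : Fin n) : mA 𝒜 r t a b ≤ stQ n 𝒜.L t := by
  by_cases hab : a = b
  · subst hab
    show mcap (𝒜.stR r t) 𝒜.x₀ a a ≤ _
    rw [mcap_self]; positivity
  · exact Rep646.stM_le 𝒜 hr hx t hab

/-- **(S1) from the specification of the concrete stage** -/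
theorem S1_spec {D : SD (Fin n)} {m₁ m₂ : Fin n → Fin n → ℤ} {w₁ : ℤ} {dk L t : ℕ}
    {x₀ : Fin n → ℤ} {r₁ r₂ : Finset (Fin n) → ℤ} {R : ℤ} {rep : Fin n → Fin n}
    (hS : Spec D m₁ m₂ w₁ dk L t x₀ r₁ r₂ R rep)
    {M₁ M₂ : List (List ℤ)} {dl : ℕ}
    (hM₁ : ∀ a b : Fin n, (M₁.getD a []).getD b 0 = m₁ a b)
    (hM₂ : ∀ a b : Fin n, (M₂.getD a []).getD b 0 = m₂ a b)
    (hmv : D.mv = mvV m₁ m₂ w₁ M₁ M₂ (elE w₁ dl))
    (hlk₁ : D.lk₁ = pairsV D.S₁.T) (hlk₂ : D.lk₂ = pairsV D.S₂.T)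
    (hn0 : 0 < n) {P : ℕ} {mx : ℤ} {G : ℝ}
    (hN : PNum n D.a dk dl P w₁ mx G) (hm₁ : ∀ a b, m₁ a b ≤ mx) (hm₂ : ∀ a b, m₂ a b ≤ mx)
    (hM : n * (G * mx) + 2 * mx ≤ D.M)
    (Kw : ℕ) {A : ℝ}
    (hA1 : 3 * A0n n (2 * n + 1) (kap D.θ 1) G P w₁ D.θ * kap D.θ 1 ^ 3 ≤ A)
    (hA2 : (1 + (2 * n ^ 2 : ℕ) * (6 * A0n n (2 * n + 1) (kap D.θ 1) G P w₁
      D.θ * kap D.θ 1 ^ 3)) * Link.KL D.S₁.Blk (2 * Kw) ≤ A)
    (hA3 : (1 + (2 * n ^ 2 : ℕ) * (6 * A0n n (2 * n + 1) (kap D.θ 1) G P w₁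
      D.θ * kap D.θ 1 ^ 3)) * Link.KL D.S₂.Blk (2 * Kw) ≤ A)
    (f : St D → ℝ) {M : ℝ} (hM0 : 0 ≤ M) (hfM : ∀ p, |f p| ≤ M) :
    vr D.bx D.nuG f ≤ A * D.enG f +
      (CD n (2 * n + 1) (2 * D.M) (kap D.θ 1)
          (KSn n (2 * n + 1) (kap D.θ 1) G P w₁ D.θ mx) *
        badm D.S₁.T D.S₂.T (LL G (wtV m₁ m₂ w₁)) (cen D.S₁.T D.S₂.T D.c) D.Wx
          (Fintype.piFinset fun a => Icc (D.c a - D.M - 1) (D.c a + D.M + 1))
      + (1 + (2 * n ^ 2 : ℕ) * (6 * A0n n (2 * n + 1) (kap D.θ 1) G P w₁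
          D.θ * kap D.θ 1 ^ 3)) *
        (8 * Joint.farM D.Bx D.a₁ D.a₂ D.Λ₁ D.Λ₂ D.S₁.blk D.S₂.blk Kw)) * M ^ 2 := by
  have hf : PFacts D m₁ m₂ w₁ M₁ M₂ dk dl (ConcF.bK dk D.S₁.T m₁) (ConcF.dK dk D.S₁.T m₁)
      (ConcF.bK dk D.S₂.T m₂) (ConcF.dK dk D.S₂.T m₂) :=
    { T₁ := hS.T₁
      T₂ := hS.T₂
      hM₁ := hM₁
      hM₂ := hM₂
      b₁e := fun a b h => by unfold ConcF.bK; rw [hS.T₁, kV_some h]
      b₂e := fun a b h => by unfold ConcF.bK; rw [hS.T₂, kV_some h]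
      D₁e := fun a b h => by unfold ConcF.dK; rw [hS.T₁, kV_some h]
      D₂e := fun a b h => by unfold ConcF.dK; rw [hS.T₂, kV_some h]
      mv := hmv
      lk₁ := hlk₁
      lk₂ := hlk₂ }
  have hF := hS.facts
  exact S1_prog hf hF.pair hF.sh₁ hF.sh₂ hF.ga₁ hF.ga₂ hF.lb₁ hF.lb₂ hn0 hN hm₁ hm₂ hM Kw
    hA1 hA2 hA3 f hM0 hfM

/-- **(S1) for the stages of the annealing data** -/
theorem S1_ann (𝒜 : AnnData n) (t : ℕ) (Pr : Conc.Par) (ell : Fin n → ℤ)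
    {r₁ r₂ : Finset (Fin n) → ℤ} {R : ℤ} {L' t' : ℕ} {x₀ : Fin n → ℤ} {rep : Fin n → Fin n}
    (hS : Spec (sdA 𝒜 t Pr ell) (mA 𝒜 𝒜.r₁ t) (mA 𝒜 𝒜.r₂ t) Pr.w₁ Pr.dk L' t' x₀ r₁ r₂ R rep)
    (hn0 : 0 < n) {P : ℕ} {mx : ℤ} {G : ℝ}
    (hN : PNum n Pr.a Pr.dk Pr.dl P Pr.w₁ mx G) (hmx : (stQ n 𝒜.L t : ℤ) ≤ mx)
    (hM : n * (G * mx) + 2 * mx ≤ Pr.M)
    (Kw : ℕ) {A : ℝ}
    (hA1 : 3 * A0n n (2 * n + 1) (kap ((1 / 2) ^ Pr.a) 1) G P Pr.w₁ ((1 / 2) ^ Pr.a) *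
      kap ((1 / 2) ^ Pr.a) 1 ^ 3 ≤ A)
    (hA2 : (1 + (2 * n ^ 2 : ℕ) * (6 * A0n n (2 * n + 1) (kap ((1 / 2) ^ Pr.a) 1) G P Pr.w₁
      ((1 / 2) ^ Pr.a) * kap ((1 / 2) ^ Pr.a) 1 ^ 3)) *
        Link.KL (sdA 𝒜 t Pr ell).S₁.Blk (2 * Kw) ≤ A)
    (hA3 : (1 + (2 * n ^ 2 : ℕ) * (6 * A0n n (2 * n + 1) (kap ((1 / 2) ^ Pr.a) 1) G P Pr.w₁
      ((1 / 2) ^ Pr.a) * kap ((1 / 2) ^ Pr.a) 1 ^ 3)) *
        Link.KL (sdA 𝒜 t Pr ell).S₂.Blk (2 * Kw) ≤ A)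
    (f : St (sdA 𝒜 t Pr ell) → ℝ) {M : ℝ} (hM0 : 0 ≤ M) (hfM : ∀ p, |f p| ≤ M) :
    vr (sdA 𝒜 t Pr ell).bx (sdA 𝒜 t Pr ell).nuG f ≤ A * (sdA 𝒜 t Pr ell).enG f +
      (CD n (2 * n + 1) (2 * Pr.M) (kap ((1 / 2) ^ Pr.a) 1)
          (KSn n (2 * n + 1) (kap ((1 / 2) ^ Pr.a) 1) G P Pr.w₁ ((1 / 2) ^ Pr.a) mx) *
        badm (sdA 𝒜 t Pr ell).S₁.T (sdA 𝒜 t Pr ell).S₂.T
          (LL G (wtV (mA 𝒜 𝒜.r₁ t) (mA 𝒜 𝒜.r₂ t) Pr.w₁))
          (cen (sdA 𝒜 t Pr ell).S₁.T (sdA 𝒜 t Pr ell).S₂.T 𝒜.x₀) (sdA 𝒜 t Pr ell).Wx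
          (Fintype.piFinset fun a => Icc (𝒜.x₀ a - Pr.M - 1) (𝒜.x₀ a + Pr.M + 1))
      + (1 + (2 * n ^ 2 : ℕ) * (6 * A0n n (2 * n + 1) (kap ((1 / 2) ^ Pr.a) 1) G P Pr.w₁
          ((1 / 2) ^ Pr.a) * kap ((1 / 2) ^ Pr.a) 1 ^ 3)) *
        (8 * Joint.farM (sdA 𝒜 t Pr ell).Bx (sdA 𝒜 t Pr ell).a₁ (sdA 𝒜 t Pr ell).a₂
          (sdA 𝒜 t Pr ell).Λ₁ (sdA 𝒜 t Pr ell).Λ₂ (sdA 𝒜 t Pr ell).S₁.blk
          (sdA 𝒜 t Pr ell).S₂.blk Kw)) * M ^ 2 := by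
  have h := S1_spec (D := sdA 𝒜 t Pr ell) hS (M₁ := ofMat (mA 𝒜 𝒜.r₁ t))
    (M₂ := ofMat (mA 𝒜 𝒜.r₂ t)) (dl := Pr.dl) (ofMat_getD _) (ofMat_getD _) rfl rfl rfl hn0 hN
    (fun a b => (mA_le_stQ 𝒜 𝒜.sub₁ 𝒜.mem₁ t a b).trans hmx)
    (fun a b => (mA_le_stQ 𝒜 𝒜.sub₂ 𝒜.mem₂ t a b).trans hmx) hM Kw hA1 hA2 hA3 f hM0 hfM
  exact h

end Crest.Agent.R302.T893
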