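import Crest.Agent.R302.Stage536Y
import Crest.Agent.R302.S1Ann893
import Crest.Agent.R302.Num272B
import Crest.Agent.R302.ConcFacts342B
import Crest.Agent.R302.ConcFacts351

/-!
R302 (helper536), STAGE: the mixing input of the two concrete chains.

* `cs_length`, `cs_exp`, `kV_le` : number of directions, exponents of lengths and slacks;
* `mix_of` : `StIn.mix` from (S1), masses, numbers.
-/

set_option autoImplicit false
set_option linter.unusedSectionVars false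

namespace Crest.Agent.R302.Fields

open Finset Crest.Agent.R302.Inst Crest.Agent.R302.Stage Crest.Agent.R302.AnnBox
open Crest.Agent.R302.Loop Crest.Agent.R302.Mix Crest.Agent.R302.Step Crest.Agent.R302.Prog
open Crest.Agent.R302.Slk Crest.Agent.R302.Smp Crest.Agent.R302.Top Crest.Agent.R302.Facet
open Crest.Agent.R302.Macro
open Crest.Agent.R302.Conc (sdA sdOf parOf ellOf jF mem_jF mA code_prg mem_ks₁ mem_ks₂ matT₁ matT₂)
open Crest.Agent.R302.Lor (ev)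
open Crest.Agent.R302.ORAM Crest.Agent.R302.StageL Crest.Agent.R302.GeoSpec
open Crest.Agent.R309.MC Crest.Agent.R309.Tape

variable {n : ℕ}

/-! ### the directions -/

theorem length_rootsV (T : MP3.Forest (Fin n)) : (rootsV T).length ≤ n := by
  unfold rootsV
  refine (List.length_filterMap_le _ _).trans ?_
  rw [List.length_finRange]

theorem length_pairsV (T : MP3.Forest (Fin n)) : (pairsV T).length ≤ n * n := by
  unfold pairsV
  rw [List.length_flatMap]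
  have h1 : ∀ x ∈ (rootsV T).map (fun r => (((rootsV T).filter fun r' =>
      decide (r'.1 ≠ r.1)).map fun r' => (r, r')).length), x ≤ n := by
    intro x hx
    obtain ⟨r, _, rfl⟩ := List.mem_map.1 hx
    rw [List.length_map]
    exact (List.length_filter_le _ _).trans (length_rootsV T)
  refine (List.sum_le_card_nsmul _ n h1).trans ?_
  rw [List.length_map, smul_eq_mul]
  exact Nat.mul_le_mul_right _ (length_rootsV T)

theorem cs_length (𝒜 : AnnData n) (t : ℕ) (P : Conc.Par) (ell : Fin n → ℤ) :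
    (sdA 𝒜 t P ell).cs.length ≤ 4 * n ^ 2 := by
  unfold SD.cs
  rw [List.length_append, List.length_append, List.length_map, List.length_map, List.length_map]
  have h1 : (sdA 𝒜 t P ell).mv.length = n * (2 * n) := by
    show (mvV _ _ _ _ _ _).length = _
    unfold mvV
    rw [List.length_flatMap]
    simp
  have h2 : (sdA 𝒜 t P ell).lk₁.length ≤ n * n := length_pairsV _
  have h3 : (sdA 𝒜 t P ell).lk₂.length ≤ n * n := length_pairsV _
  nlinarith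

theorem lgE_le_size' {d : ℕ} {key : ℤ} {K : ℕ} (h : key ≤ 2 ^ K) : lgE d key ≤ K := by
  unfold lgE
  have h1 : key.toNat / d ≤ 2 ^ K := by
    refine (Nat.div_le_self _ _).trans ?_
    have : key ≤ ((2 ^ K : ℕ) : ℤ) := by exact_mod_cast h
    exact Int.toNat_le.2 this
  have h2 : (key.toNat / d).size ≤ K + 1 := by
    rw [Nat.size_le]
    exact lt_of_le_of_lt h1 (Nat.pow_lt_pow_right (by norm_num) (Nat.lt_succ_self K))
  omega

theorem cs_exp (𝒜 : AnnData n) (t : ℕ) (P : Conc.Par) (ell : Fin n → ℤ) {K : ℕ}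
    (hw : P.w₁ ≤ 2 ^ K) (hs : stQ n 𝒜.L t ≤ 2 ^ K) :
    ∀ p ∈ (sdA 𝒜 t P ell).cs, p.2 ≤ K := by
  intro p hp
  have hs' : (stQ n 𝒜.L t : ℤ) ≤ 2 ^ K := by exact_mod_cast hs
  have m1 : ∀ a b, mA 𝒜 𝒜.r₁ t a b ≤ 2 ^ K := fun a b =>
    (T893.mA_le_stQ 𝒜 𝒜.sub₁ 𝒜.mem₁ t a b).trans hs'
  have m2 : ∀ a b, mA 𝒜 𝒜.r₂ t a b ≤ 2 ^ K := fun a b =>
    (T893.mA_le_stQ 𝒜 𝒜.sub₂ 𝒜.mem₂ t a b).trans hs'
  unfold SD.cs at hp
  rw [List.mem_append, List.mem_append] at hp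
  rcases hp with hp | hp | hp
  · obtain ⟨q, hq, rfl⟩ := List.mem_map.1 hp
    have hq' : q ∈ mvV (mA 𝒜 𝒜.r₁ t) (mA 𝒜 𝒜.r₂ t) P.w₁ (Conc.ofMat (mA 𝒜 𝒜.r₁ t))
      (Conc.ofMat (mA 𝒜 𝒜.r₂ t)) (elE P.w₁ P.dl) := hq
    unfold mvV at hq'
    obtain ⟨i, _, hq2⟩ := List.mem_flatMap.1 hq'
    obtain ⟨j, _, rfl⟩ := List.mem_map.1 hq2
    show elE P.w₁ P.dl _ ≤ K
    unfold elE
    split_ifs
    · exact Nat.zero_le _
    · exact lgE_le_size' (T893.keyV_le m1 m2 hw _)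
  · obtain ⟨q, _, rfl⟩ := List.mem_map.1 hp
    exact Nat.zero_le _
  · obtain ⟨q, _, rfl⟩ := List.mem_map.1 hp
    exact Nat.zero_le _

theorem kV_le {m : Fin n → Fin n → ℤ} {T : MP3.Forest (Fin n)} {dk K : ℕ}
    (h : ∀ a b, m a b ≤ 2 ^ K) (a : Fin n) : kV dk T m a ≤ K := by
  unfold kV
  split
  · exact Nat.zero_le _
  · exact lgE_le_size' (h _ _)

/-- **`StIn.mix`** from (S1), the masses and numbers -/
theorem mix_of {D : SD (Fin n)} (hOK : D.OK) (hlen : D.cs.length ≤ 2 ^ D.qa)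
    (hexp : ∀ p ∈ D.cs, p.2 ≤ D.qb) {A d : ℝ} (hA : 1 ≤ A)
    (hP : ∀ (f : Stage.St D → ℝ) (M : ℝ), 0 ≤ M → (∀ p, |f p| ≤ M) →
      vr D.bx D.nuG f ≤ A * D.enG f + d * M ^ 2) {δ Z ρ τ η : ℝ} (hδ : 0 < δ) (hδ1 : δ ≤ 1)
    (hZ : 0 < Z) (hd0 : 0 ≤ d) (hd : d ≤ ρ * Z)
    (hsm : ∑ σ ∈ D.bx.filter (fun σ => D.FG σ < δ), D.nuG σ ≤ τ * Z)
    (hmass : Z / 2 ≤ ∑ σ ∈ D.bx, D.nuG σ)
    (hnum : 256 * ρ + 512 * (A * 2 ^ (D.qa + 2)) * τ ≤ η ^ 2) {T L : ℕ}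
    (hL : 8 ≤ η ^ 2 * 2 ^ L) (hT : (L : ℝ) ≤ δ / (A * 2 ^ (D.qa + 2)) * T) :
    ∃ (c e : ℝ) (L : ℕ), 0 < c ∧ c ≤ 1 ∧ 0 ≤ e ∧
      PoincD (fun σ : D.bx => D.nuG σ) D.Kch c e ∧
      128 * e ≤ c * mass (fun σ : D.bx => D.nuG σ) * η ^ 2 ∧ 8 ≤ η ^ 2 * 2 ^ L ∧
        (L : ℝ) ≤ c * T := by
  obtain ⟨e, he, h1, h2⟩ := SD.poincD_final hOK hlen hexp (by linarith) hP hδ hZ hd0 hd hsm hmass
    hnum
  refine ⟨δ / (A * 2 ^ (D.qa + 2)), e, L, by positivity, ?_, he, h1, h2, hL, hT⟩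
  rw [div_le_one (by positivity)]
  have h3 : (1 : ℝ) ≤ 2 ^ (D.qa + 2) := one_le_pow₀ (by norm_num)
  nlinarith

end Crest.Agent.R302.Fields
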