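import Crest.Agent.R302.Num272B
import Crest.Agent.R302.CParNum166
import Crest.Agent.R302.Code725B

/-!
# R302, numbers (helper166): lengths, exponents and tails for the concrete parameters

* `hlen_sdA`, `hexp_sdA` : number and exponents of the directions;
* `kV_le_cPar`, `hB_cPar` : the slack exponents and the bits of a slack;
* `qE_le`, `qM_le` : the geometric ratio of the links;
* `tau_le` : the bracket of `hsm_sdA`.
-/

set_option autoImplicit false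

namespace Crest.Agent.R302.Num

open Crest.Agent.R302.Smp Crest.Agent.R302.Top Crest.Agent.R302.Cst Crest.Agent.R302.AnnBox
open Crest.Agent.R302.Prog Crest.Agent.R302.T893 Crest.Agent.R302.Inst Crest.Agent.R302.StageL
open Crest.Agent.R302.GeoSpec Crest.Agent.R302.Stage Crest.Agent.R302.Slk Crest.Agent.R302.ORAM
open Crest.Agent.R302.Conc (sdA sdOf parOf ellOf jF mA)

/-! ### exponents -/

theorem lgE_le_of_le (d : ℕ) {key : ℤ} {k : ℕ} (h : key ≤ 2 ^ k) : lgE d key ≤ k := by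
  unfold lgE
  have h1 : key.toNat ≤ 2 ^ k := Int.toNat_le.2 (by exact_mod_cast h)
  have h2 : (key.toNat / d).size ≤ (2 ^ k).size := Nat.size_le_size ((Nat.div_le_self _ _).trans h1)
  rw [Nat.size_pow] at h2
  omega

theorem elE_le_of_le (w₁ : ℤ) (d : ℕ) {key : ℤ} {k : ℕ} (h : key ≤ 2 ^ k) : elE w₁ d key ≤ k := by
  unfold elE
  split_ifs
  · exact Nat.zero_le _
  · exact lgE_le_of_le d h

variable {n : ℕ}

theorem kV_le_of_le (dk : ℕ) (T : MP3.Forest (Fin n)) {m : Fin n → Fin n → ℤ} {k : ℕ}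
    (h : ∀ a b, m a b ≤ 2 ^ k) (a : Fin n) : kV dk T m a ≤ k := by
  unfold kV
  rcases T.par a with _ | b
  · exact Nat.zero_le _
  · exact lgE_le_of_le dk (h a b)

/-- the capacities of the stages of the concrete program -/
theorem mA_le_mx (s : SIn) (𝒜 : AnnData n) (hn : sn s = n) {t : ℕ}
    (ht : t ≤ nStages (sn s) 𝒜.L (sR s)) {r : Finset (Fin n) → ℤ} (hr : Facet.SubM r 𝒜.R)
    (hx : Facet.MemJ r 𝒜.R 𝒜.x₀) (a b : Fin n) : mA 𝒜 r t a b ≤ 2 ^ (4 * XX s) := by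
  have h1 := stQ_le_mx s 𝒜.L t ht
  rw [hn] at h1
  exact mcap_le_mx 𝒜 hr hx t (by positivity) (by exact_mod_cast h1) a b

section inst

variable {R m : ℕ} {r₁ r₂ : Finset (Fin n) → ℕ} {lo hi : Fin n → ℤ} {𝒜 : AnnData n}

theorem mA₁_le (h : IsInst (prg cPar) n R m r₁ r₂ lo hi 𝒜) {t : ℕ}
    (ht : t ≤ (prg cPar).T (inp n R m lo hi)) (a b : Fin n) :
    mA 𝒜 𝒜.r₁ t a b ≤ 2 ^ (4 * XX (inp n R m lo hi)) :=
  mA_le_mx (inp n R m lo hi) 𝒜 rfl (by rw [h.AL]; exact ht) 𝒜.sub₁ 𝒜.mem₁ a b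

theorem mA₂_le (h : IsInst (prg cPar) n R m r₁ r₂ lo hi 𝒜) {t : ℕ}
    (ht : t ≤ (prg cPar).T (inp n R m lo hi)) (a b : Fin n) :
    mA 𝒜 𝒜.r₂ t a b ≤ 2 ^ (4 * XX (inp n R m lo hi)) :=
  mA_le_mx (inp n R m lo hi) 𝒜 rfl (by rw [h.AL]; exact ht) 𝒜.sub₂ 𝒜.mem₂ a b

/-- **`hB₁`** -/
theorem hB₁_cPar (h : IsInst (prg cPar) n R m r₁ r₂ lo hi 𝒜) {t : ℕ}
    (ht : t ≤ (prg cPar).T (inp n R m lo hi)) (e : Fin n) :
    slkLen (kV (cPar.dk (inp n R m lo hi))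
      (nnForest (mA 𝒜 𝒜.r₁ t) (cPar.w₁ (inp n R m lo hi))) (mA 𝒜 𝒜.r₁ t) e)
      (cPar.N (inp n R m lo hi)) ≤ cPar.B (inp n R m lo hi) :=
  slkLen_cPar _ ((kV_le_of_le _ _ (mA₁_le h ht) e).trans (Nat.mul_le_mul_right _ (by norm_num)))

/-- **`hB₂`** -/
theorem hB₂_cPar (h : IsInst (prg cPar) n R m r₁ r₂ lo hi 𝒜) {t : ℕ}
    (ht : t ≤ (prg cPar).T (inp n R m lo hi)) (e : Fin n) :
    slkLen (kV (cPar.dk (inp n R m lo hi))
      (nnForest (mA 𝒜 𝒜.r₂ t) (cPar.w₁ (inp n R m lo hi))) (mA 𝒜 𝒜.r₂ t) e)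
      (cPar.N (inp n R m lo hi)) ≤ cPar.B (inp n R m lo hi) :=
  slkLen_cPar _ ((kV_le_of_le _ _ (mA₂_le h ht) e).trans (Nat.mul_le_mul_right _ (by norm_num)))

end inst

/-! ### the directions -/

theorem length_rootsV (T : MP3.Forest (Fin n)) : (rootsV T).length ≤ n := by
  unfold rootsV
  refine (List.length_filterMap_le _ _).trans ?_
  rw [List.length_finRange]

theorem length_pairsV (T : MP3.Forest (Fin n)) : (pairsV T).length ≤ n * n := by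
  unfold pairsV
  rw [List.length_flatMap]
  refine (List.sum_le_card_nsmul _ n fun x hx => ?_).trans ?_
  · obtain ⟨r, _, rfl⟩ := List.mem_map.1 hx
    rw [List.length_map]
    exact (List.length_filter_le _ _).trans (length_rootsV T)
  · rw [List.length_map, smul_eq_mul]
    exact Nat.mul_le_mul_right _ (length_rootsV T)

theorem length_mvV (m₁ m₂ : Fin n → Fin n → ℤ) (w₁ : ℤ) (M₁ M₂ : List (List ℤ)) (el : ℤ → ℕ) :
    (mvV m₁ m₂ w₁ M₁ M₂ el).length = n * (2 * n) := by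
  unfold mvV
  rw [List.length_flatMap]
  simp

theorem length_cs (𝒜 : AnnData n) (t : ℕ) (P : Conc.Par) (ell : Fin n → ℤ) :
    (sdA 𝒜 t P ell).cs.length ≤ 4 * (n * n) := by
  unfold SD.cs
  rw [List.length_append, List.length_append, List.length_map, List.length_map, List.length_map]
  have h1 : (sdA 𝒜 t P ell).mv.length = n * (2 * n) := length_mvV _ _ _ _ _ _
  have h2 : (sdA 𝒜 t P ell).lk₁.length ≤ n * n := length_pairsV _
  have h3 : (sdA 𝒜 t P ell).lk₂.length ≤ n * n := length_pairsV _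
  have h4 : n * (2 * n) = 2 * (n * n) := by ring
  omega

/-- **`hlen`** -/
theorem hlen_sdA (s : SIn) (hn : sn s = n) (𝒜 : AnnData n) (t a : ℕ) (ell : Fin n → ℤ) :
    (sdA 𝒜 t (parOf cPar s a) ell).cs.length ≤ 2 ^ (sdA 𝒜 t (parOf cPar s a) ell).qa := by
  refine (length_cs 𝒜 t _ ell).trans ?_
  show 4 * (n * n) ≤ 2 ^ (3 * ss s)
  rw [two_pow_mul_ss]
  have h1 : n ≤ XX s := by rw [← hn]; exact (Nat.le_succ _).trans (sn_le s)
  calc 4 * (n * n) ≤ 4 * (XX s * XX s) := Nat.mul_le_mul_left _ (Nat.mul_le_mul h1 h1)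
    _ = 4 * XX s ^ 2 := by ring
    _ ≤ XX s ^ 3 := c_mul_pw (XX_ge s) (by norm_num)

/-- exponents of the directions, generic -/
theorem exp_cs (𝒜 : AnnData n) (t : ℕ) (P : Conc.Par) (ell : Fin n → ℤ) {k : ℕ}
    (h₁ : ∀ a b, mA 𝒜 𝒜.r₁ t a b ≤ 2 ^ k) (h₂ : ∀ a b, mA 𝒜 𝒜.r₂ t a b ≤ 2 ^ k)
    (hw : P.w₁ ≤ 2 ^ k) : ∀ p ∈ (sdA 𝒜 t P ell).cs, p.2 ≤ k := by
  intro p hp
  unfold SD.cs at hp
  rw [List.mem_append, List.mem_append] at hp
  rcases hp with hp | hp | hp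
  · obtain ⟨q, hq, rfl⟩ := List.mem_map.1 hp
    show q.2 ≤ _
    have hq' : q ∈ mvV (mA 𝒜 𝒜.r₁ t) (mA 𝒜 𝒜.r₂ t) P.w₁ (Conc.ofMat (mA 𝒜 𝒜.r₁ t))
      (Conc.ofMat (mA 𝒜 𝒜.r₂ t)) (elE P.w₁ P.dl) := hq
    unfold mvV at hq'
    obtain ⟨i, _, hq''⟩ := List.mem_flatMap.1 hq'
    obtain ⟨j, _, rfl⟩ := List.mem_map.1 hq''
    exact elE_le_of_le _ _ (keyV_le h₁ h₂ hw _)
  · obtain ⟨q, _, rfl⟩ := List.mem_map.1 hp
    exact Nat.zero_le _
  · obtain ⟨q, _, rfl⟩ := List.mem_map.1 hp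
    exact Nat.zero_le _

theorem four_XX_le_qb (s : SIn) : 4 * XX s ≤ cPar.qb s := by
  have hX := XX_ge s
  have h : 4 * XX s ≤ XX s ^ 2 := by
    rw [pow_two]
    exact Nat.mul_le_mul_right _ (by omega)
  exact h

/-- **`hexp`** -/
theorem hexp_sdA {R m : ℕ} {r₁ r₂ : Finset (Fin n) → ℕ} {lo hi : Fin n → ℤ} {𝒜 : AnnData n}
    (h : IsInst (prg cPar) n R m r₁ r₂ lo hi 𝒜) {t : ℕ}
    (ht : t ≤ (prg cPar).T (inp n R m lo hi)) (a : ℕ) (ell : Fin n → ℤ) :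
    ∀ p ∈ (sdA 𝒜 t (parOf cPar (inp n R m lo hi) a) ell).cs,
      p.2 ≤ (sdA 𝒜 t (parOf cPar (inp n R m lo hi) a) ell).qb := by
  intro p hp
  have e1 := mA₁_le h ht
  have e2 := mA₂_le h ht
  have e4 := four_XX_le_qb (inp n R m lo hi)
  have e3 : (parOf cPar (inp n R m lo hi) a).w₁ ≤ 2 ^ (4 * XX (inp n R m lo hi)) := by
    have := w1_le_mx (inp n R m lo hi)
    unfold mx0 at this
    exact this
  generalize 4 * XX (inp n R m lo hi) = k at e1 e2 e3 e4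
  exact (exp_cs 𝒜 t _ ell e1 e2 e3 p hp).trans e4

/-! ### the ratio of the links -/

theorem snR (s : SIn) : (sn s : ℝ) ≤ XX s := by exact_mod_cast (Nat.le_succ _).trans (sn_le s)

/-- the ratio for the estimators -/
theorem qE_le (s : SIn) :
    ((1 / 2 : ℝ) ^ (2 * ss s)) ^ 2 * (2 * 128 * (2 * (sn s : ℝ)) ^ 2) ≤ 1 / (XX s : ℝ) := by
  have hX := XX_geR s
  have hn := snR s
  have hn0 : (0 : ℝ) ≤ sn s := Nat.cast_nonneg _
  rw [half_pow]
  generalize (XX s : ℝ) = X at hX hn ⊢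
  generalize (sn s : ℝ) = k at hn hn0 ⊢
  have hX0 : 0 < X := by linarith
  have e : (1 / X ^ 2) ^ 2 * (2 * 128 * (2 * k) ^ 2) = 1024 * k ^ 2 / X ^ 4 := by
    field_simp
    ring
  rw [e, div_le_div_iff₀ (by positivity) hX0]
  have h1 : k ^ 2 ≤ X ^ 2 := pow_le_pow_left₀ hn0 hn 2
  calc 1024 * k ^ 2 * X ≤ 1024 * X ^ 2 * X := by gcongr
    _ ≤ X * X ^ 2 * X := by gcongr; linarith
    _ = 1 * X ^ 4 := by ring

/-- the ratio for the movers -/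
theorem qM_le (s : SIn) :
    ((1 / 2 : ℝ) ^ (33 * ss s)) ^ 2 * (2 * 128 * (2 * (sn s : ℝ)) ^ 2) ≤ 1 / (XX s : ℝ) ^ 63 := by
  have hX := XX_geR s
  have hn := snR s
  have hn0 : (0 : ℝ) ≤ sn s := Nat.cast_nonneg _
  rw [half_pow]
  generalize (XX s : ℝ) = X at hX hn ⊢
  generalize (sn s : ℝ) = k at hn hn0 ⊢
  have hX0 : 0 < X := by linarith
  have e : (1 / X ^ 33) ^ 2 * (2 * 128 * (2 * k) ^ 2) = 1024 * k ^ 2 / X ^ 66 := by
    field_simp
    ring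
  rw [e, div_le_div_iff₀ (by positivity) (by positivity)]
  have h1 : k ^ 2 ≤ X ^ 2 := pow_le_pow_left₀ hn0 hn 2
  calc 1024 * k ^ 2 * X ^ 63 ≤ 1024 * X ^ 2 * X ^ 63 := by gcongr
    _ ≤ X * X ^ 2 * X ^ 63 := by gcongr; linarith
    _ = 1 * X ^ 66 := by ring

/-! ### exponentially small numbers -/

/-- `exp (- y) ≤ 2 ^ (- k)` for `k ≤ y` -/
theorem exp_neg_le {y : ℝ} {k : ℕ} (h : (k : ℝ) ≤ y) : Real.exp (-y) ≤ (1 / 2) ^ k := by
  have h1 : Real.exp (-1) ≤ 1 / 2 := by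
    rw [Real.exp_neg, ← one_div]
    apply one_div_le_one_div_of_le (by norm_num)
    have := Real.add_one_le_exp (1 : ℝ)
    linarith
  calc Real.exp (-y) ≤ Real.exp (-(k : ℝ)) := Real.exp_le_exp.2 (by linarith)
    _ = Real.exp (-1) ^ k := by
        rw [← Real.exp_nat_mul]
        congr 1
        ring
    _ ≤ (1 / 2) ^ k := pow_le_pow_left₀ (Real.exp_pos _).le h1 _

/-- the bracket, generic -/
theorem tau_aux {x n : ℕ} (hx : 2 ^ 16 ≤ x) (hn : n ≤ x) {y : ℝ} (hy : (x : ℝ) ^ 2 ≤ y) :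
    4 * (1 / 2 : ℝ) ^ (x ^ 4) + 4 * (n : ℝ) * (Real.exp (-y) * (9 / 4) ^ (2 * n)) ≤ 1 / 2 ^ x := by
  have hpos : (0 : ℝ) < 2 ^ x := by positivity
  -- the first term
  have h1 : 4 * (1 / 2 : ℝ) ^ (x ^ 4) ≤ (1 / 2) ^ (x + 1) := by
    have e : (1 / 2 : ℝ) ^ (x ^ 4) ≤ (1 / 2) ^ (x + 1 + 2) := by
      apply pow_le_pow_of_le_one (by norm_num) (by norm_num)
      have : x * 2 ≤ x * x ^ 3 := Nat.mul_le_mul_left _ (by
        calc 2 ≤ x := le_trans (by norm_num) hx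
          _ = x ^ 1 := (pow_one x).symm
          _ ≤ x ^ 3 := Nat.pow_le_pow_right (by omega) (by norm_num))
      have e2 : x * x ^ 3 = x ^ 4 := by ring
      omega
    rw [pow_add _ (x + 1) 2] at e
    linarith
  -- the second term
  have h2 : Real.exp (-y) ≤ (1 / 2) ^ (x ^ 2) := exp_neg_le (by push_cast; exact hy)
  have h3 : (9 / 4 : ℝ) ^ (2 * n) ≤ 2 ^ (4 * x) := by
    calc (9 / 4 : ℝ) ^ (2 * n) ≤ 4 ^ (2 * n) := pow_le_pow_left₀ (by norm_num) (by norm_num) _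
      _ = 2 ^ (4 * n) := by
          rw [show (4 : ℝ) = 2 ^ 2 by norm_num, ← pow_mul]
          congr 1
          ring
      _ ≤ 2 ^ (4 * x) := pow_le_pow_right₀ (by norm_num) (by omega)
  have h4 : 4 * (n : ℝ) ≤ 2 ^ (x + 2) := by
    have h5 : (n : ℝ) ≤ 2 ^ x := by
      have : n < 2 ^ x := lt_of_le_of_lt hn Nat.lt_two_pow_self
      exact_mod_cast this.le
    rw [pow_add]
    linarith
  have h6 : 4 * (n : ℝ) * (Real.exp (-y) * (9 / 4) ^ (2 * n)) ≤ (1 / 2) ^ (x + 1) := by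
    calc 4 * (n : ℝ) * (Real.exp (-y) * (9 / 4) ^ (2 * n))
        ≤ 2 ^ (x + 2) * ((1 / 2) ^ (x ^ 2) * 2 ^ (4 * x)) := by
          apply mul_le_mul h4 _ (by positivity) (by positivity)
          exact mul_le_mul h2 h3 (by positivity) (by positivity)
      _ = (1 / 2) ^ (x ^ 2) * 2 ^ (5 * x + 2) := by
          rw [show 5 * x + 2 = (x + 2) + 4 * x by ring, pow_add 2 (x + 2) (4 * x)]
          ring
      _ ≤ (1 / 2) ^ ((5 * x + 2) + (x + 1)) * 2 ^ (5 * x + 2) := by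
          apply mul_le_mul_of_nonneg_right _ (by positivity)
          apply pow_le_pow_of_le_one (by norm_num) (by norm_num)
          nlinarith
      _ = (1 / 2) ^ (x + 1) := by
          rw [pow_add, mul_right_comm, ← mul_pow]
          norm_num
  have e : (1 : ℝ) / 2 ^ x = (1 / 2) ^ (x + 1) + (1 / 2) ^ (x + 1) := by
    rw [pow_succ, one_div_pow]
    ring
  rw [e]
  exact add_le_add h1 h6

theorem dk_aux {X k κ : ℝ} (hX : 65536 ≤ X) (hk0 : 0 < k) (hk : k ≤ X) (hκ0 : 0 < κ)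
    (hκ : κ ≤ X ^ 9) : X ^ 2 ≤ X ^ 75 / (16 * (64 * k * κ)) := by
  rw [le_div_iff₀ (by positivity)]
  have hX1 : (1 : ℝ) ≤ X := by linarith
  calc X ^ 2 * (16 * (64 * k * κ)) ≤ X ^ 2 * (16 * (64 * X * X ^ 9)) := by gcongr
    _ = 1024 * X ^ 12 := by ring
    _ ≤ X * X ^ 12 := by gcongr; linarith
    _ = X ^ 13 := by ring
    _ ≤ X ^ 75 := pow_le_pow_right₀ hX1 (by norm_num)

theorem dk_cast (s : SIn) : (cPar.dk s : ℝ) = (XX s : ℝ) ^ 75 := by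
  have h : cPar.dk s = XX s ^ 75 := rfl
  rw [h, Nat.cast_pow]

theorem kap_pos' {n : ℕ} (hn : 0 < n) : 0 < Facet.kap n := by
  unfold Facet.kap
  positivity

/-- the exponent of the kernel tails -/
theorem dk_div (s : SIn) (hn : 0 < sn s) :
    (XX s : ℝ) ^ 2 ≤ (cPar.dk s : ℝ) / (16 * (64 * (sn s : ℝ) * (Facet.kap (sn s) : ℝ))) := by
  have hk : (Facet.kap (sn s) : ℝ) ≤ (XX s : ℝ) ^ 9 := by
    exact_mod_cast kap_le' (XX_ge s) (sn_le s)
  have hk0 : (0 : ℝ) < Facet.kap (sn s) := by exact_mod_cast kap_pos' hn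
  have hn1 : (0 : ℝ) < sn s := by exact_mod_cast hn
  rw [dk_cast]
  exact dk_aux (XX_geR s) hn1 (snR s) hk0 hk

/-- **the bracket of `hsm_sdA`** (`j = X ^ 4`) -/
theorem tau_le (s : SIn) (hn : 0 < sn s) {δ : ℝ} :
    4 * δ + 4 * (1 / 2 : ℝ) ^ (XX s ^ 4) + 4 * (sn s : ℝ) *
        (Real.exp (-((cPar.dk s : ℝ) / (16 * (64 * (sn s : ℝ) * (Facet.kap (sn s) : ℝ))))) *
          (9 / 4) ^ (2 * sn s)) ≤ 4 * δ + 1 / 2 ^ XX s := by
  have := tau_aux (XX_ge s) ((Nat.le_succ _).trans (sn_le s)) (dk_div s hn)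
  linarith

end Crest.Agent.R302.Num
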