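import Crest.Agent.R302.Num272C

/-!
# R302, numbers D (helper272): the final forms for `cPar`
-/

set_option autoImplicit false

namespace Crest.Agent.R302.Num

open Crest.Agent.R302.Smp Crest.Agent.R302.Top Crest.Agent.R302.Cst Crest.Agent.R302.AnnBox
open Crest.Agent.R302.Prog Crest.Agent.R302.T893 Crest.Agent.R302.Inst

variable (s : SIn)

/-- threshold of `chainOK_prg` -/
theorem hw : (16 * sn s * Facet.kap (sn s) + (4 * sn s + 2) : ℤ) ≤ (cPar.w₁ s : ℤ) := by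
  have h1 := kap_le' (XX_ge s) (sn_le s)
  have h2 : sn s ≤ XX s := (Nat.le_succ _).trans (sn_le s)
  have h3 : 16 * sn s * Facet.kap (sn s) + (4 * sn s + 2) ≤ XX s ^ 112 := by
    have h4 : 16 * sn s * Facet.kap (sn s) ≤ 16 * XX s ^ 10 := by
      calc 16 * sn s * Facet.kap (sn s) ≤ 16 * XX s * XX s ^ 9 :=
            Nat.mul_le_mul (Nat.mul_le_mul_left _ h2) h1
        _ = 16 * XX s ^ 10 := by ring
    have h5 : XX s ≤ XX s ^ 10 := by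
      calc XX s = XX s ^ 1 := (pow_one _).symm
        _ ≤ XX s ^ 10 := Nat.pow_le_pow_right (by have := XX_ge s; omega) (by norm_num)
    have h6 := one_le_XXpow s 10
    calc 16 * sn s * Facet.kap (sn s) + (4 * sn s + 2) ≤ 22 * XX s ^ 10 := by omega
      _ ≤ XX s ^ 112 := c_mul_pw' (XX_ge s) (by norm_num) (by norm_num)
  exact_mod_cast h3

theorem hw' : (cA (sn s) : ℤ) < (cPar.w₁ s : ℤ) := by
  have h1 := cA_le (XX_ge s) (sn_le s)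
  have h2 : XX s ^ 12 < XX s ^ 112 := by
    apply Nat.pow_lt_pow_right _ (by norm_num)
    have := XX_ge s
    omega
  have h3 : cA (sn s) < cPar.w₁ s := lt_of_le_of_lt h1 h2
  exact_mod_cast h3

/-- **N1** -/
theorem N1 {a : ℕ} (ha : a ≤ 33 * ss s) :
    3 * A0n (sn s) (2 * sn s + 1) (kap ((1 / 2) ^ a) 1) (G0 s) ((XX s ^ 76 : ℕ) : ℝ)
      ((cPar.w₁ s : ℤ) : ℝ) ((1 / 2) ^ a) * kap ((1 / 2) ^ a) 1 ^ 3 ≤ (XX s : ℝ) ^ 1500 :=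
  hA1_real (XR_ge s) (A00_le s ha) (kap_th_ge a) (kap_th_le s ha)

theorem PPn_nonneg {N : ℕ} {κ G P w θ : ℝ} : 0 ≤ PPn N κ G P w θ := by unfold PPn; positivity

theorem A0n_nonneg {n N : ℕ} {κ G P w θ : ℝ} (hκ : 1 ≤ κ) : 0 ≤ A0n n N κ G P w θ := by
  have hCC := CC_nonneg (N := N) hκ (PPn_nonneg (N := N) (κ := κ) (G := G) (P := P) (w := w) (θ := θ))
  have hκ0 : 0 ≤ κ := by linarith
  unfold A0n
  positivity

theorem KSn_nonneg {n N : ℕ} {κ G P w θ mx : ℝ} (hκ : 1 ≤ κ) : 0 ≤ KSn n N κ G P w θ mx := by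
  have hCC := CC_nonneg (N := N) hκ (PPn_nonneg (N := N) (κ := κ) (G := G) (P := P) (w := w) (θ := θ))
  have hκ0 : 0 ≤ κ := by linarith
  unfold KSn
  positivity

theorem CD_nonneg {n N m : ℕ} {κ KS : ℝ} (hκ : 1 ≤ κ) (hK : 0 ≤ KS) : 0 ≤ CD n N m κ KS := by
  have := C2_nonneg (m := m) (n := n) hκ
  have hκ0 : 0 ≤ κ := by linarith
  unfold CD
  positivity

theorem A00_nonneg (a : ℕ) : 0 ≤ A00 s a := A0n_nonneg (kap_th_ge a)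

theorem KSn_cast_le {n N x w : ℕ} {mx : ℤ} {κ θ : ℝ} (hw : w = x ^ 112)
    (h : KSn n N κ ((x : ℝ) ^ 18) ((x : ℝ) ^ 76) ((x : ℝ) ^ 112) θ mx ≤ 2 ^ (9 * x)) :
    KSn n N κ ((x : ℝ) ^ 18) ((x ^ 76 : ℕ) : ℝ) (((w : ℕ) : ℤ) : ℝ) θ mx ≤ 2 ^ (9 * x) := by
  subst hw
  push_cast
  exact h

/-- **N2** -/
theorem N2 {a : ℕ} (ha : a ≤ 33 * ss s) {V : Type*} [Fintype V] (hV : Fintype.card V ≤ sn s) :
    (1 + (2 * sn s ^ 2 : ℕ) * (6 * A0n (sn s) (2 * sn s + 1) (kap ((1 / 2) ^ a) 1) (G0 s)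
      ((XX s ^ 76 : ℕ) : ℝ) ((cPar.w₁ s : ℤ) : ℝ) ((1 / 2) ^ a) * kap ((1 / 2) ^ a) 1 ^ 3)) *
        Link.KL V (2 * XX s ^ 4) ≤ (XX s : ℝ) ^ 1500 := by
  refine hA2_real (XR_ge s) (snR s) (A00_le s ha) (A00_nonneg s a) (kap_th_ge a) (kap_th_le s ha)
    ?_ ?_
  · exact le_trans (by exact_mod_cast hV) (snR s)
  · push_cast; exact le_rfl

/-- **N3** -/
theorem N3 {a : ℕ} (ha : a ≤ 33 * ss s) {β φ : ℝ} (hβ0 : 0 ≤ β) (hβ : β ≤ 1 / 2 ^ (XX s ^ 3))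
    (hφ0 : 0 ≤ φ) (hφ : φ ≤ 1 / 2 ^ (XX s ^ 3)) :
    CD (sn s) (2 * sn s + 1) (2 * cPar.M s) (kap ((1 / 2) ^ a) 1)
        (KSn (sn s) (2 * sn s + 1) (kap ((1 / 2) ^ a) 1) (G0 s) ((XX s ^ 76 : ℕ) : ℝ)
          ((cPar.w₁ s : ℤ) : ℝ) ((1 / 2) ^ a) ((mx0 s : ℤ) : ℝ)) * β +
      (1 + (2 * sn s ^ 2 : ℕ) * (6 * A0n (sn s) (2 * sn s + 1) (kap ((1 / 2) ^ a) 1) (G0 s)
        ((XX s ^ 76 : ℕ) : ℝ) ((cPar.w₁ s : ℤ) : ℝ) ((1 / 2) ^ a) * kap ((1 / 2) ^ a) 1 ^ 3)) *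
          (8 * φ) ≤ 1 / 2 ^ XX s := by
  have hκ1 := kap_th_ge a
  have hκ := kap_th_le s ha
  have hθ := th_pos a
  have hA0 := A00_nonneg s a
  have hmx : ((mx0 s : ℤ) : ℝ) ≤ 2 ^ (4 * XX s) := by unfold mx0; push_cast; exact le_rfl
  have hmx0 : (0 : ℝ) ≤ ((mx0 s : ℤ) : ℝ) := by
    have : (0 : ℤ) ≤ mx0 s := by
      have := w1_le_mx s
      have h0 : (0 : ℤ) ≤ (cPar.w₁ s : ℤ) := Int.natCast_nonneg _
      linarith
    exact_mod_cast this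
  have hKS := KSn_cast_le (w := cPar.w₁ s) rfl (KSn_le (XR_ge s) (pow_le_two_powR s (by norm_num))
    (snR s) (NR s) hκ1 hκ hθ (th_inv s ha) hmx0 hmx)
  have hCD := CD_le (XX_ge20 s) (pow_le_two_powR s (by norm_num)) (m := 2 * cPar.M s) le_rfl
    ((Nat.le_succ _).trans (sn_le s)) (NR s) hκ1 hκ (KSn_nonneg hκ1) hKS
  have hCD0 := CD_nonneg (n := sn s) (N := 2 * sn s + 1) (m := 2 * cPar.M s) hκ1
    (KSn_nonneg (n := sn s) (N := 2 * sn s + 1) (G := G0 s) (P := ((XX s ^ 76 : ℕ) : ℝ))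
      (w := ((cPar.w₁ s : ℤ) : ℝ)) (θ := th a) (mx := ((mx0 s : ℤ) : ℝ)) hκ1)
  refine drho_real (XX_ge20 s) (pow_le_two_powR s (by norm_num)) hCD0 hCD ?_
    (pre_le (XR_ge s) (snR s) (A00_le s ha) hA0 hκ1 hκ) hβ0 hβ hφ0 hφ
  have h3 : (0 : ℝ) ≤ kap (th a) 1 ^ 3 := by
    have : (0 : ℝ) ≤ kap (th a) 1 := by linarith
    exact pow_nonneg this 3
  have : (0 : ℝ) ≤ (2 * sn s ^ 2 : ℕ) * (6 * A00 s a * kap (th a) 1 ^ 3) :=
    mul_nonneg (Nat.cast_nonneg _) (mul_nonneg (mul_nonneg (by norm_num) hA0) h3)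
  exact add_nonneg zero_le_one this

/-- `A`, `δ`, `η` -/
noncomputable def AA0 : ℝ := (XX s : ℝ) ^ 1500
noncomputable def δ0 : ℝ := 1 / (XX s : ℝ) ^ 1630
noncomputable def η0 : ℝ := 1 / (XX s : ℝ) ^ 61

theorem XR_pos : (0 : ℝ) < (XX s : ℝ) := by
  have := XR_ge s
  linarith [show (0 : ℝ) < 2 ^ 20 by norm_num]

theorem AA0_pos : 0 < AA0 s := by have := XR_pos s; unfold AA0; positivity
theorem δ0_pos : 0 < δ0 s := by have := XR_pos s; unfold δ0; positivity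
theorem η0_pos : 0 < η0 s := by have := XR_pos s; unfold η0; positivity

theorem one_le_XR : (1 : ℝ) ≤ (XX s : ℝ) := one_le_of (XR_ge s)

theorem δ0_le_one : δ0 s ≤ 1 := by
  unfold δ0
  rw [div_le_one (by have := XR_pos s; positivity)]
  exact one_le_pow₀ (one_le_XR s)

theorem qa_pow : (2 : ℝ) ^ (cPar.qa s + 2) = 4 * (XX s : ℝ) ^ 3 := by
  rw [pow_add]
  have h : (2 : ℝ) ^ cPar.qa s = (XX s : ℝ) ^ 3 := by
    show (2 : ℝ) ^ (3 * ss s) = _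
    exact_mod_cast two_pow_mul_ss s 3
  rw [h]
  ring

/-- **N4** -/
theorem N4 {ρ τ : ℝ} (hρ : ρ ≤ 1 / 2 ^ XX s) (hτ : τ ≤ 4 * δ0 s + 1 / 2 ^ XX s) :
    256 * ρ + 512 * (AA0 s * 2 ^ (cPar.qa s + 2)) * τ ≤ η0 s ^ 2 := by
  rw [qa_pow]
  exact hnum_real (XR_ge s) (pow_le_two_powR s (by norm_num)) hρ hτ

/-- number of halvings -/
def L0 : ℕ := 123 * ss s

/-- **N5** -/
theorem N5a : 8 ≤ η0 s ^ 2 * 2 ^ L0 s := by
  have h : (2 : ℝ) ^ L0 s = (XX s : ℝ) ^ 123 := by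
    unfold L0
    exact_mod_cast two_pow_mul_ss s 123
  have hX := XR_pos s
  rw [h]
  unfold η0
  have e : (1 / (XX s : ℝ) ^ 61) ^ 2 * (XX s : ℝ) ^ 123 = (XX s : ℝ) := by
    have : (XX s : ℝ) ^ 123 = ((XX s : ℝ) ^ 61) ^ 2 * (XX s : ℝ) := by
      rw [← pow_mul, ← pow_succ]
    rw [this]
    field_simp
  rw [e]
  exact le_trans (by norm_num) (XR_ge s)

theorem N5b : (L0 s : ℝ) ≤ δ0 s / (AA0 s * 2 ^ (cPar.qa s + 2)) * (cPar.TE s : ℕ) := by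
  rw [qa_pow]
  have h : ((cPar.TE s : ℕ) : ℝ) = (XX s : ℝ) ^ 3135 := by
    show ((XX s ^ 3135 : ℕ) : ℝ) = _
    push_cast
    rfl
  rw [h]
  refine steps_real (XR_ge s) ?_
  unfold L0
  exact_mod_cast (c_mul_s_le (n := sn s) (R := sR s) (m := sm s) (c := 123) (by norm_num))

theorem TM_eq : cPar.TM s = cPar.TE s := rfl

/-- `c = δ / (A 2^(qa+2))` is in `(0, 1]` -/
theorem c_pos : 0 < δ0 s / (AA0 s * 2 ^ (cPar.qa s + 2)) := by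
  have := δ0_pos s; have := AA0_pos s; positivity

theorem c_le_one : δ0 s / (AA0 s * 2 ^ (cPar.qa s + 2)) ≤ 1 := by
  have h1 := δ0_le_one s
  have h2 : 1 ≤ AA0 s := by unfold AA0; exact one_le_pow₀ (one_le_XR s)
  have h3 : (1 : ℝ) ≤ 2 ^ (cPar.qa s + 2) := one_le_pow₀ (by norm_num)
  have h4 : 1 ≤ AA0 s * 2 ^ (cPar.qa s + 2) := one_le_mul_of_one_le_of_one_le h2 h3
  rw [div_le_one (by linarith)]
  linarith

/-- **N6** -/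
theorem N6 : (cPar.TE s : ℕ) * ((1 / 2 : ℝ) ^ cPar.kmax s +
    ((sn s : ℝ) * (1 / 2 ^ cPar.N s) + (sn s : ℝ) * (1 / 2 ^ cPar.N s))) ≤ 1 / (XX s : ℝ) ^ 61 := by
  have h : ((cPar.TE s : ℕ) : ℝ) = (XX s : ℝ) ^ 3135 := by
    show ((XX s ^ 3135 : ℕ) : ℝ) = _
    push_cast
    rfl
  have h1 : (1 / 2 : ℝ) ^ cPar.kmax s = 1 / (XX s : ℝ) ^ 3210 := half_pow s 3210
  have h2 : (1 : ℝ) / 2 ^ cPar.N s = 1 / (XX s : ℝ) ^ 3210 := by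
    rw [← one_div_pow]; exact half_pow s 3210
  rw [h, h1, h2]
  exact es_real (XR_ge s) (snR s)

/-- the errors of the loop, estimators -/
theorem errE : 1 / (XX s : ℝ) ^ 61 + 4 * (1 / (XX s : ℝ) ^ 61) + η0 s ≤ eE0 s := by
  have hX := XR_pos s
  unfold η0 eE0
  have e : 1 / (XX s : ℝ) ^ 61 + 4 * (1 / (XX s : ℝ) ^ 61) + 1 / (XX s : ℝ) ^ 61 =
      6 / (XX s : ℝ) ^ 61 := by ring
  rw [e, div_le_div_iff₀ (by positivity) (by positivity), one_mul]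
  exact (cpw (XR_ge s) (by norm_num) 44).trans (pw_le (XR_ge s) (by norm_num))

/-- the errors of the loop, movers -/
theorem errM : 1 / (XX s : ℝ) ^ 61 + 4 * (1 / (XX s : ℝ) ^ 61) + η0 s +
    2 * (1 / (XX s : ℝ) ^ 61 + 1 / (XX s : ℝ) ^ 61) ≤ eM0 s := by
  have hX := XR_pos s
  unfold η0 eM0
  have e : 1 / (XX s : ℝ) ^ 61 + 4 * (1 / (XX s : ℝ) ^ 61) + 1 / (XX s : ℝ) ^ 61 +
      2 * (1 / (XX s : ℝ) ^ 61 + 1 / (XX s : ℝ) ^ 61) = 10 / (XX s : ℝ) ^ 61 := by ring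
  rw [e, div_le_div_iff₀ (by positivity) (by positivity), one_mul]
  exact cpw (XR_ge s) (by norm_num) 60

end Crest.Agent.R302.Num
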