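import Crest.Agent.R302.Inst536
import Crest.Agent.R302.Num272D
import Crest.Agent.R302.Num166
import Crest.Agent.R302.Num166B
import Crest.Agent.R302.BadmSdA907

/-!
R302 (helper893): `StIn.mix` for the two chains of the concrete program, from `MassIn`.

* `mix_gen` : for any stage data `sdA 𝒜 t Pr ell`, all numbers as hypotheses;
* `mix_cPar` : the concrete program.
-/

set_option autoImplicit false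
set_option linter.unusedSectionVars false
set_option linter.unusedVariables false

namespace Crest.Agent.R302.T893

open Finset
open Crest.Agent.R302.Inst Crest.Agent.R302.Stage Crest.Agent.R302.Macro
open Crest.Agent.R302.GeoSpec Crest.Agent.R302.StageL
open Crest.Agent.R302.ConcF Crest.Agent.R302.AnnBox
open Crest.Agent.R302.Conc (sdA sdOf parOf ellOf jF mem_jF mA)
open Crest.Agent.R302.Mix Crest.Agent.R302.Smp Crest.Agent.R302.Top Crest.Agent.R302.Prog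
open Crest.Agent.R302.Fields Crest.Agent.R302.Facet Crest.Agent.R302.ORAM
open Crest.Agent.R309.MC

variable {n : ℕ}

/-- the constant `1 + 2 n ^ 2 * 6 A₀ κ ^ 3` of (S1) -/
noncomputable def KA (n : ℕ) (θ G P w1 : ℝ) : ℝ :=
  1 + (2 * n ^ 2 : ℕ) * (6 * A0n n (2 * n + 1) (Inst.kap θ 1) G P w1 θ * Inst.kap θ 1 ^ 3)

/-- the constant of the mass outside of the windows -/
noncomputable def KD (n M : ℕ) (θ G P w1 mx : ℝ) : ℝ :=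
  CD n (2 * n + 1) (2 * M) (Inst.kap θ 1) (KSn n (2 * n + 1) (Inst.kap θ 1) G P w1 θ mx)

theorem kap_one_ge {θ : ℝ} (h0 : 0 < θ) (h1 : θ ≤ 1) : 1 ≤ Inst.kap θ 1 := by
  unfold Inst.kap
  have h2 : 1 ≤ θ⁻¹ := (one_le_inv₀ h0).2 h1
  have h3 : 1 ≤ Real.exp 1 := by
    have := Real.add_one_le_exp (1 : ℝ)
    linarith
  have h4 : 1 ≤ θ⁻¹ * Real.exp 1 := by nlinarith
  nlinarith

theorem KD_nonneg {k M : ℕ} {θ G P w1 mx : ℝ} (h0 : 0 < θ) (h1 : θ ≤ 1) :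
    0 ≤ KD k M θ G P w1 mx :=
  Num.CD_nonneg (kap_one_ge h0 h1) (Num.KSn_nonneg (kap_one_ge h0 h1))

theorem KA_nonneg {k : ℕ} {θ G P w1 : ℝ} (h0 : 0 < θ) (h1 : θ ≤ 1) : 0 ≤ KA k θ G P w1 := by
  have hκ := kap_one_ge h0 h1
  unfold KA
  have hA : 0 ≤ A0n k (2 * k + 1) (Inst.kap θ 1) G P w1 θ := Num.A0n_nonneg hκ
  have : 0 ≤ (2 * k ^ 2 : ℕ) * (6 * A0n k (2 * k + 1) (Inst.kap θ 1) G P w1 θ *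
      Inst.kap θ 1 ^ 3) := by
    positivity
  linarith

theorem half_pow_pos (a : ℕ) : (0 : ℝ) < (1 / 2) ^ a := by positivity

theorem half_pow_le (a : ℕ) : ((1 / 2 : ℝ)) ^ a ≤ 1 := pow_le_one₀ (by norm_num) (by norm_num)

theorem farM_nonneg' {D : SD (Fin n)} (hOK : D.OK) (Kw : ℕ) :
    0 ≤ Joint.farM D.Bx D.a₁ D.a₂ D.Λ₁ D.Λ₂ D.S₁.blk D.S₂.blk Kw := by
  unfold Joint.farM
  refine Finset.sum_nonneg fun p _ => ?_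
  rw [← SD.nuG_eq_joint]
  exact SD.nuG_nonneg hOK p

/-- **`StIn.mix`**, all numbers as hypotheses -/
theorem mix_gen (𝒜 : AnnData n) (hn : 1 ≤ n) {t : ℕ} (Pr : Conc.Par) (ell : Fin n → ℤ)
    {L' t' : ℕ} {x₀ : Fin n → ℤ} {r₁ r₂ : Finset (Fin n) → ℤ} {R : ℤ} {rep : Fin n → Fin n}
    (hS : Spec (sdA 𝒜 t Pr ell) (mA 𝒜 𝒜.r₁ t) (mA 𝒜 𝒜.r₂ t) Pr.w₁ Pr.dk L' t' x₀ r₁ r₂ R rep)
    {P : ℕ} {mx : ℤ} {G : ℝ} (hN : PNum n Pr.a Pr.dk Pr.dl P Pr.w₁ mx G)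
    (hmx : (stQ n 𝒜.L t : ℤ) ≤ mx) (hM : n * (G * mx) + 2 * mx ≤ Pr.M)
    (Kw : ℕ) {A : ℝ} (hA : 1 ≤ A)
    (hA1 : 3 * A0n n (2 * n + 1) (Inst.kap ((1 / 2) ^ Pr.a) 1) G P Pr.w₁ ((1 / 2) ^ Pr.a) *
      Inst.kap ((1 / 2) ^ Pr.a) 1 ^ 3 ≤ A)
    (hA2 : KA n ((1 / 2) ^ Pr.a) G P Pr.w₁ *
        Link.KL (sdA 𝒜 t Pr ell).S₁.Blk (2 * Kw) ≤ A)
    (hA3 : KA n ((1 / 2) ^ Pr.a) G P Pr.w₁ *
        Link.KL (sdA 𝒜 t Pr ell).S₂.Blk (2 * Kw) ≤ A)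
    (hOK : (sdA 𝒜 t Pr ell).OK)
    (hlen : (sdA 𝒜 t Pr ell).cs.length ≤ 2 ^ (sdA 𝒜 t Pr ell).qa)
    (hexp : ∀ p ∈ (sdA 𝒜 t Pr ell).cs, p.2 ≤ (sdA 𝒜 t Pr ell).qb)
    {Γ e : ℝ} (Mi : Gau.MassIn (sdA 𝒜 t Pr ell) (𝒜.Z t) (fun u v => 𝒜.Nst t v u) Γ e)
    {C : ℕ} (hC : 1 ≤ C) (hctr : IsCenter 𝒜.r₁ 𝒜.r₂ (𝒜.PH 0) C 𝒜.x₀)
    (hLb₁ : ∀ z ∈ jF 𝒜 𝒜.r₁ t, ∀ r, |(sdA 𝒜 t Pr ell).S₁.blk z r| ≤ Pr.Lb)
    (hLb₂ : ∀ z ∈ jF 𝒜 𝒜.r₂ t, ∀ r, |(sdA 𝒜 t Pr ell).S₂.blk z r| ≤ Pr.Lb)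
    (hthin : t < T0 n 𝒜.L → (∀ a, (sdA 𝒜 t Pr ell).S₁.T.par a = none) ∧
      ∀ a, (sdA 𝒜 t Pr ell).S₂.T.par a = none)
    {h₀ lam j : ℕ} (hlam : n + 1 ≤ lam) (hlam' : h₀ ≤ lam) (hKw : 2 * n * Kw ≤ h₀)
    (hh : 2 ≤ h₀) (hj : 2 * j ≤ h₀ + 1)
    (hd : 0 < Pr.dk) (hdw : (Pr.dk : ℤ) ≤ Pr.w₁) (hdk : 128 * Facet.kap n ≤ Pr.dk)
    (hw : (8 * Facet.kap n : ℤ) ≤ Pr.w₁) (hw' : (2 * (4 * n + 2) * h₀ : ℤ) ≤ Pr.w₁)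
    (hG : ((lam * (8 * n ^ 3 * C + n * (3 * n + 4)) + h₀ + 2 : ℕ) : ℝ) ≤ G)
    (hsM : stQ n 𝒜.L t ≤ Pr.M)
    {q : ℝ} (hq : (sdA 𝒜 t Pr ell).θ ^ 2 * (2 * Γ * (2 * n) ^ 2) ≤ q) (hq1 : q ≤ 1 / 2)
    {tb tf ρ : ℝ}
    (htb : 4 * q ^ (Kw + 1) + 4 * n * ((9 / 4 * Real.exp (-((Pr.dk : ℝ) / 16))) *
      (9 / 4) ^ (2 * n)) ≤ tb)
    (htf : 4 * q ^ (Kw + 1) ≤ tf)
    (hρ : KD n Pr.M ((1 / 2) ^ Pr.a) G P Pr.w₁ mx * tb +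
      KA n ((1 / 2) ^ Pr.a) G P Pr.w₁ * (8 * tf) ≤ ρ)
    {δ τ η : ℝ} (hδ : 0 < δ) (hδ1 : δ ≤ 1)
    (hτ : 4 * δ + 4 * (1 / 2) ^ j + 4 * n *
        (Real.exp (-(Pr.dk / (16 * (64 * n * Facet.kap n)))) * (9 / 4) ^ (2 * n)) ≤ τ)
    (hnum : 256 * ρ + 512 * (A * 2 ^ (Pr.qa + 2)) * τ ≤ η ^ 2) {T L : ℕ}
    (hL : 8 ≤ η ^ 2 * 2 ^ L) (hT : (L : ℝ) ≤ δ / (A * 2 ^ (Pr.qa + 2)) * T) :
    ∃ (c e : ℝ) (L : ℕ), 0 < c ∧ c ≤ 1 ∧ 0 ≤ e ∧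
      PoincD (fun σ : (sdA 𝒜 t Pr ell).bx => (sdA 𝒜 t Pr ell).nuG σ) (sdA 𝒜 t Pr ell).Kch c e ∧
      128 * e ≤ c * mass (fun σ : (sdA 𝒜 t Pr ell).bx => (sdA 𝒜 t Pr ell).nuG σ) * η ^ 2 ∧
      8 ≤ η ^ 2 * 2 ^ L ∧ (L : ℝ) ≤ c * T := by
  classical
  have : Nonempty (Fin n) := ⟨⟨0, hn⟩⟩
  have hcard : Fintype.card (Fin n) = n := Fintype.card_fin n
  have hZ := 𝒜.Z_pos t
  have hθ0 := half_pow_pos Pr.a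
  have hθ1 := half_pow_le Pr.a
  have hq' : (sdA 𝒜 t Pr ell).θ ^ 2 * (2 * Γ * (2 * Fintype.card (Fin n)) ^ 2) ≤ q := by
    rw [hcard]; exact hq
  -- far mass
  have hfar : Joint.farM (sdA 𝒜 t Pr ell).Bx (sdA 𝒜 t Pr ell).a₁ (sdA 𝒜 t Pr ell).a₂
      (sdA 𝒜 t Pr ell).Λ₁ (sdA 𝒜 t Pr ell).Λ₂ (sdA 𝒜 t Pr ell).S₁.blk
      (sdA 𝒜 t Pr ell).S₂.blk Kw ≤ tf * 𝒜.Z t :=
    (Mi.farM_le' hq' hq1 Kw).trans (mul_le_mul_of_nonneg_right htf hZ.le)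
  -- mass outside of the windows
  have hbad := (Tail907.badm_sdA 𝒜 hn Mi hC hctr hLb₁ hLb₂ hthin hlam hlam' hKw hd hdw hdk hw hw'
    hG hq hq1).trans (mul_le_mul_of_nonneg_right htb hZ.le)
  have hbad0 : 0 ≤ badm (sdA 𝒜 t Pr ell).S₁.T (sdA 𝒜 t Pr ell).S₂.T
      (LL G (wtV (mA 𝒜 𝒜.r₁ t) (mA 𝒜 𝒜.r₂ t) Pr.w₁))
      (cen (sdA 𝒜 t Pr ell).S₁.T (sdA 𝒜 t Pr ell).S₂.T 𝒜.x₀) (sdA 𝒜 t Pr ell).Wx
      (Fintype.piFinset fun a => Icc (𝒜.x₀ a - Pr.M - 1) (𝒜.x₀ a + Pr.M + 1)) :=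
    badm_nonneg (fun y => (ww_pos hS.facts.pair y).le) _ _ _ _ _
  have hfar0 := farM_nonneg' hOK Kw
  have hKD := KD_nonneg (k := n) (M := Pr.M) (G := G) (P := (P : ℝ)) (w1 := (Pr.w₁ : ℝ))
    (mx := (mx : ℝ)) hθ0 hθ1
  have hKA := KA_nonneg (k := n) (G := G) (P := (P : ℝ)) (w1 := (Pr.w₁ : ℝ)) hθ0 hθ1
  have hP := fun (f : Stage.St (sdA 𝒜 t Pr ell) → ℝ) (M : ℝ) (hM0 : 0 ≤ M) (hfM : ∀ p, |f p| ≤ M) =>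
    S1_ann 𝒜 t Pr ell hS hn hN hmx hM Kw hA1 hA2 hA3 f hM0 hfM
  refine mix_of hOK hlen hexp hA hP hδ hδ1 hZ ?_ (ρ := ρ) ?_
    ((Mass4.hsm_sdA 𝒜 hn hOK Mi hLb₁ hLb₂ hsM hh hj hthin hdk hd hdw hw hw' (hq.trans hq1) hδ.le
      hδ1).trans (mul_le_mul_of_nonneg_right hτ hZ.le)) Mi.half_mass hnum hL hT
  · exact add_nonneg (mul_nonneg hKD hbad0) (mul_nonneg hKA (by positivity))
  · calc _ ≤ KD n Pr.M ((1 / 2) ^ Pr.a) G P Pr.w₁ mx * (tb * 𝒜.Z t) +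
          KA n ((1 / 2) ^ Pr.a) G P Pr.w₁ * (8 * (tf * 𝒜.Z t)) :=
        add_le_add (mul_le_mul_of_nonneg_left hbad hKD)
          (mul_le_mul_of_nonneg_left (mul_le_mul_of_nonneg_left hfar (by norm_num)) hKA)
      _ = (KD n Pr.M ((1 / 2) ^ Pr.a) G P Pr.w₁ mx * tb +
          KA n ((1 / 2) ^ Pr.a) G P Pr.w₁ * (8 * tf)) * 𝒜.Z t := by ring
      _ ≤ ρ * 𝒜.Z t := mul_le_mul_of_nonneg_right hρ hZ.le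

theorem two_le_X6 (s : SIn) : 2 ≤ XX s ^ 6 := by
  have h1 := XX_ge s
  have h2 : XX s ^ 1 ≤ XX s ^ 6 := Nat.pow_le_pow_right (by omega) (by norm_num)
  rw [pow_one] at h2
  omega

theorem two_X4_le (s : SIn) : 2 * XX s ^ 4 ≤ XX s ^ 6 + 1 := by
  have h1 : 2 * XX s ^ 4 ≤ XX s ^ 6 := Cst.c_mul_pw' (XX_ge s) (by norm_num) (by norm_num)
  omega

section inst

variable {R m : ℕ} {r₁ r₂ : Finset (Fin n) → ℕ} {lo hi : Fin n → ℤ} {𝒜 : AnnData n}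

theorem mix_aux (h : IsInst (Prog.prg cPar) n R m r₁ r₂ lo hi 𝒜) {t : ℕ}
    (ht : t < (Prog.prg cPar).T (inp n R m lo hi)) {a : ℕ} (ha : a ≤ 33 * ss (inp n R m lo hi))
    (g : List ℤ) {e : ℝ}
    (M : Gau.MassIn (Dc 𝒜 (rq r₁ r₂) (inp n R m lo hi) t a g) (𝒜.Z (t + 1))
      (fun u v => 𝒜.Nst (t + 1) v u) 128 e) {q : ℝ} (hq0 : 0 ≤ q) (hq1 : q ≤ 1 / 2)
    (hq : ((1 / 2 : ℝ) ^ a) ^ 2 * (2 * 128 * (2 * (sn (inp n R m lo hi) : ℝ)) ^ 2) ≤ q) :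
    ∃ (c e' : ℝ) (L : ℕ), 0 < c ∧ c ≤ 1 ∧ 0 ≤ e' ∧
      PoincD (fun σ : (Dc 𝒜 (rq r₁ r₂) (inp n R m lo hi) t a g).bx =>
        (Dc 𝒜 (rq r₁ r₂) (inp n R m lo hi) t a g).nuG σ)
        (Dc 𝒜 (rq r₁ r₂) (inp n R m lo hi) t a g).Kch c e' ∧
      128 * e' ≤ c * mass (fun σ : (Dc 𝒜 (rq r₁ r₂) (inp n R m lo hi) t a g).bx =>
        (Dc 𝒜 (rq r₁ r₂) (inp n R m lo hi) t a g).nuG σ) * (Num.η0 (inp n R m lo hi)) ^ 2 ∧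
      8 ≤ (Num.η0 (inp n R m lo hi)) ^ 2 * 2 ^ L ∧
      (L : ℝ) ≤ c * (cPar.TE (inp n R m lo hi) : ℕ) := by
  classical
  have hOK := dc_ok (𝒜 := 𝒜) (rq r₁ r₂) (inp n R m lo hi) t a g
  have hlen := dc_len (𝒜 := 𝒜) (R := R) (m := m) (lo := lo) (hi := hi) (rq r₁ r₂) t a g
  have hexp := dc_exp h ht (rq r₁ r₂) a g
  have hS := spec_c h ht a g
  have hst := stQ_inst h ht
  have hlo₁ := ConcF.inst_pos₁ h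
  have hlo₂ := ConcF.inst_pos₂ h
  have hctr := h.ctr
  have hRL : 𝒜.R ≤ ((cPar.Lb (inp n R m lo hi) : ℕ) : ℤ) := by
    rw [h.AR]
    exact_mod_cast R_le_Lb (inp n R m lo hi)
  have hn0 := h.n0
  have hsn : sn (inp n R m lo hi) = n := rfl
  unfold Dc at *
  set s := inp n R m lo hi with hs
  have hst' : (stQ n 𝒜.L (t + 1) : ℤ) ≤ Num.mx0 s := by
    unfold Num.mx0
    exact_mod_cast hst
  have hsM : stQ n 𝒜.L (t + 1) ≤ cPar.M s :=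
    hst.trans (Nat.pow_le_pow_right (by norm_num) (by omega))
  have hblk : ∀ (V : Type) [Fintype V], Fintype.card V ≤ n → KA n ((1 / 2) ^ a) (Num.G0 s)
      ((XX s ^ 76 : ℕ) : ℝ) ((cPar.w₁ s : ℤ) : ℝ) * Link.KL V (2 * XX s ^ 4) ≤ (XX s : ℝ) ^ 1500 := by
    intro V _ hV
    exact Num.N2 s ha hV
  have hA2 : KA n ((1 / 2) ^ a) (Num.G0 s) ((XX s ^ 76 : ℕ) : ℝ) ((cPar.w₁ s : ℤ) : ℝ) *
      Link.KL (sdA 𝒜 (t + 1) (parOf cPar s a) (ellOf cPar (rq r₁ r₂) s t g)).S₁.Blk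
        (2 * XX s ^ 4) ≤ (XX s : ℝ) ^ 1500 := by
    refine hblk _ ((Fintype.card_subtype_le _).trans (le_of_eq (Fintype.card_fin n)))
  have hA3 : KA n ((1 / 2) ^ a) (Num.G0 s) ((XX s ^ 76 : ℕ) : ℝ) ((cPar.w₁ s : ℤ) : ℝ) *
      Link.KL (sdA 𝒜 (t + 1) (parOf cPar s a) (ellOf cPar (rq r₁ r₂) s t g)).S₂.Blk
        (2 * XX s ^ 4) ≤ (XX s : ℝ) ^ 1500 := by
    refine hblk _ ((Fintype.card_subtype_le _).trans (le_of_eq (Fintype.card_fin n)))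
  have hC : 1 ≤ Center.cC n := by
    rcases Num.sd_C s with h1 | h1
    · exact h1
    · rw [hsn] at h1; omega
  have hLb₁ : ∀ z ∈ jF 𝒜 𝒜.r₁ (t + 1), ∀ r,
      |(sdA 𝒜 (t + 1) (parOf cPar s a) (ellOf cPar (rq r₁ r₂) s t g)).S₁.blk z r| ≤
        (parOf cPar s a).Lb := fun z hz r =>
    ConcF.sdA_blk₁ 𝒜 (t + 1) (parOf cPar s a) (ellOf cPar (rq r₁ r₂) s t g) hlo₁ hlo₂ hRL z hz r
  have hLb₂ : ∀ z ∈ jF 𝒜 𝒜.r₂ (t + 1), ∀ r,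
      |(sdA 𝒜 (t + 1) (parOf cPar s a) (ellOf cPar (rq r₁ r₂) s t g)).S₂.blk z r| ≤
        (parOf cPar s a).Lb := fun z hz r =>
    ConcF.sdA_blk₂ 𝒜 (t + 1) (parOf cPar s a) (ellOf cPar (rq r₁ r₂) s t g) hlo₁ hlo₂ hRL z hz r
  have hthin : t + 1 < T0 n 𝒜.L →
      (∀ b, (sdA 𝒜 (t + 1) (parOf cPar s a) (ellOf cPar (rq r₁ r₂) s t g)).S₁.T.par b = none) ∧
      ∀ b, (sdA 𝒜 (t + 1) (parOf cPar s a) (ellOf cPar (rq r₁ r₂) s t g)).S₂.T.par b = none :=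
    fun h1 => ⟨fun b => (ConcF.sdA_thin 𝒜 (t + 1) (parOf cPar s a) _ h1.le (cA_lt_w1 s) b).1,
      fun b => (ConcF.sdA_thin 𝒜 (t + 1) (parOf cPar s a) _ h1.le (cA_lt_w1 s) b).2⟩
  exact mix_gen 𝒜 hn0 (parOf cPar s a) (ellOf cPar (rq r₁ r₂) s t g) hS (P := XX s ^ 76)
    (mx := Num.mx0 s) (G := Num.G0 s) (Num.pnum s ha) hst' (Num.hM s) (XX s ^ 4)
    (A := (XX s : ℝ) ^ 1500) (one_le_pow₀ (Num.one_le_XR s)) (Num.N1 s ha) hA2 hA3 hOK hlen hexp M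
    hC hctr hLb₁ hLb₂ hthin (h₀ := XX s ^ 6) (lam := XX s ^ 6) (j := XX s ^ 4) (Num.sd_lam s)
    le_rfl (Num.sd_Kw s) (two_le_X6 s) (two_X4_le s) (Num.sd_dk0 s) (Num.sd_dkwZ s) (Num.sd_dk s) (Num.sd_wZ s)
    (Num.sd_wZ' s) (Num.sd_G s) hsM hq hq1 (tb := 1 / 2 ^ (XX s ^ 3)) (tf := 1 / 2 ^ (XX s ^ 3))
    (ρ := 1 / 2 ^ XX s) (Num.tb_le s hq0 hq1) (Num.tf_le s hq0 hq1)
    (Num.N3 s ha (by positivity) le_rfl (by positivity) le_rfl) (Num.δ0_pos s) (Num.δ0_le_one s)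
    (Num.tau_le s hn0) (Num.N4 s le_rfl le_rfl) (Num.N5a s) (Num.N5b s)

/-- **`StIn.mix` of the two chains of the concrete program** -/
theorem mix_cPar (h : IsInst (Prog.prg cPar) n R m r₁ r₂ lo hi 𝒜) {t : ℕ}
    (ht : t < (Prog.prg cPar).T (inp n R m lo hi)) {a : ℕ}
    (ha : a = 2 * ss (inp n R m lo hi) ∨ a = 33 * ss (inp n R m lo hi)) (g : List ℤ) {e : ℝ}
    (M : Gau.MassIn (Dc 𝒜 (rq r₁ r₂) (inp n R m lo hi) t a g) (𝒜.Z (t + 1))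
      (fun u v => 𝒜.Nst (t + 1) v u) 128 e) :
    ∃ (c e' : ℝ) (L : ℕ), 0 < c ∧ c ≤ 1 ∧ 0 ≤ e' ∧
      PoincD (fun σ : (Dc 𝒜 (rq r₁ r₂) (inp n R m lo hi) t a g).bx =>
        (Dc 𝒜 (rq r₁ r₂) (inp n R m lo hi) t a g).nuG σ)
        (Dc 𝒜 (rq r₁ r₂) (inp n R m lo hi) t a g).Kch c e' ∧
      128 * e' ≤ c * mass (fun σ : (Dc 𝒜 (rq r₁ r₂) (inp n R m lo hi) t a g).bx =>
        (Dc 𝒜 (rq r₁ r₂) (inp n R m lo hi) t a g).nuG σ) * (Num.η0 (inp n R m lo hi)) ^ 2 ∧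
      8 ≤ (Num.η0 (inp n R m lo hi)) ^ 2 * 2 ^ L ∧
      (L : ℝ) ≤ c * (cPar.TE (inp n R m lo hi) : ℕ) := by
  rcases ha with rfl | rfl
  · exact mix_aux h ht (Nat.mul_le_mul_right _ (by norm_num)) g M (Num.qE_half _).1
      (Num.qE_half _).2 (Num.qE_le _)
  · exact mix_aux h ht le_rfl g M (Num.qM_half _).1 (Num.qM_half _).2 (Num.qM_le _)

end inst

end Crest.Agent.R302.T893
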