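import Crest.Agent.R302.Loop272C

/-! R302 (helper272): `ChainOK` is monotone in the errors. -/

set_option autoImplicit false

namespace Crest.Agent.R302.Loop

open Crest.Agent.R309.Tape

variable {S Ω : Type*}

theorem ChainOK.mono {C : Chain S Ω} {n t : ℕ} {μ ν : Law S} {π : List ℤ → Law Ω}
    {N N' : ℕ → ℕ → ℝ} {Z Z' kap B eE eM eE' eM' : ℝ} (h : ChainOK C n t μ ν π N N' Z Z' kap B eE eM)
    (hE : eE ≤ eE') (hM : eM ≤ eM') : ChainOK C n t μ ν π N N' Z Z' kap B eE' eM' where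
  rep_lt := h.rep_lt
  conv g hg φ hφ := (h.conv g hg φ hφ).trans hE
  rat := h.rat
  move g hg φ hφ d hd := (h.move g hg φ hφ d hd).trans hM
  nonneg := h.nonneg
  tri := h.tri
  blk := h.blk
  monN := h.monN
  monZ := h.monZ
  posZ := h.posZ

end Crest.Agent.R302.Loop
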