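import Crest.Agent.R302.Mass151C
import Crest.Agent.R302.Const302

/-!
# R302 (helper151): numeric discharge of `TauOK`, `EtaOK`, `M3OK`

`X = 2 ^ s`, `n + 1 ≤ X`, `64 s ≤ X`, `2^(k p) X^75 ≤ m p` on fat edges:
`ρ = 36 / X^64`, `ε = (9/4) / X^64`, `η = 8 / X^66`, `ε₀ = 1 / X^61`.
-/

set_option autoImplicit false

namespace Crest.Agent.R302.Mass151

open Finset Crest.Agent.R302.Facet Crest.Agent.R302.Inst Crest.Agent.R302.Blk
open Crest.Agent.R302.Stage Crest.Agent.R302.KapR Crest.Agent.R302.Tail907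

variable {V : Type*} [Fintype V] [DecidableEq V]

theorem kapX {X n : ℕ} (hX : 2 ^ 16 ≤ X) (hn : n + 1 ≤ X) : (Facet.kap n : ℝ) ≤ (X : ℝ) ^ 9 := by
  have := Cst.kap_le' hX hn
  exact_mod_cast this

/-- the denominators -/
theorem sub_ge {X n m : ℕ} (hX : 2 ^ 16 ≤ X) (hn : n + 1 ≤ X) (hm : X ^ 75 ≤ m) :
    4 * n + 2 ≤ m ∧ m ≤ 2 * (m - (4 * n + 2)) ∧ 8 * Facet.kap n ≤ m := by
  have h1 : X ^ 3 ≤ X ^ 75 := Nat.pow_le_pow_right (by omega) (by norm_num)
  have h2 : 8 * X ≤ X ^ 3 := by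
    calc 8 * X ≤ X ^ 2 * X := Nat.mul_le_mul_right _ (by nlinarith)
      _ = X ^ 3 := by ring
  have h3 : 8 * Facet.kap n ≤ X ^ 75 := by
    calc 8 * Facet.kap n ≤ 8 * X ^ 9 := Nat.mul_le_mul_left _ (Cst.kap_le' hX hn)
      _ ≤ X ^ 75 := Cst.c_mul_pw' hX (by norm_num) (by norm_num)
  refine ⟨by omega, by omega, h3.trans hm⟩

theorem exp_neg_le (B : ℕ) : Real.exp (-(B : ℝ)) ≤ (1 / 2) ^ B := by
  have h1 : Real.exp (-1) ≤ 1 / 2 := by
    have h2 : (2 : ℝ) ≤ Real.exp 1 := by linarith [Real.add_one_le_exp (1 : ℝ)]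
    rw [Real.exp_neg, one_div]
    exact inv_anti₀ (by norm_num) h2
  have h3 : Real.exp (-(B : ℝ)) = Real.exp (-1) ^ B := by
    rw [← Real.exp_nat_mul]; congr 1; ring
  rw [h3]
  exact pow_le_pow_left₀ (Real.exp_pos _).le h1 B

theorem tauOK_X {S : Side V} {m k : V → ℕ} {X s : ℕ} (hX : X = 2 ^ s) (h16 : 2 ^ 16 ≤ X)
    (hs : 64 * s ≤ X) (hn : Fintype.card V + 1 ≤ X)
    (h : ∀ p, S.T.par p ≠ none → 2 ^ k p * X ^ 75 ≤ m p) :
    TauOK S m k (fun p => 8 * 2 ^ k p * (64 * s)) (36 / (X : ℝ) ^ 64) (9 / 4 / (X : ℝ) ^ 64) := by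
  have hX0 : (0 : ℝ) < X := by have : 0 < X := by omega
                               exact_mod_cast this
  refine ⟨by positivity, by positivity, fun a ha => ?_, fun p hp => ?_⟩
  · refine le_trans ?_ (window_ge (k a) (8 * 2 ^ k a * (64 * s)))
    have h1 : Real.exp (-((((8 * 2 ^ k a * (64 * s) : ℕ) : ℝ) + 1) / (8 * 2 ^ k a))) ≤
        Real.exp (-((64 * s : ℕ) : ℝ)) := by
      apply Real.exp_le_exp.2
      rw [neg_le_neg_iff, le_div_iff₀ (by positivity)]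
      push_cast
      linarith
    have h2 := exp_neg_le (64 * s)
    have h3 : ((1 : ℝ) / 2) ^ (64 * s) = 1 / (X : ℝ) ^ 64 := by
      rw [one_div_pow]
      congr 1
      rw [hX]
      push_cast
      rw [← pow_mul, mul_comm]
    have h4 : (9 : ℝ) / 4 / (X : ℝ) ^ 64 = 9 / 4 * (1 / (X : ℝ) ^ 64) := by ring
    rw [h4, ← h3]
    linarith
  · set n := Fintype.card V with hnn
    have hmX : X ^ 75 ≤ m p := le_trans (Nat.le_mul_of_pos_left _ (by positivity)) (h p hp)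
    obtain ⟨a1, a2, a3⟩ := sub_ge h16 hn hmX
    refine ⟨a1, ?_⟩
    have hn1 : 1 ≤ n := Fintype.card_pos_iff.2 ⟨p⟩
    have hk : 0 < Facet.kap n := kap_pos hn1
    have hkr : (0 : ℝ) < Facet.kap n := by exact_mod_cast hk
    -- right side
    have b1 : ((m p - (4 * n + 2) : ℕ) : ℝ) / Facet.kap n ≤
        (((m p - (4 * n + 2)) / Facet.kap n + 1 : ℕ) : ℝ) := by
      rw [div_le_iff₀ hkr]
      have := Nat.lt_div_mul_add (a := m p - (4 * n + 2)) hk
      have h5 : m p - (4 * n + 2) ≤ ((m p - (4 * n + 2)) / Facet.kap n + 1) * Facet.kap n := by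
        rw [add_mul, one_mul]; exact this.le
      exact_mod_cast h5
    have b2 : (2 : ℝ) ^ k p * (X : ℝ) ^ 75 / (2 * Facet.kap n) ≤
        ((m p - (4 * n + 2) : ℕ) : ℝ) / Facet.kap n := by
      rw [div_le_div_iff₀ (by positivity) hkr]
      have h6 : (2 : ℝ) ^ k p * (X : ℝ) ^ 75 ≤ 2 * ((m p - (4 * n + 2) : ℕ) : ℝ) := by
        have : 2 ^ k p * X ^ 75 ≤ 2 * (m p - (4 * n + 2)) := (h p hp).trans a2
        exact_mod_cast this
      calc (2 : ℝ) ^ k p * (X : ℝ) ^ 75 * Facet.kap n ≤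
            2 * ((m p - (4 * n + 2) : ℕ) : ℝ) * Facet.kap n :=
            mul_le_mul_of_nonneg_right h6 hkr.le
        _ = _ := by ring
    have b3 : (18 : ℝ) * 2 ^ k p * (X : ℝ) ^ 2 ≤
        36 / (X : ℝ) ^ 64 * ((2 : ℝ) ^ k p * (X : ℝ) ^ 75 / (2 * Facet.kap n)) := by
      have h7 : (36 : ℝ) / (X : ℝ) ^ 64 * ((2 : ℝ) ^ k p * (X : ℝ) ^ 75 / (2 * Facet.kap n)) =
          18 * 2 ^ k p * ((X : ℝ) ^ 11 / Facet.kap n) := by
        field_simp
        ring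
      rw [h7]
      apply mul_le_mul_of_nonneg_left _ (by positivity)
      rw [le_div_iff₀ hkr]
      calc (X : ℝ) ^ 2 * Facet.kap n ≤ (X : ℝ) ^ 2 * (X : ℝ) ^ 9 :=
            mul_le_mul_of_nonneg_left (kapX h16 hn) (by positivity)
        _ = (X : ℝ) ^ 11 := by ring
    refine le_trans ?_ (mul_le_mul_of_nonneg_left (b2.trans b1) (by positivity))
    refine le_trans ?_ b3
    -- left side
    have c1 : 2 * (n * (8 * 2 ^ k p * (64 * s)) + 1) ≤ 18 * 2 ^ k p * X ^ 2 := by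
      have d1 : n * (64 * s) ≤ X * X := Nat.mul_le_mul (by omega) hs
      have d2 : 1 ≤ 2 ^ k p := Nat.one_le_two_pow
      have d3 : 1 ≤ X * X := Nat.one_le_iff_ne_zero.2 (by positivity)
      have d4 : 1 ≤ 2 ^ k p * (X * X) := Nat.one_le_iff_ne_zero.2 (by positivity)
      calc 2 * (n * (8 * 2 ^ k p * (64 * s)) + 1)
          = 16 * (2 ^ k p * (n * (64 * s))) + 2 := by ring
        _ ≤ 16 * (2 ^ k p * (X * X)) + 2 * (2 ^ k p * (X * X)) := by
            apply Nat.add_le_add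
            · exact Nat.mul_le_mul_left _ (Nat.mul_le_mul_left _ d1)
            · omega
        _ = 18 * 2 ^ k p * X ^ 2 := by ring
    have c2 : (2 * (((n * (8 * 2 ^ k p * (64 * s)) : ℕ) : ℝ) + 1)) ≤
        18 * 2 ^ k p * (X : ℝ) ^ 2 := by exact_mod_cast c1
    exact c2

theorem etaOK_X {S : Side V} {m k : V → ℕ} {X : ℕ} (h16 : 2 ^ 16 ≤ X)
    (hn : Fintype.card V + 1 ≤ X) (h : ∀ p, S.T.par p ≠ none → 2 ^ k p * X ^ 75 ≤ m p) :
    EtaOK S m k (8 / (X : ℝ) ^ 66) := by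
  have hX0 : (0 : ℝ) < X := by have : 0 < X := by omega
                               exact_mod_cast this
  have hX16 : (65536 : ℝ) ≤ X := by
    have : (65536 : ℕ) ≤ X := by simpa using h16
    exact_mod_cast this
  refine ⟨by positivity, ?_, fun p hp => ?_⟩
  · rw [div_le_div_iff₀ (by positivity) (by norm_num)]
    have h1 : (65536 : ℝ) ≤ (X : ℝ) ^ 66 :=
      hX16.trans (le_self_pow₀ (by linarith) (by norm_num))
    linarith
  · set n := Fintype.card V with hnn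
    have hmX : X ^ 75 ≤ m p := le_trans (Nat.le_mul_of_pos_left _ (by positivity)) (h p hp)
    obtain ⟨a1, a2, a3⟩ := sub_ge h16 hn hmX
    refine ⟨a1, by omega, ?_⟩
    have hmr : (2 : ℝ) ^ k p * (X : ℝ) ^ 75 ≤ 2 * ((m p - (4 * n + 2) : ℕ) : ℝ) := by
      have : 2 ^ k p * X ^ 75 ≤ 2 * (m p - (4 * n + 2)) := (h p hp).trans a2
      exact_mod_cast this
    have hpos : (0 : ℝ) < ((m p - (4 * n + 2) : ℕ) : ℝ) := by
      have h1 : 0 < X ^ 75 := by positivity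
      have : 0 < m p - (4 * n + 2) := by omega
      exact_mod_cast this
    rw [div_mul_eq_mul_div, div_le_div_iff₀ hpos (by positivity)]
    calc 4 * (Facet.kap n : ℝ) * 2 ^ k p * (X : ℝ) ^ 66 ≤
          4 * (X : ℝ) ^ 9 * 2 ^ k p * (X : ℝ) ^ 66 := by
          gcongr
          exact kapX h16 hn
      _ = 4 * (2 ^ k p * (X : ℝ) ^ 75) := by ring
      _ ≤ 4 * (2 * ((m p - (4 * n + 2) : ℕ) : ℝ)) := mul_le_mul_of_nonneg_left hmr (by norm_num)
      _ = _ := by ring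

/-- the error of MASS1 -/
theorem lo_X {X n : ℕ} (h16 : 2 ^ 16 ≤ X) (hn : n + 1 ≤ X) :
    2 * (n : ℝ) * (9 / 4 / (X : ℝ) ^ 64) + 4 * n * (36 / (X : ℝ) ^ 64) ≤ 1 / (X : ℝ) ^ 62 := by
  have hX0 : (0 : ℝ) < X := by have : 0 < X := by omega
                               exact_mod_cast this
  have hX16 : (65536 : ℝ) ≤ X := by
    have : (65536 : ℕ) ≤ X := by simpa using h16
    exact_mod_cast this
  have hnr : (n : ℝ) ≤ X := by
    have : n ≤ X := by omega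
    exact_mod_cast this
  have e : 2 * (n : ℝ) * (9 / 4 / (X : ℝ) ^ 64) + 4 * n * (36 / (X : ℝ) ^ 64) =
      (297 / 2 * n) / (X : ℝ) ^ 64 := by ring
  rw [e, div_le_div_iff₀ (by positivity) (by positivity), one_mul]
  calc 297 / 2 * (n : ℝ) * (X : ℝ) ^ 62 ≤ 65536 * X * (X : ℝ) ^ 62 := by
        gcongr
        · norm_num
    _ ≤ X * X * (X : ℝ) ^ 62 := by gcongr
    _ = (X : ℝ) ^ 64 := by ring

/-- the factor of the upper bound: `exp (20 n η) ≤ 1 + 1 / X^63` -/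
theorem up_X {X n : ℕ} (h16 : 2 ^ 16 ≤ X) (hn : n + 1 ≤ X) :
    20 * (n : ℝ) * (8 / (X : ℝ) ^ 66) ≤ 1 / (X : ℝ) ^ 64 := by
  have hX0 : (0 : ℝ) < X := by have : 0 < X := by omega
                               exact_mod_cast this
  have hX16 : (65536 : ℝ) ≤ X := by
    have : (65536 : ℕ) ≤ X := by simpa using h16
    exact_mod_cast this
  have hnr : (n : ℝ) ≤ X := by
    have : n ≤ X := by omega
    exact_mod_cast this
  have e : 20 * (n : ℝ) * (8 / (X : ℝ) ^ 66) = (160 * n) / (X : ℝ) ^ 66 := by ring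
  rw [e, div_le_div_iff₀ (by positivity) (by positivity), one_mul]
  calc 160 * (n : ℝ) * (X : ℝ) ^ 64 ≤ 65536 * X * (X : ℝ) ^ 64 := by gcongr; norm_num
    _ ≤ X * X * (X : ℝ) ^ 64 := by gcongr
    _ = (X : ℝ) ^ 66 := by ring

theorem exp_le_of {y : ℝ} (h0 : 0 ≤ y) (h1 : y ≤ 1 / 2) : Real.exp y ≤ 1 + 2 * y := by
  have h3 : 1 - y ≤ Real.exp (-y) := by linarith [Real.add_one_le_exp (-y)]
  rw [Real.exp_neg] at h3
  have h4 := Real.exp_pos y
  have h5 : (1 - y) * Real.exp y ≤ 1 := by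
    have := mul_le_mul_of_nonneg_right h3 h4.le
    rwa [inv_mul_cancel₀ h4.ne'] at this
  by_contra hcon
  push Not at hcon
  nlinarith

theorem exp_up_X {X n : ℕ} (h16 : 2 ^ 16 ≤ X) (hn : n + 1 ≤ X) :
    Real.exp (20 * (n : ℝ) * (8 / (X : ℝ) ^ 66)) ≤ 1 + 1 / (X : ℝ) ^ 63 := by
  have hX0 : (0 : ℝ) < X := by have : 0 < X := by omega
                               exact_mod_cast this
  have hX16 : (65536 : ℝ) ≤ X := by
    have : (65536 : ℕ) ≤ X := by simpa using h16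
    exact_mod_cast this
  have h1 := up_X h16 hn
  have h2 : (1 : ℝ) / (X : ℝ) ^ 64 ≤ 1 / 2 := by
    rw [div_le_div_iff₀ (by positivity) (by norm_num)]
    have : (65536 : ℝ) ≤ (X : ℝ) ^ 64 := hX16.trans (le_self_pow₀ (by linarith) (by norm_num))
    linarith
  have h3 := exp_le_of (y := 20 * (n : ℝ) * (8 / (X : ℝ) ^ 66)) (by positivity) (h1.trans h2)
  have h4 : 2 * (1 / (X : ℝ) ^ 64) ≤ 1 / (X : ℝ) ^ 63 := by
    rw [mul_one_div, div_le_div_iff₀ (by positivity) (by positivity), one_mul]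
    calc (2 : ℝ) * (X : ℝ) ^ 63 ≤ X * (X : ℝ) ^ 63 := by gcongr; linarith
      _ = (X : ℝ) ^ 64 := by ring
  linarith

/-- `M3OK` with `ε₀ = 1 / X^61` -/
theorem m3OK_X {X : ℕ} (h16 : 2 ^ 16 ≤ X) (h1 : 1 ≤ Fintype.card V)
    (hn : Fintype.card V + 1 ≤ X) {w1 : ℕ}
    (hw : X ^ 75 ≤ w1) :
    M3OK V (w1 : ℤ) (w1 - (4 * Fintype.card V + 2)) (8 / (X : ℝ) ^ 66) (36 / (X : ℝ) ^ 64)
      (9 / 4 / (X : ℝ) ^ 64) (1 / (X : ℝ) ^ 61) := by
  set n := Fintype.card V with hnn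
  have hX0 : (0 : ℝ) < X := by have : 0 < X := by omega
                               exact_mod_cast this
  have hX16 : (65536 : ℝ) ≤ X := by
    have : (65536 : ℕ) ≤ X := by simpa using h16
    exact_mod_cast this
  obtain ⟨a1, a2, a3⟩ := sub_ge h16 hn hw
  have hhalf : (1 : ℝ) / (X : ℝ) ^ 62 ≤ 1 / (X : ℝ) ^ 61 / 2 := by
    rw [div_div, div_le_div_iff₀ (by positivity) (by positivity), one_mul]
    calc (X : ℝ) ^ 61 * 2 ≤ (X : ℝ) ^ 61 * X := by gcongr; linarith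
      _ = 1 * (X : ℝ) ^ 62 := by ring
  refine ⟨?_, ?_, ?_, ?_, ?_⟩
  · rw [Nat.cast_sub a1]; push_cast; rw [← hnn]; linarith
  · rw [← hnn]
    have hk : 0 < Facet.kap n := kap_pos h1
    have : 3 ≤ (w1 - (4 * n + 2)) / Facet.kap n := by
      rw [Nat.le_div_iff_mul_le hk]
      omega
    omega
  · rw [div_le_one (by positivity)]
    exact one_le_pow₀ (by linarith)
  · rw [← hnn]
    have b1 := up_X h16 hn
    have hkr := kapX h16 hn
    have b2 : 8 * (n : ℝ) / (((w1 - (4 * n + 2)) / Facet.kap n + 1 : ℕ) : ℝ) ≤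
        1 / (X : ℝ) ^ 63 := by
      rcases Nat.eq_zero_or_pos n with h0 | hn1
      · rw [h0]; simp
      have hk : 0 < Facet.kap n := kap_pos hn1
      have hk0 : (0 : ℝ) < Facet.kap n := by exact_mod_cast hk
      have c1 : ((w1 - (4 * n + 2) : ℕ) : ℝ) ≤
          (((w1 - (4 * n + 2)) / Facet.kap n + 1 : ℕ) : ℝ) * Facet.kap n := by
        have := Nat.lt_div_mul_add (a := w1 - (4 * n + 2)) hk
        have h5 : w1 - (4 * n + 2) ≤ ((w1 - (4 * n + 2)) / Facet.kap n + 1) * Facet.kap n := by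
          rw [add_mul, one_mul]; exact this.le
        exact_mod_cast h5
      have c2 : (X : ℝ) ^ 75 ≤ 2 * ((w1 - (4 * n + 2) : ℕ) : ℝ) := by
        have : X ^ 75 ≤ 2 * (w1 - (4 * n + 2)) := hw.trans a2
        exact_mod_cast this
      set q : ℝ := (((w1 - (4 * n + 2)) / Facet.kap n + 1 : ℕ) : ℝ) with hq
      have hq0 : 0 < q := by rw [hq]; positivity
      have c3 : (X : ℝ) ^ 75 ≤ 2 * q * (X : ℝ) ^ 9 := by
        calc (X : ℝ) ^ 75 ≤ 2 * (q * Facet.kap n) := c2.trans (by linarith)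
          _ ≤ 2 * (q * (X : ℝ) ^ 9) := by gcongr
          _ = _ := by ring
      have c4 : (X : ℝ) ^ 66 ≤ 2 * q := by
        have : (X : ℝ) ^ 66 * (X : ℝ) ^ 9 ≤ 2 * q * (X : ℝ) ^ 9 := by
          calc (X : ℝ) ^ 66 * (X : ℝ) ^ 9 = (X : ℝ) ^ 75 := by ring
            _ ≤ _ := c3
        exact le_of_mul_le_mul_right this (by positivity)
      have hnr : (n : ℝ) ≤ X := by
        have : n ≤ X := by omega
        exact_mod_cast this
      rw [div_le_div_iff₀ hq0 (by positivity), one_mul]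
      calc 8 * (n : ℝ) * (X : ℝ) ^ 63 ≤ 8 * X * (X : ℝ) ^ 63 := by gcongr
        _ = 8 * (X : ℝ) ^ 64 := by ring
        _ ≤ (65536 * 65536 / 2) * (X : ℝ) ^ 64 := by gcongr; norm_num
        _ ≤ (X * X / 2) * (X : ℝ) ^ 64 := by gcongr
        _ = (X : ℝ) ^ 66 / 2 := by ring
        _ ≤ q := by linarith
    have b3 : (1 : ℝ) / (X : ℝ) ^ 64 ≤ 1 / (X : ℝ) ^ 63 :=
      one_div_le_one_div_of_le (by positivity) (pow_le_pow_right₀ (by linarith) (by norm_num))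
    have b4 : (1 : ℝ) / (X : ℝ) ^ 63 + 1 / (X : ℝ) ^ 63 ≤ 1 / (X : ℝ) ^ 62 := by
      rw [← two_mul, mul_one_div, div_le_div_iff₀ (by positivity) (by positivity), one_mul]
      calc (2 : ℝ) * (X : ℝ) ^ 62 ≤ X * (X : ℝ) ^ 62 := by gcongr; linarith
        _ = (X : ℝ) ^ 63 := by ring
    linarith
  · rw [← hnn]
    exact (lo_X h16 hn).trans hhalf

end Crest.Agent.R302.Mass151
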