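import Crest.Agent.R302.Top497B
import Crest.Agent.R302.LoopOPT675

/-!
# R302, block TOP (helper497), part C: the estimator is polynomial time relative to the oracle
-/

set_option autoImplicit false
set_option linter.dupNamespace false

namespace Crest.Agent.R302.Top

open Crest.Polymatroid Crest.Agent.R302.Facet Crest.Agent.R302.EDM Crest.Agent.R302.ORAM
open Crest.Agent.R309.Tape Crest.Agent.R309.Count632 Crest.Agent.Lib.PT Crest.Agent.R309.PTX

/-- relative computability of the sampler -/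
def RelSmp (smp : Smp) : Prop :=
  ∀ Q : Inst → Bool → List Bool → ℕ, OPTF (fun I (p : Bool × List Bool) => Q I p.1 p.2) →
    OPTF (fun I (p : SIn × List Bool) => smp (Q I) p.1 p.2)

/-! ### parameters -/

theorem ptu_cn : PTU cn := by unfold cn; fun_prop
theorem ptf_cR : PTF cR := by unfold cR; fun_prop
theorem ptu_cE : PTU cE := by unfold cE; fun_prop
theorem ptu_cJ : PTU cJ := by
  have h1 := ptu_cn
  have h2 : PTU (fun c => (cR c).size) := PTF.natSizeUn ptf_cR
  unfold cJ; fun_prop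
theorem ptu_cK : PTU cK := by
  have h1 := ptu_cJ
  have h2 := ptu_cE
  unfold cK; fun_prop
theorem ptu_cm : PTU cm := by
  have h1 := ptu_cJ
  have h2 := ptu_cE
  unfold cm; fun_prop
theorem ptu_cM : PTU cM := by
  have h2 : PTU (fun c : CIn => (c.2.2.2.1.den).size) := PTF.natSizeUn (PTF.ratDen (by fun_prop))
  unfold cM; fun_prop
theorem ptu_cS : PTU cS := by
  have h1 := ptu_cn
  have h2 : PTU (fun c => (cR c).size) := PTF.natSizeUn ptf_cR
  unfold cS; fun_prop
theorem ptu_cI : PTU cI := by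
  have h1 := ptu_cn
  have h2 : PTU (fun c => (cR c).size) := PTF.natSizeUn ptf_cR
  have h3 := ptu_cm
  have h4 := ptu_cS
  unfold cI; fun_prop
theorem ptu_cr (q : Polynomial ℕ) : PTU (cr q) := PTU.eval q ptu_cI

/-- **the number of bits** -/
theorem ptu_N (q : Polynomial ℕ) : PTU (N q) := by
  have h1 := ptu_cM
  have h2 := ptu_cJ
  have h3 := ptu_cK
  have h4 := ptu_cr q
  unfold N; fun_prop

theorem ptf_s0 : PTF s0 := by
  unfold s0
  exact PTF.prodMk (PTF.replicate ptu_cn (PTF.const 0))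
    (PTF.replicate ptu_cn (PTF.intNatCast ptf_cR))

/-! ### the bisection functions -/

theorem ptf_pos : PTF (fun p : CIn × Bx => pos? (cn p.1) p.2) := by
  have h1 := ptu_cn
  unfold pos?
  pt_solve

theorem ptf_pj : PTF (fun p : CIn × Bx => pj (cn p.1) p.2) := by
  have h1 := ptf_pos
  unfold pj
  exact PTF.optionGetD h1 (PTF.const 0)

theorem ptf_mid : PTF (fun p : CIn × Bx => mid (cn p.1) p.2) := by
  have h1 := ptf_pj
  have h2 : PTF (fun p : CIn × Bx => p.2.1.getD (pj (cn p.1) p.2) 0) :=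
    ptf_getD' h1 (by fun_prop) (by fun_prop)
  have h3 : PTF (fun p : CIn × Bx => p.2.2.getD (pj (cn p.1) p.2) 0) :=
    ptf_getD' h1 (by fun_prop) (by fun_prop)
  unfold mid
  pt_solve

theorem ptf_fin : PTF (fun p : CIn × Bx => finB (cn p.1) p.2) := by
  have h1 := ptf_pos
  unfold finB
  exact PTF.not (PTF.isSome h1)

theorem ptf_lo : PTF (fun p : CIn × Bx => loS (cn p.1) p.2) := by
  unfold loS
  exact PTF.prodMk (by fun_prop) (ptf_set' (by fun_prop) ptf_pj ptf_mid)

theorem ptf_hi : PTF (fun p : CIn × Bx => hiS (cn p.1) p.2) := by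
  have h := ptf_mid
  unfold hiS
  refine PTF.prodMk (ptf_set' (by fun_prop) ptf_pj ?_) (by fun_prop)
  exact PTF.intAdd h (PTF.const 1)

theorem ptf_sin : PTF (fun p : CIn × Bx => sin p.1 p.2) := by
  have h1 := ptu_cn
  have h2 := ptf_cR
  have h3 := ptu_cm
  unfold sin
  refine PTF.prodMk ?_ (PTF.prodMk (PTF.comp h2 PTF.fst) (PTF.prodMk ?_ (PTF.prodMk ?_ ?_)))
  · exact PTU.comp h1 PTF.fst
  · exact PTU.comp h3 PTF.fst
  · fun_prop
  · fun_prop

section rel

variable {smp : Smp} {slen : SIn → ℕ} {q : Polynomial ℕ} {Q : Inst → Bool → List Bool → ℕ}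

theorem optf_coin (hsmp : RelSmp smp) (hlen : PTU slen)
    (hQ : OPTF (fun I (p : Bool × List Bool) => Q I p.1 p.2)) :
    OPTF (fun I (p : (CIn × Bx) × List Bool) => coin smp slen (Q I) p.1.1 p.1.2 p.2) := by
  unfold coin
  have h1 := hsmp Q hQ
  have h2 : PTF (fun p : (CIn × Bx) × List Bool => (sin p.1.1 p.1.2, p.2.take (slen (sin p.1.1 p.1.2)))) := by
    have h3 : PTF (fun p : (CIn × Bx) × List Bool => sin p.1.1 p.1.2) :=
      PTF.comp (g := fun p : CIn × Bx => sin p.1 p.2) ptf_sin PTF.fst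
    refine PTF.prodMk h3 (ptf_take' (PTU.toPTF (PTU.comp hlen h3)) PTF.snd)
  have h4 : OPTF (fun I (p : (CIn × Bx) × List Bool) =>
      smp (Q I) (sin p.1.1 p.1.2) (p.2.take (slen (sin p.1.1 p.1.2)))) :=
    OPTF.pre (g := fun I (p : SIn × List Bool) => smp (Q I) p.1 p.2)
      (f := fun p : (CIn × Bx) × List Bool => (sin p.1.1 p.1.2, p.2.take (slen (sin p.1.1 p.1.2))))
      h1 h2
  have h5 : OPTF (fun (_ : Inst) (p : (CIn × Bx) × List Bool) => pj (cn p.1.1) p.1.2) :=
    OPTF.of_ptf (PTF.comp (g := fun p : CIn × Bx => pj (cn p.1) p.2) ptf_pj PTF.fst)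
  have h6 : OPTF (fun (_ : Inst) (p : (CIn × Bx) × List Bool) => mid (cn p.1.1) p.1.2) :=
    OPTF.of_ptf (PTF.comp (g := fun p : CIn × Bx => mid (cn p.1) p.2) ptf_mid PTF.fst)
  exact OPTP.toOPTF (OPTP.intLe (OPTF.getD h4 h5 (OPTF.const 0)) h6)

theorem optf_leaf (hQ : OPTF (fun I (p : Bool × List Bool) => Q I p.1 p.2)) :
    OPTF (fun I (p : CIn × Bx) => leaf (Q I) p.1 p.2) := by
  unfold leaf
  have hn : OPTU (fun (_ : Inst) (p : CIn × Bx) => cn p.1) := OPTU.of_ptu (PTU.comp ptu_cn PTF.fst)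
  have hR : OPTF (fun (_ : Inst) (p : CIn × Bx) => cR p.1) := OPTF.of_ptf (PTF.comp ptf_cR PTF.fst)
  have hq (b : Bool) : OPTF (fun I (p : (CIn × Bx) × List Bool) => ((Q I b p.2 : ℕ) : ℤ)) := by
    refine OPTF.intNatCast ?_
    exact OPTF.pre (g := fun I (p : Bool × List Bool) => Q I p.1 p.2)
      (f := fun p : (CIn × Bx) × List Bool => (b, p.2)) hQ (by fun_prop)
  exact feasBL_optf (n := fun _ (p : CIn × Bx) => cn p.1) (K := fun _ (p : CIn × Bx) => cR p.1)
    (r₁ := fun I _ l => ((Q I false l : ℕ) : ℤ)) (r₂ := fun I _ l => ((Q I true l : ℕ) : ℤ))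
    (R := fun _ (p : CIn × Bx) => (cR p.1 : ℤ)) (lo := fun _ (p : CIn × Bx) => p.2.1)
    (hi := fun _ (p : CIn × Bx) => p.2.2) hn hR (hq false) (hq true) (OPTF.intNatCast hR)
    (OPTF.of_ptf (by fun_prop)) (OPTF.of_ptf (by fun_prop))

theorem optf_round (hsmp : RelSmp smp) (hlen : PTU slen)
    (hQ : OPTF (fun I (p : Bool × List Bool) => Q I p.1 p.2)) :
    OPTF (fun I (p : CIn × (Bx × ℕ × ℕ) × List Bool) =>
      round (coin smp slen (Q I) p.1) (loS (cn p.1)) (hiS (cn p.1)) (finB (cn p.1)) (cr q p.1)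
        (cK p.1) p.2.1 p.2.2) := by
  unfold Crest.Agent.R309.Count632.round
  have hK : PTU (fun p : CIn × (Bx × ℕ × ℕ) × List Bool => cK p.1) := PTU.comp ptu_cK PTF.fst
  have hr : PTU (fun p : CIn × (Bx × ℕ × ℕ) × List Bool => cr q p.1) := PTU.comp (ptu_cr q) PTF.fst
  have hb : PTF (fun p : CIn × (Bx × ℕ × ℕ) × List Bool => blocks (cr q p.1) (cK p.1) p.2.2) :=
    ptf_blocks (PTU.toPTF hr) hK (by fun_prop)
  have hc : OPTU (fun I (p : CIn × (Bx × ℕ × ℕ) × List Bool) =>
      (blocks (cr q p.1) (cK p.1) p.2.2).countP (coin smp slen (Q I) p.1 p.2.1.1)) := by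
    refine OPTU.countP (P := fun I (p : CIn × (Bx × ℕ × ℕ) × List Bool) (l : List Bool) =>
      coin smp slen (Q I) p.1 p.2.1.1 l) ?_ (OPTF.of_ptf hb)
    exact OPTF.pre (g := fun I (p : (CIn × Bx) × List Bool) => coin smp slen (Q I) p.1.1 p.1.2 p.2)
      (f := fun p : (CIn × (Bx × ℕ × ℕ) × List Bool) × List Bool => ((p.1.1, p.1.2.1.1), p.2))
      (optf_coin hsmp hlen hQ) (by fun_prop)
  have hc' := OPTU.toOPTF hc
  have hK' : OPTF (fun (_ : Inst) (p : CIn × (Bx × ℕ × ℕ) × List Bool) => cK p.1) :=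
    OPTF.of_ptf (PTU.toPTF hK)
  have hfin : OPTF (fun (_ : Inst) (p : CIn × (Bx × ℕ × ℕ) × List Bool) => finB (cn p.1) p.2.1.1) :=
    OPTF.of_ptf (PTF.comp (g := fun p : CIn × Bx => finB (cn p.1) p.2)
      (f := fun p : CIn × (Bx × ℕ × ℕ) × List Bool => (p.1, p.2.1.1)) ptf_fin (by fun_prop))
  have hlo : OPTF (fun (_ : Inst) (p : CIn × (Bx × ℕ × ℕ) × List Bool) => loS (cn p.1) p.2.1.1) :=
    OPTF.of_ptf (PTF.comp (g := fun p : CIn × Bx => loS (cn p.1) p.2)
      (f := fun p : CIn × (Bx × ℕ × ℕ) × List Bool => (p.1, p.2.1.1)) ptf_lo (by fun_prop))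
  have hhi : OPTF (fun (_ : Inst) (p : CIn × (Bx × ℕ × ℕ) × List Bool) => hiS (cn p.1) p.2.1.1) :=
    OPTF.of_ptf (PTF.comp (g := fun p : CIn × Bx => hiS (cn p.1) p.2)
      (f := fun p : CIn × (Bx × ℕ × ℕ) × List Bool => (p.1, p.2.1.1)) ptf_hi (by fun_prop))
  have h1 : OPTF (fun (_ : Inst) (p : CIn × (Bx × ℕ × ℕ) × List Bool) => p.2.1) :=
    OPTF.of_ptf (by fun_prop)
  have h2 : OPTF (fun (_ : Inst) (p : CIn × (Bx × ℕ × ℕ) × List Bool) => p.2.1.2.1) :=
    OPTF.of_ptf (by fun_prop)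
  have h3 : OPTF (fun (_ : Inst) (p : CIn × (Bx × ℕ × ℕ) × List Bool) => p.2.1.2.2) :=
    OPTF.of_ptf (by fun_prop)
  refine OPTF.cond hfin h1 (OPTF.cond ?_ ?_ ?_)
  · exact OPTP.toOPTF (OPTP.natLe hK' (OPTF.natMul (OPTF.const 2) hc'))
  · exact OPTF.prodMk hlo (OPTF.prodMk (OPTF.natMul h2 hK') (OPTF.natMul h3 hc'))
  · exact OPTF.prodMk hhi (OPTF.prodMk (OPTF.natMul h2 hK') (OPTF.natMul h3 (OPTF.natSub hK' hc')))

/-! ### sizes along the bisection -/

theorem round_V (coin : Bx → List Bool → Bool) (n R r K : ℕ) (x : Bx × ℕ × ℕ) (l : List Bool)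
    (h : V n R x.1) : V n R (round coin (loS n) (hiS n) (finB n) r K x l).1 := by
  have hsp := split (n := n) (R := R) (fun _ => 0) (fun _ => 0)
    (fun s => decide (0 < cnt (n := n) (fun _ => 0) (fun _ => 0) R s))
    (fun s _ => decide_eq_true_iff)
  unfold Crest.Agent.R309.Count632.round
  by_cases hf : finB n x.1 = true
  · simpa [hf] using h
  · have hf' : finB n x.1 = false := by simpa using hf
    simp only [hf', cond_false]
    by_cases h2 : K ≤ 2 * (blocks r K l).countP (coin x.1)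
    · simp only [h2, decide_true, cond_true]
      exact hsp.V_lo _ h hf'
    · simp only [h2, decide_false, cond_false]
      exact hsp.V_hi _ h hf'

theorem round_sz (coin : Bx → List Bool → Bool) (n r K : ℕ) (x : Bx × ℕ × ℕ) (l : List Bool) :
    sz (round coin (loS n) (hiS n) (finB n) r K x l).2.1 ≤ sz x.2.1 + sz K ∧
      sz (round coin (loS n) (hiS n) (finB n) r K x l).2.2 ≤ sz x.2.2 + sz K := by
  obtain ⟨s, a, d⟩ := x
  have h3 : sz (a * K) ≤ sz a + sz K := by
    rw [sz_nat, sz_nat, sz_nat]; exact size_mul_le a K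
  have hcK := blocks_countP_le r K l (coin s)
  have h4 : sz (d * (blocks r K l).countP (coin s)) ≤ sz d + sz K := by
    refine le_trans ?_ (Nat.add_le_add_left (sz_nat_mono hcK) _)
    rw [sz_nat, sz_nat, sz_nat]; exact size_mul_le _ _
  have h5 : sz (d * (K - (blocks r K l).countP (coin s))) ≤ sz d + sz K := by
    refine le_trans ?_ (Nat.add_le_add_left (sz_nat_mono (Nat.sub_le K ((blocks r K l).countP (coin s)))) _)
    rw [sz_nat, sz_nat, sz_nat]; exact size_mul_le _ _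
  unfold Crest.Agent.R309.Count632.round
  cases finB n s
  · simp only [cond_false]
    by_cases h : K ≤ 2 * (blocks r K l).countP (coin s)
    · simp only [h, decide_true, cond_true]
      exact ⟨h3, h4⟩
    · simp only [h, decide_false, cond_false]
      exact ⟨h3, h5⟩
  · simp only [cond_true]
    exact ⟨Nat.le_add_right _ _, Nat.le_add_right _ _⟩

theorem runSteps_sz (coin : Bx → List Bool → Bool) (c : CIn) (r K r' : ℕ) (l : List Bool) (i : ℕ) :
    sz (runSteps (round coin (loS (cn c)) (hiS (cn c)) (finB (cn c)) r K) r' i (s0 c, 1, 1) l) ≤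
      2 * cS c + 1 + (2 * (1 + i * sz K) + 1 + (1 + i * sz K)) := by
  have key : ∀ i, V (cn c) (cR c)
        (runSteps (round coin (loS (cn c)) (hiS (cn c)) (finB (cn c)) r K) r' i (s0 c, 1, 1) l).1 ∧
      sz (runSteps (round coin (loS (cn c)) (hiS (cn c)) (finB (cn c)) r K) r' i (s0 c, 1, 1) l).2.1 ≤
        1 + i * sz K ∧
      sz (runSteps (round coin (loS (cn c)) (hiS (cn c)) (finB (cn c)) r K) r' i (s0 c, 1, 1) l).2.2 ≤
        1 + i * sz K := by
    intro i
    induction i with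
    | zero =>
      refine ⟨V_init _ _, ?_, ?_⟩ <;> simp [runSteps, sz_nat]
    | succ i ih =>
      rw [runSteps_succ']
      obtain ⟨h1, h2, h3⟩ := ih
      obtain ⟨g1, g2⟩ := round_sz coin (cn c) r K
        (runSteps (round coin (loS (cn c)) (hiS (cn c)) (finB (cn c)) r K) r' i (s0 c, 1, 1) l)
        ((l.drop (i * r')).take r')
      refine ⟨round_V coin _ _ _ _ _ _ h1, ?_, ?_⟩
      · refine g1.trans ?_
        have : (i + 1) * sz K = i * sz K + sz K := by ring
        omega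
      · refine g2.trans ?_
        have : (i + 1) * sz K = i * sz K + sz K := by ring
        omega
  obtain ⟨h1, h2, h3⟩ := key i
  have h4 := sz_box_le (c := c) h1
  set y := runSteps (round coin (loS (cn c)) (hiS (cn c)) (finB (cn c)) r K) r' i (s0 c, 1, 1) l
  have e1 : sz y = 2 * sz y.1 + 1 + sz y.2 := sz_prod y
  have e2 : sz y.2 = 2 * sz y.2.1 + 1 + sz y.2.2 := sz_prod y.2
  omega

theorem optf_run (hsmp : RelSmp smp) (hlen : PTU slen)
    (hQ : OPTF (fun I (p : Bool × List Bool) => Q I p.1 p.2)) :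
    OPTF (fun I (p : CIn × List Bool) => run smp slen q (Q I) p) := by
  unfold run base
  have hround := optf_round (q := q) hsmp hlen hQ
  have hKp : PTU (fun p : CIn × List Bool => cK p.1) := PTU.comp ptu_cK PTF.fst
  have hrp : PTU (fun p : CIn × List Bool => cr q p.1) := PTU.comp (ptu_cr q) PTF.fst
  have hJp : PTU (fun p : CIn × List Bool => cJ p.1) := PTU.comp ptu_cJ PTF.fst
  have hSp : PTU (fun p : CIn × List Bool => cS p.1) := PTU.comp ptu_cS PTF.fst
  have hrun : OPTF (fun I (p : CIn × List Bool) =>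
      runSteps (round (coin smp slen (Q I) p.1) (loS (cn p.1)) (hiS (cn p.1)) (finB (cn p.1))
        (cr q p.1) (cK p.1)) (cK p.1 * cr q p.1) (cJ p.1) (s0 p.1, 1, 1) p.2) := by
    refine OPTF.runSteps (γ := CIn × List Bool)
      (f := fun I p => round (coin smp slen (Q I) p.1) (loS (cn p.1)) (hiS (cn p.1)) (finB (cn p.1))
        (cr q p.1) (cK p.1))
      (r := fun _ p => cK p.1 * cr q p.1) (k := fun _ p => cJ p.1) (s := fun _ p => (s0 p.1, 1, 1))
      (t := fun _ p => p.2) ?_ ?_ ?_ ?_ ?_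
      (B := fun _ p => 2 * cS p.1 + 1 + (2 * (1 + cJ p.1 * sz (cK p.1)) + 1 +
        (1 + cJ p.1 * sz (cK p.1)))) ?_ ?_
    · exact OPTF.pre (g := fun I (p : CIn × (Bx × ℕ × ℕ) × List Bool) =>
        round (coin smp slen (Q I) p.1) (loS (cn p.1)) (hiS (cn p.1)) (finB (cn p.1)) (cr q p.1)
        (cK p.1) p.2.1 p.2.2)
        (f := fun p : (CIn × List Bool) × (Bx × ℕ × ℕ) × List Bool => (p.1.1, p.2.1, p.2.2))
        hround (by fun_prop)
    · exact OPTF.of_ptf (PTF.natMul (PTU.toPTF hKp) (PTU.toPTF hrp))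
    · exact OPTU.of_ptu hJp
    · have := ptf_s0
      exact OPTF.of_ptf (PTF.prodMk (PTF.comp (g := s0) this PTF.fst) (PTF.const _))
    · exact OPTF.of_ptf (by fun_prop)
    · refine OPB.of_pb ?_
      have h1 : Crest.Agent.Lib.PT.PB (fun p : CIn × List Bool => cJ p.1) := hJp.pb
      have h2 : Crest.Agent.Lib.PT.PB (fun p : CIn × List Bool => cS p.1) := hSp.pb
      have h3 : PTF (fun p : CIn × List Bool => cK p.1) := PTU.toPTF hKp
      fun_prop
    · intro I p i hi
      refine (runSteps_sz _ _ _ _ _ _ _).trans ?_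
      have := Nat.mul_le_mul_right (sz (cK p.1)) hi
      omega
  have h1 : OPTF (fun I (p : CIn × List Bool) => (runSteps (round (coin smp slen (Q I) p.1)
      (loS (cn p.1)) (hiS (cn p.1)) (finB (cn p.1))
        (cr q p.1) (cK p.1)) (cK p.1 * cr q p.1) (cJ p.1) (s0 p.1, 1, 1) p.2).1) := OPTF.fst hrun
  have h2 := OPTF.fst (OPTF.snd hrun)
  have h3 := OPTF.snd (OPTF.snd hrun)
  refine OPTF.cond ?_ ?_ (OPTF.const 0)
  · exact OPTF.comp (g := fun I (p : CIn × Bx) => leaf (Q I) p.1 p.2)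
      (f := fun I (p : CIn × List Bool) => (p.1, (runSteps (round (coin smp slen (Q I) p.1)
      (loS (cn p.1)) (hiS (cn p.1)) (finB (cn p.1))
        (cr q p.1) (cK p.1)) (cK p.1 * cr q p.1) (cJ p.1) (s0 p.1, 1, 1) p.2).1))
      (optf_leaf hQ) (OPTF.prodMk (OPTF.of_ptf PTF.fst) h1)
  · exact OPTF.post₂ (g := fun a b : ℕ => (a : ℚ) / b)
      (PTF.ratDiv (PTF.ratNatCast PTF.fst) (PTF.ratNatCast PTF.snd)) h2 h3

/-- **the estimator is polynomial time relative to the oracle** -/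
theorem relComp (hsmp : RelSmp smp) (hlen : PTU slen) : RelComp (G smp slen q) := by
  intro Q hQ
  unfold G est
  have hrun := optf_run (q := q) hsmp hlen hQ
  have hb : PTF (fun p : CIn × List Bool =>
      blocks (cJ p.1 * (cK p.1 * cr q p.1)) (2 * cM p.1) p.2) := by
    refine ptf_blocks (PTU.toPTF ?_) ?_ PTF.snd
    · exact PTU.mul (PTU.comp ptu_cJ PTF.fst) (PTU.mul (PTU.comp ptu_cK PTF.fst)
        (PTU.comp (ptu_cr q) PTF.fst))
    · exact PTU.mul (PTU.const 2) (PTU.comp ptu_cM PTF.fst)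
  refine OPTF.post (g := med) (ptf_med PTF.id) (OPTF.map (l := fun _ p => _)
    (f := fun I (p : CIn × List Bool) (l : List Bool) => run smp slen q (Q I) (p.1, l))
    (OPTF.of_ptf hb) ?_)
  exact OPTF.pre (g := fun I (p : CIn × List Bool) => run smp slen q (Q I) p)
    (f := fun p : (CIn × List Bool) × List Bool => (p.1.1, p.2)) hrun (by fun_prop)

end rel

/-- **S0461 and S0462 from a sampler**: everything that is left is a box sampler. -/
theorem exists_estimator {smp : Smp} {slen : SIn → ℕ} (hS : SmpSpec smp slen) (hsmp : RelSmp smp)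
    (hlen : PTU slen) :
    ∃ (G : (Bool → List Bool → ℕ) → CIn × List Bool → ℚ) (N : CIn → ℕ),
      RelComp G ∧ PTU N ∧ CountSpec G N := by
  obtain ⟨q, hq⟩ := hlen.pb
  exact ⟨G smp slen q, N q, relComp hsmp hlen, ptu_N q, countSpec hS hq⟩

end Crest.Agent.R302.Top
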