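import Crest.Agent.R302.Smp272
import Crest.Agent.R302.LoopOPT675B
import Crest.Agent.R302.Top497C

/-!
# R302 (helper166): `RelSmp (smp P)` from the closures of the program data
-/

set_option autoImplicit false
set_option linter.dupNamespace false

namespace Crest.Agent.R302.Smp

open Crest.Agent.R302.ORAM Crest.Agent.R302.Loop Crest.Agent.R302.CenL Crest.Agent.R302.AnnBox
open Crest.Agent.R302.Top Crest.Agent.R309.Tape Crest.Agent.Lib.PT Crest.Agent.R309.PTX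
open Crest.Agent.R302.EDM

/-! ### input -/

section input

variable {γ : Type} [PTCode γ] {s : γ → SIn}

theorem ptu_sn : PTU sn := by unfold sn; fun_prop
theorem ptf_sR : PTF sR := by unfold sR; fun_prop
theorem ptu_sm : PTU sm := by unfold sm; fun_prop
theorem ptf_slo : PTF slo := by unfold slo; fun_prop
theorem ptf_shi : PTF shi := by unfold shi; fun_prop

end input

/-- relative computability of a function of the input -/
def RC {α β : Type} [PTCode α] [PTCode β] (f : Qf → α → β) : Prop :=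
  ∀ Q : Inst → Qf, OPTF (fun I (p : Bool × List Bool) => Q I p.1 p.2) → OPTF (fun I a => f (Q I) a)

theorem RC.of_ptf {α β : Type} [PTCode α] [PTCode β] {f : α → β} (hf : PTF f) :
    RC (fun _ => f) := fun _ _ => OPTF.of_ptf hf

theorem rc_cen : RC cen := by
  intro Q hQ
  have hq : ∀ b : Bool, OPTF (fun I (p : SIn × List Bool) => (Q I b p.2 : ℤ)) := fun b =>
    OPTF.intNatCast (OPTF.comp (g := fun I (p : Bool × List Bool) => Q I p.1 p.2)
      (f := fun _ (p : SIn × List Bool) => (b, p.2)) hQ (OPTF.of_ptf (by fun_prop)))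
  exact cenBL_optf (OPTU.of_ptu ptu_sn) (OPTF.of_ptf ptf_sR) (hq false) (hq true)
    (OPTF.of_ptf ptf_sR) (OPTF.of_ptf ptf_slo) (OPTF.of_ptf ptf_shi)

variable {Ω : Type} [PTCode Ω]

/-- numerical closures of the program data -/
structure Prg.Num (P : Prg Ω) : Prop where
  L : PTU P.pL
  m : PTU P.pm
  K : PTU P.K
  E : PTU P.pE
  M : PTU P.pM

theorem Prg.Num.T {P : Prg Ω} (h : P.Num) : PTU P.T := ptu_nStages ptu_sn h.L ptf_sR

theorem Prg.Num.pop {P : Prg Ω} (h : P.Num) : PTU P.pop :=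
  PTU.add (PTU.const 1) (PTU.mul h.T (PTU.add (PTU.const 1) h.K))

theorem Prg.Num.rb {P : Prg Ω} (h : P.Num) : PTU P.rb :=
  PTU.add (PTU.mul h.K h.E) (PTU.mul h.pop h.M)

theorem Prg.Num.slen {P : Prg Ω} (h : P.Num) : PTU (slen P) := PTU.mul h.T h.rb

/-- functional closures of the program data -/
structure Prg.Comp (P : Prg Ω) : Prop where
  E : RC (fun Q (p : SIn × ℕ × List ℤ × List ℤ × List Bool) =>
    P.runE Q p.1 p.2.1 p.2.2.1 p.2.2.2.1 p.2.2.2.2)
  M : RC (fun Q (p : SIn × ℕ × List ℤ × List ℤ × List Bool) =>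
    P.runM Q p.1 p.2.1 p.2.2.1 p.2.2.2.1 p.2.2.2.2)
  out : RC (fun Q (p : SIn × ℕ × Ω) => P.out Q p.1 p.2.1 p.2.2)
  ev : RC (fun Q (p : SIn × ℕ × ℕ × ℕ × Ω) => P.ev Q p.1 p.2.1 p.2.2.1 p.2.2.2.1 p.2.2.2.2)
  rep : RC (fun Q (p : SIn × ℕ × ℕ) => P.rep Q p.1 p.2.1 p.2.2)

/-- **the sampler is computable relative to the query function** -/
theorem relSmp {P : Prg Ω} (hN : P.Num) (hC : P.Comp)
    (BS : (Inst → Qf) → Inst → SIn → ℕ)
    (hBS : ∀ Q : Inst → Qf, OPTF (fun I (p : Bool × List Bool) => Q I p.1 p.2) → OPB (BS Q))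
    (hcen : ∀ (Q : Inst → Qf) I s, sz (cen (Q I) s) ≤ BS Q I s)
    (hstep : ∀ (Q : Inst → Qf) I s t g x y l, sz x ≤ BS Q I s → sz y ≤ BS Q I s →
      sz ((P.out (Q I) s t (P.runM (Q I) s t g y l)).getD x) ≤ BS Q I s) :
    RelSmp (smp P) := by
  intro Q hQ
  have hc := rc_cen Q hQ
  -- context
  have hs : OPTF (fun (_ : Inst) (p : SIn × List Bool) => p.1) := OPTF.of_ptf (by fun_prop)
  have key := OPTF.chain_sampler (γ := SIn × List Bool) (S := List ℤ) (Ω := Ω)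
    (C := fun I c => P.ch (Q I) c.1) (n := fun _ c => sn c.1)
    (OPTU.of_ptu (PTU.comp ptu_sn (by fun_prop)))
    (OPTF.comp (g := fun I (p : SIn × ℕ × List ℤ × List ℤ × List Bool) =>
      P.runE (Q I) p.1 p.2.1 p.2.2.1 p.2.2.2.1 p.2.2.2.2)
      (f := fun _ (p : (SIn × List Bool) × ℕ × List ℤ × List ℤ × List Bool) => (p.1.1, p.2))
      (hC.E Q hQ) (OPTF.of_ptf (by fun_prop)))
    (OPTF.comp (g := fun I (p : SIn × ℕ × List ℤ × List ℤ × List Bool) =>
      P.runM (Q I) p.1 p.2.1 p.2.2.1 p.2.2.2.1 p.2.2.2.2)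
      (f := fun _ (p : (SIn × List Bool) × ℕ × List ℤ × List ℤ × List Bool) => (p.1.1, p.2))
      (hC.M Q hQ) (OPTF.of_ptf (by fun_prop)))
    (OPTF.comp (g := fun I (p : SIn × ℕ × Ω) => P.out (Q I) p.1 p.2.1 p.2.2)
      (f := fun _ (p : (SIn × List Bool) × ℕ × Ω) => (p.1.1, p.2)) (hC.out Q hQ)
      (OPTF.of_ptf (by fun_prop)))
    (OPTF.comp (g := fun I (p : SIn × ℕ × ℕ × ℕ × Ω) =>
      P.ev (Q I) p.1 p.2.1 p.2.2.1 p.2.2.2.1 p.2.2.2.2)
      (f := fun _ (p : (SIn × List Bool) × ℕ × ℕ × ℕ × Ω) => (p.1.1, p.2)) (hC.ev Q hQ)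
      (OPTF.of_ptf (by fun_prop)))
    (OPTF.comp (g := fun I (p : SIn × ℕ × ℕ) => P.rep (Q I) p.1 p.2.1 p.2.2)
      (f := fun _ (p : (SIn × List Bool) × ℕ × ℕ) => (p.1.1, p.2)) (hC.rep Q hQ)
      (OPTF.of_ptf (by fun_prop)))
    ((OPTU.of_ptu (PTU.comp hN.E (by fun_prop))).toOPTF :
      OPTF (fun (_ : Inst) (c : SIn × List Bool) => P.pE c.1))
    ((OPTU.of_ptu (PTU.comp hN.M (by fun_prop))).toOPTF :
      OPTF (fun (_ : Inst) (c : SIn × List Bool) => P.pM c.1))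
    (OPTU.of_ptu (PTU.comp hN.m (by fun_prop)) :
      OPTU (fun (_ : Inst) (c : SIn × List Bool) => P.pm c.1))
    (OPTU.of_ptu (PTU.comp hN.K (by fun_prop)) :
      OPTU (fun (_ : Inst) (c : SIn × List Bool) => P.K c.1))
    (fun I c _ x => sz x ≤ BS Q I c.1)
    (fun I c i g x y l hx hy => hstep Q I c.1 i g x y l hx hy)
    (T := fun _ c => P.T c.1) (r := fun _ c => P.rb c.1)
    (OPTU.of_ptu (PTU.comp hN.T (by fun_prop)))
    ((OPTU.of_ptu (PTU.comp hN.rb (by fun_prop))).toOPTF)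
    (x0 := fun I c => cen (Q I) c.1) (d := fun I c => cen (Q I) c.1)
    (OPTF.comp (g := fun I s => cen (Q I) s) hc hs) (OPTF.comp (g := fun I s => cen (Q I) s) hc hs)
    (g0 := fun _ c => List.replicate (sn c.1) 0)
    (OPTF.of_ptf (PTF.replicate (PTU.comp ptu_sn (by fun_prop)) (PTF.const 0)))
    (t := fun _ c => c.2) (OPTF.of_ptf (by fun_prop))
    (fun I c => hcen Q I c.1) (BS := fun I c => BS Q I c.1) ((hBS Q hQ).comp hs)
    (fun I c i x _ h => h)
  have hz : OPTP (fun (_ : Inst) (p : SIn × List Bool) => sn p.1 = 0) :=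
    OPTP.natEq ((OPTU.of_ptu (PTU.comp ptu_sn (by fun_prop))).toOPTF) (OPTF.const 0)
  exact OPTF.ite hz (OPTF.const _) key

end Crest.Agent.R302.Smp
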