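import Crest.Agent.R302.S1Prog893
import Crest.Agent.R302.Conc725
import Crest.Agent.R302.KerR342

/-!
R302 (helper893): block (S1) for helper725's concrete stage data `sdOf`.
-/

set_option autoImplicit false
set_option linter.unusedSectionVars false
set_option linter.unusedVariables false

namespace Crest.Agent.R302.T893

open Finset Lor
open Crest.Agent.R302.Tree (RTree)
open Crest.Agent.R302.Inst Crest.Agent.R302.Stage Crest.Agent.R302.Macro
open Crest.Agent.R302.Inst.Side (Gauge)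
open Crest.Agent.R302.GeoSpec Crest.Agent.R302.StageL Crest.Agent.R302.TreeNN
open Crest.Agent.R302.Conc

variable {n : ℕ}

/-- slope of the slack kernel -/
noncomputable def bK (dk : ℕ) (m : Fin n → Fin n → ℤ) (w₁ : ℤ) (a : Fin n) : ℝ :=
  2 * (1 / 2) ^ kV dk (nnForest m w₁) m a

/-- second difference of the slack kernel -/
noncomputable def DK (dk : ℕ) (m : Fin n → Fin n → ℤ) (w₁ : ℤ) (a : Fin n) : ℝ :=
  16 * (1 / 4) ^ kV dk (nnForest m w₁) m a

theorem kV_fat {dk : ℕ} {m : Fin n → Fin n → ℤ} {w₁ : ℤ} {a b : Fin n}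
    (h : (nnForest m w₁).par a = some b) : kV dk (nnForest m w₁) m a = lgE dk (m a b) := by
  unfold kV
  simp only [h]

variable (m₁ m₂ : Fin n → Fin n → ℤ) (J₁ J₂ : Finset (Fin n → ℤ)) (w : (Fin n → ℤ) → ℤ)
  (P : Conc.Par) (ell c : Fin n → ℤ)

theorem pfacts_sdOf :
    PFacts (sdOf m₁ m₂ J₁ J₂ w P ell c) m₁ m₂ P.w₁ (ofMat m₁) (ofMat m₂) P.dk P.dl
      (bK P.dk m₁ P.w₁) (DK P.dk m₁ P.w₁) (bK P.dk m₂ P.w₁) (DK P.dk m₂ P.w₁) where
  T₁ := rfl
  T₂ := rfl
  hM₁ := ofMat_getD m₁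
  hM₂ := ofMat_getD m₂
  b₁e := fun a b h => by unfold bK; rw [kV_fat h]
  b₂e := fun a b h => by unfold bK; rw [kV_fat h]
  D₁e := fun a b h => by unfold DK; rw [kV_fat h]
  D₂e := fun a b h => by unfold DK; rw [kV_fat h]
  mv := rfl
  lk₁ := rfl
  lk₂ := rfl

/-- exponents of fat edges are at least one if `2 * dk ≤ w₁` -/
theorem kV_pos {dk : ℕ} (hdk : 1 ≤ dk) {m : Fin n → Fin n → ℤ} {w₁ : ℤ}
    (hw : 2 * (dk : ℤ) ≤ w₁) {a b : Fin n}
    (h : (nnForest m w₁).par a = some b) : 1 ≤ kV dk (nnForest m w₁) m a := by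
  rw [kV_fat h]
  have h1 : w₁ ≤ m a b := (nn_nnForest m w₁).ge a b h
  have h2 := lt_lgE (d := dk) hdk (key := m a b) (by linarith)
  by_contra h3
  have h4 : lgE dk (m a b) = 0 := by omega
  rw [h4] at h2
  simp only [zero_add, pow_one] at h2
  linarith

/-- the sum of the slopes is at most one -/
theorem sum_bK_le {dk : ℕ} (hdk : 1 ≤ dk) (m : Fin n → Fin n → ℤ) {w₁ : ℤ}
    (hw : 4 * (n * dk : ℕ) ≤ w₁) :
    ∑ a, (open Classical in if (nnForest m w₁).par a ≠ none then bK dk m w₁ a else 0) ≤ 1 := by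
  classical
  rcases Nat.eq_zero_or_pos n with h0 | hn
  · subst h0; simp
  have hwpos : (0 : ℝ) < w₁ := by
    have h1 : (0 : ℤ) < 4 * (n * dk : ℕ) := by
      have : 0 < n * dk := by positivity
      have h2 : (0 : ℤ) < ((n * dk : ℕ) : ℤ) := by exact_mod_cast this
      linarith
    exact_mod_cast lt_of_lt_of_le h1 hw
  have key : ∀ a, (if (nnForest m w₁).par a ≠ none then bK dk m w₁ a else 0) ≤
      4 * dk / (w₁ : ℝ) := by
    intro a
    by_cases h : (nnForest m w₁).par a ≠ none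
    · rw [if_pos h]
      obtain ⟨b, hb⟩ := Option.ne_none_iff_exists'.1 h
      have h1 : w₁ ≤ m a b := (nn_nnForest m w₁).ge a b hb
      have hdkw : (dk : ℤ) ≤ w₁ := by
        have h2 : (dk : ℤ) ≤ 4 * (n * dk : ℕ) := by
          have : dk ≤ 4 * (n * dk) := by nlinarith
          exact_mod_cast this
        linarith
      have h2 := half_pow_mul (lt_lgE (d := dk) hdk (key := m a b) (hdkw.trans h1))
      rw [le_div_iff₀ hwpos]
      unfold bK
      rw [kV_fat hb]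
      have h3 : (w₁ : ℝ) ≤ m a b := by exact_mod_cast h1
      calc 2 * (1 / 2 : ℝ) ^ lgE dk (m a b) * w₁ ≤ 2 * (1 / 2 : ℝ) ^ lgE dk (m a b) * m a b :=
            mul_le_mul_of_nonneg_left h3 (by positivity)
        _ ≤ 4 * dk := h2
    · rw [if_neg h]
      positivity
  calc _ ≤ ∑ _a : Fin n, 4 * dk / (w₁ : ℝ) := Finset.sum_le_sum fun a _ => key a
    _ = n * (4 * dk / (w₁ : ℝ)) := by
        rw [Finset.sum_const, Finset.card_univ, Fintype.card_fin, nsmul_eq_mul]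
    _ ≤ 1 := by
        rw [← mul_div_assoc, div_le_one hwpos]
        have : ((4 * (n * dk : ℕ) : ℤ) : ℝ) ≤ ((w₁ : ℤ) : ℝ) := by exact_mod_cast hw
        push_cast at this
        linarith

/-- `Pair` for the concrete stage data -/
theorem pair_sdOf (hdk : 1 ≤ P.dk) (hw : 4 * (n * P.dk : ℕ) ≤ P.w₁) (hw' : 2 * (P.dk : ℤ) ≤ P.w₁)
    (hJ₁ : J₁.Nonempty) (hJ₂ : J₂.Nonempty) :
    Pair (sdOf m₁ m₂ J₁ J₂ w P ell c).S₁w (sdOf m₁ m₂ J₁ J₂ w P ell c).S₂
      (bK P.dk m₁ P.w₁) (DK P.dk m₁ P.w₁) (bK P.dk m₂ P.w₁) (DK P.dk m₂ P.w₁)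
      (sdOf m₁ m₂ J₁ J₂ w P ell c).θ (sdOf m₁ m₂ J₁ J₂ w P ell c).μ 1 where
  ok₁ :=
    { g0 := fun z => by
        show (0 : ℝ) ≤ 1 * 2 ^ (-_)
        positivity
      ke := fun a ha => by
        obtain ⟨b, hb⟩ := Option.ne_none_iff_exists'.1 ha
        exact KerR.ker_kapR (kV_pos hdk hw' hb)
      ne := by
        obtain ⟨z, hz⟩ := hJ₁
        refine ⟨z, hz, ?_⟩
        show (0 : ℝ) < 1 * 2 ^ (-_)
        positivity }
  ok₂ :=
    { g0 := fun z => zero_le_one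
      ke := fun a ha => by
        obtain ⟨b, hb⟩ := Option.ne_none_iff_exists'.1 ha
        exact KerR.ker_kapR (kV_pos hdk hw' hb)
      ne := by
        obtain ⟨z, hz⟩ := hJ₂
        exact ⟨z, hz, zero_lt_one⟩ }
  θ0 := by unfold SD.θ; positivity
  θ1 := by unfold SD.θ; exact pow_le_one₀ (by norm_num) (by norm_num)
  μ0 := fun a => by unfold SD.μ; positivity
  hβ₁ := sum_bK_le hdk m₁ hw
  hβ₂ := sum_bK_le hdk m₂ hw

end Crest.Agent.R302.T893
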