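import Crest.Agent.R302.Stage536B
import Crest.Agent.R302.Fresh541

/-!
R302 (helper536), STAGE (S2): Poincaré inequality with defect for the simulated chain `Kch`, and the
kernel facts (`IsKer`, `Rev`, `PSD`) in 497's format.
-/

set_option autoImplicit false
set_option linter.unusedSectionVars false

namespace Crest.Agent.R302.Stage

open Finset Crest.Agent.R302.Inst Crest.Agent.R302.Macro Crest.Agent.R302.LatChain
open Crest.Agent.R302.Mix
open Crest.Agent.R309.MC

variable {E : Type*} [Fintype E] [DecidableEq E]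

namespace SD

variable {D : SD E}

theorem isProp_move (D : SD E) : IsProp (prop (D.qa + D.qb + 2) D.move) :=
  isProp_lat D.bx D.qa D.qb D.cs

/-- **(S2)** -/
theorem poincD_stage (hOK : D.OK) (hlen : D.cs.length ≤ 2 ^ D.qa) (hexp : ∀ p ∈ D.cs, p.2 ≤ D.qb)
    {A d : ℝ} (hA : 0 < A)
    (hP : ∀ (f : St D → ℝ) (M : ℝ), 0 ≤ M → (∀ p, |f p| ≤ M) →
      vr D.bx D.nuG f ≤ A * D.enG f + d * M ^ 2) {δ : ℝ} (hδ : 0 ≤ δ) :
    PoincD (fun σ : D.bx => D.nuG σ) D.Kch (δ / (A * 2 ^ (D.qa + 2)))
      (δ * d / (A * 2 ^ (D.qa + 2))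
        + 2 * δ * ∑ σ ∈ D.bx.filter (fun σ => D.FG σ < δ), D.nuG σ) := by
  classical
  have key := poincD_fresh (α := D.bx) (e := fun σ => D.u σ.1) (f := fun σ => D.FG σ.1)
    (fun σ => (u_pos σ.1).le) (fun σ => FG_nonneg hOK σ.1) (isProp_move D)
    (h := fun σ σ' => min 1 (2 ^ (D.ex σ'.1 - D.ex σ.1)))
    (fun σ σ' => le_min zero_le_one (by positivity)) (c₁ := 1) (δ := δ) zero_le_one hδ
    (fun σ σ' _ => by rw [one_mul, u_mul_min]) (A := A * 2 ^ (D.qa + 2)) (d := d)
    (by positivity) ?_
  · have e1 : (1 : ℝ) * δ / (A * 2 ^ (D.qa + 2)) = δ / (A * 2 ^ (D.qa + 2)) := by rw [one_mul]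
    have e2 : ∑ x ∈ (univ : Finset D.bx).filter (fun x => ¬ δ ≤ D.FG x.1), D.u x.1 * D.FG x.1
        = ∑ σ ∈ D.bx.filter (fun σ => D.FG σ < δ), D.nuG σ := by
      rw [Finset.sum_filter, Finset.sum_filter, ← Finset.sum_coe_sort D.bx]
      refine Finset.sum_congr rfl fun x _ => ?_
      by_cases h : D.FG x.1 < δ
      · rw [if_pos h, if_pos (not_le.2 h)]; rfl
      · rw [if_neg h, if_neg (fun h' => h (not_le.1 h'))]
    rw [e2, one_mul] at key
    exact key
  · intro F M hF
    -- extend `F` to the whole lattice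
    set f : St D → ℝ := fun σ => if h : σ ∈ D.bx then F ⟨σ, h⟩ else 0 with hf
    have hfF : ∀ x : D.bx, f x.1 = F x := fun x => by simp only [hf]; rw [dif_pos x.2]
    rcases isEmpty_or_nonempty D.bx with hem | ⟨⟨x0⟩⟩
    · have h1 : varU (fun x : D.bx => D.u x.1 * D.FG x.1) F = 0 := by
        rw [show F = fun _ => (0 : ℝ) from funext fun x => (hem.false x).elim]
        unfold varU
        simp
      have h2 : dsum (fun x : D.bx => D.u x.1 * D.FG x.1)
          (prop (D.qa + D.qb + 2) D.move) F = 0 := by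
        unfold dsum; simp
      rw [h1, h2, mul_zero, zero_add]
      -- the defect is nonnegative because of the hypothesis at `f = 0`
      have h3 := hP (fun _ => 0) |M| (abs_nonneg _) (fun p => by simp)
      have h4 : vr D.bx D.nuG (fun _ => 0) = 0 := by
        unfold vr mn S; simp
      have h5 : D.enG (fun _ => 0) = 0 := by
        unfold enG aDm Dm
        simp
      rw [h4, h5, mul_zero, zero_add, sq_abs] at h3
      exact h3
    · have hM : 0 ≤ M := (abs_nonneg _).trans (hF x0)
      have hfM : ∀ p, |f p| ≤ M := by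
        intro p
        simp only [hf]
        split_ifs
        · exact hF _
        · rw [abs_zero]; exact hM
      have h1 := poinc_lat D.bx D.nuG D.qa D.qb D.cs hlen hexp (hP f M hM hfM)
      have e : (fun x : D.bx => f x) = F := funext hfF
      rw [e] at h1
      refine h1.trans (le_of_eq ?_)
      congr 1
      unfold dsum
      congr 2
      refine Finset.sum_congr rfl fun x _ => Finset.sum_congr rfl fun y _ => ?_
      rw [hfF, hfF]
      rfl

/-- the chain is a kernel, reversible and positive semidefinite -/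
theorem kch_facts (hOK : D.OK) :
    IsKer D.Kch ∧ Rev (fun σ : D.bx => D.nuG σ) D.Kch ∧ PSD (fun σ : D.bx => D.nuG σ) D.Kch := by
  have hS := isProp_move D
  have ha := isAcc hOK (prop (D.qa + D.qb + 2) D.move)
  have h1 := metro_isKer hS ha.nonneg ha.le_one
  have h2 := metro_rev_gen hS ha
  have h3 := metro_lazy hS ha.nonneg ha.le_one
  have h4 := psd_of_lazy (fun σ : D.bx => nuG_nonneg hOK σ.1) h1 h2 h3
  exact ⟨h1, h2, h4⟩

end SD

end Crest.Agent.R302.Stage
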