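import Crest.Agent.R302.S1x893D
import Crest.Agent.R302.LinkInst342
import Crest.Agent.R302.Stage536C
import Crest.Agent.R302.Inst532D

/-!
R302 (helper893): block (S1), full composition: Poincare inequality with defect for the joint
weight `nuG` of one stage (`Stage.SD.stage_poinc` of helper536) from (S1x), helper342's link
inequality and helper532's names.
-/

set_option autoImplicit false
set_option linter.unusedSectionVars false
set_option linter.unusedVariables false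

namespace Crest.Agent.R302.T893

open Finset Lor
open Crest.Agent.R302.Tree (RTree)
open Crest.Agent.R302.Inst Crest.Agent.R302.Stage Crest.Agent.R302.Macro
open Crest.Agent.R302.Inst.Side (Gauge tcost fcost tcost_neg fcost_neg)

variable {E : Type*} [Fintype E] [DecidableEq E]

/-! ### block sums of a direction from its route -/

/-- cut sums of an exchange vector -/
theorem cut_xch {V : Type*} [Fintype V] [DecidableEq V] (T : RTree V) (lam : V → ℤ)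
    (hlam : lam T.root = 0) {p : V} (hp : p ≠ T.root) :
    ∑ v ∈ T.desc p, xch T lam v = lam p := by
  unfold xch
  rw [Finset.sum_comm]
  rw [Finset.sum_eq_single p]
  · rw [← Finset.mul_sum, Finset.sum_sub_distrib]
    have h1 : ∑ v ∈ T.desc p, ev p v = 1 := by
      simp only [ev, Pi.single_apply]
      rw [Finset.sum_ite_eq' (T.desc p) p (fun _ => (1 : ℤ)), if_pos (RTree.self_mem_desc p)]
    have h2 : ∑ v ∈ T.desc p, ev (T.par p) v = 0 := by
      simp only [ev, Pi.single_apply]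
      rw [Finset.sum_ite_eq' (T.desc p) (T.par p) (fun _ => (1 : ℤ)), if_neg]
      intro h3
      have h4 := (RTree.mem_desc.1 h3).dep_le
      have h5 := T.dep_lt p hp
      omega
    rw [h1, h2]; ring
  · intro q _ hq
    by_cases hqr : q = T.root
    · rw [hqr, hlam]; simp
    · rw [← Finset.mul_sum, Finset.sum_sub_distrib]
      have h1 : ∑ v ∈ T.desc p, ev q v = if q ∈ T.desc p then (1 : ℤ) else 0 := by
        simp only [ev, Pi.single_apply]
        rw [Finset.sum_ite_eq' (T.desc p) q (fun _ => (1 : ℤ))]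
      have h2 : ∑ v ∈ T.desc p, ev (T.par q) v = if T.par q ∈ T.desc p then (1 : ℤ) else 0 := by
        simp only [ev, Pi.single_apply]
        rw [Finset.sum_ite_eq' (T.desc p) (T.par q) (fun _ => (1 : ℤ))]
      rw [h1, h2]
      have h3 : q ∈ T.desc p ↔ T.par q ∈ T.desc p :=
        ⟨fun h => RTree.mem_desc_par h hq, fun h => RTree.mem_desc_of_par hqr h⟩
      simp only [h3, sub_self, mul_zero]
  · intro h; exact absurd (Finset.mem_univ _) h

theorem disp_tX (c : E → ℤ) (e : E) : disp tX tY c (tX e) = c e := by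
  unfold disp
  rw [Finset.sum_eq_single e]
  · simp [ev, tX, tY]
  · intro k _ hk
    have h1 : (tX e : Tok E) ≠ tX k := fun h => hk (tX_inj h).symm
    have h2 : (tX e : Tok E) ≠ tY k := tX_ne_tY e k
    simp only [ev, Pi.single_apply, if_neg h1, if_neg h2, sub_zero, mul_zero]
  · intro h; exact absurd (Finset.mem_univ _) h

theorem disp_tY (c : E → ℤ) (e : E) : disp tX tY c (tY e) = -c e := by
  unfold disp
  rw [Finset.sum_eq_single e]
  · simp [ev, tX, tY]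
  · intro k _ hk
    have h1 : (tY e : Tok E) ≠ tY k := fun h => hk (tY_inj h).symm
    have h2 : (tY e : Tok E) ≠ tX k := fun h => tX_ne_tY k e h.symm
    simp only [ev, Pi.single_apply, if_neg h1, if_neg h2, sub_zero, mul_zero]
  · intro h; exact absurd (Finset.mem_univ _) h

theorem lam_tX (T₁ T₂ : MP3.Forest E) (c : E → ℤ) (lam : Tok E → ℤ) (hlam : lam none = 0)
    (hr : ∀ v, disp tX tY c v = xch (tree T₁ T₂) lam v) (e : E) : lam (tX e) = bs T₁ c e := by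
  rw [← cut_xch (tree T₁ T₂) lam hlam (p := tX e) (by simp [tX, tree]), desc_tX, Finset.sum_map]
  unfold bs
  refine Finset.sum_congr rfl fun b _ => ?_
  rw [← hr]
  exact disp_tX c b

theorem lam_tY (T₁ T₂ : MP3.Forest E) (c : E → ℤ) (lam : Tok E → ℤ) (hlam : lam none = 0)
    (hr : ∀ v, disp tX tY c v = xch (tree T₁ T₂) lam v) (e : E) : lam (tY e) = -bs T₂ c e := by
  rw [← cut_xch (tree T₁ T₂) lam hlam (p := tY e) (by simp [tY, tree]), desc_tY, Finset.sum_map]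
  unfold bs
  rw [← Finset.sum_neg_distrib]
  refine Finset.sum_congr rfl fun b _ => ?_
  rw [← hr]
  exact disp_tY c b

theorem prod_tok' (f : Tok E → ℝ) : ∏ p, f p = f none * ((∏ e, f (tX e)) * ∏ e, f (tY e)) := by
  rw [Fintype.prod_option, Fintype.prod_sum_type]
  rfl

theorem side_rat (S : Side E) {θ : ℝ} (h0 : 0 < θ) (b : E → ℝ) (c : E → ℤ) :
    (θ⁻¹) ^ tcost S.T c * Real.exp (fcost S.T b c)
      = ∏ a, Real.exp (S.bb θ b a * ((bs S.T c a).natAbs : ℝ)) := by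
  classical
  unfold tcost fcost Side.bb
  rw [Real.exp_sum, ← Finset.prod_pow_eq_pow_sum, Finset.prod_filter, Finset.prod_filter,
    ← Finset.prod_mul_distrib]
  refine Finset.prod_congr rfl fun a _ => ?_
  by_cases ha : S.T.par a = none
  · simp only [ha, if_true, ne_eq, not_true_eq_false, if_false, mul_one]
    rw [mul_comm (-Real.log θ), Real.exp_nat_mul, Real.exp_neg, Real.exp_log h0]
  · simp [ha]

/-- helper342's ratio is the product of the slopes along the route -/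
theorem rat_eq {S₁ S₂ : Side E} {θ : ℝ} (h0 : 0 < θ) {b₁ b₂ : E → ℝ} (c : E → ℤ)
    (lam : Tok E → ℤ) (hlam : lam none = 0)
    (hr : ∀ v, disp tX tY c v = xch (tree S₁.T S₂.T) lam v) :
    LInst.rat S₁ S₂ θ b₁ b₂ c = ∏ q, be S₁ S₂ θ b₁ b₂ q ^ (lam q).natAbs := by
  classical
  rw [prod_tok', hlam, Int.natAbs_zero, pow_zero, one_mul]
  unfold LInst.rat
  have e1 : ∏ e, be S₁ S₂ θ b₁ b₂ (tX e) ^ (lam (tX e)).natAbs =
      ∏ a, Real.exp (S₁.bb θ b₁ a * ((bs S₁.T c a).natAbs : ℝ)) := by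
    refine Finset.prod_congr rfl fun a _ => ?_
    rw [lam_tX S₁.T S₂.T c lam hlam hr a]
    unfold be
    rw [← Real.exp_nat_mul, mul_comm]
    rfl
  have e2 : ∏ e, be S₁ S₂ θ b₁ b₂ (tY e) ^ (lam (tY e)).natAbs =
      ∏ a, Real.exp (S₂.bb θ b₂ a * ((bs S₂.T c a).natAbs : ℝ)) := by
    refine Finset.prod_congr rfl fun a _ => ?_
    rw [lam_tY S₁.T S₂.T c lam hlam hr a, Int.natAbs_neg]
    unfold be
    rw [← Real.exp_nat_mul, mul_comm]
    rfl
  rw [e1, e2, ← side_rat S₁ h0, ← side_rat S₂ h0, pow_add, Real.exp_add]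
  ring

section Ratio

variable {S₁ S₂ : Side E} {b₁ D₁ b₂ D₂ : E → ℝ} {θ : ℝ} {μ : E → ℝ} {β₀ : ℝ}
  {order : List E} {R : E → Tok E → E → ℤ} {b' : Tok E → ℝ}

theorem rat_nsmul (c : E → ℤ) (s : ℕ) :
    LInst.rat S₁ S₂ θ b₁ b₂ (s • c) = LInst.rat S₁ S₂ θ b₁ b₂ c ^ s := by
  unfold LInst.rat
  rw [LInst.tcost_nsmul, LInst.tcost_nsmul, LInst.fcost_nsmul, LInst.fcost_nsmul, mul_pow,
    ← pow_mul, ← Real.exp_nat_mul]
  congr 1
  · congr 1; ring
  · congr 1; ring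

theorem rat_zero : LInst.rat S₁ S₂ θ b₁ b₂ (0 : E → ℤ) = 1 := by
  have := rat_nsmul (S₁ := S₁) (S₂ := S₂) (θ := θ) (b₁ := b₁) (b₂ := b₂) (0 : E → ℤ) 0
  simpa using this

/-- ratio bound along a fat move -/
theorem rat_fat (h : Pair S₁ S₂ b₁ D₁ b₂ D₂ θ μ β₀)
    (hRep : Rep (tree S₁.T S₂.T) tX tY b' order R) (i : E) (p : Tok E) (hp : p ≠ none)
    (hmono : ∀ q, q ≠ none → b' q ≤ b' p → tb S₁ S₂ θ b₁ b₂ q ≤ tb S₁ S₂ θ b₁ b₂ p) (s : ℕ) :
    LInst.rat S₁ S₂ θ b₁ b₂ (s • cdir (tree S₁.T S₂.T) R i p) ≤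
      Real.exp (Fintype.card (Tok E) * tb S₁ S₂ θ b₁ b₂ p * s) := by
  have ht := h.tb_nonneg p
  rcases hRep.edge i p hp with h1 | ⟨lam, l1, l2, l3⟩
  · have e : cdir (tree S₁.T S₂.T) R i p = 0 := by unfold cdir; rw [h1, sub_self]
    rw [e, smul_zero, rat_zero]
    exact Real.one_le_exp (by positivity)
  · have hl0 : lam none = 0 := by
      by_contra hne
      exact (l2 _ hne).1 rfl
    rw [rat_nsmul, rat_eq h.θ0 (cdir (tree S₁.T S₂.T) R i p) lam hl0 l3]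
    have h3 : ∏ q, be S₁ S₂ θ b₁ b₂ q ^ (lam q).natAbs ≤
        Real.exp (tb S₁ S₂ θ b₁ b₂ p) ^ Fintype.card (Tok E) := by
      rw [← Finset.card_univ, ← Finset.prod_const]
      refine Finset.prod_le_prod (fun q _ => pow_nonneg (by linarith [be_ge h q]) _) fun q _ => ?_
      by_cases hq : lam q = 0
      · rw [hq, Int.natAbs_zero, pow_zero]
        exact Real.one_le_exp ht
      · have hn1 : (lam q).natAbs ≤ 1 := by
          have := l1 q
          rw [← Int.natCast_natAbs] at this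
          exact_mod_cast this
        calc be S₁ S₂ θ b₁ b₂ q ^ (lam q).natAbs ≤ be S₁ S₂ θ b₁ b₂ q ^ 1 :=
              pow_le_pow_right₀ (be_ge h q) hn1
          _ = be S₁ S₂ θ b₁ b₂ q := pow_one _
          _ ≤ _ := Real.exp_le_exp.2 (hmono q (l2 q hq).1 (l2 q hq).2)
    calc (∏ q, be S₁ S₂ θ b₁ b₂ q ^ (lam q).natAbs) ^ s
        ≤ (Real.exp (tb S₁ S₂ θ b₁ b₂ p) ^ Fintype.card (Tok E)) ^ s :=
          pow_le_pow_left₀ (Finset.prod_nonneg fun q _ => pow_nonneg (by linarith [be_ge h q]) _)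
            h3 s
      _ = _ := by
          rw [← Real.exp_nat_mul, ← Real.exp_nat_mul]
          congr 1
          ring

/-- ratio bound along any move -/
theorem rat_any (h : Pair S₁ S₂ b₁ D₁ b₂ D₂ θ μ β₀)
    (hRep : Rep (tree S₁.T S₂.T) tX tY b' order R) (i : E) (p : Tok E) (hp : p ≠ none) :
    LInst.rat S₁ S₂ θ b₁ b₂ (cdir (tree S₁.T S₂.T) R i p) ≤ kap θ β₀ ^ 3 := by
  have hθ1 : 1 ≤ θ⁻¹ := (one_le_inv₀ h.θ0).2 h.θ1
  have hk := h.kap_ge
  obtain ⟨mu, m1, m2, m3, m4⟩ := hRep.route i p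
  obtain ⟨nu, n1, n2, n3, n4⟩ := hRep.route i ((tree S₁.T S₂.T).par p)
  set lam : Tok E → ℤ := Pi.single p 1 - (mu - nu) with hlamdef
  have hkap : Real.exp β₀ ^ 2 * θ⁻¹ ^ 2 = kap θ β₀ := by unfold kap; ring
  have hmu := prod_route_le (tree S₁.T S₂.T) (be_ge h) (be_thin h) hθ1 (be_fat h) mu m1 m3
  have hnu := prod_route_le (tree S₁.T S₂.T) (be_ge h) (be_thin h) hθ1 (be_fat h) nu n1 n3
  have hsg := prod_route_le (tree S₁.T S₂.T) (be_ge h) (be_thin h) hθ1 (be_fat h)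
    (Pi.single p 1 : Tok E → ℤ) (fun q => by
      by_cases hq : q = p
      · subst hq; simp
      · rw [Pi.single_eq_of_ne hq]; norm_num) (by
      have : ∑ q ∈ univ.filter (fun q => (tree S₁.T S₂.T).par q = (tree S₁.T S₂.T).root),
          |(Pi.single p 1 : Tok E → ℤ) q| ≤ ∑ q, |(Pi.single p 1 : Tok E → ℤ) q| :=
        Finset.sum_le_sum_of_subset_of_nonneg (Finset.subset_univ _) fun _ _ _ => abs_nonneg _
      refine this.trans ?_
      rw [Finset.sum_eq_single p]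
      · simp
      · intro q _ hq; rw [Pi.single_eq_of_ne hq]; simp
      · intro h; exact absurd (Finset.mem_univ _) h)
  rw [hkap] at hmu hnu hsg
  have hroot : (tree S₁.T S₂.T).root = none := rfl
  have hl0 : lam none = 0 := by
    rw [hlamdef, Pi.sub_apply, Pi.sub_apply, Pi.single_eq_of_ne (Ne.symm hp)]
    rw [hroot] at m2 n2
    rw [m2, n2]; ring
  have hdisp : ∀ v, disp tX tY (cdir (tree S₁.T S₂.T) R i p) v = xch (tree S₁.T S₂.T) lam v := by
    intro v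
    unfold cdir
    rw [disp_sub, hlamdef, xch_sub, xch_sub]
    have h1 := m4 v
    have h2 := n4 v
    have h3 := congrFun (xch_single (tree S₁.T S₂.T) p 1) v
    simp only [Pi.smul_apply, Pi.sub_apply, smul_eq_mul, one_mul] at h3
    rw [h3]
    linarith
  rw [rat_eq h.θ0 _ lam hl0 hdisp]
  have hb0 : ∀ q, 0 ≤ be S₁ S₂ θ b₁ b₂ q := fun q => by linarith [be_ge h q]
  calc ∏ q, be S₁ S₂ θ b₁ b₂ q ^ (lam q).natAbs
      ≤ ∏ q, (be S₁ S₂ θ b₁ b₂ q ^ ((Pi.single p 1 : Tok E → ℤ) q).natAbs *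
        (be S₁ S₂ θ b₁ b₂ q ^ (mu q).natAbs * be S₁ S₂ θ b₁ b₂ q ^ (nu q).natAbs)) := by
        refine Finset.prod_le_prod (fun q _ => pow_nonneg (hb0 q) _) fun q _ => ?_
        rw [← pow_add, ← pow_add]
        refine pow_le_pow_right₀ (be_ge h q) ?_
        rw [hlamdef, Pi.sub_apply, Pi.sub_apply]
        omega
    _ = (∏ q, be S₁ S₂ θ b₁ b₂ q ^ ((Pi.single p 1 : Tok E → ℤ) q).natAbs) *
        ((∏ q, be S₁ S₂ θ b₁ b₂ q ^ (mu q).natAbs) *
          ∏ q, be S₁ S₂ θ b₁ b₂ q ^ (nu q).natAbs) := by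
        rw [Finset.prod_mul_distrib, Finset.prod_mul_distrib]
    _ ≤ kap θ β₀ * (kap θ β₀ * kap θ β₀) := by
        refine mul_le_mul hsg (mul_le_mul hmu hnu
          (Finset.prod_nonneg fun q _ => pow_nonneg (hb0 q) _) (by linarith))
          (mul_nonneg (Finset.prod_nonneg fun q _ => pow_nonneg (hb0 q) _)
            (Finset.prod_nonneg fun q _ => pow_nonneg (hb0 q) _)) (by linarith)
    _ = _ := by ring

end Ratio

/-! ### the class `LA` from helper532's `Shape` -/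

theorem la_shape {S : Side E} {r : Finset E → ℤ} {R : ℤ} {ω : E → ℤ → ℝ} (h : Shape S r R ω)
    {θ : ℝ} (h0 : 0 < θ) (h1 : θ ≤ 1) {μ : E → ℝ} (hμ : ∀ a, 0 < μ a) (x : E → ℤ) :
    Link.LA R (S.lw θ μ x) := LInst.la_lw h h0 h1 hμ x

/-! ### the full composition -/

section Full

variable (D : SD E) {b₁ D₁ b₂ D₂ : E → ℝ} {order : List E} {R : E → Tok E → E → ℤ}
  {b' : Tok E → ℝ} {wt : Tok E → ℝ} {P G w1 mx : ℝ}

/-- **(S1)**: the Poincare inequality with defect for the joint weight of one stage. -/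
theorem S1_full {r₁ r₂ : Finset E → ℤ} {RR : ℤ} {ω₁ ω₂ : E → ℤ → ℝ}
    (h : Pair D.S₁w D.S₂ b₁ D₁ b₂ D₂ D.θ D.μ 1)
    (hs₁ : Shape D.S₁w r₁ RR ω₁) (hs₂ : Shape D.S₂ r₂ RR ω₂)
    (hG₁ : Gauge D.S₁w D.μ) (hG₂ : Gauge D.S₂ D.μ)
    (hΛ₁ : ∀ z ∈ D.S₁.J, D.S₁.blk z ∈ D.Λ₁) (hΛ₂ : ∀ z ∈ D.S₂.J, D.S₂.blk z ∈ D.Λ₂)
    (hlk₁ : ∀ p q : D.S₁.Blk, p ≠ q → (q, p) ∈ D.lk₁)
    (hlk₂ : ∀ p q : D.S₂.Blk, p ≠ q → (q, p) ∈ D.lk₂)
    (e : Tok E → ℕ) (hn : Nm D.S₁w D.S₂ b₁ D₁ b₂ D₂ D.θ wt (fun p => 2 ^ e p) P G w1 mx)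
    (hnd : order.Nodup) (hall : ∀ a, a ∈ order)
    (hRep : Rep (tree D.S₁.T D.S₂.T) tX tY b' order R)
    (hmono : ∀ p q, (tree D.S₁.T D.S₂.T).par p ≠ none → q ≠ none → b' q ≤ b' p →
      tb D.S₁w D.S₂ D.θ b₁ b₂ q ≤ tb D.S₁w D.S₂ D.θ b₁ b₂ p)
    (hmv : ∀ F : (E → ℤ) × ℕ → ℝ, (∀ m, 0 ≤ F m) →
      ∑ i, ∑ p ∈ univ.erase (none : Tok E), F (cdir (tree D.S₁.T D.S₂.T) R i p, e p) ≤
        (D.mv.map F).sum)
    (hmv' : ∀ m ∈ D.mv, ∃ i p, p ≠ none ∧ m = (cdir (tree D.S₁.T D.S₂.T) R i p, e p))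
    {lm : ℕ} (hlm : ∀ p, 2 ^ e p ≤ lm) (hM : Fintype.card E * (G * mx) + 2 * lm ≤ D.M)
    (Kw : ℕ) {A : ℝ}
    (hA1 : 3 * A0n (Fintype.card E) (Fintype.card (Tok E)) (kap D.θ 1) G P w1 D.θ *
      kap D.θ 1 ^ 3 ≤ A)
    (hA2 : (1 + D.mv.length * (6 * A0n (Fintype.card E) (Fintype.card (Tok E)) (kap D.θ 1) G P w1
      D.θ * kap D.θ 1 ^ 3)) * Link.KL D.S₁.Blk (2 * Kw) ≤ A)
    (hA3 : (1 + D.mv.length * (6 * A0n (Fintype.card E) (Fintype.card (Tok E)) (kap D.θ 1) G P w1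
      D.θ * kap D.θ 1 ^ 3)) * Link.KL D.S₂.Blk (2 * Kw) ≤ A)
    (f : St D → ℝ) {M : ℝ} (hM0 : 0 ≤ M) (hf : ∀ p, |f p| ≤ M) :
    vr D.bx D.nuG f ≤ A * D.enG f +
      (CD (Fintype.card E) (Fintype.card (Tok E)) (2 * D.M) (kap D.θ 1)
          (KSn (Fintype.card E) (Fintype.card (Tok E)) (kap D.θ 1) G P w1 D.θ mx) *
        badm D.S₁.T D.S₂.T (LL G wt) (cen D.S₁.T D.S₂.T D.c) D.Wx
          (Fintype.piFinset fun a => Icc (D.c a - D.M - 1) (D.c a + D.M + 1))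
      + (1 + D.mv.length * (6 * A0n (Fintype.card E) (Fintype.card (Tok E)) (kap D.θ 1) G P w1
          D.θ * kap D.θ 1 ^ 3)) *
        (8 * Joint.farM D.Bx D.a₁ D.a₂ D.Λ₁ D.Λ₂ D.S₁.blk D.S₂.blk Kw)) * M ^ 2 := by
  classical
  have hκ : 1 ≤ kap D.θ 1 := h.kap_ge
  have hκ3 : 1 ≤ kap D.θ 1 ^ 3 := one_le_pow₀ hκ
  have hG := hn.G1
  have hP := hn.P1
  have hw := hn.w11
  have hθ := h.θ0
  have hPP0 : 0 ≤ PPn (Fintype.card (Tok E)) (kap D.θ 1) G P w1 D.θ := by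
    unfold PPn; positivity
  have hCC : 0 ≤ CC (Fintype.card (Tok E)) (kap D.θ 1)
      (PPn (Fintype.card (Tok E)) (kap D.θ 1) G P w1 D.θ) := CC_nonneg hκ hPP0
  have hA0 : 0 ≤ A0n (Fintype.card E) (Fintype.card (Tok E)) (kap D.θ 1) G P w1 D.θ := by
    unfold A0n; positivity
  have key := D.stage_poinc (δ := (kap D.θ 1 ^ 3)⁻¹)
    (Kx := A0n (Fintype.card E) (Fintype.card (Tok E)) (kap D.θ 1) G P w1 D.θ)
    (ε := CD (Fintype.card E) (Fintype.card (Tok E)) (2 * D.M) (kap D.θ 1)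
          (KSn (Fintype.card E) (Fintype.card (Tok E)) (kap D.θ 1) G P w1 D.θ mx) *
        badm D.S₁.T D.S₂.T (LL G wt) (cen D.S₁.T D.S₂.T D.c) D.Wx
          (Fintype.piFinset fun a => Icc (D.c a - D.M - 1) (D.c a + D.M + 1)))
    (M := M) (A := A) ?_ ?_ ?_ hlk₁ hlk₂ (by positivity) (inv_le_one_of_one_le₀ hκ3) ?_ hA0 hM0
    ?_ Kw ?_ ?_ ?_ hf
  · simp only [div_inv_eq_mul] at key
    exact key
  · -- link class, side 1
    refine ⟨fun x _ => ⟨RR, la_shape hs₁ h.θ0 h.θ1 h.μ0 x⟩, fun x _ β hβ => ?_⟩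
    have h1 : D.S₁w.ff x β ≠ 0 := right_ne_zero_of_mul hβ
    obtain ⟨z, hz, rfl⟩ := LInst.ff_support h1
    exact hΛ₁ z hz
  · refine ⟨fun x _ => ⟨RR, la_shape hs₂ h.θ0 h.θ1 h.μi x⟩, fun x _ β hβ => ?_⟩
    have h1 : D.S₂.ff x β ≠ 0 := right_ne_zero_of_mul hβ
    obtain ⟨z, hz, rfl⟩ := LInst.ff_support h1
    exact hΛ₂ z hz
  · -- marginal
    intro x _
    exact LInst.mar_jnu (S₁ := D.S₁w) (S₂ := D.S₂) (θ := D.θ) hG₁ hG₂ hΛ₁ hΛ₂ x
  · -- comparison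
    intro m hm s hs x _ _ y _
    obtain ⟨i, p, hp, rfl⟩ := hmv' m hm
    have hj := LInst.jnu_le h x (s • cdir (tree D.S₁.T D.S₂.T) R i p) y
    have hnu : ∀ σ, D.nuG σ = LInst.jnu D.S₁w D.S₂ D.θ D.μ σ := fun σ => D.nuG_eq σ
    rw [hnu, hnu, inv_mul_le_iff₀ (by positivity)]
    refine hj.trans ?_
    have hpos : 0 ≤ LInst.jnu D.S₁w D.S₂ D.θ D.μ
        (x + s • cdir (tree D.S₁.T D.S₂.T) R i p, y) := by
      have p1 := h.ok₁.ok.lw_nonneg h.θ0 h.μ0 (x + s • cdir (tree D.S₁.T D.S₂.T) R i p) y.1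
      have p2 := h.ok₂.ok.lw_nonneg h.θ0 h.μi (x + s • cdir (tree D.S₁.T D.S₂.T) R i p) y.2
      exact mul_nonneg p1 p2
    refine mul_le_mul_of_nonneg_right ?_ hpos
    by_cases hf' : (tree D.S₁.T D.S₂.T).par p = none
    · -- thin
      have hl : (2 : ℕ) ^ e p = 1 := hn.lthin p hf'
      have hs1 : s ≤ 1 := by
        have : s ≤ 2 ^ e p := hs
        omega
      refine (LInst.rat_mono h hs1 _).trans ?_
      rw [one_smul]
      exact rat_any h hRep i p hp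
    · refine (rat_fat h hRep i p hp (fun q hq hbq => hmono p q hf' hq hbq) s).trans ?_
      have h1 : Fintype.card (Tok E) * tb D.S₁w D.S₂ D.θ b₁ b₂ p * s ≤ 1 := by
        have h2 := hn.hls h
        have h3 : (1 : ℝ) ≤ Fintype.card E := by
          have : 0 < Fintype.card E := Fintype.card_pos_iff.2 ⟨i⟩
          exact_mod_cast this
        have hN : (1 : ℝ) ≤ Fintype.card (Tok E) := card_tok_pos
        have h4 : tb D.S₁w D.S₂ D.θ b₁ b₂ p * (2 ^ e p : ℕ) ≤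
            ∑ p ∈ univ.filter (fun p => (tree D.S₁w.T D.S₂.T).par p ≠ none),
              tb D.S₁w D.S₂ D.θ b₁ b₂ p * ((fun p => 2 ^ e p) p : ℕ) :=
          Finset.single_le_sum (f := fun p => tb D.S₁w D.S₂ D.θ b₁ b₂ p *
            (((fun p => 2 ^ e p) p : ℕ) : ℝ)) (fun q _ => mul_nonneg (h.tb_nonneg q)
              (Nat.cast_nonneg _)) (Finset.mem_filter.2 ⟨Finset.mem_univ _, hf'⟩)
        have h5 : (s : ℝ) ≤ ((2 ^ e p : ℕ) : ℝ) := by exact_mod_cast hs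
        have h6 := h.tb_nonneg p
        have h7 : tb D.S₁w D.S₂ D.θ b₁ b₂ p * s ≤
            tb D.S₁w D.S₂ D.θ b₁ b₂ p * ((2 ^ e p : ℕ) : ℝ) := mul_le_mul_of_nonneg_left h5 h6
        set Ss := ∑ p ∈ univ.filter (fun p => (tree D.S₁w.T D.S₂.T).par p ≠ none),
              tb D.S₁w D.S₂ D.θ b₁ b₂ p * (((fun p => 2 ^ e p) p : ℕ) : ℝ) with hSs
        have h8 : 0 ≤ Ss := Finset.sum_nonneg fun q _ => mul_nonneg (h.tb_nonneg q)
          (Nat.cast_nonneg _)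
        calc (Fintype.card (Tok E) : ℝ) * tb D.S₁w D.S₂ D.θ b₁ b₂ p * s
            = Fintype.card (Tok E) * (tb D.S₁w D.S₂ D.θ b₁ b₂ p * s) := by ring
          _ ≤ Fintype.card (Tok E) * Ss :=
              mul_le_mul_of_nonneg_left (h7.trans h4) (by linarith)
          _ = 1 * (Fintype.card (Tok E) * Ss) := by ring
          _ ≤ Fintype.card E * (Fintype.card (Tok E) * Ss) :=
              mul_le_mul_of_nonneg_right h3 (by positivity)
          _ = (Fintype.card E * Fintype.card (Tok E) : ℝ) * Ss := by ring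
          _ ≤ 1 := h2
      have h9 : Real.exp 1 ≤ kap D.θ 1 := by
        unfold kap
        have h10 : 1 ≤ D.θ⁻¹ := (one_le_inv₀ h.θ0).2 h.θ1
        have h11 : 1 ≤ Real.exp 1 := Real.one_le_exp zero_le_one
        have h12 : Real.exp 1 ≤ D.θ⁻¹ * Real.exp 1 := by nlinarith
        nlinarith
      calc Real.exp (Fintype.card (Tok E) * tb D.S₁w D.S₂ D.θ b₁ b₂ p * s)
          ≤ Real.exp 1 := Real.exp_le_exp.2 h1
        _ ≤ kap D.θ 1 := h9
        _ ≤ kap D.θ 1 ^ 3 := by nlinarith [sq_nonneg (kap D.θ 1)]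
  · -- the x-part
    intro g hg
    have hx := S1x_num (r₁ := r₁) (r₂ := r₂) (RR := RR) (ω₁ := ω₁) (ω₂ := ω₂) h
      (fun d => hyp_FF hs₁ hs₂ h.θ0 h.θ1 h.μ0 0 d) hn hnd hall hRep hmono D.c D.M
      (lm := lm) hlm hM g hg
    have hWx : ww D.S₁w D.S₂ D.θ D.μ = D.Wx := rfl
    rw [hWx] at hx
    have hW0 : ∀ y ∈ D.Bx, 0 ≤ D.Wx y := fun y _ => (ww_pos h y).le
    have h1 := hmv (fun m => aDm D.Bx D.Wx m.1 (2 ^ m.2) g)
      (fun m => Macro.aDm_nonneg hW0 _ g)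
    refine hx.trans ?_
    refine add_le_add (mul_le_mul_of_nonneg_left h1 hA0) (le_of_eq ?_)
    have hT : D.S₁w.T = D.S₁.T := rfl
    rw [hT]
    ring
  · rw [div_inv_eq_mul]; exact hA1
  · rw [div_inv_eq_mul]; exact hA2
  · rw [div_inv_eq_mul]; exact hA3

end Full

end Crest.Agent.R302.T893
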