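import Crest.Agent.R302.MSP893H
import Crest.Agent.R302.Inst532C
import Crest.Agent.R302.MacroB541

/-!
R302 (helper893), block (S1x), part A: `msp_moves` for helper532's `FF`.
-/

set_option autoImplicit false
set_option linter.unusedSectionVars false
set_option linter.unusedVariables false

namespace Crest.Agent.R302.T893

open Finset Lor
open Crest.Agent.R302.Tree (RTree)
open Crest.Agent.R302.Cut (cw ind dvec)
open Crest.Agent.R302.Inst

variable {E : Type*} [Fintype E] [DecidableEq E]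

section Tok

theorem tX_inj : Function.Injective (tX : E → Tok E) := by
  intro a b h
  simpa [tX] using h

theorem tY_inj : Function.Injective (tY : E → Tok E) := by
  intro a b h
  simpa [tY] using h

theorem tX_ne_tY (e e' : E) : tX e ≠ tY e' := by simp [tX, tY]

variable (T₁ T₂ : MP3.Forest E)

theorem desc_tX_iff (e : E) (q : Tok E) :
    (tree T₁ T₂).Desc (tX e) q ↔ ∃ c, T₁.Le c e ∧ q = tX c := by
  constructor
  · intro h
    induction h with
    | refl => exact ⟨e, MP3.Forest.Le.refl _ _, rfl⟩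
    | step q hq _ ih =>
      obtain ⟨c, hc, hqc⟩ := ih
      rcases q with _ | a | a
      · exact absurd rfl hq
      · rcases hp : T₁.par a with _ | b
        · simp [tree, tX, hp] at hqc
        · simp only [tree, tX, hp, Option.map_some, Option.some.injEq, Sum.inl.injEq] at hqc
          subst hqc
          exact ⟨a, (MP3.Forest.Le.of_par hp).trans hc, rfl⟩
      · rcases hp : T₂.par a with _ | b
        · simp [tree, tX, hp] at hqc
        · simp [tree, tX, hp] at hqc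
  · rintro ⟨c, hc, rfl⟩
    unfold MP3.Forest.Le at hc
    induction hc using Relation.ReflTransGen.head_induction_on with
    | refl => exact RTree.Desc.refl
    | @head a b hx _ ih =>
      refine RTree.Desc.step _ (by simp [tree, tX]) ?_
      have : (tree T₁ T₂).par (tX a) = tX b := by simp [tree, tX, hx]
      rw [this]
      exact ih

theorem desc_tY_iff (e : E) (q : Tok E) :
    (tree T₁ T₂).Desc (tY e) q ↔ ∃ c, T₂.Le c e ∧ q = tY c := by
  constructor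
  · intro h
    induction h with
    | refl => exact ⟨e, MP3.Forest.Le.refl _ _, rfl⟩
    | step q hq _ ih =>
      obtain ⟨c, hc, hqc⟩ := ih
      rcases q with _ | a | a
      · exact absurd rfl hq
      · rcases hp : T₁.par a with _ | b
        · simp [tree, tY, hp] at hqc
        · simp [tree, tY, hp] at hqc
      · rcases hp : T₂.par a with _ | b
        · simp [tree, tY, hp] at hqc
        · simp only [tree, tY, hp, Option.map_some, Option.some.injEq, Sum.inr.injEq] at hqc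
          subst hqc
          exact ⟨a, (MP3.Forest.Le.of_par hp).trans hc, rfl⟩
  · rintro ⟨c, hc, rfl⟩
    unfold MP3.Forest.Le at hc
    induction hc using Relation.ReflTransGen.head_induction_on with
    | refl => exact RTree.Desc.refl
    | @head a b hx _ ih =>
      refine RTree.Desc.step _ (by simp [tree, tY]) ?_
      have : (tree T₁ T₂).par (tY a) = tY b := by simp [tree, tY, hx]
      rw [this]
      exact ih

theorem desc_tX (e : E) : (tree T₁ T₂).desc (tX e) = (T₁.sub e).map ⟨tX, tX_inj⟩ := by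
  ext q
  rw [RTree.mem_desc, desc_tX_iff, Finset.mem_map]
  constructor
  · rintro ⟨c, hc, rfl⟩; exact ⟨c, MP3.Forest.mem_sub.2 hc, rfl⟩
  · rintro ⟨c, hc, rfl⟩; exact ⟨c, MP3.Forest.mem_sub.1 hc, rfl⟩

theorem desc_tY (e : E) : (tree T₁ T₂).desc (tY e) = (T₂.sub e).map ⟨tY, tY_inj⟩ := by
  ext q
  rw [RTree.mem_desc, desc_tY_iff, Finset.mem_map]
  constructor
  · rintro ⟨c, hc, rfl⟩; exact ⟨c, MP3.Forest.mem_sub.2 hc, rfl⟩
  · rintro ⟨c, hc, rfl⟩; exact ⟨c, MP3.Forest.mem_sub.1 hc, rfl⟩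

theorem lev_tX (e : E) (m : ℤ) (y : E → ℤ) :
    lev (tree T₁ T₂) (tX e) (gam m y) = (bs T₁ y e : ℝ) := by
  unfold lev bs
  rw [desc_tX, Finset.sum_map]
  rfl

theorem lev_tY (e : E) (y : E → ℤ) :
    lev (tree T₁ T₂) (tY e) (gam 0 y) = -(bs T₂ y e : ℝ) := by
  unfold lev bs
  rw [desc_tY, Finset.sum_map]
  rw [← Int.cast_neg, ← Finset.sum_neg_distrib]
  congr 1
  refine Finset.sum_congr rfl fun c _ => ?_
  show (0 : ℤ) - y c = - y c
  ring

end Tok

/-- the level of a token (side 1: subtree sum in forest 1; side 2: subtree sum in forest 2) -/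
noncomputable def lvl (T₁ T₂ : MP3.Forest E) (p : Tok E) (y : E → ℤ) : ℝ := match p with
  | none => 0
  | some (Sum.inl e) => (bs T₁ y e : ℝ)
  | some (Sum.inr e) => (bs T₂ y e : ℝ)

/-- sign flip on side 2 -/
noncomputable def cfl (c : Tok E → ℝ) (p : Tok E) : ℝ := match p with
  | none => 0
  | some (Sum.inl e) => c (some (Sum.inl e))
  | some (Sum.inr e) => -c (some (Sum.inr e))

theorem lev_lvl (T₁ T₂ : MP3.Forest E) (c : Tok E → ℝ) (p : Tok E) (hp : p ≠ none) (y : E → ℤ) :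
    |lev (tree T₁ T₂) p (gam 0 y) - cfl c p| = |lvl T₁ T₂ p y - c p| := by
  rcases p with _ | e | e
  · exact absurd rfl hp
  · have := lev_tX T₁ T₂ e 0 y
    unfold tX at this
    rw [this]
    rfl
  · have := lev_tY T₁ T₂ e y
    unfold tY at this
    rw [this]
    show |-(bs T₂ y e : ℝ) - -c (some (Sum.inr e))| = |(bs T₂ y e : ℝ) - c (some (Sum.inr e))|
    rw [← abs_neg]
    congr 1
    ring

/-- the marginal weight of `x` -/
noncomputable def ww (S₁ S₂ : Side E) (θ : ℝ) (μ : E → ℝ) (y : E → ℤ) : ℝ :=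
  S₁.W θ μ y * S₂.W θ (fun e => (μ e)⁻¹) y

theorem FF_gam0 (S₁ S₂ : Side E) (θ : ℝ) (μ : E → ℝ) (y : E → ℤ) :
    FF S₁ S₂ θ μ 0 (gam 0 y) = ww S₁ S₂ θ μ y := FF_gam S₁ S₂ θ μ 0 y

section Msp

variable {S₁ S₂ : Side E} {b₁ D₁ b₂ D₂ : E → ℝ} {θ : ℝ} {μ : E → ℝ} {β₀ : ℝ}

/-- multiplicative slope of a token edge -/
noncomputable def be (S₁ S₂ : Side E) (θ : ℝ) (b₁ b₂ : E → ℝ) (p : Tok E) : ℝ :=
  Real.exp (tb S₁ S₂ θ b₁ b₂ p)

theorem be_ge (h : Pair S₁ S₂ b₁ D₁ b₂ D₂ θ μ β₀) (q : Tok E) : 1 ≤ be S₁ S₂ θ b₁ b₂ q :=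
  Real.one_le_exp (h.tb_nonneg q)

theorem be_up (h : Pair S₁ S₂ b₁ D₁ b₂ D₂ θ μ β₀) (m : ℤ) (q : Tok E)
    (hq : q ≠ (tree S₁.T S₂.T).root) (d : Tok E → ℤ) :
    FF S₁ S₂ θ μ m (d + ev q) ≤
      be S₁ S₂ θ b₁ b₂ q * FF S₁ S₂ θ μ m (d + ev ((tree S₁.T S₂.T).par q)) := by
  have h1 := (h.FF_line m q hq (d + ev ((tree S₁.T S₂.T).par q))).up 0
  simp only [zero_add, one_smul, zero_smul, add_zero] at h1
  rw [show d + ev ((tree S₁.T S₂.T).par q) + (ev q - ev ((tree S₁.T S₂.T).par q))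
    = d + ev q from by abel] at h1
  exact h1

theorem be_dn (h : Pair S₁ S₂ b₁ D₁ b₂ D₂ θ μ β₀) (m : ℤ) (q : Tok E)
    (hq : q ≠ (tree S₁.T S₂.T).root) (d : Tok E → ℤ) :
    FF S₁ S₂ θ μ m (d + ev ((tree S₁.T S₂.T).par q)) ≤
      be S₁ S₂ θ b₁ b₂ q * FF S₁ S₂ θ μ m (d + ev q) := by
  have h1 := (h.FF_line m q hq (d + ev ((tree S₁.T S₂.T).par q))).dn 0
  simp only [zero_add, one_smul, zero_smul, add_zero] at h1
  rw [show d + ev ((tree S₁.T S₂.T).par q) + (ev q - ev ((tree S₁.T S₂.T).par q))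
    = d + ev q from by abel] at h1
  exact h1

theorem be_thin (h : Pair S₁ S₂ b₁ D₁ b₂ D₂ θ μ β₀) (q : Tok E)
    (hq : (tree S₁.T S₂.T).par q = (tree S₁.T S₂.T).root) : be S₁ S₂ θ b₁ b₂ q ≤ θ⁻¹ := by
  have h1 : 1 ≤ θ⁻¹ := (one_le_inv₀ h.θ0).2 h.θ1
  unfold be
  rcases q with _ | e | e
  · simpa [tb] using h1
  · have h2 : S₁.T.par e = none := by
      rcases hp : S₁.T.par e with _ | b
      · rfl
      · simp [tree, hp] at hq
    have h3 : tb S₁ S₂ θ b₁ b₂ (some (Sum.inl e)) = -Real.log θ := by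
      simp [tb, Side.bb, h2]
    rw [h3, Real.exp_neg, Real.exp_log h.θ0]
  · have h2 : S₂.T.par e = none := by
      rcases hp : S₂.T.par e with _ | b
      · rfl
      · simp [tree, hp] at hq
    have h3 : tb S₁ S₂ θ b₁ b₂ (some (Sum.inr e)) = -Real.log θ := by
      simp [tb, Side.bb, h2]
    rw [h3, Real.exp_neg, Real.exp_log h.θ0]

theorem sum_tok (f : Tok E → ℝ) : ∑ p, f p = f none + (∑ e, f (tX e) + ∑ e, f (tY e)) := by
  rw [Fintype.sum_option, Fintype.sum_sum_type]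
  rfl

theorem card_tok : Fintype.card (Tok E) = 2 * Fintype.card E + 1 := by
  unfold Tok
  rw [Fintype.card_option, Fintype.card_sum]
  ring

theorem be_fat (h : Pair S₁ S₂ b₁ D₁ b₂ D₂ θ μ β₀) :
    ∏ q ∈ univ.filter (fun q => (tree S₁.T S₂.T).par q ≠ (tree S₁.T S₂.T).root),
      be S₁ S₂ θ b₁ b₂ q ≤ Real.exp β₀ ^ 2 := by
  classical
  unfold be
  rw [← Real.exp_sum, ← Real.exp_nat_mul]
  refine Real.exp_le_exp.2 ?_
  rw [Finset.sum_filter, sum_tok]
  have e0 : (if (tree S₁.T S₂.T).par none ≠ (tree S₁.T S₂.T).root then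
      tb S₁ S₂ θ b₁ b₂ none else 0) = 0 := by simp [tree]
  have e1 : ∀ e, (if (tree S₁.T S₂.T).par (tX e) ≠ (tree S₁.T S₂.T).root then
      tb S₁ S₂ θ b₁ b₂ (tX e) else 0) ≤ if S₁.T.par e ≠ none then b₁ e else 0 := by
    intro e
    rcases hp : S₁.T.par e with _ | b
    · simp [tree, tX, hp]
    · simp [tree, tX, hp, tb, Side.bb]
  have e2 : ∀ e, (if (tree S₁.T S₂.T).par (tY e) ≠ (tree S₁.T S₂.T).root then
      tb S₁ S₂ θ b₁ b₂ (tY e) else 0) ≤ if S₂.T.par e ≠ none then b₂ e else 0 := by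
    intro e
    rcases hp : S₂.T.par e with _ | b
    · simp [tree, tY, hp]
    · simp [tree, tY, hp, tb, Side.bb]
  rw [e0]
  have h1 := (Finset.sum_le_sum fun e (_ : e ∈ univ) => e1 e).trans h.hβ₁
  have h2 := (Finset.sum_le_sum fun e (_ : e ∈ univ) => e2 e).trans h.hβ₂
  push_cast
  linarith

/-- **(S1x), fine form**: `msp_moves` for the marginal weight `W₁ W₂`. -/
theorem msp_FF (h : Pair S₁ S₂ b₁ D₁ b₂ D₂ θ μ β₀)
    (hAF : ∀ d, AF (fun p q => FF S₁ S₂ θ μ 0 (d + ev p + ev q)))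
    {PP : ℝ} {L c : Tok E → ℝ} (hL : ∀ p, 1 ≤ L p)
    (hPP : ∑ q ∈ univ.erase (none : Tok E),
      (2 * kap θ β₀ * tB S₁ S₂ θ b₁ b₂ q + 1 / L q) ^ 2 * L q ^ 2 ≤ PP)
    (hsL : ∀ p : Tok E, p ≠ none →
      6 * (Fintype.card (Tok E) * ∑ q ∈ ((tree S₁.T S₂.T).desc p).erase p,
        ts S₁ S₂ θ b₁ b₂ D₁ D₂ β₀ q * L q ^ 2) ≤ L p ^ 2)
    (order : List E) (hnd : order.Nodup) (hall : ∀ e, e ∈ order)
    (R : E → Tok E → E → ℤ) {b' : Tok E → ℝ} (hRep : Rep (tree S₁.T S₂.T) tX tY b' order R)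
    (f : (E → ℤ) → ℝ) {A : ℝ} (hf : ∀ y, |f y| ≤ A) (x : E → ℤ) (m : ℕ)
    (B Bp : Finset (E → ℤ))
    (hB : B = Fintype.piFinset fun e => Icc (x e) (x e + m))
    (hBp : Bp = Fintype.piFinset fun e => Icc (x e - 1) (x e + m + 1)) :
    Macro.vr B (ww S₁ S₂ θ μ) f ≤
      ∑ i, ∑ p ∈ univ.erase (none : Tok E),
        C1 (Fintype.card (Tok E)) (kap θ β₀) PP * kap θ β₀ ^ 2 * L p ^ 2 *
        Macro.S Bp (ww S₁ S₂ θ μ)
          (fun y => (f (y + (R i p - R i ((tree S₁.T S₂.T).par p))) - f y) ^ 2)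
      + Fintype.card E * (C2 m (Fintype.card E) (kap θ β₀) * A ^ 2 *
        ∑ p ∈ univ.erase (none : Tok E),
          ∑ y ∈ B.filter (fun y => ¬ |lvl S₁.T S₂.T p y - c p| ≤ L p - 2), ww S₁ S₂ θ μ y) := by
  classical
  have hθ1 : 1 ≤ θ⁻¹ := (one_le_inv₀ h.θ0).2 h.θ1
  have key := msp_moves (m := m) (X := tX) (Y := tY) (F := FF S₁ S₂ θ μ 0) (γ := gam 0)
    (fun δ => h.FF_pos 0 δ) hAF (fun y k => Inst.gam_single 0 y k) h.kap_ge
    (fun δ p q => h.FF_kap 0 δ p q) (tree S₁.T S₂.T) (L := L) (c := cfl c)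
    (b := tB S₁ S₂ θ b₁ b₂) (s := ts S₁ S₂ θ b₁ b₂ D₁ D₂ β₀) (β := be S₁ S₂ θ b₁ b₂) hL
    h.ts_nonneg (fun p q hq hqp δ => h.FF_s 0 p q (RTree.mem_desc_ne_root hq hqp) δ)
    h.tB_nonneg (fun q hq δ => h.FF_b 0 q hq δ) hPP hsL (be_ge h) (fun q hq δ => be_up h 0 q hq δ)
    (fun q hq δ => be_dn h 0 q hq δ) (κt := θ⁻¹) (K3 := Real.exp β₀ ^ 2) (be_thin h) hθ1 (be_fat h)
    order hnd hall R ⟨b', hRep⟩ f hf x B Bp hB hBp
  have e1 : kap θ β₀ * (Real.exp β₀ ^ 2 * θ⁻¹ ^ 2) = kap θ β₀ ^ 2 := by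
    unfold kap; ring
  have e2 : ∀ p ∈ univ.erase (none : Tok E), ∑ y ∈ B, tl (FF S₁ S₂ θ μ 0) (gam 0)
      (tree S₁.T S₂.T) L (cfl c) p y =
      ∑ y ∈ B.filter (fun y => ¬ |lvl S₁.T S₂.T p y - c p| ≤ L p - 2), ww S₁ S₂ θ μ y := by
    intro p hp
    rw [Finset.sum_filter]
    refine Finset.sum_congr rfl fun y _ => ?_
    unfold tl
    rw [lev_lvl _ _ _ _ (Finset.ne_of_mem_erase hp), FF_gam0]
    by_cases hc : |lvl S₁.T S₂.T p y - c p| ≤ L p - 2
    · rw [if_pos hc, if_neg (not_not.2 hc)]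
    · rw [if_neg hc, if_pos hc]
  simp only [e1, FF_gam0] at key
  have hroot : (tree S₁.T S₂.T).root = none := rfl
  rw [hroot, Finset.sum_congr rfl e2] at key
  exact key

end Msp

end Crest.Agent.R302.T893
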