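import Crest.Agent.R302.S1x893A

/-!
R302 (helper893), block (S1x), part B: slopes of the marginal weight along the moves.
-/

set_option autoImplicit false
set_option linter.unusedSectionVars false
set_option linter.unusedVariables false

namespace Crest.Agent.R302.T893

open Finset Lor
open Crest.Agent.R302.Tree (RTree)
open Crest.Agent.R302.Cut (cw ind dvec)
open Crest.Agent.R302.Inst

variable {E : Type*} [Fintype E] [DecidableEq E]

/-- the move `c_{i,p}` -/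
def cdir {V : Type*} (T : RTree V) (R : E → V → E → ℤ) (i : E) (p : V) : E → ℤ :=
  R i p - R i (T.par p)

theorem disp_sub {V : Type*} [DecidableEq V] (X Y : E → V) (a b : E → ℤ) (v : V) :
    disp X Y (a - b) v = disp X Y a v - disp X Y b v := by
  unfold disp
  rw [← Finset.sum_sub_distrib]
  refine Finset.sum_congr rfl fun k _ => ?_
  rw [Pi.sub_apply]; ring

theorem xch_sub {V : Type*} [Fintype V] [DecidableEq V] (T : RTree V) (a b : V → ℤ) (v : V) :
    xch T (a - b) v = xch T a v - xch T b v := by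
  unfold xch
  rw [← Finset.sum_sub_distrib]
  refine Finset.sum_congr rfl fun k _ => ?_
  rw [Pi.sub_apply]; ring

variable {S₁ S₂ : Side E} {b₁ D₁ b₂ D₂ : E → ℝ} {θ : ℝ} {μ : E → ℝ} {β₀ : ℝ}
  {order : List E} {R : E → Tok E → E → ℤ} {b' : Tok E → ℝ}

theorem ww_pos (h : Pair S₁ S₂ b₁ D₁ b₂ D₂ θ μ β₀) (y : E → ℤ) : 0 < ww S₁ S₂ θ μ y :=
  mul_pos (h.W₁_pos y) (h.W₂_pos y)

/-- a route of the move gives a ratio bound, both for forward and backward steps -/
theorem ww_route (h : Pair S₁ S₂ b₁ D₁ b₂ D₂ θ μ β₀) (c : E → ℤ) (lam : Tok E → ℤ)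
    (hlam : lam none = 0) (hr : ∀ v, disp tX tY c v = xch (tree S₁.T S₂.T) lam v) (s : ℕ)
    (y : E → ℤ) :
    ww S₁ S₂ θ μ y ≤ (∏ q, be S₁ S₂ θ b₁ b₂ q ^ (lam q).natAbs) ^ s * ww S₁ S₂ θ μ (y + s • c) := by
  have := slope_le (X := tX) (Y := tY) (F := FF S₁ S₂ θ μ 0) (γ := gam 0)
    (fun δ => h.FF_pos 0 δ) (fun y k => Inst.gam_single 0 y k) (tree S₁.T S₂.T)
    (be_ge h) (fun q hq δ => be_up h 0 q hq δ) (fun q hq δ => be_dn h 0 q hq δ) c lam hlam hr
    (-(s : ℤ)) (y + s • c)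
  rw [FF_gam0, FF_gam0, Int.natAbs_neg, Int.natAbs_natCast, neg_zsmul, natCast_zsmul,
    add_neg_cancel_right] at this
  exact this

/-- **slope along a fat move** -/
theorem ww_fat (h : Pair S₁ S₂ b₁ D₁ b₂ D₂ θ μ β₀)
    (hRep : Rep (tree S₁.T S₂.T) tX tY b' order R) (i : E) (p : Tok E) (hp : p ≠ none)
    (hmono : ∀ q, q ≠ none → b' q ≤ b' p → tb S₁ S₂ θ b₁ b₂ q ≤ tb S₁ S₂ θ b₁ b₂ p) (s : ℕ)
    (y : E → ℤ) :
    ww S₁ S₂ θ μ y ≤ Real.exp (Fintype.card (Tok E) * tb S₁ S₂ θ b₁ b₂ p * s) *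
      ww S₁ S₂ θ μ (y + s • cdir (tree S₁.T S₂.T) R i p) := by
  have ht := h.tb_nonneg p
  rcases hRep.edge i p hp with h1 | ⟨lam, l1, l2, l3⟩
  · have e : cdir (tree S₁.T S₂.T) R i p = 0 := by unfold cdir; rw [h1, sub_self]
    rw [e, smul_zero, add_zero]
    have h2 : 1 ≤ Real.exp (Fintype.card (Tok E) * tb S₁ S₂ θ b₁ b₂ p * s) :=
      Real.one_le_exp (by positivity)
    have := (ww_pos h y).le
    nlinarith
  · have hl0 : lam none = 0 := by
      by_contra hne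
      exact (l2 _ hne).1 rfl
    refine (ww_route h _ lam hl0 l3 s y).trans ?_
    refine mul_le_mul_of_nonneg_right ?_ (ww_pos h _).le
    have h3 : ∏ q, be S₁ S₂ θ b₁ b₂ q ^ (lam q).natAbs ≤
        Real.exp (tb S₁ S₂ θ b₁ b₂ p) ^ Fintype.card (Tok E) := by
      rw [← Finset.card_univ, ← Finset.prod_const]
      refine Finset.prod_le_prod (fun q _ => pow_nonneg (by linarith [be_ge h q]) _) fun q _ => ?_
      by_cases hq : lam q = 0
      · rw [hq, Int.natAbs_zero, pow_zero]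
        exact Real.one_le_exp ht
      · have hn1 : (lam q).natAbs ≤ 1 := by
          have := l1 q
          rw [← Int.natCast_natAbs] at this
          exact_mod_cast this
        calc be S₁ S₂ θ b₁ b₂ q ^ (lam q).natAbs ≤ be S₁ S₂ θ b₁ b₂ q ^ 1 :=
              pow_le_pow_right₀ (be_ge h q) hn1
          _ = be S₁ S₂ θ b₁ b₂ q := pow_one _
          _ ≤ _ := Real.exp_le_exp.2 (hmono q (l2 q hq).1 (l2 q hq).2)
    calc (∏ q, be S₁ S₂ θ b₁ b₂ q ^ (lam q).natAbs) ^ s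
        ≤ (Real.exp (tb S₁ S₂ θ b₁ b₂ p) ^ Fintype.card (Tok E)) ^ s :=
          pow_le_pow_left₀ (Finset.prod_nonneg fun q _ => pow_nonneg (by linarith [be_ge h q]) _)
            h3 s
      _ = _ := by
          rw [← Real.exp_nat_mul, ← Real.exp_nat_mul]
          congr 1
          ring

/-- **comparison along any move** -/
theorem ww_any (h : Pair S₁ S₂ b₁ D₁ b₂ D₂ θ μ β₀)
    (hRep : Rep (tree S₁.T S₂.T) tX tY b' order R) (i : E) (p : Tok E) (hp : p ≠ none)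
    (y : E → ℤ) :
    ww S₁ S₂ θ μ y ≤ kap θ β₀ ^ 3 * ww S₁ S₂ θ μ (y + cdir (tree S₁.T S₂.T) R i p) := by
  have hθ1 : 1 ≤ θ⁻¹ := (one_le_inv₀ h.θ0).2 h.θ1
  have hk := h.kap_ge
  obtain ⟨mu, m1, m2, m3, m4⟩ := hRep.route i p
  obtain ⟨nu, n1, n2, n3, n4⟩ := hRep.route i ((tree S₁.T S₂.T).par p)
  set lam : Tok E → ℤ := Pi.single p 1 - (mu - nu) with hlamdef
  have hkap : Real.exp β₀ ^ 2 * θ⁻¹ ^ 2 = kap θ β₀ := by unfold kap; ring
  have hmu := prod_route_le (tree S₁.T S₂.T) (be_ge h) (be_thin h) hθ1 (be_fat h) mu m1 m3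
  have hnu := prod_route_le (tree S₁.T S₂.T) (be_ge h) (be_thin h) hθ1 (be_fat h) nu n1 n3
  have hsg := prod_route_le (tree S₁.T S₂.T) (be_ge h) (be_thin h) hθ1 (be_fat h)
    (Pi.single p 1 : Tok E → ℤ) (fun q => by
      by_cases hq : q = p
      · subst hq; simp
      · rw [Pi.single_eq_of_ne hq]; norm_num) (by
      have : ∑ q ∈ univ.filter (fun q => (tree S₁.T S₂.T).par q = (tree S₁.T S₂.T).root),
          |(Pi.single p 1 : Tok E → ℤ) q| ≤ ∑ q, |(Pi.single p 1 : Tok E → ℤ) q| :=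
        Finset.sum_le_sum_of_subset_of_nonneg (Finset.subset_univ _) fun _ _ _ => abs_nonneg _
      refine this.trans ?_
      rw [Finset.sum_eq_single p]
      · simp
      · intro q _ hq; rw [Pi.single_eq_of_ne hq]; simp
      · intro h; exact absurd (Finset.mem_univ _) h)
  rw [hkap] at hmu hnu hsg
  have hroot : (tree S₁.T S₂.T).root = none := rfl
  have hl0 : lam none = 0 := by
    rw [hlamdef, Pi.sub_apply, Pi.sub_apply, Pi.single_eq_of_ne (Ne.symm hp)]
    rw [hroot] at m2 n2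
    rw [m2, n2]; ring
  have hdisp : ∀ v, disp tX tY (cdir (tree S₁.T S₂.T) R i p) v = xch (tree S₁.T S₂.T) lam v := by
    intro v
    unfold cdir
    rw [disp_sub, hlamdef, xch_sub, xch_sub]
    have h1 := m4 v
    have h2 := n4 v
    have h3 := congrFun (xch_single (tree S₁.T S₂.T) p 1) v
    simp only [Pi.smul_apply, Pi.sub_apply, smul_eq_mul, one_mul] at h3
    rw [h3]
    linarith
  have key := ww_route h (cdir (tree S₁.T S₂.T) R i p) lam hl0 hdisp 1 y
  rw [one_smul, pow_one] at key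
  refine key.trans (mul_le_mul_of_nonneg_right ?_ (ww_pos h _).le)
  have hb0 : ∀ q, 0 ≤ be S₁ S₂ θ b₁ b₂ q := fun q => by linarith [be_ge h q]
  calc ∏ q, be S₁ S₂ θ b₁ b₂ q ^ (lam q).natAbs
      ≤ ∏ q, (be S₁ S₂ θ b₁ b₂ q ^ ((Pi.single p 1 : Tok E → ℤ) q).natAbs *
        (be S₁ S₂ θ b₁ b₂ q ^ (mu q).natAbs * be S₁ S₂ θ b₁ b₂ q ^ (nu q).natAbs)) := by
        refine Finset.prod_le_prod (fun q _ => pow_nonneg (hb0 q) _) fun q _ => ?_
        rw [← pow_add, ← pow_add]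
        refine pow_le_pow_right₀ (be_ge h q) ?_
        rw [hlamdef, Pi.sub_apply, Pi.sub_apply]
        omega
    _ = (∏ q, be S₁ S₂ θ b₁ b₂ q ^ ((Pi.single p 1 : Tok E → ℤ) q).natAbs) *
        ((∏ q, be S₁ S₂ θ b₁ b₂ q ^ (mu q).natAbs) *
          ∏ q, be S₁ S₂ θ b₁ b₂ q ^ (nu q).natAbs) := by
        rw [Finset.prod_mul_distrib, Finset.prod_mul_distrib]
    _ ≤ kap θ β₀ * (kap θ β₀ * kap θ β₀) := by
        refine mul_le_mul hsg (mul_le_mul hmu hnu
          (Finset.prod_nonneg fun q _ => pow_nonneg (hb0 q) _) (by linarith))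
          (mul_nonneg (Finset.prod_nonneg fun q _ => pow_nonneg (hb0 q) _)
            (Finset.prod_nonneg fun q _ => pow_nonneg (hb0 q) _)) (by linarith)
    _ = _ := by ring

end Crest.Agent.R302.T893
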