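import Crest.Agent.R302.S1x893C

/-!
R302 (helper893), block (S1x), part D: the numeric hypotheses of `S1x` in terms of
`(wt, P, G, w1, θ)`.
-/

set_option autoImplicit false
set_option linter.unusedSectionVars false
set_option linter.unusedVariables false

namespace Crest.Agent.R302.T893

open Finset Lor
open Crest.Agent.R302.Tree (RTree)
open Crest.Agent.R302.Inst

theorem exp_sub_one_le {x : ℝ} (h0 : 0 ≤ x) (h1 : x ≤ 1 / 2) : Real.exp x - 1 ≤ 2 * x := by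
  have h2 := Real.add_one_le_exp (-x)
  have h3 : Real.exp (-x) * Real.exp x = 1 := by rw [← Real.exp_add]; simp
  have h4 := Real.exp_pos x
  nlinarith

variable {E : Type*} [Fintype E] [DecidableEq E]

/-- `none` is not a descendant of a token -/
theorem fat_of_desc (T₁ T₂ : MP3.Forest E) {p q : Tok E} (hp : p ≠ none)
    (hq : q ∈ ((tree T₁ T₂).desc p).erase p) : (tree T₁ T₂).par q ≠ none := by
  rw [Finset.mem_erase] at hq
  have h1 : (tree T₁ T₂).Desc p ((tree T₁ T₂).par q) :=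
    ((RTree.mem_desc.1 hq.2).cases_ne hq.1).2
  intro h2
  rw [h2] at h1
  by_cases h3 : (none : Tok E) = p
  · exact hp h3.symm
  · exact (h1.cases_ne h3).1 rfl

/-- the half-widths of the windows -/
noncomputable def LL (G : ℝ) (wt : Tok E → ℝ) (p : Tok E) : ℝ := G * wt p

/-- the centres of the windows -/
noncomputable def cen (T₁ T₂ : MP3.Forest E) (c₀ : E → ℤ) (p : Tok E) : ℝ := lvl T₁ T₂ p c₀

/-- `PP` of `S1x` -/
noncomputable def PPn (N : ℕ) (κ G P w1 θ : ℝ) : ℝ := N * (4 * κ * G * (P + w1 / θ) + 1) ^ 2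

/-- `A0` of `S1x` -/
noncomputable def A0n (n N : ℕ) (κ G P w1 θ : ℝ) : ℝ :=
  144 * (CC N κ (PPn N κ G P w1 θ) * (2 * G * (n * N ^ 2 * P)) ^ 2) + 18 * (n * N)
    + 6 * κ ^ 3 * (CC N κ (PPn N κ G P w1 θ) * (G * w1) ^ 2)

/-- `KS` of `S1x` -/
noncomputable def KSn (n N : ℕ) (κ G P w1 θ mx : ℝ) : ℝ :=
  n * N * (CC N κ (PPn N κ G P w1 θ) * (G * mx) ^ 2)

/-- numeric data -/
structure Nm (S₁ S₂ : Side E) (b₁ D₁ b₂ D₂ : E → ℝ) (θ : ℝ) (wt : Tok E → ℝ) (l : Tok E → ℕ)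
    (P G w1 mx : ℝ) : Prop where
  P1 : 1 ≤ P
  G1 : 1 ≤ G
  w11 : 1 ≤ w1
  ge : ∀ q, w1 ≤ wt q
  thin : ∀ q, (tree S₁.T S₂.T).par q = none → wt q = w1
  le : ∀ q, wt q ≤ mx
  tb : ∀ q, (tree S₁.T S₂.T).par q ≠ none → tb S₁ S₂ θ b₁ b₂ q * wt q ≤ P
  tD : ∀ q, (tree S₁.T S₂.T).par q ≠ none → tD S₁ S₂ θ D₁ D₂ q * wt q ^ 2 ≤ P ^ 2
  small : 45 * Fintype.card (Tok E) * P ≤ θ * w1
  l1 : ∀ q, 1 ≤ l q
  lthin : ∀ q, (tree S₁.T S₂.T).par q = none → l q = 1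
  lle : ∀ q, (tree S₁.T S₂.T).par q ≠ none →
    l q * (Fintype.card E * (Fintype.card (Tok E) : ℝ) ^ 2 * P) ≤ wt q
  lge : ∀ q, (tree S₁.T S₂.T).par q ≠ none →
    wt q ≤ 2 * (l q * (Fintype.card E * (Fintype.card (Tok E) : ℝ) ^ 2 * P))

variable {S₁ S₂ : Side E} {b₁ D₁ b₂ D₂ : E → ℝ} {θ : ℝ} {μ : E → ℝ} {wt : Tok E → ℝ}
  {l : Tok E → ℕ} {P G w1 mx : ℝ}

theorem card_tok_pos : (1 : ℝ) ≤ Fintype.card (Tok E) := by
  rw [card_tok]; push_cast
  have : (0 : ℝ) ≤ Fintype.card E := Nat.cast_nonneg _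
  linarith

theorem Nm.tb_le (h : Pair S₁ S₂ b₁ D₁ b₂ D₂ θ μ 1) (hn : Nm S₁ S₂ b₁ D₁ b₂ D₂ θ wt l P G w1 mx)
    (q : Tok E) (hq : (tree S₁.T S₂.T).par q ≠ none) : Inst.tb S₁ S₂ θ b₁ b₂ q ≤ 1 / 2 := by
  have h1 := hn.tb q hq
  have h2 := hn.ge q
  have h3 := hn.small
  have h4 : (1 : ℝ) ≤ Fintype.card (Tok E) := card_tok_pos
  have h5 := hn.P1
  have h6 := h.tb_nonneg q
  have h7 : θ * w1 ≤ w1 := by nlinarith [h.θ1, hn.w11]
  have h8 : 45 * P ≤ w1 := by nlinarith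
  have h9 : Inst.tb S₁ S₂ θ b₁ b₂ q * (45 * P) ≤ P := by nlinarith
  nlinarith

theorem Nm.tB_le (h : Pair S₁ S₂ b₁ D₁ b₂ D₂ θ μ 1) (hn : Nm S₁ S₂ b₁ D₁ b₂ D₂ θ wt l P G w1 mx)
    (q : Tok E) (hq : (tree S₁.T S₂.T).par q ≠ none) :
    tB S₁ S₂ θ b₁ b₂ q ≤ 2 * Inst.tb S₁ S₂ θ b₁ b₂ q :=
  exp_sub_one_le (h.tb_nonneg q) (hn.tb_le h q hq)

theorem Nm.tB_thin (h : Pair S₁ S₂ b₁ D₁ b₂ D₂ θ μ 1) (q : Tok E)
    (hq : (tree S₁.T S₂.T).par q = none) : tB S₁ S₂ θ b₁ b₂ q ≤ θ⁻¹ := by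
  have := be_thin h q hq
  unfold be at this
  unfold tB
  linarith

/-- (N2) -/
theorem Nm.hPP (h : Pair S₁ S₂ b₁ D₁ b₂ D₂ θ μ 1) (hn : Nm S₁ S₂ b₁ D₁ b₂ D₂ θ wt l P G w1 mx) :
    ∑ q ∈ univ.erase (none : Tok E),
      (2 * kap θ 1 * tB S₁ S₂ θ b₁ b₂ q + 1 / LL G wt q) ^ 2 * LL G wt q ^ 2 ≤
      PPn (Fintype.card (Tok E)) (kap θ 1) G P w1 θ := by
  have hκ : 1 ≤ kap θ 1 := h.kap_ge
  have hθ := h.θ0
  have hP := hn.P1
  have hG := hn.G1
  have hw := hn.w11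
  have key : ∀ q ∈ univ.erase (none : Tok E),
      (2 * kap θ 1 * tB S₁ S₂ θ b₁ b₂ q + 1 / LL G wt q) ^ 2 * LL G wt q ^ 2 ≤
      (4 * kap θ 1 * G * (P + w1 / θ) + 1) ^ 2 := by
    intro q _
    have hL : 0 < LL G wt q := by
      unfold LL
      have := hn.ge q
      exact mul_pos (by linarith) (by linarith)
    have e : (2 * kap θ 1 * tB S₁ S₂ θ b₁ b₂ q + 1 / LL G wt q) ^ 2 * LL G wt q ^ 2 =
        (2 * kap θ 1 * (tB S₁ S₂ θ b₁ b₂ q * LL G wt q) + 1) ^ 2 := by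
      field_simp
    rw [e]
    have h0 : 0 ≤ tB S₁ S₂ θ b₁ b₂ q * LL G wt q := mul_nonneg (h.tB_nonneg q) hL.le
    have hb : tB S₁ S₂ θ b₁ b₂ q * LL G wt q ≤ 2 * G * (P + w1 / θ) := by
      have hwθ : 0 ≤ w1 / θ := by positivity
      by_cases hq : (tree S₁.T S₂.T).par q = none
      · have h1 := Nm.tB_thin h q hq
        have h2 : LL G wt q = G * w1 := by unfold LL; rw [hn.thin q hq]
        rw [h2]
        calc tB S₁ S₂ θ b₁ b₂ q * (G * w1) ≤ θ⁻¹ * (G * w1) :=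
              mul_le_mul_of_nonneg_right h1 (by positivity)
          _ = G * (w1 / θ) := by field_simp
          _ ≤ _ := by nlinarith [mul_nonneg (by linarith : (0 : ℝ) ≤ G) hwθ]
      · have h1 := hn.tB_le h q hq
        have h2 := hn.tb q hq
        have h3 := hn.ge q
        calc tB S₁ S₂ θ b₁ b₂ q * LL G wt q ≤ (2 * Inst.tb S₁ S₂ θ b₁ b₂ q) * LL G wt q :=
              mul_le_mul_of_nonneg_right h1 hL.le
          _ = 2 * G * (Inst.tb S₁ S₂ θ b₁ b₂ q * wt q) := by unfold LL; ring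
          _ ≤ 2 * G * P := mul_le_mul_of_nonneg_left h2 (by linarith)
          _ ≤ _ := by nlinarith [mul_nonneg (by linarith : (0 : ℝ) ≤ G) hwθ]
    refine pow_le_pow_left₀ (by positivity) ?_ 2
    have := mul_le_mul_of_nonneg_left hb (by linarith : (0 : ℝ) ≤ 2 * kap θ 1)
    linarith
  calc _ ≤ ∑ _q ∈ univ.erase (none : Tok E), (4 * kap θ 1 * G * (P + w1 / θ) + 1) ^ 2 :=
        Finset.sum_le_sum key
    _ = ((univ.erase (none : Tok E)).card : ℝ) * (4 * kap θ 1 * G * (P + w1 / θ) + 1) ^ 2 := by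
        rw [Finset.sum_const, nsmul_eq_mul]
    _ ≤ _ := by
        unfold PPn
        refine mul_le_mul_of_nonneg_right ?_ (sq_nonneg _)
        exact_mod_cast (Finset.card_le_card (Finset.erase_subset _ _)).trans
          (le_of_eq Finset.card_univ)

theorem kap_one_le (hθ : 0 < θ) : 204 * kap θ 1 * θ ^ 2 ≤ 45 ^ 2 := by
  unfold kap
  have h1 := Real.exp_one_lt_d9
  have h2 := Real.exp_pos 1
  have e : 204 * (θ⁻¹ * Real.exp 1) ^ 2 * θ ^ 2 = 204 * Real.exp 1 ^ 2 := by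
    field_simp
  rw [e]
  nlinarith

/-- (N3) -/
theorem Nm.hsL (h : Pair S₁ S₂ b₁ D₁ b₂ D₂ θ μ 1) (hn : Nm S₁ S₂ b₁ D₁ b₂ D₂ θ wt l P G w1 mx)
    (p : Tok E) (hp : p ≠ none) :
    6 * (Fintype.card (Tok E) * ∑ q ∈ ((tree S₁.T S₂.T).desc p).erase p,
        ts S₁ S₂ θ b₁ b₂ D₁ D₂ 1 q * LL G wt q ^ 2) ≤ LL G wt p ^ 2 := by
  set N : ℝ := ((Fintype.card (Tok E) : ℕ) : ℝ) with hN
  have hN1 : 1 ≤ N := card_tok_pos
  have hκ : 1 ≤ kap θ 1 := h.kap_ge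
  have hθ := h.θ0
  have hP := hn.P1
  have hG := hn.G1
  have hw := hn.w11
  have key : ∀ q ∈ ((tree S₁.T S₂.T).desc p).erase p,
      ts S₁ S₂ θ b₁ b₂ D₁ D₂ 1 q * LL G wt q ^ 2 ≤ 34 * P ^ 2 * kap θ 1 * G ^ 2 := by
    intro q hq
    have hf := fat_of_desc _ _ hp hq
    set B := tB S₁ S₂ θ b₁ b₂ q with hB
    set t := Inst.tb S₁ S₂ θ b₁ b₂ q with ht
    set d := Inst.tD S₁ S₂ θ D₁ D₂ q with hd
    have hB0 : 0 ≤ B := h.tB_nonneg q
    have ht0 : 0 ≤ t := h.tb_nonneg q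
    have hd0 : 0 ≤ d := h.tD_nonneg q
    have hBt : B ≤ 2 * t := hn.tB_le h q hf
    have ht2 : t ≤ 1 / 2 := hn.tb_le h q hf
    have htw : t * wt q ≤ P := hn.tb q hf
    have hdw : d * wt q ^ 2 ≤ P ^ 2 := hn.tD q hf
    have hwq : 0 ≤ wt q := by linarith [hn.ge q]
    have e : ts S₁ S₂ θ b₁ b₂ D₁ D₂ 1 q * LL G wt q ^ 2 =
        (d * (1 + B) * wt q ^ 2 + 2 * (B * (1 + B) * wt q) ^ 2) * kap θ 1 * G ^ 2 := by
      unfold ts LL
      rw [← hB, ← hd]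
      ring
    rw [e]
    have h1 : d * (1 + B) * wt q ^ 2 ≤ 2 * P ^ 2 := by
      have : d * (1 + B) * wt q ^ 2 = (1 + B) * (d * wt q ^ 2) := by ring
      rw [this]
      have h2 : 0 ≤ d * wt q ^ 2 := by positivity
      nlinarith
    have h2 : B * (1 + B) * wt q ≤ 4 * P := by
      calc B * (1 + B) * wt q ≤ (2 * t) * 2 * wt q := by
            refine mul_le_mul_of_nonneg_right ?_ hwq
            refine mul_le_mul hBt (by linarith) (by linarith) (by linarith)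
        _ = 4 * (t * wt q) := by ring
        _ ≤ 4 * P := by linarith
    have h3 : (B * (1 + B) * wt q) ^ 2 ≤ (4 * P) ^ 2 :=
      pow_le_pow_left₀ (by positivity) h2 2
    have h4 : d * (1 + B) * wt q ^ 2 + 2 * (B * (1 + B) * wt q) ^ 2 ≤ 34 * P ^ 2 := by nlinarith
    refine mul_le_mul_of_nonneg_right (mul_le_mul_of_nonneg_right h4 (by linarith)) (sq_nonneg _)
  have hsum : ∑ q ∈ ((tree S₁.T S₂.T).desc p).erase p,
      ts S₁ S₂ θ b₁ b₂ D₁ D₂ 1 q * LL G wt q ^ 2 ≤ N * (34 * P ^ 2 * kap θ 1 * G ^ 2) := by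
    refine (Finset.sum_le_sum key).trans ?_
    rw [Finset.sum_const, nsmul_eq_mul]
    refine mul_le_mul_of_nonneg_right ?_ (by positivity)
    rw [hN]
    exact_mod_cast Finset.card_le_univ _
  have h5 := hn.small
  rw [← hN] at h5
  have h6 : (45 * N * P) ^ 2 ≤ (θ * w1) ^ 2 := pow_le_pow_left₀ (by positivity) h5 2
  have h7 := kap_one_le hθ
  have hNP : 0 ≤ N ^ 2 * P ^ 2 := by positivity
  have h8 : 204 * kap θ 1 * (N ^ 2 * P ^ 2) ≤ w1 ^ 2 := by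
    have h9 : θ ^ 2 * (204 * kap θ 1 * (N ^ 2 * P ^ 2)) ≤ θ ^ 2 * w1 ^ 2 := by
      calc θ ^ 2 * (204 * kap θ 1 * (N ^ 2 * P ^ 2))
          = (204 * kap θ 1 * θ ^ 2) * (N ^ 2 * P ^ 2) := by ring
        _ ≤ 45 ^ 2 * (N ^ 2 * P ^ 2) := mul_le_mul_of_nonneg_right h7 hNP
        _ = (45 * N * P) ^ 2 := by ring
        _ ≤ (θ * w1) ^ 2 := h6
        _ = _ := by ring
    exact le_of_mul_le_mul_left h9 (by positivity)
  have h10 : w1 ^ 2 ≤ wt p ^ 2 := pow_le_pow_left₀ (by linarith) (hn.ge p) 2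
  calc 6 * (N * ∑ q ∈ ((tree S₁.T S₂.T).desc p).erase p,
        ts S₁ S₂ θ b₁ b₂ D₁ D₂ 1 q * LL G wt q ^ 2)
      ≤ 6 * (N * (N * (34 * P ^ 2 * kap θ 1 * G ^ 2))) := by
        refine mul_le_mul_of_nonneg_left (mul_le_mul_of_nonneg_left hsum (by linarith)) (by norm_num)
    _ = (204 * kap θ 1 * (N ^ 2 * P ^ 2)) * G ^ 2 := by ring
    _ ≤ wt p ^ 2 * G ^ 2 := mul_le_mul_of_nonneg_right (h8.trans h10) (sq_nonneg _)
    _ = _ := by unfold LL; ring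

/-- (N4) -/
theorem Nm.hls (h : Pair S₁ S₂ b₁ D₁ b₂ D₂ θ μ 1) (hn : Nm S₁ S₂ b₁ D₁ b₂ D₂ θ wt l P G w1 mx) :
    (Fintype.card E * Fintype.card (Tok E) : ℝ) *
      ∑ p ∈ univ.filter (fun p => (tree S₁.T S₂.T).par p ≠ none),
        Inst.tb S₁ S₂ θ b₁ b₂ p * l p ≤ 1 := by
  set N : ℝ := ((Fintype.card (Tok E) : ℕ) : ℝ) with hN
  set n : ℝ := ((Fintype.card E : ℕ) : ℝ) with hnn
  have hN1 : 1 ≤ N := card_tok_pos
  have hn0 : 0 ≤ n := Nat.cast_nonneg _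
  have hP := hn.P1
  rw [Finset.mul_sum]
  have key : ∀ p ∈ univ.filter (fun p => (tree S₁.T S₂.T).par p ≠ none),
      n * N * (Inst.tb S₁ S₂ θ b₁ b₂ p * l p) ≤ 1 / N := by
    intro p hp
    have hf := (Finset.mem_filter.1 hp).2
    have h1 := hn.tb p hf
    have h2 := hn.lle p hf
    rw [← hN, ← hnn] at h2
    have h3 := h.tb_nonneg p
    have h4 : Inst.tb S₁ S₂ θ b₁ b₂ p * (l p * (n * N ^ 2 * P)) ≤ P :=
      (mul_le_mul_of_nonneg_left h2 h3).trans h1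
    have h5 : (n * N * (Inst.tb S₁ S₂ θ b₁ b₂ p * l p)) * N * P ≤ 1 * P := by
      calc _ = Inst.tb S₁ S₂ θ b₁ b₂ p * (l p * (n * N ^ 2 * P)) := by ring
        _ ≤ P := h4
        _ = 1 * P := by ring
    have h6 := le_of_mul_le_mul_right h5 (by linarith)
    rw [le_div_iff₀ (by linarith)]
    exact h6
  calc _ ≤ ∑ _p ∈ univ.filter (fun p : Tok E => (tree S₁.T S₂.T).par p ≠ none), 1 / N :=
        Finset.sum_le_sum key
    _ = ((univ.filter (fun p : Tok E => (tree S₁.T S₂.T).par p ≠ none)).card : ℝ) * (1 / N) := by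
        rw [Finset.sum_const, nsmul_eq_mul]
    _ ≤ N * (1 / N) := by
        refine mul_le_mul_of_nonneg_right ?_ (by positivity)
        rw [hN]
        exact_mod_cast Finset.card_le_univ _
    _ = 1 := by field_simp

/-- entries of the basic exchange vectors -/
theorem dq_abs (T : MP3.Forest E) (a e : E) : |dq T a e| ≤ 1 := by
  unfold dq
  rcases h : T.par a with _ | b
  · simp only [ev, Pi.single_apply]
    split_ifs <;> norm_num
  · have hne : a ≠ b := by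
      rintro rfl
      exact absurd (T.dep_lt _ _ h) (lt_irrefl _)
    simp only [Pi.sub_apply, ev, Pi.single_apply]
    by_cases h1 : e = a
    · subst h1
      rw [if_pos rfl, if_neg hne]; norm_num
    · rw [if_neg h1]
      split_ifs <;> norm_num

/-- the coordinates are controlled by the levels of side 1 -/
theorem coord_le (T : MP3.Forest E) (y c₀ : E → ℤ) (e : E) :
    |(y e : ℝ) - c₀ e| ≤ ∑ a, |(bs T y a : ℝ) - bs T c₀ a| := by
  have h1 := congrFun (eq_sum_dq T (y - c₀)) e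
  have h2 : ((y e : ℝ) - c₀ e) = ∑ a, ((bs T y a : ℝ) - bs T c₀ a) * (dq T a e : ℝ) := by
    have h3 : ((y e - c₀ e : ℤ) : ℝ) = ((∑ a, (bs T y a - bs T c₀ a) * dq T a e : ℤ) : ℝ) := by
      congr 1
      rw [Pi.sub_apply] at h1
      rw [h1, Finset.sum_apply]
      refine Finset.sum_congr rfl fun a _ => ?_
      rw [Pi.smul_apply, smul_eq_mul, bs_sub]
    push_cast at h3
    exact h3
  rw [h2]
  refine (Finset.abs_sum_le_sum_abs _ _).trans (Finset.sum_le_sum fun a _ => ?_)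
  rw [abs_mul]
  have h4 : |(dq T a e : ℝ)| ≤ 1 := by
    have := dq_abs T a e
    exact_mod_cast this
  calc _ ≤ |(bs T y a : ℝ) - bs T c₀ a| * 1 := mul_le_mul_of_nonneg_left h4 (abs_nonneg _)
    _ = _ := mul_one _

/-- (N8) -/
theorem Nm.hwin (hn : Nm S₁ S₂ b₁ D₁ b₂ D₂ θ wt l P G w1 mx) (c₀ : E → ℤ) {M lm : ℕ}
    (hM : Fintype.card E * (G * mx) + 2 * lm ≤ M) (y : E → ℤ)
    (hy : ∀ p : Tok E, p ≠ none →
      |lvl S₁.T S₂.T p y - cen S₁.T S₂.T c₀ p| ≤ LL G wt p - 2) (e : E) :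
    (c₀ e - M) + 2 * lm ≤ y e ∧ y e + 2 * lm ≤ (c₀ e - M) + (2 * M : ℕ) := by
  have h1 := coord_le S₁.T y c₀ e
  have hG := hn.G1
  have h2 : ∑ a, |(bs S₁.T y a : ℝ) - bs S₁.T c₀ a| ≤ Fintype.card E * (G * mx) := by
    calc _ ≤ ∑ _a : E, G * mx := by
          refine Finset.sum_le_sum fun a _ => ?_
          have h3 := hy (tX a) (by simp [tX])
          have h4 : LL G wt (tX a) ≤ G * mx :=
            mul_le_mul_of_nonneg_left (hn.le _) (by linarith)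
          have h5 : |(bs S₁.T y a : ℝ) - bs S₁.T c₀ a| =
              |lvl S₁.T S₂.T (tX a) y - cen S₁.T S₂.T c₀ (tX a)| := rfl
          rw [h5]
          linarith
      _ = _ := by rw [Finset.sum_const, Finset.card_univ, nsmul_eq_mul]
  have h6 : |(y e : ℝ) - c₀ e| ≤ M - 2 * lm := by linarith
  rw [abs_le] at h6
  have h7 : ((c₀ e - M + 2 * lm : ℤ) : ℝ) ≤ ((y e : ℤ) : ℝ) := by push_cast; linarith [h6.1]
  have h8 : ((y e + 2 * lm : ℤ) : ℝ) ≤ (((c₀ e - M) + (2 * M : ℕ) : ℤ) : ℝ) := by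
    push_cast; linarith [h6.2]
  constructor
  · exact_mod_cast h7
  · exact_mod_cast h8

/-- **(S1x) with numbers** -/
theorem S1x_num {r₁ r₂ : Finset E → ℤ} {RR : ℤ} {ω₁ ω₂ : E → ℤ → ℝ}
    (h : Pair S₁ S₂ b₁ D₁ b₂ D₂ θ μ 1)
    (hAF : ∀ d, AF (fun p q => FF S₁ S₂ θ μ 0 (d + ev p + ev q)))
    (hn : Nm S₁ S₂ b₁ D₁ b₂ D₂ θ wt l P G w1 mx)
    {order : List E} (hnd : order.Nodup) (hall : ∀ e, e ∈ order)
    {R : E → Tok E → E → ℤ} {b' : Tok E → ℝ}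
    (hRep : Rep (tree S₁.T S₂.T) tX tY b' order R)
    (hmono : ∀ p q, (tree S₁.T S₂.T).par p ≠ none → q ≠ none → b' q ≤ b' p →
      Inst.tb S₁ S₂ θ b₁ b₂ q ≤ Inst.tb S₁ S₂ θ b₁ b₂ p)
    (c₀ : E → ℤ) (M : ℕ) {lm : ℕ} (hlm : ∀ p, l p ≤ lm)
    (hM : Fintype.card E * (G * mx) + 2 * lm ≤ M)
    (f : (E → ℤ) → ℝ) {A : ℝ} (hf : ∀ y, |f y| ≤ A) :
    Macro.vr (Fintype.piFinset fun e => Icc (c₀ e - M) (c₀ e + M)) (ww S₁ S₂ θ μ) f ≤
      A0n (Fintype.card E) (Fintype.card (Tok E)) (kap θ 1) G P w1 θ *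
        ∑ i, ∑ p ∈ univ.erase (none : Tok E),
          Macro.aDm (Fintype.piFinset fun e => Icc (c₀ e - M) (c₀ e + M)) (ww S₁ S₂ θ μ)
            (cdir (tree S₁.T S₂.T) R i p) (l p) f
      + CD (Fintype.card E) (Fintype.card (Tok E)) (2 * M) (kap θ 1)
          (KSn (Fintype.card E) (Fintype.card (Tok E)) (kap θ 1) G P w1 θ mx) * A ^ 2 *
        badm S₁.T S₂.T (LL G wt) (cen S₁.T S₂.T c₀) (ww S₁ S₂ θ μ)
          (Fintype.piFinset fun e => Icc (c₀ e - M - 1) (c₀ e + M + 1)) := by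
  have hκ : 1 ≤ kap θ 1 := h.kap_ge
  have hP := hn.P1
  have hG := hn.G1
  have hw := hn.w11
  have hθ := h.θ0
  have hPP0 : 0 ≤ PPn (Fintype.card (Tok E)) (kap θ 1) G P w1 θ := by
    unfold PPn; positivity
  have hCC : 0 ≤ CC (Fintype.card (Tok E)) (kap θ 1)
      (PPn (Fintype.card (Tok E)) (kap θ 1) G P w1 θ) := CC_nonneg hκ hPP0
  have hL1 : ∀ p, 1 ≤ LL G wt p := by
    intro p
    unfold LL
    have := hn.ge p
    nlinarith
  refine S1x (c := cen S₁.T S₂.T c₀) h hAF hL1 (hn.hPP h) (hn.hsL h) hnd hall hRep hmono hn.l1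
    hn.lthin (hn.hls h) (fun e => c₀ e - M) (2 * M) _ _ ?_ ?_ hlm
    (fun y hy e => hn.hwin c₀ hM y hy e) ?_ ?_ ?_ f hf
  · congr 1
    ext e z
    rw [Finset.mem_Icc, Finset.mem_Icc]
    push_cast
    constructor <;> intro hh <;> constructor <;> linarith [hh.1, hh.2]
  · congr 1
    ext e z
    rw [Finset.mem_Icc, Finset.mem_Icc]
    push_cast
    constructor <;> intro hh <;> constructor <;> linarith [hh.1, hh.2]
  · intro p hp
    have h1 := hn.lge p hp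
    have hl : (1 : ℝ) ≤ l p := by exact_mod_cast hn.l1 p
    have h2 : LL G wt p / l p ≤
        2 * G * (Fintype.card E * (Fintype.card (Tok E) : ℝ) ^ 2 * P) := by
      rw [div_le_iff₀ (by linarith)]
      unfold LL
      calc G * wt p ≤ G * (2 * (l p * (Fintype.card E * (Fintype.card (Tok E) : ℝ) ^ 2 * P))) :=
            mul_le_mul_of_nonneg_left h1 (by linarith)
        _ = _ := by ring
    have h3 : (LL G wt p / l p) ^ 2 ≤
        (2 * G * (Fintype.card E * (Fintype.card (Tok E) : ℝ) ^ 2 * P)) ^ 2 :=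
      pow_le_pow_left₀ (div_nonneg (by linarith [hL1 p]) (by linarith)) h2 2
    unfold A0n
    have h4 := mul_le_mul_of_nonneg_left h3 hCC
    rw [div_pow] at h4
    have h5 : 0 ≤ 6 * kap θ 1 ^ 3 * (CC (Fintype.card (Tok E)) (kap θ 1)
      (PPn (Fintype.card (Tok E)) (kap θ 1) G P w1 θ) * (G * w1) ^ 2) := by positivity
    rw [mul_div_assoc]
    linarith
  · intro p hp0 hp
    have h1 : LL G wt p = G * w1 := by unfold LL; rw [hn.thin p hp]
    rw [h1]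
    unfold A0n
    have h5 : 0 ≤ 144 * (CC (Fintype.card (Tok E)) (kap θ 1)
      (PPn (Fintype.card (Tok E)) (kap θ 1) G P w1 θ) *
      (2 * G * (Fintype.card E * (Fintype.card (Tok E) : ℝ) ^ 2 * P)) ^ 2) := by positivity
    have h6 : (0 : ℝ) ≤ 18 * (Fintype.card E * Fintype.card (Tok E)) := by positivity
    linarith
  · unfold KSn
    have h1 : ∀ p ∈ univ.erase (none : Tok E), CC (Fintype.card (Tok E)) (kap θ 1)
      (PPn (Fintype.card (Tok E)) (kap θ 1) G P w1 θ) * LL G wt p ^ 2 ≤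
      CC (Fintype.card (Tok E)) (kap θ 1)
      (PPn (Fintype.card (Tok E)) (kap θ 1) G P w1 θ) * (G * mx) ^ 2 := by
      intro p _
      refine mul_le_mul_of_nonneg_left ?_ hCC
      refine pow_le_pow_left₀ (by linarith [hL1 p]) ?_ 2
      exact mul_le_mul_of_nonneg_left (hn.le p) (by linarith)
    have h2 := Finset.sum_le_sum h1
    rw [Finset.sum_const, nsmul_eq_mul] at h2
    have h3 : ((univ.erase (none : Tok E)).card : ℝ) ≤ Fintype.card (Tok E) := by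
      exact_mod_cast (Finset.card_le_card (Finset.erase_subset _ _)).trans
        (le_of_eq Finset.card_univ)
    rw [Finset.sum_const, Finset.card_univ, nsmul_eq_mul, mul_assoc]
    refine mul_le_mul_of_nonneg_left (h2.trans ?_) (Nat.cast_nonneg _)
    exact mul_le_mul_of_nonneg_right h3 (by positivity)

end Crest.Agent.R302.T893
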