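import Mathlib

/-!
# R302 / SFM, part 1: greedy vectors of linear orders

`f : Finset ℕ → ℤ` is submodular on the subsets of `range n`; a linear order is a list `L` which is a
permutation of `range n`; `gv` is its greedy vector.
-/

set_option autoImplicit false

namespace Crest.Agent.R302.SFM

open Finset

/-- submodularity on the subsets of `range n` -/
def Subm (n : ℕ) (f : Finset ℕ → ℤ) : Prop :=
  ∀ A B : Finset ℕ, A ⊆ range n → B ⊆ range n → f (A ∪ B) + f (A ∩ B) ≤ f A + f B

/-- `F` evaluates `f` on lists of elements `< n` -/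
def Eval (n : ℕ) (F : List ℕ → ℤ) (f : Finset ℕ → ℤ) : Prop :=
  ∀ l : List ℕ, (∀ x ∈ l, x < n) → F l = f l.toFinset

/-- `k`-th increment along the order `L` -/
def dk (F : List ℕ → ℤ) (L : List ℕ) (k : ℕ) : ℤ := F (L.take (k + 1)) - F (L.take k)

/-- the greedy vector of `L` at `v` -/
def gv (n : ℕ) (F : List ℕ → ℤ) (L : List ℕ) (v : ℕ) : ℤ :=
  ((List.range n).map fun k => if L.getD k n = v then dk F L k else 0).sum

/-- linear orders of `range n` -/
def IsOrd (n : ℕ) (L : List ℕ) : Prop := L.Nodup ∧ ∀ x, x ∈ L ↔ x < n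

section
variable {n : ℕ} {f : Finset ℕ → ℤ} {F : List ℕ → ℤ} {L : List ℕ}

theorem sum_map_range {α : Type*} [AddCommMonoid α] (n : ℕ) (g : ℕ → α) :
    ((List.range n).map g).sum = ∑ k ∈ range n, g k := by
  rw [Finset.sum_eq_multiset_sum, Finset.range_val, ← Multiset.coe_range, Multiset.map_coe,
    Multiset.sum_coe]

theorem gv_eq (v : ℕ) :
    gv n F L v = ∑ k ∈ range n, if L.getD k n = v then dk F L k else 0 := sum_map_range _ _

theorem IsOrd.toFinset (h : IsOrd n L) : L.toFinset = range n := by
  ext x; simp [h.2]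

theorem IsOrd.length (h : IsOrd n L) : L.length = n := by
  rw [← List.toFinset_card_of_nodup h.1, h.toFinset, card_range]

theorem IsOrd.getD_lt (h : IsOrd n L) {k : ℕ} (hk : k < n) : L.getD k n < n := by
  have hk' : k < L.length := by rw [h.length]; exact hk
  rw [List.getD_eq_getElem _ _ hk']
  exact (h.2 _).1 (List.getElem_mem hk')

theorem IsOrd.getD_inj (h : IsOrd n L) {k l : ℕ} (hk : k < n) (hl : l < n)
    (e : L.getD k n = L.getD l n) : k = l := by
  have hk' : k < L.length := by rw [h.length]; exact hk
  have hl' : l < L.length := by rw [h.length]; exact hl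
  rw [List.getD_eq_getElem _ _ hk', List.getD_eq_getElem _ _ hl'] at e
  exact (List.Nodup.getElem_inj_iff h.1).1 e

theorem IsOrd.exists_getD (h : IsOrd n L) {v : ℕ} (hv : v < n) : ∃ k < n, L.getD k n = v := by
  obtain ⟨k, hk, e⟩ := List.getElem_of_mem ((h.2 v).2 hv)
  exact ⟨k, by rw [← h.length]; exact hk, by rw [List.getD_eq_getElem _ _ hk]; exact e⟩

theorem gv_getD (h : IsOrd n L) {k : ℕ} (hk : k < n) : gv n F L (L.getD k n) = dk F L k := by
  rw [gv_eq, Finset.sum_eq_single k]
  · simp
  · intro l hl hlk
    rw [if_neg]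
    intro e
    exact hlk (h.getD_inj (mem_range.1 hl) hk e)
  · intro hk'; exact absurd (mem_range.2 hk) hk'

theorem sum_gv (A : Finset ℕ) :
    ∑ v ∈ A, gv n F L v = ∑ k ∈ range n, if L.getD k n ∈ A then dk F L k else 0 := by
  simp only [gv_eq]
  rw [Finset.sum_comm]
  refine Finset.sum_congr rfl fun k hk => ?_
  rw [Finset.sum_ite_eq]

theorem take_lt (h : IsOrd n L) (k : ℕ) : ∀ x ∈ L.take k, x < n :=
  fun x hx => (h.2 x).1 (List.mem_of_mem_take hx)

theorem take_succ_toFinset (h : IsOrd n L) {k : ℕ} (hk : k < n) :
    (L.take (k + 1)).toFinset = insert (L.getD k n) (L.take k).toFinset := by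
  have hk' : k < L.length := by rw [h.length]; exact hk
  rw [List.take_succ_eq_append_getElem hk', List.getD_eq_getElem _ _ hk']
  ext x
  simp only [List.toFinset_append, mem_union, List.toFinset_cons, List.toFinset_nil, mem_insert,
    notMem_empty, or_false]
  exact or_comm

theorem getD_notMem_take (h : IsOrd n L) {k : ℕ} (hk : k < n) :
    L.getD k n ∉ (L.take k).toFinset := by
  have hk' : k < L.length := by rw [h.length]; exact hk
  rw [List.mem_toFinset, List.mem_take_iff_getElem]
  rintro ⟨i, hi, e⟩
  have hi1 : i < k := lt_of_lt_of_le hi (min_le_left _ _)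
  have : i = k := h.getD_inj (hi1.trans hk) hk (by
    rw [List.getD_eq_getElem _ _ hk', List.getD_eq_getElem _ _ (hi1.trans hk')] at *
    exact e)
  omega

theorem dk_eq (hF : Eval n F f) (h : IsOrd n L) (k : ℕ) :
    dk F L k = f (L.take (k + 1)).toFinset - f (L.take k).toFinset := by
  unfold dk
  rw [hF _ (take_lt h _), hF _ (take_lt h _)]

/-- the greedy vector is in the base polytope -/
theorem sum_gv_le (hf : Subm n f) (h0 : f ∅ = 0) (hF : Eval n F f) (h : IsOrd n L) {A : Finset ℕ}
    (hA : A ⊆ range n) : ∑ v ∈ A, gv n F L v ≤ f A := by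
  rw [sum_gv A]
  have key : ∀ j ≤ n, (∑ k ∈ range j, if L.getD k n ∈ A then dk F L k else 0)
      ≤ f (A ∩ (L.take j).toFinset) := by
    intro j
    induction j with
    | zero => intro _; simp [h0]
    | succ j ih =>
      intro hj
      have hj' : j < n := hj
      rw [Finset.sum_range_succ]
      have ih' := ih hj'.le
      by_cases hm : L.getD j n ∈ A
      · rw [if_pos hm, dk_eq hF h]
        have hs := hf (A ∩ (L.take (j + 1)).toFinset) (L.take j).toFinset
          (Finset.inter_subset_left.trans hA)
          (fun x hx => by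
            rw [List.mem_toFinset] at hx
            exact mem_range.2 (take_lt h _ x hx))
        have e1 : A ∩ (L.take (j + 1)).toFinset ∪ (L.take j).toFinset = (L.take (j + 1)).toFinset := by
          rw [take_succ_toFinset h hj']
          ext x
          simp only [mem_union, mem_inter, mem_insert]
          constructor
          · rintro (⟨_, h2⟩ | h2)
            · exact h2
            · exact Or.inr h2
          · rintro (h2 | h2)
            · subst h2; exact Or.inl ⟨hm, Or.inl rfl⟩
            · exact Or.inr h2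
        have e2 : A ∩ (L.take (j + 1)).toFinset ∩ (L.take j).toFinset = A ∩ (L.take j).toFinset := by
          rw [take_succ_toFinset h hj']
          ext x
          simp only [mem_inter, mem_insert]
          tauto
        rw [e1, e2] at hs
        linarith
      · rw [if_neg hm, add_zero]
        have e : A ∩ (L.take (j + 1)).toFinset = A ∩ (L.take j).toFinset := by
          rw [take_succ_toFinset h hj']
          ext x
          simp only [mem_inter, mem_insert]
          constructor
          · rintro ⟨h1, h2 | h2⟩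
            · subst h2; exact absurd h1 hm
            · exact ⟨h1, h2⟩
          · rintro ⟨h1, h2⟩; exact ⟨h1, Or.inr h2⟩
        rw [e]; exact ih'
  have := key n le_rfl
  rwa [List.take_of_length_le (by rw [h.length]), h.toFinset, Finset.inter_eq_left.2 hA] at this

/-- prefixes are tight -/
theorem sum_gv_take (h0 : f ∅ = 0) (hF : Eval n F f) (h : IsOrd n L) {j : ℕ} (hj : j ≤ n) :
    ∑ v ∈ (L.take j).toFinset, gv n F L v = f (L.take j).toFinset := by
  induction j with
  | zero => simp [h0]
  | succ j ih =>
    have hj' : j < n := hj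
    rw [take_succ_toFinset h hj', Finset.sum_insert (getD_notMem_take h hj'), ih hj'.le,
      gv_getD h hj', dk_eq hF h, take_succ_toFinset h hj']
    ring

theorem sum_gv_univ (h0 : f ∅ = 0) (hF : Eval n F f) (h : IsOrd n L) :
    ∑ v ∈ range n, gv n F L v = f (range n) := by
  have := sum_gv_take h0 hF h (le_refl n)
  rwa [List.take_of_length_le (by rw [h.length]), h.toFinset] at this

/-- if membership in `A` is non-increasing along `L`, then `A` is a prefix -/
theorem sum_gv_of_prefix (h0 : f ∅ = 0) (hF : Eval n F f) (h : IsOrd n L) {A : Finset ℕ}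
    (hA : A ⊆ range n)
    (hp : ∀ k, k + 1 < n → L.getD (k + 1) n ∈ A → L.getD k n ∈ A) :
    ∑ v ∈ A, gv n F L v = f A := by
  have hp' : ∀ k j, j ≤ k → k < n → L.getD k n ∈ A → L.getD j n ∈ A := by
    intro k
    induction k with
    | zero => intro j hj _ hm; rw [Nat.le_zero.1 hj]; exact hm
    | succ k ih =>
      intro j hj hk hm
      rcases Nat.lt_or_ge j (k + 1) with h1 | h1
      · exact ih j (Nat.lt_succ_iff.1 h1) (by omega) (hp k hk hm)
      · have : j = k + 1 := le_antisymm hj h1
        rw [this]; exact hm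
  have hex : ∃ j ≤ n, A = (L.take j).toFinset := by
    by_cases hall : ∀ k < n, L.getD k n ∈ A
    · refine ⟨n, le_rfl, ?_⟩
      rw [List.take_of_length_le (by rw [h.length]), h.toFinset]
      refine Finset.Subset.antisymm hA fun x hx => ?_
      obtain ⟨k, hk, rfl⟩ := h.exists_getD (mem_range.1 hx)
      exact hall k hk
    · push Not at hall
      have hex : ∃ k, k < n ∧ L.getD k n ∉ A := hall
      classical
      refine ⟨Nat.find hex, (Nat.find_spec hex).1.le, ?_⟩
      have hj := Nat.find_spec hex
      have hmin := fun m => @Nat.find_min _ _ hex m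
      set j := Nat.find hex
      ext x
      rw [List.mem_toFinset, List.mem_take_iff_getElem]
      constructor
      · intro hx
        obtain ⟨k, hk, rfl⟩ := h.exists_getD (mem_range.1 (hA hx))
        have hkj : k < j := by
          by_contra hc
          exact hj.2 (hp' k j (not_lt.1 hc) hk hx)
        have hk' : k < L.length := by rw [h.length]; exact hk
        exact ⟨k, lt_min hkj hk', by rw [List.getD_eq_getElem _ _ hk']⟩
      · rintro ⟨k, hk, e⟩
        have hkj : k < j := lt_of_lt_of_le hk (min_le_left _ _)
        have hkL : k < L.length := lt_of_lt_of_le hk (min_le_right _ _)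
        have := hmin k hkj
        push Not at this
        have hkn : k < n := by rw [← h.length]; exact hkL
        have h2 := this hkn
        rw [List.getD_eq_getElem _ _ hkL] at h2
        rw [← e]; exact h2
  obtain ⟨j, hj, rfl⟩ := hex
  exact sum_gv_take h0 hF h hj

/-- swap the entries `k`, `k + 1` -/
def swp (n : ℕ) (L : List ℕ) (k : ℕ) : List ℕ :=
  L.take k ++ (L.getD (k + 1) n :: L.getD k n :: L.drop (k + 2))

/-- the exchange capacity of the swap -/
def bet (n : ℕ) (F : List ℕ → ℤ) (L : List ℕ) (k : ℕ) : ℤ :=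
  F (L.take k ++ [L.getD (k + 1) n]) - F (L.take k) - F (L.take (k + 2)) + F (L.take (k + 1))

theorem split_at (h : IsOrd n L) {k : ℕ} (hk : k + 1 < n) :
    L = L.take k ++ (L.getD k n :: L.getD (k + 1) n :: L.drop (k + 2)) := by
  have hk1 : k < L.length := by rw [h.length]; omega
  have hk2 : k + 1 < L.length := by rw [h.length]; omega
  conv_lhs => rw [← List.take_append_drop k L]
  rw [List.drop_eq_getElem_cons hk1, List.drop_eq_getElem_cons hk2,
    List.getD_eq_getElem _ _ hk1, List.getD_eq_getElem _ _ hk2]

theorem swp_perm (h : IsOrd n L) {k : ℕ} (hk : k + 1 < n) : (swp n L k).Perm L := by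
  conv_rhs => rw [split_at h hk]
  exact List.Perm.append_left _ (List.Perm.swap _ _ _)

theorem IsOrd.swp (h : IsOrd n L) {k : ℕ} (hk : k + 1 < n) : IsOrd n (swp n L k) :=
  ⟨(swp_perm h hk).nodup_iff.2 h.1, fun x => by rw [(swp_perm h hk).mem_iff]; exact h.2 x⟩

theorem length_take' (h : IsOrd n L) {k : ℕ} (hk : k ≤ n) : (L.take k).length = k := by
  rw [List.length_take, h.length, min_eq_left hk]

theorem swp_getD (h : IsOrd n L) {k : ℕ} (hk : k + 1 < n) (j : ℕ) :
    (swp n L k).getD j n = if j = k then L.getD (k + 1) n else if j = k + 1 then L.getD k n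
      else L.getD j n := by
  have hl : (L.take k).length = k := length_take' h (by omega)
  unfold SFM.swp
  rcases lt_trichotomy j k with hj | hj | hj
  · rw [List.getD_append _ _ _ _ (by omega), if_neg (by omega), if_neg (by omega)]
    have hj1 : j < L.length := by rw [h.length]; omega
    rw [List.getD_eq_getElem _ _ (by rw [hl]; exact hj), List.getD_eq_getElem _ _ hj1,
      List.getElem_take]
  · subst hj
    rw [List.getD_append_right _ _ _ _ (by omega), hl, Nat.sub_self, if_pos rfl]
    rfl
  · rw [List.getD_append_right _ _ _ _ (by omega), hl, if_neg (by omega)]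
    rcases Nat.lt_or_ge j (k + 2) with hj2 | hj2
    · have : j = k + 1 := by omega
      subst this
      rw [if_pos rfl, show k + 1 - k = 1 by omega]
      rfl
    · rw [if_neg (by omega)]
      obtain ⟨i, rfl⟩ := Nat.exists_eq_add_of_le hj2
      rw [show k + 2 + i - k = i + 2 by omega]
      rw [List.getD_cons_succ, List.getD_cons_succ]
      simp [List.getD_eq_getElem?_getD, List.getElem?_drop]

theorem swp_take_le (h : IsOrd n L) {k j : ℕ} (hk : k + 1 < n) (hj : j ≤ k) :
    (swp n L k).take j = L.take j := by
  have hl : (L.take k).length = k := length_take' h (by omega)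
  unfold SFM.swp
  rw [List.take_append_of_le_length (by omega), List.take_take, min_eq_left hj]

theorem swp_take_succ (h : IsOrd n L) {k : ℕ} (hk : k + 1 < n) :
    (swp n L k).take (k + 1) = L.take k ++ [L.getD (k + 1) n] := by
  have hl : (L.take k).length = k := length_take' h (by omega)
  unfold SFM.swp
  rw [List.take_append, hl, show k + 1 - k = 1 by omega,
    List.take_of_length_le (by omega)]
  rfl

theorem swp_take_toFinset (h : IsOrd n L) {k j : ℕ} (hk : k + 1 < n) (hj : k + 2 ≤ j) :
    ((swp n L k).take j).toFinset = (L.take j).toFinset := by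
  have hl : (L.take k).length = k := length_take' h (by omega)
  obtain ⟨i, rfl⟩ := Nat.exists_eq_add_of_le hj
  have e1 : (swp n L k).take (k + 2 + i) = L.take k ++ (L.getD (k + 1) n :: L.getD k n ::
      (L.drop (k + 2)).take i) := by
    unfold SFM.swp
    rw [List.take_append, hl, List.take_of_length_le (by omega),
      show k + 2 + i - k = i + 2 by omega]
    rfl
  have e2 : L.take (k + 2 + i) = L.take k ++ (L.getD k n :: L.getD (k + 1) n ::
      (L.drop (k + 2)).take i) := by
    conv_lhs => rw [split_at h hk]
    rw [List.take_append, hl, List.take_of_length_le (by omega),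
      show k + 2 + i - k = i + 2 by omega]
    rfl
  rw [e1, e2]
  ext x
  simp only [List.toFinset_append, List.toFinset_cons, mem_union, mem_insert]
  tauto

theorem dk_swp (hF : Eval n F f) (h : IsOrd n L) {k : ℕ} (hk : k + 1 < n) (j : ℕ) :
    dk F (swp n L k) j = if j = k then dk F L (k + 1) + bet n F L k
      else if j = k + 1 then dk F L k - bet n F L k else dk F L j := by
  have h' := h.swp hk
  have e2 : F ((swp n L k).take (k + 2)) = F (L.take (k + 2)) := by
    rw [hF _ (take_lt h' _), hF _ (take_lt h _), swp_take_toFinset h hk le_rfl]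
  rcases lt_trichotomy j k with hj | hj | hj
  · rw [if_neg (by omega), if_neg (by omega)]
    unfold dk
    rw [swp_take_le h hk (by omega : j + 1 ≤ k), swp_take_le h hk hj.le]
  · subst hj
    rw [if_pos rfl]
    unfold dk bet
    rw [swp_take_succ h hk, swp_take_le h hk le_rfl]
    ring
  · rw [if_neg (by omega)]
    rcases Nat.lt_or_ge j (k + 2) with hj2 | hj2
    · have : j = k + 1 := by omega
      subst this
      rw [if_pos rfl]
      unfold dk bet
      rw [show k + 1 + 1 = k + 2 by rfl, e2, swp_take_succ h hk]
      ring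
    · rw [if_neg (by omega)]
      unfold dk
      rw [hF _ (take_lt h' _), hF _ (take_lt h _), hF _ (take_lt h' _), hF _ (take_lt h _),
        swp_take_toFinset h hk (by omega : k + 2 ≤ j + 1), swp_take_toFinset h hk hj2]

/-- effect of a swap on the greedy vector -/
theorem gv_swp (hF : Eval n F f) (h : IsOrd n L) {k : ℕ} (hk : k + 1 < n) {v : ℕ} (hv : v < n) :
    gv n F (swp n L k) v = gv n F L v + (if v = L.getD (k + 1) n then bet n F L k else 0)
      - (if v = L.getD k n then bet n F L k else 0) := by
  have h' := h.swp hk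
  have hkk : k < n := by omega
  have hne : L.getD k n ≠ L.getD (k + 1) n := by
    intro e
    have := h.getD_inj hkk hk e
    omega
  obtain ⟨j, hj, rfl⟩ := h.exists_getD hv
  by_cases h1 : j = k
  · subst h1
    have e : L.getD j n = (swp n L j).getD (j + 1) n := by
      rw [swp_getD h hk, if_neg (by omega), if_pos rfl]
    rw [if_neg hne, if_pos rfl, gv_getD h hj]
    conv_lhs => rw [e]
    rw [gv_getD h' hk, dk_swp hF h hk, if_neg (by omega), if_pos rfl]
    ring
  · by_cases h2 : j = k + 1
    · subst h2
      have e : L.getD (k + 1) n = (swp n L k).getD k n := by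
        rw [swp_getD h hk, if_pos rfl]
      rw [if_pos rfl, if_neg hne.symm, gv_getD h hk]
      conv_lhs => rw [e]
      rw [gv_getD h' hkk, dk_swp hF h hk, if_pos rfl]
      ring
    · have e : L.getD j n = (swp n L k).getD j n := by
        rw [swp_getD h hk, if_neg h1, if_neg h2]
      rw [if_neg (fun e' => h2 (h.getD_inj hj hk e')), if_neg (fun e' => h1 (h.getD_inj hj hkk e')),
        gv_getD h hj]
      conv_lhs => rw [e]
      rw [gv_getD h' hj, dk_swp hF h hk, if_neg h1, if_neg h2]
      ring

theorem bet_nonneg (hf : Subm n f) (hF : Eval n F f) (h : IsOrd n L) {k : ℕ} (hk : k + 1 < n) :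
    0 ≤ bet n F L k := by
  have hkk : k < n := by omega
  have hne : L.getD k n ≠ L.getD (k + 1) n := by
    intro e
    have := h.getD_inj hkk hk e
    omega
  have hlt : ∀ x ∈ L.take k ++ [L.getD (k + 1) n], x < n := by
    intro x hx
    rw [List.mem_append, List.mem_singleton] at hx
    rcases hx with hx | hx
    · exact take_lt h _ x hx
    · rw [hx]; exact h.getD_lt hk
  have hnk : L.getD k n ∉ (L.take k).toFinset := getD_notMem_take h hkk
  have hnk1 : L.getD (k + 1) n ∉ (L.take (k + 1)).toFinset := getD_notMem_take h hk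
  rw [take_succ_toFinset h hkk, mem_insert, not_or] at hnk1
  unfold bet
  rw [hF _ hlt, hF _ (take_lt h _), hF _ (take_lt h _), hF _ (take_lt h _)]
  have hs := hf (L.take k ++ [L.getD (k + 1) n]).toFinset (L.take (k + 1)).toFinset
    (fun x hx => mem_range.2 (hlt x (List.mem_toFinset.1 hx)))
    (fun x hx => mem_range.2 (take_lt h _ x (List.mem_toFinset.1 hx)))
  have e1 : (L.take k ++ [L.getD (k + 1) n]).toFinset ∪ (L.take (k + 1)).toFinset =
      (L.take (k + 2)).toFinset := by
    rw [take_succ_toFinset h hk, take_succ_toFinset h hkk]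
    ext x
    simp only [List.toFinset_append, mem_union, mem_insert, List.toFinset_cons, List.toFinset_nil,
      notMem_empty, or_false]
    tauto
  have e2 : (L.take k ++ [L.getD (k + 1) n]).toFinset ∩ (L.take (k + 1)).toFinset =
      (L.take k).toFinset := by
    rw [take_succ_toFinset h hkk]
    ext x
    simp only [List.toFinset_append, mem_union, mem_inter, mem_insert, List.toFinset_cons,
      List.toFinset_nil, notMem_empty, or_false]
    constructor
    · rintro ⟨h1 | h1, h2 | h2⟩
      · exact h1
      · exact h2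
      · exact absurd (h2.symm.trans h1) hne
      · exact h2
    · intro h1; exact ⟨Or.inl h1, Or.inr h1⟩
  rw [e1, e2] at hs
  linarith

theorem bet_le (hF : Eval n F f) (h : IsOrd n L) {M : ℕ}
    (hM : ∀ A : Finset ℕ, A ⊆ range n → |f A| ≤ M) {k : ℕ} (hk : k + 1 < n) :
    bet n F L k ≤ 4 * M := by
  have hlt : ∀ x ∈ L.take k ++ [L.getD (k + 1) n], x < n := by
    intro x hx
    rw [List.mem_append, List.mem_singleton] at hx
    rcases hx with hx | hx
    · exact take_lt h _ x hx
    · rw [hx]; exact h.getD_lt hk
  have hs : ∀ l : List ℕ, (∀ x ∈ l, x < n) → |F l| ≤ M := fun l hl => by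
    rw [hF l hl]
    exact hM _ fun x hx => mem_range.2 (hl x (List.mem_toFinset.1 hx))
  have h1 := abs_le.1 (hs _ hlt)
  have h2 := abs_le.1 (hs _ (take_lt h k))
  have h3 := abs_le.1 (hs _ (take_lt h (k + 1)))
  have h4 := abs_le.1 (hs _ (take_lt h (k + 2)))
  unfold bet
  linarith [h1.1, h1.2, h2.1, h2.2, h3.1, h3.2, h4.1, h4.2]

theorem gv_abs_le (hF : Eval n F f) (h : IsOrd n L) {M : ℕ}
    (hM : ∀ A : Finset ℕ, A ⊆ range n → |f A| ≤ M) {v : ℕ} (hv : v < n) :
    |gv n F L v| ≤ 2 * M := by
  obtain ⟨k, hk, rfl⟩ := h.exists_getD hv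
  rw [gv_getD h hk, dk]
  have hs : ∀ l : List ℕ, (∀ x ∈ l, x < n) → |F l| ≤ M := fun l hl => by
    rw [hF l hl]
    exact hM _ fun x hx => mem_range.2 (hl x (List.mem_toFinset.1 hx))
  have h2 := abs_le.1 (hs _ (take_lt h k))
  have h3 := abs_le.1 (hs _ (take_lt h (k + 1)))
  rw [abs_le]
  constructor <;> linarith [h2.1, h2.2, h3.1, h3.2]

end

end Crest.Agent.R302.SFM
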