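import Crest.Agent.R302.SFM1

/-!
# R302 / SFM, part 2: reachability with paths, augmentation along a path
-/

set_option autoImplicit false

namespace Crest.Agent.R302.SFM

open Finset

/-- entries of an integer matrix -/
def getZ (ψ : List (List ℤ)) (i j : ℕ) : ℤ := (ψ.getD i []).getD j 0

/-- tabulate a matrix -/
def tabZ (n : ℕ) (h : ℕ → ℕ → ℤ) : List (List ℤ) :=
  (List.range n).map fun i => (List.range n).map fun j => h i j

theorem getD_map_range {α : Type*} {n : ℕ} (g : ℕ → α) (d : α) {i : ℕ} (hi : i < n) :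
    ((List.range n).map g).getD i d = g i := by
  rw [List.getD_eq_getElem _ _ (by simpa using hi)]
  simp

theorem getZ_tabZ {n : ℕ} (h : ℕ → ℕ → ℤ) {i j : ℕ} (hi : i < n) (hj : j < n) :
    getZ (tabZ n h) i j = h i j := by
  unfold getZ tabZ
  rw [getD_map_range _ _ hi, getD_map_range _ _ hj]

/-- the end point of a path (paths are stored backwards) -/
def hd (n : ℕ) (p : List ℕ) : ℕ := p.getD 0 n

@[simp] theorem hd_cons (n v : ℕ) (p : List ℕ) : hd n (v :: p) = v := rfl

/-- the end points -/
def heads (n : ℕ) (P : List (List ℕ)) : List ℕ := P.map (hd n)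

/-- the (at most one) new path to `v` -/
def newPath (n : ℕ) (R : ℕ → ℕ → Bool) (P : List (List ℕ)) (v : ℕ) : List (List ℕ) :=
  if (heads n P).elem v then [] else
    ((P.filter fun p => R (hd n p) v).take 1).map fun p => v :: p

/-- one round of the search -/
def ext (n : ℕ) (R : ℕ → ℕ → Bool) (P : List (List ℕ)) : List (List ℕ) :=
  P ++ ((List.range n).map (newPath n R P)).flatten

/-- all the rounds -/
def reach (n : ℕ) (R : ℕ → ℕ → Bool) (S : List ℕ) : List (List ℕ) :=
  (ext n R)^[n] (S.map fun s => [s])

/-- backward-stored simple `R`-paths from `S` -/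
inductive Pth (n : ℕ) (R : ℕ → ℕ → Bool) (S : List ℕ) : List ℕ → Prop
  | base (s : ℕ) (hs : s ∈ S) (hn : s < n) : Pth n R S [s]
  | step (v : ℕ) (p : List ℕ) (hp : Pth n R S p) (hv : v < n) (hR : R (hd n p) v = true)
      (hnp : v ∉ p) : Pth n R S (v :: p)

section
variable {n : ℕ} {R : ℕ → ℕ → Bool} {S : List ℕ} {P : List (List ℕ)}

/-- closed under arcs -/
def Closed (n : ℕ) (R : ℕ → ℕ → Bool) (W : List ℕ) : Prop :=
  ∀ u ∈ W, ∀ v < n, R u v = true → v ∈ W

theorem Pth.lt {p : List ℕ} (h : Pth n R S p) : ∀ x ∈ p, x < n := by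
  induction h with
  | base s hs hn => intro x hx; rw [List.mem_singleton.1 hx]; exact hn
  | step v p hp hv hR hnp ih =>
    intro x hx
    rcases List.mem_cons.1 hx with rfl | hx
    · exact hv
    · exact ih x hx

theorem Pth.nodup {p : List ℕ} (h : Pth n R S p) : p.Nodup := by
  induction h with
  | base s hs hn => exact List.nodup_singleton s
  | step v p hp hv hR hnp ih => exact List.nodup_cons.2 ⟨hnp, ih⟩

theorem Pth.ne_nil {p : List ℕ} (h : Pth n R S p) : p ≠ [] := by
  cases h <;> simp

theorem Pth.hd_mem {p : List ℕ} (h : Pth n R S p) : hd n p ∈ p := by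
  cases h with
  | base s hs hn => simp [hd]
  | step v p hp hv hR hnp => simp [hd]

theorem Pth.mem_closed {p : List ℕ} (h : Pth n R S p) {C : ℕ → Prop} (hS : ∀ s ∈ S, s < n → C s)
    (hC : ∀ u, C u → ∀ v < n, R u v = true → C v) : ∀ x ∈ p, C x := by
  induction h with
  | base s hs hn => intro x hx; rw [List.mem_singleton.1 hx]; exact hS s hs hn
  | step v p hp hv hR hnp ih =>
    intro x hx
    rcases List.mem_cons.1 hx with rfl | hx
    · exact hC _ (ih _ hp.hd_mem) _ hv hR
    · exact ih x hx

/-- the invariant of the search -/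
structure Inv (n : ℕ) (R : ℕ → ℕ → Bool) (S : List ℕ) (P : List (List ℕ)) : Prop where
  pth : ∀ p ∈ P, Pth n R S p
  suf : ∀ p ∈ P, ∀ x ∈ p, x ∈ heads n P
  src : ∀ s ∈ S, s ∈ heads n P

theorem mem_newPath {v : ℕ} {q : List ℕ} (h : q ∈ newPath n R P v) :
    v ∉ heads n P ∧ ∃ p ∈ P, R (hd n p) v = true ∧ q = v :: p := by
  unfold newPath at h
  split_ifs at h with hv
  · simp at h
  · rw [List.mem_map] at h
    obtain ⟨p, hp, rfl⟩ := h
    have hp' := List.mem_filter.1 (List.mem_of_mem_take hp)
    exact ⟨by simpa using hv, p, hp'.1, hp'.2, rfl⟩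

theorem heads_sub_ext : ∀ x ∈ heads n P, x ∈ heads n (ext n R P) := by
  intro x hx
  unfold heads ext at *
  rw [List.map_append, List.mem_append]
  exact Or.inl hx

theorem mem_ext {q : List ℕ} (h : q ∈ ext n R P) :
    q ∈ P ∨ ∃ v < n, v ∉ heads n P ∧ ∃ p ∈ P, R (hd n p) v = true ∧ q = v :: p := by
  unfold ext at h
  rw [List.mem_append, List.mem_flatten] at h
  rcases h with h | ⟨l, hl, hq⟩
  · exact Or.inl h
  · rw [List.mem_map] at hl
    obtain ⟨v, hv, rfl⟩ := hl
    exact Or.inr ⟨v, List.mem_range.1 hv, mem_newPath hq⟩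

theorem Inv.ext (h : Inv n R S P) : Inv n R S (ext n R P) := by
  refine ⟨fun q hq => ?_, fun q hq x hx => ?_, fun s hs => heads_sub_ext s (h.src s hs)⟩
  · rcases mem_ext hq with hq | ⟨v, hv, hnv, p, hp, hR, rfl⟩
    · exact h.pth q hq
    · exact Pth.step v p (h.pth p hp) hv hR fun hvp => hnv (h.suf p hp v hvp)
  · rcases mem_ext hq with hq' | ⟨v, hv, hnv, p, hp, hR, rfl⟩
    · exact heads_sub_ext x (h.suf q hq' x hx)
    · rcases List.mem_cons.1 hx with rfl | hx
      · exact List.mem_map.2 ⟨x :: p, hq, rfl⟩
      · exact heads_sub_ext x (h.suf p hp x hx)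

theorem inv_init (hS : ∀ s ∈ S, s < n) : Inv n R S (S.map fun s => [s]) := by
  refine ⟨fun p hp => ?_, fun p hp x hx => ?_, fun s hs => ?_⟩
  · obtain ⟨s, hs, rfl⟩ := List.mem_map.1 hp
    exact Pth.base s hs (hS s hs)
  · obtain ⟨s, hs, rfl⟩ := List.mem_map.1 hp
    rw [List.mem_singleton] at hx
    subst hx
    exact List.mem_map.2 ⟨[x], hp, rfl⟩
  · exact List.mem_map.2 ⟨[s], List.mem_map.2 ⟨s, hs, rfl⟩, rfl⟩

theorem inv_iter (hS : ∀ s ∈ S, s < n) (k : ℕ) :
    Inv n R S ((ext n R)^[k] (S.map fun s => [s])) := by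
  induction k with
  | zero => exact inv_init hS
  | succ k ih => rw [Function.iterate_succ_apply']; exact ih.ext

theorem ext_of_closed (h : Closed n R (heads n P)) : ext n R P = P := by
  unfold ext
  suffices h' : ((List.range n).map (newPath n R P)).flatten = [] by rw [h', List.append_nil]
  rw [List.flatten_eq_nil_iff]
  intro l hl
  obtain ⟨v, hv, rfl⟩ := List.mem_map.1 hl
  rw [List.eq_nil_iff_forall_not_mem]
  intro q hq
  obtain ⟨hnv, p, hp, hR, rfl⟩ := mem_newPath hq
  exact hnv (h _ (List.mem_map.2 ⟨p, hp, rfl⟩) v (List.mem_range.1 hv) hR)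

theorem card_lt_of_not_closed (h : ¬ Closed n R (heads n P)) :
    (heads n P).toFinset.card < (heads n (ext n R P)).toFinset.card := by
  unfold Closed at h
  push Not at h
  obtain ⟨u, hu, v, hv, hR, hnv⟩ := h
  refine Finset.card_lt_card ⟨fun x hx => ?_, fun hsub => ?_⟩
  · rw [List.mem_toFinset] at *
    exact heads_sub_ext x hx
  · apply hnv
    rw [← List.mem_toFinset]
    apply hsub
    rw [List.mem_toFinset]
    obtain ⟨p, hp, rfl⟩ := List.mem_map.1 hu
    have hne : (P.filter fun p => R (hd n p) v) ≠ [] := by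
      intro h0
      have : p ∈ P.filter fun p => R (hd n p) v := List.mem_filter.2 ⟨hp, hR⟩
      rw [h0] at this
      simp at this
    obtain ⟨q, l, hq⟩ := List.exists_cons_of_ne_nil hne
    refine List.mem_map.2 ⟨v :: q, ?_, rfl⟩
    unfold ext
    rw [List.mem_append, List.mem_flatten]
    refine Or.inr ⟨newPath n R P v, List.mem_map.2 ⟨v, List.mem_range.2 hv, rfl⟩, ?_⟩
    unfold newPath
    rw [if_neg (by simpa using hnv), hq]
    simp

theorem heads_lt (h : Inv n R S P) : ∀ x ∈ heads n P, x < n := by
  intro x hx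
  obtain ⟨p, hp, rfl⟩ := List.mem_map.1 hx
  exact (h.pth p hp).lt _ (h.pth p hp).hd_mem

theorem closed_iter (hS : ∀ s ∈ S, s < n) (k : ℕ) :
    Closed n R (heads n ((ext n R)^[k] (S.map fun s => [s]))) ∨
      k + 1 ≤ (heads n ((ext n R)^[k] (S.map fun s => [s]))).toFinset.card := by
  induction k with
  | zero =>
    rcases S.eq_nil_or_concat with h | ⟨l, a, h⟩
    · left
      subst h
      intro u hu
      simp [heads] at hu
    · right
      rw [Function.iterate_zero, id, Nat.succ_le_iff, Finset.card_pos]
      exact ⟨a, List.mem_toFinset.2 ((inv_init (R := R) hS).src a (by rw [h]; simp))⟩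
  | succ k ih =>
    rw [Function.iterate_succ_apply']
    rcases ih with h | h
    · left; rw [ext_of_closed h]; exact h
    · by_cases hc : Closed n R (heads n ((ext n R)^[k] (S.map fun s => [s])))
      · left; rw [ext_of_closed hc]; exact hc
      · right
        have := card_lt_of_not_closed hc
        omega

theorem reach_inv (hS : ∀ s ∈ S, s < n) : Inv n R S (reach n R S) := inv_iter hS n

theorem reach_closed (hS : ∀ s ∈ S, s < n) : Closed n R (heads n (reach n R S)) := by
  rcases closed_iter (R := R) hS n with h | h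
  · exact h
  · exfalso
    have hsub : (heads n ((ext n R)^[n] (S.map fun s => [s]))).toFinset ⊆ range n := by
      intro x hx
      exact mem_range.2 (heads_lt (reach_inv (R := R) hS) x (List.mem_toFinset.1 hx))
    have := Finset.card_le_card hsub
    rw [card_range] at this
    omega

/-- the reachable set is the least closed set containing the sources -/
theorem reach_least (hS : ∀ s ∈ S, s < n) {C : ℕ → Prop} (hSC : ∀ s ∈ S, C s)
    (hC : ∀ u, C u → ∀ v < n, R u v = true → C v) : ∀ x ∈ heads n (reach n R S), C x := by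
  intro x hx
  obtain ⟨p, hp, rfl⟩ := List.mem_map.1 hx
  have hP := (reach_inv (R := R) hS).pth p hp
  exact hP.mem_closed (fun s hs _ => hSC s hs) hC _ hP.hd_mem

/-! ### arcs of a path -/

/-- `arc p i j = 1` iff the path uses the arc `i → j` (`j` directly precedes `i` in the list) -/
def arc (p : List ℕ) (i j : ℕ) : ℤ := ((p.zip p.tail).count (j, i) : ℕ)

/-- the first vertex -/
def lst (n : ℕ) (p : List ℕ) : ℕ := p.getLastD n

theorem zip_tail_cons (a b : ℕ) (r : List ℕ) :
    (a :: b :: r).zip (a :: b :: r).tail = (a, b) :: (b :: r).zip (b :: r).tail := by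
  simp

theorem arc_cons (a b : ℕ) (r : List ℕ) (i j : ℕ) :
    arc (a :: b :: r) i j = arc (b :: r) i j + if j = a ∧ i = b then 1 else 0 := by
  unfold arc
  rw [zip_tail_cons, List.count_cons]
  by_cases h : j = a ∧ i = b
  · rw [if_pos h, h.1, h.2]; simp
  · rw [if_neg h]
    have : ((a, b) == (j, i)) = false := by
      rw [beq_eq_false_iff_ne]
      intro e
      rw [Prod.mk.injEq] at e
      exact h ⟨e.1.symm, e.2.symm⟩
    simp [this]

theorem arc_single (a i j : ℕ) : arc [a] i j = 0 := by simp [arc]

theorem arc_mem {p : List ℕ} {i j : ℕ} (h : arc p i j ≠ 0) : i ∈ p ∧ j ∈ p := by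
  unfold arc at h
  have h1 : 0 < (p.zip p.tail).count (j, i) := by
    rw [Nat.pos_iff_ne_zero]; exact_mod_cast h
  rw [List.count_pos_iff] at h1
  have := List.of_mem_zip h1
  exact ⟨List.mem_of_mem_tail this.2, this.1⟩

theorem arc_nonneg (p : List ℕ) (i j : ℕ) : 0 ≤ arc p i j := by unfold arc; positivity

theorem arc_le_one {p : List ℕ} (h : p.Nodup) (i j : ℕ) : arc p i j + arc p j i ≤ 1 := by
  induction p with
  | nil => simp [arc]
  | cons a r ih =>
    cases r with
    | nil => simp [arc_single]
    | cons b r =>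
      have h1 := (List.nodup_cons.1 h)
      have ih' := ih h1.2
      rw [arc_cons, arc_cons]
      by_cases hja : j = a ∧ i = b
      · have e1 : arc (b :: r) i j = 0 := by
          by_contra hne
          exact h1.1 (hja.1 ▸ (arc_mem hne).2)
        have e2 : arc (b :: r) j i = 0 := by
          by_contra hne
          exact h1.1 (hja.1 ▸ (arc_mem hne).1)
        have e3 : ¬ (i = a ∧ j = b) := by
          rintro ⟨e, _⟩
          exact h1.1 (by rw [← e, hja.2]; simp)
        rw [e1, e2, if_pos hja, if_neg e3]; norm_num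
      · by_cases hia : i = a ∧ j = b
        · have e1 : arc (b :: r) i j = 0 := by
            by_contra hne
            exact h1.1 (hia.1 ▸ (arc_mem hne).1)
          have e2 : arc (b :: r) j i = 0 := by
            by_contra hne
            exact h1.1 (hia.1 ▸ (arc_mem hne).2)
          rw [e1, e2, if_neg hja, if_pos hia]; norm_num
        · rw [if_neg hja, if_neg hia]; linarith

theorem arc_R {p : List ℕ} (h : Pth n R S p) {i j : ℕ} (hij : arc p i j ≠ 0) : R i j = true := by
  induction h with
  | base s hs hn => exact absurd (arc_single s i j) hij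
  | step v p hp hv hR hnp ih =>
    cases p with
    | nil => exact absurd rfl hp.ne_nil
    | cons b r =>
      rw [arc_cons] at hij
      by_cases h1 : j = v ∧ i = b
      · rw [h1.1, h1.2]; exact hR
      · rw [if_neg h1, add_zero] at hij
        exact ih hij

/-- the net outflow of a path -/
theorem sum_arc {p : List ℕ} (hp : p ≠ []) (hlt : ∀ x ∈ p, x < n) (v : ℕ) :
    ∑ j ∈ range n, (arc p v j - arc p j v) =
      (if v = lst n p then 1 else 0) - (if v = hd n p then 1 else 0) := by
  induction p with
  | nil => exact absurd rfl hp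
  | cons a r ih =>
    cases r with
    | nil =>
      simp [arc_single, lst, hd]
    | cons b r =>
      have ih' := ih (by simp) (fun x hx => hlt x (List.mem_cons_of_mem _ hx))
      have hl : lst n (a :: b :: r) = lst n (b :: r) := by simp [lst]
      have hh : hd n (b :: r) = b := rfl
      rw [hl, hd_cons]
      rw [hh] at ih'
      have e : ∀ j ∈ range n, arc (a :: b :: r) v j - arc (a :: b :: r) j v =
          (arc (b :: r) v j - arc (b :: r) j v) + ((if j = a ∧ v = b then 1 else 0)
            - (if v = a ∧ j = b then 1 else 0)) := by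
        intro j _
        rw [arc_cons, arc_cons]; ring
      rw [Finset.sum_congr rfl e, Finset.sum_add_distrib, ih', Finset.sum_sub_distrib]
      have ha : a ∈ range n := mem_range.2 (hlt a (by simp))
      have hb : b ∈ range n := mem_range.2 (hlt b (by simp))
      have e1 : (∑ j ∈ range n, if j = a ∧ v = b then (1 : ℤ) else 0) = if v = b then 1 else 0 := by
        rw [Finset.sum_eq_single a]
        · simp
        · intro j _ hj
          rw [if_neg (fun h => hj h.1)]
        · intro h; exact absurd ha h
      have e2 : (∑ j ∈ range n, if v = a ∧ j = b then (1 : ℤ) else 0) = if v = a then 1 else 0 := by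
        rw [Finset.sum_eq_single b]
        · simp
        · intro j _ hj
          rw [if_neg (fun h => hj h.2)]
        · intro h; exact absurd hb h
      rw [e1, e2]
      ring

theorem Pth.lst_mem {p : List ℕ} (h : Pth n R S p) : lst n p ∈ S := by
  induction h with
  | base s hs hn => simpa [lst] using hs
  | step v p hp hv hR hnp ih =>
    cases p with
    | nil => exact absurd rfl hp.ne_nil
    | cons b r => simpa [lst] using ih

end

end Crest.Agent.R302.SFM
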