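import Mathlib

/-! Cutting simplices (pure linear algebra): a simplex with integer vertices `V i / s`, cut through
its centroid by an integer functional; exact integer update with a common scale. -/

set_option autoImplicit false

namespace Crest.Agent.R302.Sfm646

open Finset

variable {n : ℕ}

/-- `p` lies in the simplex with vertices `V i / s`. -/
def InSimplex (s : ℝ) (V : Fin (n+1) → Fin n → ℝ) (p : Fin n → ℝ) : Prop :=
  ∃ t : Fin (n+1) → ℝ, (∀ i, 0 ≤ t i) ∧ ∑ i, t i = 1 ∧ ∀ j, s * p j = ∑ i, t i * V i j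

/-- homogeneous coordinates -/
def hmat (s : ℝ) (V : Fin (n+1) → Fin n → ℝ) : Matrix (Fin (n+1)) (Fin (n+1)) ℝ :=
  Matrix.of fun i => (Fin.cons s (V i) : Fin (n+1) → ℝ)

/-- a row-substochastic nonnegative matrix has `|det| ≤ 1` -/
theorem abs_det_le_one {ι : Type*} [Fintype ι] [DecidableEq ι] (T : Matrix ι ι ℝ)
    (h0 : ∀ i j, 0 ≤ T i j) (h1 : ∀ i, ∑ j, T i j = 1) : |T.det| ≤ 1 := by
  rw [← Matrix.det_transpose, Matrix.det_apply]
  calc |∑ σ : Equiv.Perm ι, Equiv.Perm.sign σ • ∏ i, T.transpose (σ i) i|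
      ≤ ∑ σ : Equiv.Perm ι, |Equiv.Perm.sign σ • ∏ i, T.transpose (σ i) i| :=
        Finset.abs_sum_le_sum_abs _ _
    _ = ∑ σ : Equiv.Perm ι, ∏ i, T i (σ i) := by
        refine Finset.sum_congr rfl fun σ _ => ?_
        have hp : 0 ≤ ∏ i, T i (σ i) := Finset.prod_nonneg fun i _ => h0 _ _
        rcases Int.units_eq_one_or (Equiv.Perm.sign σ) with h | h
        · simp [h, Matrix.transpose_apply, abs_of_nonneg hp]
        · simp [h, Matrix.transpose_apply, abs_of_nonneg hp]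
    _ ≤ ∑ g : ι → ι, ∏ i, T i (g i) := by
        have hinj : Function.Injective (fun σ : Equiv.Perm ι => (σ : ι → ι)) :=
          fun a b h => Equiv.coe_fn_injective h
        rw [← Finset.sum_image (f := fun g : ι → ι => ∏ i, T i (g i))
          (s := (Finset.univ : Finset (Equiv.Perm ι))) (g := fun σ => (σ : ι → ι))
          (fun a _ b _ h => hinj h)]
        exact Finset.sum_le_sum_of_subset_of_nonneg (Finset.subset_univ _)
          fun g _ _ => Finset.prod_nonneg fun i _ => h0 _ _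
    _ = ∏ i, ∑ j, T i j := by
        have := Finset.prod_univ_sum (fun _ : ι => (univ : Finset ι)) (fun i j => T i j)
        rw [this]
        simp [Fintype.piFinset_univ]
    _ = 1 := by simp [h1]

theorem det_le_of_inSimplex (s : ℝ) (hs : 0 < s) (V : Fin (n+1) → Fin n → ℝ)
    (q : Fin (n+1) → Fin n → ℝ) (hq : ∀ i, InSimplex s V (q i)) :
    |(hmat 1 q).det| ≤ |(hmat s V).det| / s ^ (n+1) := by
  choose t ht0 ht1 htV using hq
  have hmul : s • hmat 1 q = (Matrix.of t) * hmat s V := by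
    ext i j
    refine Fin.cases ?_ (fun j => ?_) j
    · simp [hmat, Matrix.mul_apply, ← Finset.sum_mul, ht1]
    · simp [hmat, Matrix.mul_apply, htV]
  have hdet := congrArg Matrix.det hmul
  rw [Matrix.det_smul, Matrix.det_mul, Fintype.card_fin] at hdet
  have h2 : |(Matrix.of t : Matrix (Fin (n+1)) (Fin (n+1)) ℝ).det| ≤ 1 :=
    abs_det_le_one _ (fun i j => ht0 i j) (fun i => ht1 i)
  rw [le_div_iff₀ (by positivity)]
  calc |(hmat 1 q).det| * s ^ (n+1) = |s ^ (n+1) * (hmat 1 q).det| := by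
        rw [abs_mul, abs_of_pos (by positivity : (0:ℝ) < s ^ (n+1)), mul_comm]
    _ = |(Matrix.of t : Matrix (Fin (n+1)) (Fin (n+1)) ℝ).det| * |(hmat s V).det| := by
        rw [hdet, abs_mul]
    _ ≤ 1 * |(hmat s V).det| := by gcongr
    _ = _ := one_mul _

/-- the updated vertices -/
def upd (D : ℝ) (K : Fin (n+1) → ℝ) (m : Fin (n+1)) (V : Fin (n+1) → Fin n → ℝ) :
    Fin (n+1) → Fin n → ℝ :=
  fun i j => if i = m then D * V m j else K i * V i j + (D - K i) * V m j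

theorem inSimplex_upd (s D : ℝ) (hD : 0 < D) (K : Fin (n+1) → ℝ) (hK : ∀ i, 0 < K i)
    (m : Fin (n+1)) (V : Fin (n+1) → Fin n → ℝ) (p : Fin n → ℝ)
    (t : Fin (n+1) → ℝ) (ht0 : ∀ i, 0 ≤ t i) (ht1 : ∑ i, t i = 1)
    (htV : ∀ j, s * p j = ∑ i, t i * V i j)
    (hcut : ∑ i ∈ univ.erase m, t i * (D / K i) ≤ 1) :
    InSimplex (D * s) (upd D K m V) p := by
  refine ⟨fun i => if i = m then 1 - ∑ i ∈ univ.erase m, t i * (D / K i) else t i * (D / K i),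
    ?_, ?_, ?_⟩
  · intro i
    by_cases hi : i = m
    · simp only [hi, if_true]; linarith
    · simp only [hi, if_false]
      exact mul_nonneg (ht0 i) (div_nonneg hD.le (hK i).le)
  · rw [← Finset.add_sum_erase univ _ (Finset.mem_univ m)]
    simp only [if_true]
    rw [Finset.sum_congr rfl (fun i hi => if_neg (Finset.ne_of_mem_erase hi))]
    ring
  · intro j
    rw [← Finset.add_sum_erase univ _ (Finset.mem_univ m)]
    simp only [if_true, upd]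
    have h1 : ∑ x ∈ univ.erase m,
        (if x = m then 1 - ∑ i ∈ univ.erase m, t i * (D / K i) else t x * (D / K x)) *
          (if x = m then D * V m j else K x * V x j + (D - K x) * V m j)
        = ∑ x ∈ univ.erase m, (D * (t x * V x j) + (t x * (D / K x)) * (D * V m j)
            - (D * V m j) * t x) := by
      refine Finset.sum_congr rfl fun x hx => ?_
      have hx' := Finset.ne_of_mem_erase hx
      simp only [hx', if_false]
      have := (hK x).ne'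
      field_simp
      ring
    rw [h1, Finset.sum_sub_distrib, Finset.sum_add_distrib, ← Finset.mul_sum, ← Finset.mul_sum,
      ← Finset.sum_mul]
    have h2 : ∑ i ∈ univ.erase m, t i = 1 - t m := by
      rw [← ht1, ← Finset.add_sum_erase univ _ (Finset.mem_univ m)]; ring
    have h3 : s * p j = t m * V m j + ∑ i ∈ univ.erase m, t i * V i j := by
      rw [htV j, ← Finset.add_sum_erase univ _ (Finset.mem_univ m)]
    rw [h2]
    have : D * s * p j = D * (s * p j) := by ring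
    rw [this, h3]
    ring

theorem det_upd (s D : ℝ) (hD : 0 < D) (K : Fin (n+1) → ℝ) (m : Fin (n+1))
    (V : Fin (n+1) → Fin n → ℝ) :
    (hmat (D * s) (upd D K m V)).det = D * (∏ i ∈ univ.erase m, K i) * (hmat s V).det := by
  set K' : Fin (n+1) → ℝ := fun i => if i = m then D else K i with hK'
  have h1 : (Matrix.of fun i j => K' i * hmat s V i j).det = (∏ i, K' i) * (hmat s V).det :=
    Matrix.det_mul_column _ _
  have h2 : (∏ i, K' i) = D * ∏ i ∈ univ.erase m, K i := by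
    rw [← Finset.mul_prod_erase univ _ (Finset.mem_univ m)]
    simp only [hK', if_true]
    congr 1
    exact Finset.prod_congr rfl fun i hi => if_neg (Finset.ne_of_mem_erase hi)
  rw [← h2, ← h1]
  refine Matrix.det_eq_of_forall_row_eq_smul_add_const
    (fun i => if i = m then 0 else (D - K i) / D) m (by simp) ?_
  intro i j
  by_cases hi : i = m
  · subst hi
    refine Fin.cases ?_ (fun j => ?_) j
    · simp [hmat, hK']
    · simp [hmat, upd, hK']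
  · refine Fin.cases ?_ (fun j => ?_) j
    · simp [hmat, hK', hi]
      field_simp
      ring
    · simp [hmat, upd, hK', hi]
      field_simp

/-! ### quantitative step -/

/-- ceiling division -/
def cdiv (a b : ℤ) : ℤ := -((-a) / b)

theorem cdiv_mul_ge (a b : ℤ) (hb : 0 < b) : a ≤ cdiv a b * b := by
  unfold cdiv
  have := Int.ediv_mul_le (-a) hb.ne'
  nlinarith

theorem cdiv_mul_lt (a b : ℤ) (hb : 0 < b) : cdiv a b * b < a + b := by
  unfold cdiv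
  have := Int.lt_ediv_add_one_mul_self (-a) hb
  nlinarith

/-- the multipliers -/
def Kc (n : ℕ) (ℓ : Fin (n+1) → ℤ) (m : Fin (n+1)) (i : Fin (n+1)) : ℤ :=
  cdiv (64 * (n:ℤ)^3 * (8 * (n:ℤ)^2 * (-ℓ m))) (8 * (n:ℤ)^2 * (-ℓ m) + ℓ i)

section numeric

variable (hn : 1 ≤ n) (ℓ : Fin (n+1) → ℤ) (m : Fin (n+1)) (hsum : ∑ i, ℓ i = 0)
  (hmin : ∀ i, ℓ m ≤ ℓ i) (hneg : ℓ m < 0)

include hn hsum hmin hneg

omit hsum in
theorem den_pos (i : Fin (n+1)) : 0 < 8 * (n:ℤ)^2 * (-ℓ m) + ℓ i := by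
  have h1 : (1:ℤ) ≤ n := by exact_mod_cast hn
  have h2 : (1:ℤ) ≤ (n:ℤ)^2 := by nlinarith
  have h3 := hmin i
  nlinarith

omit hsum in
theorem Kc_pos (i : Fin (n+1)) : 0 < Kc n ℓ m i := by
  have hd := den_pos hn ℓ m hmin hneg i
  have h1 : (1:ℤ) ≤ n := by exact_mod_cast hn
  have h2 : (0:ℤ) < 64 * (n:ℤ)^3 * (8 * (n:ℤ)^2 * (-ℓ m)) := by
    have : 0 < -ℓ m := by omega
    positivity
  have h3 := cdiv_mul_ge (64 * (n:ℤ)^3 * (8 * (n:ℤ)^2 * (-ℓ m))) _ hd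
  unfold Kc
  by_contra hcon
  have hcon := not_lt.mp hcon
  have := mul_nonpos_of_nonpos_of_nonneg hcon hd.le
  omega

omit hsum in
theorem D_div_K_le (i : Fin (n+1)) :
    (64 * (n:ℝ)^3) / (Kc n ℓ m i : ℝ) ≤ 1 + (ℓ i : ℝ) / (8 * (n:ℝ)^2 * (-(ℓ m : ℝ))) := by
  have hd := den_pos hn ℓ m hmin hneg i
  have hK := Kc_pos hn ℓ m hmin hneg i
  have hKR : (0:ℝ) < (Kc n ℓ m i : ℝ) := by exact_mod_cast hK
  have h1 : (1:ℝ) ≤ n := by exact_mod_cast hn
  have h2 : (0:ℝ) < -(ℓ m : ℝ) := by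
    have : (ℓ m : ℝ) < 0 := by exact_mod_cast hneg
    linarith
  have hA : (0:ℝ) < 8 * (n:ℝ)^2 * (-(ℓ m : ℝ)) := by positivity
  have h3 := cdiv_mul_ge (64 * (n:ℤ)^3 * (8 * (n:ℤ)^2 * (-ℓ m))) _ hd
  have h4 : 64 * (n:ℝ)^3 * (8 * (n:ℝ)^2 * (-(ℓ m:ℝ))) ≤
      (Kc n ℓ m i : ℝ) * (8 * (n:ℝ)^2 * (-(ℓ m:ℝ)) + (ℓ i : ℝ)) := by
    have := (Int.cast_le (R := ℝ)).mpr h3
    push_cast at this
    simpa [Kc] using this
  rw [div_le_iff₀ hKR, ← sub_nonneg]
  have h5 : (1 + (ℓ i : ℝ) / (8 * (n:ℝ)^2 * (-(ℓ m : ℝ)))) * (Kc n ℓ m i : ℝ)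
      = (Kc n ℓ m i : ℝ) * (8 * (n:ℝ)^2 * (-(ℓ m:ℝ)) + (ℓ i : ℝ)) / (8 * (n:ℝ)^2 * (-(ℓ m : ℝ))) := by
    generalize 8 * (n:ℝ)^2 * (-(ℓ m:ℝ)) = A at hA
    have hA' := hA.ne'
    field_simp
  rw [h5, sub_nonneg, le_div_iff₀ hA]
  linarith

omit hsum in
theorem K_div_D_le (i : Fin (n+1)) :
    (Kc n ℓ m i : ℝ) / (64 * (n:ℝ)^3) ≤
      1 - (ℓ i : ℝ) / (8 * (n:ℝ)^2 * (-(ℓ m : ℝ))) +
        2 * ((ℓ i : ℝ) / (8 * (n:ℝ)^2 * (-(ℓ m : ℝ))))^2 + 1 / (64 * (n:ℝ)^3) := by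
  have hd := den_pos hn ℓ m hmin hneg i
  have hdR : (0:ℝ) < 8 * (n:ℝ)^2 * (-(ℓ m:ℝ)) + (ℓ i : ℝ) := by exact_mod_cast hd
  have h1 : (1:ℝ) ≤ n := by exact_mod_cast hn
  have h2 : (0:ℝ) < -(ℓ m : ℝ) := by
    have : (ℓ m : ℝ) < 0 := by exact_mod_cast hneg
    linarith
  have hA : (0:ℝ) < 8 * (n:ℝ)^2 * (-(ℓ m : ℝ)) := by positivity
  have h3 := cdiv_mul_lt (64 * (n:ℤ)^3 * (8 * (n:ℤ)^2 * (-ℓ m))) _ hd
  have h4 : (Kc n ℓ m i : ℝ) * (8 * (n:ℝ)^2 * (-(ℓ m:ℝ)) + (ℓ i : ℝ)) ≤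
      64 * (n:ℝ)^3 * (8 * (n:ℝ)^2 * (-(ℓ m:ℝ))) + (8 * (n:ℝ)^2 * (-(ℓ m:ℝ)) + (ℓ i : ℝ)) := by
    have := ((Int.cast_lt (R := ℝ)).mpr h3).le
    push_cast at this
    simpa [Kc] using this
  set A : ℝ := 8 * (n:ℝ)^2 * (-(ℓ m:ℝ)) with hAdef
  set y : ℝ := (ℓ i : ℝ) / A with hy
  have hl : (ℓ i : ℝ) = y * A := by rw [hy]; field_simp
  have hminR : (ℓ m : ℝ) ≤ ℓ i := by exact_mod_cast hmin i
  have hy1 : -(1/8) ≤ y := by
    rw [hy, le_div_iff₀ hA, hAdef]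
    have hn2 : (0:ℝ) ≤ (n:ℝ)^2 - 1 := by nlinarith
    nlinarith [mul_nonneg h2.le hn2]
  have hDpos : (0:ℝ) < 64 * (n:ℝ)^3 := by positivity
  have h5 : (Kc n ℓ m i : ℝ) * (1 + y) ≤ 64 * (n:ℝ)^3 + (1 + y) := by
    rw [hl] at h4
    have : A * ((Kc n ℓ m i : ℝ) * (1 + y)) ≤ A * (64 * (n:ℝ)^3 + (1 + y)) := by nlinarith
    exact le_of_mul_le_mul_left this hA
  have hy2 : 0 < 1 + y := by linarith
  have h6 : (Kc n ℓ m i : ℝ) ≤ 64 * (n:ℝ)^3 / (1 + y) + 1 := by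
    rw [← sub_le_iff_le_add, le_div_iff₀ hy2]; nlinarith
  have h7 : 1 / (1 + y) ≤ 1 - y + 2 * y^2 := by
    rw [div_le_iff₀ hy2]
    nlinarith [sq_nonneg y, mul_nonneg (sq_nonneg y) (by linarith : (0:ℝ) ≤ 1 + 2*y)]
  rw [div_le_iff₀ hDpos]
  calc (Kc n ℓ m i : ℝ) ≤ 64 * (n:ℝ)^3 / (1 + y) + 1 := h6
    _ = (1 / (1 + y)) * (64 * (n:ℝ)^3) + 1 := by ring
    _ ≤ (1 - y + 2 * y^2) * (64 * (n:ℝ)^3) + 1 := by gcongr
    _ = _ := by field_simp

theorem prod_K_le : ∏ i ∈ univ.erase m, ((Kc n ℓ m i : ℝ) / (64 * (n:ℝ)^3)) ≤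
    Real.exp (-(1 / (64 * (n:ℝ)^2))) := by
  have h1 : (1:ℝ) ≤ n := by exact_mod_cast hn
  set L : ℝ := -(ℓ m : ℝ) with hL
  have h2 : (0:ℝ) < L := by
    have : (ℓ m : ℝ) < 0 := by exact_mod_cast hneg
    rw [hL]; linarith
  have hA : (0:ℝ) < 8 * (n:ℝ)^2 * L := by positivity
  have hDpos : (0:ℝ) < 64 * (n:ℝ)^3 := by positivity
  have hsumR : ∑ i ∈ univ.erase m, (ℓ i : ℝ) = L := by
    have h : ∑ i, (ℓ i : ℝ) = 0 := by exact_mod_cast hsum
    rw [← Finset.add_sum_erase univ _ (Finset.mem_univ m)] at h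
    rw [hL]; linarith
  have hcard : ((univ.erase m : Finset (Fin (n+1))).card : ℝ) = n := by
    rw [Finset.card_erase_of_mem (Finset.mem_univ m)]; simp
  have hlow : ∀ i, -L ≤ (ℓ i : ℝ) := by
    intro i
    have : (ℓ m : ℝ) ≤ ℓ i := by exact_mod_cast hmin i
    rw [hL]; linarith
  have hup : ∀ i ∈ univ.erase m, (ℓ i : ℝ) ≤ n * L := by
    intro i hi
    have h := hsumR
    rw [← Finset.add_sum_erase _ _ hi] at h
    have h' : -(((univ.erase m : Finset (Fin (n+1))).erase i).card : ℝ) * L ≤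
        ∑ x ∈ (univ.erase m : Finset (Fin (n+1))).erase i, (ℓ x : ℝ) := by
      have := Finset.card_nsmul_le_sum ((univ.erase m : Finset (Fin (n+1))).erase i)
        (fun x => (ℓ x : ℝ)) (-L) (fun x _ => hlow x)
      rw [nsmul_eq_mul] at this
      linarith
    have hc : (((univ.erase m : Finset (Fin (n+1))).erase i).card : ℝ) = n - 1 := by
      rw [Finset.card_erase_of_mem hi, Finset.card_erase_of_mem (Finset.mem_univ m)]
      simp [Nat.cast_sub hn]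
    rw [hc] at h'
    nlinarith
  have hsq : ∑ i ∈ univ.erase m, (ℓ i : ℝ)^2 ≤ 2 * (n:ℝ)^2 * L^2 := by
    have h3 : ∀ i ∈ univ.erase m, (ℓ i : ℝ)^2 ≤ (n - 1) * L * ℓ i + n * L^2 := by
      intro i hi
      have ha := hlow i
      have hb := hup i hi
      nlinarith
    calc ∑ i ∈ univ.erase m, (ℓ i : ℝ)^2
        ≤ ∑ i ∈ univ.erase m, ((n - 1) * L * ℓ i + n * L^2) := Finset.sum_le_sum h3
      _ = (n - 1) * L * L + n * (n * L^2) := by
          rw [Finset.sum_add_distrib, ← Finset.mul_sum, hsumR, Finset.sum_const, nsmul_eq_mul,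
            hcard]
      _ ≤ 2 * (n:ℝ)^2 * L^2 := by nlinarith [sq_nonneg L, mul_pos h2 h2]
  calc ∏ i ∈ univ.erase m, ((Kc n ℓ m i : ℝ) / (64 * (n:ℝ)^3))
      ≤ ∏ i ∈ univ.erase m, Real.exp (-((ℓ i : ℝ) / (8 * (n:ℝ)^2 * L)) +
        2 * ((ℓ i : ℝ) / (8 * (n:ℝ)^2 * L))^2 + 1 / (64 * (n:ℝ)^3)) := by
        refine Finset.prod_le_prod (fun i _ => ?_) (fun i _ => ?_)
        · have := Kc_pos hn ℓ m hmin hneg i
          have : (0:ℝ) < (Kc n ℓ m i : ℝ) := by exact_mod_cast this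
          positivity
        · refine (K_div_D_le hn ℓ m hmin hneg i).trans ?_
          have := Real.add_one_le_exp (-((ℓ i : ℝ) / (8 * (n:ℝ)^2 * L)) +
            2 * ((ℓ i : ℝ) / (8 * (n:ℝ)^2 * L))^2 + 1 / (64 * (n:ℝ)^3))
          refine le_trans (le_of_eq ?_) this
          rw [hL]; ring
    _ = Real.exp (∑ i ∈ univ.erase m, (-((ℓ i : ℝ) / (8 * (n:ℝ)^2 * L)) +
        2 * ((ℓ i : ℝ) / (8 * (n:ℝ)^2 * L))^2 + 1 / (64 * (n:ℝ)^3))) := (Real.exp_sum _ _).symm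
    _ ≤ _ := by
        apply Real.exp_le_exp.mpr
        rw [Finset.sum_add_distrib, Finset.sum_add_distrib, Finset.sum_neg_distrib,
          ← Finset.sum_div, hsumR, Finset.sum_const, nsmul_eq_mul, hcard, ← Finset.mul_sum]
        have h4 : ∑ i ∈ univ.erase m, ((ℓ i : ℝ) / (8 * (n:ℝ)^2 * L))^2
            ≤ 2 * (n:ℝ)^2 * L^2 / (8 * (n:ℝ)^2 * L)^2 := by
          simp_rw [div_pow]
          rw [← Finset.sum_div]
          gcongr
        have h5 : 2 * (n:ℝ)^2 * L^2 / (8 * (n:ℝ)^2 * L)^2 = 1 / (32 * (n:ℝ)^2) := by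
          field_simp; norm_num
        have h6 : L / (8 * (n:ℝ)^2 * L) = 1 / (8 * (n:ℝ)^2) := by field_simp
        have h7 : (n:ℝ) * (1 / (64 * (n:ℝ)^3)) = 1 / (64 * (n:ℝ)^2) := by field_simp
        rw [h6, h7]
        rw [h5] at h4
        have h8 : 1 / (8 * (n:ℝ)^2) = 8 * (1 / (64 * (n:ℝ)^2)) := by field_simp; norm_num
        have h9 : 1 / (32 * (n:ℝ)^2) = 2 * (1 / (64 * (n:ℝ)^2)) := by field_simp; norm_num
        have h10 : 0 < 1 / (64 * (n:ℝ)^2) := by positivity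
        rw [h8]
        rw [h9] at h4
        linarith

omit hsum in
theorem cut_sum_le (t : Fin (n+1) → ℝ) (ht0 : ∀ i, 0 ≤ t i) (ht1 : ∑ i, t i = 1)
    (hcut : ∑ i, t i * (ℓ i : ℝ) ≤ 0) :
    ∑ i ∈ univ.erase m, t i * ((64 * (n:ℝ)^3) / (Kc n ℓ m i : ℝ)) ≤ 1 := by
  have h1 : (1:ℝ) ≤ n := by exact_mod_cast hn
  set L : ℝ := -(ℓ m : ℝ) with hL
  have h2 : (0:ℝ) < L := by
    have : (ℓ m : ℝ) < 0 := by exact_mod_cast hneg
    rw [hL]; linarith
  have hA : (0:ℝ) < 8 * (n:ℝ)^2 * L := by positivity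
  have h3 : ∑ i ∈ univ.erase m, t i = 1 - t m := by
    rw [← ht1, ← Finset.add_sum_erase univ _ (Finset.mem_univ m)]; ring
  have h4 : ∑ i ∈ univ.erase m, t i * (ℓ i : ℝ) ≤ t m * L := by
    rw [← Finset.add_sum_erase univ _ (Finset.mem_univ m)] at hcut
    rw [hL]; linarith
  calc ∑ i ∈ univ.erase m, t i * ((64 * (n:ℝ)^3) / (Kc n ℓ m i : ℝ))
      ≤ ∑ i ∈ univ.erase m, t i * (1 + (ℓ i : ℝ) / (8 * (n:ℝ)^2 * L)) := by
        refine Finset.sum_le_sum fun i _ => mul_le_mul_of_nonneg_left ?_ (ht0 i)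
        exact D_div_K_le hn ℓ m hmin hneg i
    _ = ∑ i ∈ univ.erase m, t i + (∑ i ∈ univ.erase m, t i * (ℓ i : ℝ)) / (8 * (n:ℝ)^2 * L) := by
        rw [Finset.sum_div, ← Finset.sum_add_distrib]
        exact Finset.sum_congr rfl fun i _ => by ring
    _ ≤ (1 - t m) + (t m * L) / (8 * (n:ℝ)^2 * L) := by
        rw [h3]; gcongr
    _ ≤ 1 := by
        have h5 : (t m * L) / (8 * (n:ℝ)^2 * L) = t m / (8 * (n:ℝ)^2) := by field_simp
        rw [h5]
        have h6 : t m / (8 * (n:ℝ)^2) ≤ t m := by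
          apply div_le_self (ht0 m)
          nlinarith
        linarith

end numeric

end Crest.Agent.R302.Sfm646
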