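import Crest.Agent.R302.Sfm646A

/-! Submodular function minimisation by cutting simplices: exactness of the algorithm. -/

set_option autoImplicit false

namespace Crest.Agent.R302.Sfm646

open Finset

variable {n : ℕ}

/-! ### greedy vectors without sorting -/

/-- initial segment of the order "decreasing `c`, ties by index" ending in `j` -/
def lev (c : Fin n → ℤ) (j : Fin n) : Finset (Fin n) :=
  univ.filter fun i => c j < c i ∨ (c i = c j ∧ i ≤ j)

/-- greedy vector -/
def gy (f : Finset (Fin n) → ℤ) (c : Fin n → ℤ) (j : Fin n) : ℤ :=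
  f (lev c j) - f ((lev c j).erase j)

/-- `i` strictly before `j` or equal -/
def bef (c : Fin n → ℤ) (i j : Fin n) : Prop := c j < c i ∨ (c i = c j ∧ i ≤ j)

theorem mem_lev (c : Fin n → ℤ) (i j : Fin n) : i ∈ lev c j ↔ bef c i j := by
  simp [lev, bef]

theorem bef_refl (c : Fin n → ℤ) (i : Fin n) : bef c i i := Or.inr ⟨rfl, le_rfl⟩

theorem bef_trans (c : Fin n → ℤ) (i j k : Fin n) (h1 : bef c i j) (h2 : bef c j k) :
    bef c i k := by
  unfold bef at *
  rcases h1 with h1 | ⟨h1, h1'⟩ <;> rcases h2 with h2 | ⟨h2, h2'⟩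
  · left; omega
  · left; omega
  · left; omega
  · right; exact ⟨by omega, le_trans h1' h2'⟩

theorem bef_total (c : Fin n → ℤ) (i j : Fin n) : bef c i j ∨ bef c j i := by
  unfold bef
  rcases lt_trichotomy (c i) (c j) with h | h | h
  · right; left; exact h
  · rcases le_total i j with h' | h'
    · left; right; exact ⟨h, h'⟩
    · right; right; exact ⟨h.symm, h'⟩
  · left; left; exact h

theorem bef_antisymm (c : Fin n → ℤ) (i j : Fin n) (h1 : bef c i j) (h2 : bef c j i) : i = j := by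
  unfold bef at *
  rcases h1 with h1 | ⟨h1, h1'⟩ <;> rcases h2 with h2 | ⟨h2, h2'⟩
  · omega
  · omega
  · omega
  · exact le_antisymm h1' h2'

theorem bef_le (c : Fin n → ℤ) (i j : Fin n) (h : bef c i j) : c j ≤ c i := by
  unfold bef at h; omega

/-- the last element of a nonempty set -/
theorem exists_last (c : Fin n → ℤ) (A : Finset (Fin n)) (hA : A.Nonempty) :
    ∃ j ∈ A, ∀ i ∈ A, bef c i j := by
  induction hA using Finset.Nonempty.cons_induction with
  | singleton a => exact ⟨a, by simp, by simp [bef_refl]⟩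
  | cons a s ha hs ih =>
    obtain ⟨j, hj, hj'⟩ := ih
    rcases bef_total c a j with h | h
    · refine ⟨j, by simp [hj], ?_⟩
      intro i hi
      rcases Finset.mem_cons.mp hi with rfl | hi
      · exact h
      · exact hj' i hi
    · refine ⟨a, by simp, ?_⟩
      intro i hi
      rcases Finset.mem_cons.mp hi with rfl | hi
      · exact bef_refl c _
      · exact bef_trans c _ _ _ (hj' i hi) h

section submod

variable (f : Finset (Fin n) → ℤ) (hf : ∀ A B, f (A ∪ B) + f (A ∩ B) ≤ f A + f B)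
  (h0 : f ∅ = 0) (c : Fin n → ℤ)

include hf h0 in
/-- greedy vectors lie in the base polytope -/
theorem gy_sum_le (A : Finset (Fin n)) : ∑ j ∈ A, gy f c j ≤ f A := by
  induction hk : A.card generalizing A with
  | zero => rw [Finset.card_eq_zero] at hk; simp [hk, h0]
  | succ k ih =>
    have hne : A.Nonempty := by rw [← Finset.card_pos]; omega
    obtain ⟨j, hj, hj'⟩ := exists_last c A hne
    have h1 := ih (A.erase j) (by rw [Finset.card_erase_of_mem hj]; omega)
    have h2 := hf A ((lev c j).erase j)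
    have h3 : A ∪ (lev c j).erase j = lev c j := by
      ext i
      simp only [mem_union, mem_erase, mem_lev]
      constructor
      · rintro (h | h)
        · exact hj' i h
        · exact h.2
      · intro h
        by_cases hij : i = j
        · left; rw [hij]; exact hj
        · right; exact ⟨hij, h⟩
    have h4 : A ∩ (lev c j).erase j = A.erase j := by
      ext i
      simp only [mem_inter, mem_erase, mem_lev]
      constructor
      · rintro ⟨h, h', h''⟩; exact ⟨h', h⟩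
      · rintro ⟨h, h'⟩; exact ⟨h', h, hj' i h'⟩
    rw [h3, h4] at h2
    rw [← Finset.add_sum_erase A _ hj]
    unfold gy at *
    linarith

/-- down-closed sets -/
def Dn (c : Fin n → ℤ) (A : Finset (Fin n)) : Prop := ∀ j ∈ A, ∀ i, bef c i j → i ∈ A

theorem Dn.eq_lev {c : Fin n → ℤ} {A : Finset (Fin n)} (hA : Dn c A) {j : Fin n} (hj : j ∈ A)
    (hj' : ∀ i ∈ A, bef c i j) : A = lev c j := by
  ext i
  rw [mem_lev]
  exact ⟨fun h => hj' i h, fun h => hA j hj i h⟩

theorem Dn.erase {c : Fin n → ℤ} {A : Finset (Fin n)} (hA : Dn c A) {j : Fin n}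
    (hj' : ∀ i ∈ A, bef c i j) : Dn c (A.erase j) := by
  intro k hk i hi
  rw [Finset.mem_erase] at hk ⊢
  refine ⟨?_, hA k hk.2 i hi⟩
  rintro rfl
  exact hk.1 (bef_antisymm c _ _ (hj' k hk.2) hi)

include h0 in
theorem gy_sum_eq (A : Finset (Fin n)) (hA : Dn c A) : ∑ j ∈ A, gy f c j = f A := by
  induction hk : A.card generalizing A with
  | zero => rw [Finset.card_eq_zero] at hk; simp [hk, h0]
  | succ k ih =>
    have hne : A.Nonempty := by rw [← Finset.card_pos]; omega
    obtain ⟨j, hj, hj'⟩ := exists_last c A hne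
    have h1 := ih (A.erase j) (hA.erase hj') (by rw [Finset.card_erase_of_mem hj]; omega)
    have h2 := hA.eq_lev hj hj'
    rw [← Finset.add_sum_erase A _ hj, h1]
    unfold gy
    rw [← h2]
    ring

include h0 in
/-- Abel summation: `β ≤` every recorded value implies `β (T - θ) ≤ Σ y (c-θ)`. -/
theorem abel_ge (β T : ℤ) (hβ0 : β ≤ 0) (hβ : ∀ j, β ≤ f (lev c j)) (hT : ∀ j, c j ≤ T)
    (A : Finset (Fin n)) (hA : Dn c A) (θ : ℤ) (hθ : ∀ i ∈ A, θ ≤ c i) (hθT : θ ≤ T) :
    β * (T - θ) ≤ ∑ i ∈ A, gy f c i * (c i - θ) := by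
  induction hk : A.card generalizing A θ with
  | zero =>
    rw [Finset.card_eq_zero] at hk
    simp only [hk, sum_empty]
    nlinarith
  | succ k ih =>
    have hne : A.Nonempty := by rw [← Finset.card_pos]; omega
    obtain ⟨j, hj, hj'⟩ := exists_last c A hne
    have h1 := ih (A.erase j) (hA.erase hj') (c j)
      (fun i hi => bef_le c i j (hj' i (Finset.mem_of_mem_erase hi))) (hT j)
      (by rw [Finset.card_erase_of_mem hj]; omega)
    have h2 := hA.eq_lev hj hj'
    have h3 := gy_sum_eq f h0 c A hA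
    have h4 : ∑ i ∈ A, gy f c i * (c i - θ) =
        ∑ i ∈ A.erase j, gy f c i * (c i - c j) + (c j - θ) * f A := by
      rw [← h3, Finset.mul_sum]
      have : ∑ i ∈ A.erase j, gy f c i * (c i - c j) = ∑ i ∈ A, gy f c i * (c i - c j) := by
        rw [← Finset.add_sum_erase A _ hj]; ring
      rw [this, ← Finset.sum_add_distrib]
      exact Finset.sum_congr rfl fun i _ => by ring
    rw [h4]
    have h5 : β ≤ f A := by rw [h2]; exact hβ j
    have h6 : 0 ≤ c j - θ := by have := hθ j hj; omega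
    nlinarith

include h0 in
theorem abel_univ (β T : ℤ) (hβ0 : β ≤ 0) (hβ : ∀ j, β ≤ f (lev c j)) (hT : ∀ j, c j ≤ T)
    (hc : ∀ j, 0 ≤ c j) (hT0 : 0 ≤ T) :
    β * T ≤ ∑ i, gy f c i * c i := by
  have := abel_ge f h0 c β T hβ0 hβ hT univ (fun j _ i _ => Finset.mem_univ i) 0
    (fun i _ => hc i) hT0
  simpa using this

end submod

/-! ### the algorithm -/

def cen (V : Fin (n+1) → Fin n → ℤ) (j : Fin n) : ℤ := ∑ i, V i j

def ell (g : Fin n → ℤ) (V : Fin (n+1) → Fin n → ℤ) (i : Fin (n+1)) : ℤ :=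
  ∑ j, g j * (((n:ℤ) + 1) * V i j - cen V j)

def argm (ℓ : Fin (n+1) → ℤ) : Fin (n+1) :=
  (List.finRange (n+1)).foldl (fun b i => if ℓ i < ℓ b then i else b) 0

theorem foldl_argm {α : Type*} (ℓ : α → ℤ) (L : List α) (b : α) :
    ℓ (L.foldl (fun b i => if ℓ i < ℓ b then i else b) b) ≤ ℓ b ∧
    ∀ i ∈ L, ℓ (L.foldl (fun b i => if ℓ i < ℓ b then i else b) b) ≤ ℓ i := by
  induction L generalizing b with
  | nil => simp
  | cons a L ih =>
    simp only [List.foldl_cons]
    obtain ⟨h1, h2⟩ := ih (if ℓ a < ℓ b then a else b)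
    have h3 : ℓ (if ℓ a < ℓ b then a else b) ≤ ℓ b ∧ ℓ (if ℓ a < ℓ b then a else b) ≤ ℓ a := by
      split_ifs with h
      · exact ⟨h.le, le_rfl⟩
      · exact ⟨le_rfl, not_lt.mp h⟩
    refine ⟨h1.trans h3.1, ?_⟩
    intro i hi
    rcases List.mem_cons.mp hi with rfl | hi
    · exact h1.trans h3.2
    · exact h2 i hi

theorem argm_le (ℓ : Fin (n+1) → ℤ) (i : Fin (n+1)) : ℓ (argm ℓ) ≤ ℓ i :=
  (foldl_argm ℓ (List.finRange (n+1)) 0).2 i (List.mem_finRange i)

/-- integer vertex update -/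
def stepV (V : Fin (n+1) → Fin n → ℤ) (g : Fin n → ℤ) : Fin (n+1) → Fin n → ℤ :=
  let ℓ := ell g V
  let m := argm ℓ
  fun i j => if i = m then 64 * (n:ℤ)^3 * V m j
    else Kc n ℓ m i * V i j + (64 * (n:ℤ)^3 - Kc n ℓ m i) * V m j

/-- cast of an integer vertex family -/
def rV (V : Fin (n+1) → Fin n → ℤ) : Fin (n+1) → Fin n → ℝ := fun i j => (V i j : ℝ)

/-- the cut condition at the centroid -/
def Cut (s : ℝ) (V : Fin (n+1) → Fin n → ℤ) (g : Fin n → ℤ) (p : Fin n → ℝ) : Prop :=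
  ((n:ℝ) + 1) * s * ∑ j, (g j : ℝ) * p j < ∑ j, (g j : ℝ) * (cen V j : ℝ)

theorem sum_ell (g : Fin n → ℤ) (V : Fin (n+1) → Fin n → ℤ) : ∑ i, ell g V i = 0 := by
  unfold ell
  rw [Finset.sum_comm]
  refine Finset.sum_eq_zero fun j _ => ?_
  rw [← Finset.mul_sum, Finset.sum_sub_distrib, ← Finset.mul_sum]
  simp [cen]

theorem sum_t_ell (s : ℝ) (V : Fin (n+1) → Fin n → ℤ) (g : Fin n → ℤ) (p : Fin n → ℝ)
    (t : Fin (n+1) → ℝ) (ht1 : ∑ i, t i = 1) (htV : ∀ j, s * p j = ∑ i, t i * rV V i j) :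
    ∑ i, t i * (ell g V i : ℝ) =
      ((n:ℝ) + 1) * s * ∑ j, (g j : ℝ) * p j - ∑ j, (g j : ℝ) * (cen V j : ℝ) := by
  have h1 : ∀ i, t i * (ell g V i : ℝ) =
      ∑ j, ((g j : ℝ) * (((n:ℝ) + 1) * (t i * rV V i j)) - t i * ((g j : ℝ) * (cen V j : ℝ))) := by
    intro i
    unfold ell rV
    push_cast
    rw [Finset.mul_sum]
    exact Finset.sum_congr rfl fun j _ => by ring
  simp_rw [h1]
  rw [Finset.sum_comm]
  have h2 : ∀ j, ∑ i, ((g j : ℝ) * (((n:ℝ) + 1) * (t i * rV V i j)) - t i * ((g j : ℝ) * (cen V j : ℝ)))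
      = ((n:ℝ) + 1) * s * ((g j : ℝ) * p j) - (g j : ℝ) * (cen V j : ℝ) := by
    intro j
    rw [Finset.sum_sub_distrib, ← Finset.sum_mul, ht1, ← Finset.mul_sum, ← Finset.mul_sum,
      ← htV j]
    ring
  simp_rw [h2]
  rw [Finset.sum_sub_distrib, ← Finset.mul_sum]

theorem step_spec (hn : 1 ≤ n) (s : ℝ) (V : Fin (n+1) → Fin n → ℤ) (g : Fin n → ℤ)
    (p : Fin n → ℝ) (hp : InSimplex s (rV V) p) (hcut : Cut s V g p) :
    InSimplex (64 * (n:ℝ)^3 * s) (rV (stepV V g)) p ∧
    |(hmat (64 * (n:ℝ)^3 * s) (rV (stepV V g))).det| / (64 * (n:ℝ)^3 * s) ^ (n+1) ≤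
      Real.exp (-(1 / (64 * (n:ℝ)^2))) * (|(hmat s (rV V)).det| / s ^ (n+1)) ∨ s ≤ 0 := by
  by_cases hs : s ≤ 0
  · right; exact hs
  left
  have hs := not_le.mp hs
  obtain ⟨t, ht0, ht1, htV⟩ := hp
  have h1 : (1:ℝ) ≤ n := by exact_mod_cast hn
  have hD : (0:ℝ) < 64 * (n:ℝ)^3 := by positivity
  set ℓ := ell g V with hℓ
  set m := argm ℓ with hm
  have hsum : ∑ i, ℓ i = 0 := sum_ell g V
  have hmin : ∀ i, ℓ m ≤ ℓ i := argm_le ℓ
  have hte : ∑ i, t i * (ℓ i : ℝ) < 0 := by
    rw [hℓ, sum_t_ell s V g p t ht1 htV]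
    unfold Cut at hcut
    linarith
  have hneg : ℓ m < 0 := by
    by_contra hcon
    have hcon := not_lt.mp hcon
    have : 0 ≤ ∑ i, t i * (ℓ i : ℝ) := by
      refine Finset.sum_nonneg fun i _ => mul_nonneg (ht0 i) ?_
      exact_mod_cast hcon.trans (hmin i)
    linarith
  have hK : ∀ i, (0:ℝ) < (Kc n ℓ m i : ℝ) := fun i => by
    exact_mod_cast Kc_pos hn ℓ m hmin hneg i
  have hupd : rV (stepV V g) = upd (64 * (n:ℝ)^3) (fun i => (Kc n ℓ m i : ℝ)) m (rV V) := by
    funext i j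
    unfold rV stepV upd
    simp only [← hℓ, ← hm]
    split_ifs with h
    · push_cast; ring
    · push_cast; ring
  constructor
  · rw [hupd]
    exact inSimplex_upd s _ hD _ hK m _ p t ht0 ht1 htV
      (cut_sum_le hn ℓ m hmin hneg t ht0 ht1 hte.le)
  · rw [hupd, det_upd s _ hD]
    have h2 : (∏ i ∈ univ.erase m, (Kc n ℓ m i : ℝ)) =
        (∏ i ∈ univ.erase m, ((Kc n ℓ m i : ℝ) / (64 * (n:ℝ)^3))) * (64 * (n:ℝ)^3)^n := by
      rw [Finset.prod_div_distrib, Finset.prod_const, Finset.card_erase_of_mem (Finset.mem_univ m)]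
      simp
    have h3 := prod_K_le hn ℓ m hsum hmin hneg
    have h4 : 0 ≤ ∏ i ∈ univ.erase m, ((Kc n ℓ m i : ℝ) / (64 * (n:ℝ)^3)) :=
      Finset.prod_nonneg fun i _ => div_nonneg (hK i).le hD.le
    rw [h2, abs_mul, abs_of_nonneg (by positivity)]
    calc 64 * (n:ℝ)^3 * ((∏ i ∈ univ.erase m, ((Kc n ℓ m i : ℝ) / (64 * (n:ℝ)^3))) *
          (64 * (n:ℝ)^3)^n) * |(hmat s (rV V)).det| / (64 * (n:ℝ)^3 * s) ^ (n+1)
        = (∏ i ∈ univ.erase m, ((Kc n ℓ m i : ℝ) / (64 * (n:ℝ)^3))) *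
          (|(hmat s (rV V)).det| / s ^ (n+1)) := by
          generalize (∏ i ∈ univ.erase m, ((Kc n ℓ m i : ℝ) / (64 * (n:ℝ)^3))) = P
          generalize 64 * (n:ℝ)^3 = D at hD
          have hD' := hD.ne'
          have hs' := hs.ne'
          rw [mul_pow, pow_succ D]
          field_simp
      _ ≤ _ := by
          gcongr

/-- the start simplex `{p ≥ 0, Σ p ≤ n}` -/
def V0 (n : ℕ) : Fin (n+1) → Fin n → ℤ := fun i j => if i = j.succ then (n:ℤ) else 0

theorem V0_mem (hn : 1 ≤ n) (p : Fin n → ℝ) (h0 : ∀ j, 0 ≤ p j) (h1 : ∀ j, p j ≤ 1) :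
    InSimplex 1 (rV (V0 n)) p := by
  have hn' : (1:ℝ) ≤ n := by exact_mod_cast hn
  refine ⟨Fin.cons (1 - ∑ j, p j / n) (fun j => p j / n), ?_, ?_, ?_⟩
  · intro i
    refine Fin.cases ?_ (fun j => ?_) i
    · simp only [Fin.cons_zero]
      rw [← Finset.sum_div, sub_nonneg, div_le_one (by positivity)]
      calc ∑ j, p j ≤ ∑ _j : Fin n, (1:ℝ) := Finset.sum_le_sum fun j _ => h1 j
        _ = n := by simp
    · simp only [Fin.cons_succ]
      exact div_nonneg (h0 j) (by positivity)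
  · rw [Fin.sum_univ_succ]; simp
  · intro j
    rw [Fin.sum_univ_succ]
    have h0' : ((0 : Fin (n+1)) = j.succ) = False := by simp [(Fin.succ_ne_zero j).symm]
    have hz : rV (V0 n) 0 j = 0 := by simp [rV, V0, h0']
    rw [hz, mul_zero, zero_add, Finset.sum_eq_single j]
    · simp only [Fin.cons_succ, rV, V0]
      simp only [if_true]
      push_cast
      field_simp
    · intro b _ hb
      have : (b.succ = j.succ) = False := by simp [hb]
      simp [rV, V0, hb]
    · simp

theorem V0_det (n : ℕ) : |(hmat 1 (rV (V0 n))).det| / 1 ^ (n+1) = (n:ℝ)^n := by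
  have h1 : (hmat 1 (rV (V0 n))).det = (n:ℝ)^n := by
    rw [Matrix.det_of_isLowerTriangular]
    · rw [Fin.prod_univ_succ]
      simp [hmat, rV, V0]
    · intro i j hij
      have h' : i < j := hij
      revert h'
      refine Fin.cases ?_ (fun j => ?_) j
      · intro h; exact absurd h (Fin.not_lt_zero _)
      · intro h
        simp [hmat, rV, V0, h.ne]
  rw [h1]
  simp

/-- the test simplex with corner `b` and edge length `η` -/
theorem corner_det (b : Fin n → ℝ) (η : ℝ) :
    (hmat 1 (Fin.cons b (fun i j => b j + if i = j then η else 0) :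
      Fin (n+1) → Fin n → ℝ)).det = η ^ n := by
  set B : Matrix (Fin (n+1)) (Fin (n+1)) ℝ :=
    Matrix.of (Fin.cons (Fin.cons 1 b : Fin (n+1) → ℝ)
      (fun i => (Fin.cons 0 (fun j => if i = j then η else 0) : Fin (n+1) → ℝ)))
    with hB
  have h1 : (hmat 1 (Fin.cons b (fun i j => b j + if i = j then η else 0) :
      Fin (n+1) → Fin n → ℝ)).det = B.det := by
    refine Matrix.det_eq_of_forall_row_eq_smul_add_const (fun i => if i = 0 then 0 else 1) 0
      (by simp) ?_
    intro i j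
    refine Fin.cases ?_ (fun i => ?_) i
    · refine Fin.cases ?_ (fun j => ?_) j
      · simp [hmat, hB]
      · simp [hmat, hB]
    · refine Fin.cases ?_ (fun j => ?_) j
      · simp [hmat, hB]
      · simp [hmat, hB]; ring
  rw [h1, Matrix.det_of_isUpperTriangular]
  · rw [Fin.prod_univ_succ]
    simp [hB]
  · intro i j hij
    have h' : j < i := hij
    revert h'
    refine Fin.cases ?_ (fun i => ?_) i
    · intro h; exact absurd h (Fin.not_lt_zero _)
    · refine Fin.cases ?_ (fun j => ?_) j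
      · intro _; simp [hB]
      · intro h
        have : i ≠ j := by rintro rfl; exact lt_irrefl _ h
        simp [hB, this]

end Crest.Agent.R302.Sfm646
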