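import Crest.Agent.R302.SfmOPT646

/-! Interface of the submodular minimiser (arbitrary `f`, instance-dependent parameters). -/

set_option autoImplicit false
set_option linter.dupNamespace false

namespace Crest.Agent.R302.Sfm646

open Finset Crest.Agent.Lib.PT Crest.Agent.R302.ORAM Function

section pure

variable {n : ℕ}

/-- the set of a bit list -/
def setL (n : ℕ) (l : List Bool) : Finset (Fin n) := univ.filter fun i => l.getD i false = true

/-- the bit list of a set -/
def bitsL (n : ℕ) (A : Finset (Fin n)) : List Bool := (List.finRange n).map fun i => decide (i ∈ A)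

theorem bitsL_eq (A : Finset (Fin n)) : bitsL n A = bitsOf A := by
  unfold bitsL bitsOf
  rw [List.ofFn_eq_map]

theorem setL_bitsL (A : Finset (Fin n)) : setL n (bitsL n A) = A := by
  rw [bitsL_eq]
  exact setOfBits_bitsOf A

theorem setL_bitsOf (A : Finset (Fin n)) : setL n (bitsOf A) = A := setOfBits_bitsOf A

theorem length_bitsOf (A : Finset (Fin n)) : (bitsOf A).length = n := by simp [bitsOf]

theorem length_bitsL (A : Finset (Fin n)) : (bitsL n A).length = n := by simp [bitsL]

theorem bitsOf_setL (l : List Bool) (hl : l.length = n) : bitsOf (setL n l) = l := by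
  unfold bitsOf setL
  apply List.ext_getElem
  · simp [hl]
  · intro i h1 h2
    simp [List.getD_eq_getElem?_getD, h2]

/-- initial state with a given value of the empty set -/
def sfm0z (n : ℕ) (z : ℤ) : LSt := ((sfm0 n).1, ((sfm0 n).2.1, z))

theorem sfm0z_eq (f : Finset (Fin n) → ℤ) : sfm0z n (f ∅) = codeSt f (st0 n) := by
  have h := sfm0_eq (n := n) (fun _ => 0) rfl
  have h1 : (sfm0 n).1 = (codeSt (fun _ => (0:ℤ)) (st0 n)).1 := by rw [h]
  have h2 : (sfm0 n).2.1 = (codeSt (fun _ => (0:ℤ)) (st0 n)).2.1 := by rw [h]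
  unfold sfm0z
  rw [h1, h2]
  rfl

/-- run of the algorithm for arbitrary `F` -/
def sfmRunZ (n M : ℕ) (F : List Bool → ℤ) : List Bool × ℤ :=
  ((sfmStep n F)^[sfmIter n M] (sfm0z n (F (List.replicate n false)))).2

theorem sfmRunZ_eq (M : ℕ) (f : Finset (Fin n) → ℤ) (F : List Bool → ℤ)
    (hF : ∀ A, F (bitsOf A) = f A) :
    sfmRunZ n M F = (bitsOf (sfmArg n M f), f (sfmArg n M f)) := by
  have key : ∀ k, (sfmStep n F)^[k] (sfm0z n (F (List.replicate n false))) =
      codeSt f ((stp f)^[k] (st0 n)) := by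
    intro k
    induction k with
    | zero =>
      rw [← bitsOf_empty (n := n), hF]
      exact sfm0z_eq f
    | succ k ih =>
      rw [Function.iterate_succ_apply', Function.iterate_succ_apply', ih]
      exact sfmU_codeSt f F hF _
  unfold sfmRunZ
  rw [key]
  rfl

/-- the minimiser as a list function -/
def sfmL (n M : ℕ) (f : List Bool → ℤ) : List Bool := (sfmRunZ n M f).1

/-- the minimum as a list function -/
def sfmV (n M : ℕ) (f : List Bool → ℤ) : ℤ := (sfmRunZ n M f).2

theorem sfmL_eq (M : ℕ) (f : List Bool → ℤ) :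
    sfmL n M f = bitsL n (sfmArg n M (fun A => f (bitsL n A))) := by
  unfold sfmL
  rw [sfmRunZ_eq M (fun A => f (bitsL n A)) f (fun A => by rw [bitsL_eq]), bitsL_eq]

theorem sfmV_eq (M : ℕ) (f : List Bool → ℤ) :
    sfmV n M f = f (bitsL n (sfmArg n M (fun A => f (bitsL n A)))) := by
  unfold sfmV
  rw [sfmRunZ_eq M (fun A => f (bitsL n A)) f (fun A => by rw [bitsL_eq])]

theorem setL_sfmL (M : ℕ) (f : List Bool → ℤ) :
    setL n (sfmL n M f) = sfmArg n M (fun A => f (bitsL n A)) := by
  rw [sfmL_eq, setL_bitsL]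

theorem length_sfmL (M : ℕ) (f : List Bool → ℤ) : (sfmL n M f).length = n := by
  rw [sfmL_eq, length_bitsL]

end pure

section optf

variable {γ : Type} [PTCode γ]

theorem shape_iterZ (n T : ℕ) (hT : 3 ≤ T) (F : List Bool → ℤ)
    (hF : ∀ l : List Bool, l.length = n → sz (F l) ≤ T) (k : ℕ) :
    Shape n k T ((sfmStep n F)^[k] (sfm0z n (F (List.replicate n false)))) := by
  induction k with
  | zero =>
    obtain ⟨V, h1, h2, h3, h4, _⟩ := shape_zero n T hT
    exact ⟨V, h1, h2, h3, h4, hF _ (by simp)⟩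
  | succ k ih =>
    rw [Function.iterate_succ_apply']
    refine shape_succ n k T hT _ ih _ ?_
    intro a ha
    rw [List.mem_map] at ha
    obtain ⟨l, hl, rfl⟩ := ha
    exact hF l (length_mem_sfmQ n _ l hl)

theorem sfmRunZ_optf' {n : γ → ℕ} {M : γ → ℕ} {F : Inst → γ → List Bool → ℤ} (hn : PTU n)
    (hM : PTF M) (hF : OPTF (fun I (p : γ × List Bool) => F I p.1 p.2)) :
    OPTF (fun I c => sfmRunZ (n c) (M c) (F I c)) := by
  obtain ⟨p, hp⟩ := hF.bound
  have hz : OPTF (fun I (c : γ) => F I c (List.replicate (n c) false)) :=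
    OPTF.pre (g := fun I (p : γ × List Bool) => F I p.1 p.2)
      (f := fun c : γ => (c, List.replicate (n c) false)) hF
      (PTF.prodMk PTF.id (PTF.replicate hn (PTF.const false)))
  have hstep : OPTF (fun I (q : γ × LSt) => sfmStep (n q.1) (F I q.1) q.2) := by
    have hn1 : PTU (fun q : γ × LSt => n q.1) := PTU.comp hn PTF.fst
    have h1 : OPTF (fun I (q : γ × LSt) => (sfmQ (n q.1) q.2).map (F I q.1)) := by
      refine OPTF.map (f := fun I (q : γ × LSt) l => F I q.1 l)
        (OPTF.of_ptf (ptf_sfmQ hn1 (by fun_prop))) ?_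
      exact OPTF.pre (g := fun I (p : γ × List Bool) => F I p.1 p.2)
        (f := fun q : (γ × LSt) × List Bool => (q.1.1, q.2)) hF (by fun_prop)
    have h2 : PTF (fun q : (γ × LSt) × List ℤ => sfmU (n q.1.1) q.1.2 q.2) :=
      ptf_sfmU (PTU.comp hn (by fun_prop)) (by fun_prop) (by fun_prop)
    exact OPTF.post (f := fun I (q : γ × LSt) => (q, (sfmQ (n q.1) q.2).map (F I q.1)))
      h2 (OPTF.prodMk OPTF.id h1)
  have h0 : OPTF (fun I (c : γ) => sfm0z (n c) (F I c (List.replicate (n c) false))) := by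
    unfold sfm0z
    refine OPTF.prodMk (OPTF.of_ptf (PTF.comp (g := fun s : LSt => s.1) (by fun_prop)
      (ptf_sfm0 hn))) (OPTF.prodMk (OPTF.of_ptf (PTF.comp (g := fun s : LSt => s.2.1) (by fun_prop)
      (ptf_sfm0 hn))) hz)
  have hit : OPTF (fun I c => (sfmStep (n c) (F I c))^[sfmIter (n c) (M c)]
      (sfm0z (n c) (F I c (List.replicate (n c) false)))) := by
    refine OPTF.iterate (f := fun I c σ => sfmStep (n c) (F I c) σ)
      (n := fun _ c => sfmIter (n c) (M c))
      (a := fun I c => sfm0z (n c) (F I c (List.replicate (n c) false)))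
      (OPTU.of_ptu (ptu_sfmIter hn hM)) hstep h0
      (B := fun I c => sfmSzT (n c) (p.eval (2 * sz c + 1 + 3 * n c + I.sz) + 3)
        (sfmIter (n c) (M c))) ?_ ?_
    · have hnB : OPB (fun (_ : Inst) (c : γ) => n c) := OPB.of_pb (PTU.pb hn)
      have hkB : OPB (fun (_ : Inst) (c : γ) => sfmIter (n c) (M c)) :=
        OPB.of_pb (PTU.pb (ptu_sfmIter hn hM))
      have hT : OPB (fun I (c : γ) => p.eval (2 * sz c + 1 + 3 * n c + I.sz) + 3) :=
        (OPB.eval p (((((OPB.const 2).mul OPB.sz).add (OPB.const 1)).add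
          ((OPB.const 3).mul hnB)).add OPB.inst)).add (OPB.const 3)
      have c2 := OPB.const (α := γ) 2
      have c1 := OPB.const (α := γ) 1
      have c3 := OPB.const (α := γ) 3
      have h8 : OPB (fun (_ : Inst) (c : γ) => 8 + 3 * n c) := (OPB.const 8).add (c3.mul hnB)
      have h6 : OPB (fun (_ : Inst) (c : γ) => 6 + 3 * n c) := (OPB.const 6).add (c3.mul hnB)
      unfold sfmSzT
      exact ((c2.mul (((c2.mul ((hnB.add c1).mul ((c2.mul (hnB.mul ((c2.mul (c3.add
        ((hnB.add (hkB.mul h8)).add c1))).add c1))).add c1))).add c1).add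
        (c3.add ((hkB.mul h6).add c1)))).add c1).add (((c2.mul (c3.mul hnB)).add c1).add hT)
    · intro I c i hi
      refine ((shape_iterZ (n c) (p.eval (2 * sz c + 1 + 3 * n c + I.sz) + 3) (by omega) (F I c)
        ?_ i).sz_le).trans (sfmSzT_mono _ _ hi)
      intro l hl
      have h := hp I (c, l)
      rw [sz_prod, sz_listBool, hl] at h
      exact h.trans (Nat.le_add_right _ _)
  exact OPTF.snd hit

/-- instance-dependent ground set size and bound -/
theorem sfmRunZ_optf {n M : Inst → γ → ℕ} {F : Inst → γ → List Bool → ℤ} (hn : OPTU n)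
    (hM : OPTF M) (hF : OPTF (fun I (p : γ × List Bool) => F I p.1 p.2)) :
    OPTF (fun I c => sfmRunZ (n I c) (M I c) (F I c)) := by
  have h := sfmRunZ_optf' (γ := γ × Un × ℕ) (n := fun q => q.2.1.val) (M := fun q => q.2.2)
    (F := fun I q l => F I q.1 l) (PTU.val (by fun_prop)) (by fun_prop)
    (OPTF.pre (g := fun I (p : γ × List Bool) => F I p.1 p.2)
      (f := fun q : (γ × Un × ℕ) × List Bool => (q.1.1, q.2)) hF (by fun_prop))
  exact OPTF.comp (g := fun I (q : γ × Un × ℕ) => sfmRunZ q.2.1.val q.2.2 (F I q.1))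
    (f := fun I c => (c, (Un.mk (n I c), M I c))) h (OPTF.prodMk OPTF.id (OPTF.prodMk hn hM))

theorem sfmL_optf {n M : Inst → γ → ℕ} {f : Inst → γ → List Bool → ℤ} (hn : OPTU n)
    (hM : OPTF M) (hf : OPTF (fun I (p : γ × List Bool) => f I p.1 p.2)) :
    OPTF (fun I c => sfmL (n I c) (M I c) (f I c)) :=
  OPTF.fst (sfmRunZ_optf hn hM hf)

theorem sfmV_optf {n M : Inst → γ → ℕ} {f : Inst → γ → List Bool → ℤ} (hn : OPTU n)
    (hM : OPTF M) (hf : OPTF (fun I (p : γ × List Bool) => f I p.1 p.2)) :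
    OPTF (fun I c => sfmV (n I c) (M I c) (f I c)) :=
  OPTF.snd (sfmRunZ_optf hn hM hf)

end optf

end Crest.Agent.R302.Sfm646
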