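import Crest.Agent.R302.Sfm646C

/-! List-level version of the cutting-simplices algorithm (for the program). -/

set_option autoImplicit false

namespace Crest.Agent.R302.Sfm646

open Finset

/-- matrix entry -/
def G2 (V : List (List ℤ)) (i j : ℕ) : ℤ := (V.getD i []).getD j 0

def cenL (n : ℕ) (V : List (List ℤ)) : List ℤ :=
  (List.range n).map fun j => ∑ i ∈ Finset.range (n+1), G2 V i j

def ellL (n : ℕ) (g : List ℤ) (V : List (List ℤ)) (c : List ℤ) : List ℤ :=
  (List.range (n+1)).map fun i =>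
    ∑ j ∈ Finset.range n, g.getD j 0 * (((n:ℤ) + 1) * G2 V i j - c.getD j 0)

def argmL (n : ℕ) (ℓ : List ℤ) : ℕ :=
  (List.range (n+1)).foldl (fun b i => if ℓ.getD i 0 < ℓ.getD b 0 then i else b) 0

def KcL (n : ℕ) (L l : ℤ) : ℤ :=
  cdiv (64 * (n:ℤ)^3 * (8 * (n:ℤ)^2 * L)) (8 * (n:ℤ)^2 * L + l)

def stepVL (n : ℕ) (V : List (List ℤ)) (g : List ℤ) (c : List ℤ) : List (List ℤ) :=
  let ℓ := ellL n g V c
  let m := argmL n ℓ
  let L := - ℓ.getD m 0
  (List.range (n+1)).map fun i =>
    (List.range n).map fun j =>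
      if i = m then 64 * (n:ℤ)^3 * G2 V m j
      else KcL n L (ℓ.getD i 0) * G2 V i j + (64 * (n:ℤ)^3 - KcL n L (ℓ.getD i 0)) * G2 V m j

def badL (n : ℕ) (s : ℤ) (c : List ℤ) : Option ℕ :=
  (List.range n).find? fun j => decide (c.getD j 0 < 0 ∨ ((n:ℤ) + 1) * s < c.getD j 0)

def levL (n : ℕ) (c : List ℤ) (j : ℕ) : List Bool :=
  (List.range n).map fun i =>
    decide (c.getD j 0 < c.getD i 0 ∨ (c.getD i 0 = c.getD j 0 ∧ i ≤ j))

def levEL (n : ℕ) (c : List ℤ) (j : ℕ) : List Bool :=
  (List.range n).map fun i =>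
    decide (i ≠ j ∧ (c.getD j 0 < c.getD i 0 ∨ (c.getD i 0 = c.getD j 0 ∧ i ≤ j)))

/-- the queries of one step -/
def qL (n : ℕ) (c : List ℤ) : List (List Bool) :=
  (List.range n).map (levL n c) ++ (List.range n).map (levEL n c)

def gyL (n : ℕ) (A : List ℤ) : List ℤ :=
  (List.range n).map fun j => A.getD j 0 - A.getD (n + j) 0

def cutL (n : ℕ) (s : ℤ) (c : List ℤ) (A : List ℤ) : List ℤ :=
  match badL n s c with
  | some j0 => (List.range n).map fun j => if j = j0 then (if c.getD j0 0 < 0 then -1 else 1) else 0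
  | none => gyL n A

def bestStep (n : ℕ) (c : List ℤ) (A : List ℤ) (bv : List Bool × ℤ) (j : ℕ) : List Bool × ℤ :=
  if A.getD j 0 < bv.2 then (levL n c j, A.getD j 0) else bv

def newBestL (n : ℕ) (s : ℤ) (c : List ℤ) (A : List ℤ) (bv : List Bool × ℤ) : List Bool × ℤ :=
  match badL n s c with
  | some _ => bv
  | none => (List.range n).foldl (bestStep n c A) bv

/-- coded state -/
abbrev LSt := (List (List ℤ) × ℤ) × (List Bool × ℤ)

/-- queries of a state -/
def sfmQ (n : ℕ) (σ : LSt) : List (List Bool) := qL n (cenL n σ.1.1)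

/-- new state from the answers -/
def sfmU (n : ℕ) (σ : LSt) (A : List ℤ) : LSt :=
  ((stepVL n σ.1.1 (cutL n σ.1.2 (cenL n σ.1.1) A) (cenL n σ.1.1), 64 * (n:ℤ)^3 * σ.1.2),
    newBestL n σ.1.2 (cenL n σ.1.1) A σ.2)

/-- initial state -/
def sfm0 (n : ℕ) : LSt :=
  (((List.range (n+1)).map fun i => (List.range n).map fun j => if i = j + 1 then (n:ℤ) else 0, 1),
    ((List.range n).map fun _ => false, 0))

/-! ### correspondence -/

variable {n : ℕ}

/-- bits of a set -/
def bitsOf (A : Finset (Fin n)) : List Bool := List.ofFn fun i => decide (i ∈ A)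

/-- the set of a bit list -/
def setOfBits (n : ℕ) (l : List Bool) : Finset (Fin n) := univ.filter fun i => l.getD i false = true

theorem setOfBits_bitsOf (A : Finset (Fin n)) : setOfBits n (bitsOf A) = A := by
  ext i
  simp [setOfBits, bitsOf, List.getD_eq_getElem?_getD]

def VL (V : Fin (n+1) → Fin n → ℤ) : List (List ℤ) := List.ofFn fun i => List.ofFn (V i)

theorem range_map_eq_ofFn {α : Type*} (k : ℕ) (F : ℕ → α) (G : Fin k → α) (h : ∀ i : Fin k, F i = G i) :
    (List.range k).map F = List.ofFn G := by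
  apply List.ext_getElem
  · simp
  · intro i h1 h2
    simp only [List.getElem_map, List.getElem_range, List.getElem_ofFn]
    exact h ⟨i, by simpa using h1⟩

theorem getD_ofFn {α : Type*} {k : ℕ} (G : Fin k → α) (d : α) (i : Fin k) :
    (List.ofFn G).getD i d = G i := by
  simp [List.getD_eq_getElem?_getD]

theorem G2_VL (V : Fin (n+1) → Fin n → ℤ) (i : Fin (n+1)) (j : Fin n) : G2 (VL V) i j = V i j := by
  unfold G2 VL
  rw [getD_ofFn, getD_ofFn]

theorem cenL_VL (V : Fin (n+1) → Fin n → ℤ) : cenL n (VL V) = List.ofFn (cen V) := by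
  unfold cenL
  refine range_map_eq_ofFn _ _ _ fun j => ?_
  rw [Finset.sum_range]
  unfold cen
  exact Finset.sum_congr rfl fun i _ => G2_VL V i j

theorem ellL_VL (g : Fin n → ℤ) (V : Fin (n+1) → Fin n → ℤ) :
    ellL n (List.ofFn g) (VL V) (List.ofFn (cen V)) = List.ofFn (ell g V) := by
  unfold ellL
  refine range_map_eq_ofFn _ _ _ fun i => ?_
  rw [Finset.sum_range]
  unfold ell
  exact Finset.sum_congr rfl fun j _ => by rw [getD_ofFn, getD_ofFn, G2_VL]

theorem foldl_val {k : ℕ} (ℓ : Fin (k+1) → ℤ) (l : List (Fin (k+1))) (b : Fin (k+1)) :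
    (l.map Fin.val).foldl
      (fun b i => if (List.ofFn ℓ).getD i 0 < (List.ofFn ℓ).getD b 0 then i else b) (b:ℕ) =
      ((l.foldl (fun b i => if ℓ i < ℓ b then i else b) b : Fin (k+1)) : ℕ) := by
  induction l generalizing b with
  | nil => rfl
  | cons a l ih =>
    simp only [List.map_cons, List.foldl_cons]
    rw [getD_ofFn, getD_ofFn]
    by_cases h : ℓ a < ℓ b
    · simp only [h, if_true]; exact ih a
    · simp only [h, if_false]; exact ih b

theorem range_eq_map_finRange (k : ℕ) : List.range k = (List.finRange k).map Fin.val := by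
  simp

theorem argmL_VL (ℓ : Fin (n+1) → ℤ) : argmL n (List.ofFn ℓ) = (argm ℓ : ℕ) := by
  unfold argmL argm
  rw [range_eq_map_finRange]
  exact foldl_val ℓ (List.finRange (n+1)) 0

theorem stepVL_VL (g : Fin n → ℤ) (V : Fin (n+1) → Fin n → ℤ) :
    stepVL n (VL V) (List.ofFn g) (List.ofFn (cen V)) = VL (stepV V g) := by
  unfold stepVL
  simp only [ellL_VL, argmL_VL]
  unfold VL
  refine range_map_eq_ofFn _ _ _ fun i => ?_
  refine range_map_eq_ofFn _ _ _ fun j => ?_
  have h1 := G2_VL V (argm (ell g V)) j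
  have h2 := G2_VL V i j
  unfold VL at h1 h2
  rw [h1, h2, getD_ofFn, getD_ofFn]
  unfold stepV KcL Kc
  simp only [Fin.val_inj]

theorem badL_eq (s : ℤ) (V : Fin (n+1) → Fin n → ℤ) :
    badL n s (List.ofFn (cen V)) = (bad s V).map Fin.val := by
  unfold badL bad
  rw [range_eq_map_finRange, List.find?_map]
  have : ((fun j => decide ((List.ofFn (cen V)).getD j 0 < 0 ∨
      ((n:ℤ) + 1) * s < (List.ofFn (cen V)).getD j 0)) ∘ (Fin.val : Fin n → ℕ)) =
      fun j => decide (cen V j < 0 ∨ ((n:ℤ) + 1) * s < cen V j) := by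
    funext j
    simp only [Function.comp, getD_ofFn]
  rw [this]

theorem levL_eq (c : Fin n → ℤ) (j : Fin n) : levL n (List.ofFn c) j = bitsOf (lev c j) := by
  unfold levL bitsOf
  refine range_map_eq_ofFn _ _ _ fun i => ?_
  rw [getD_ofFn, getD_ofFn]
  simp [lev]

theorem levEL_eq (c : Fin n → ℤ) (j : Fin n) :
    levEL n (List.ofFn c) j = bitsOf ((lev c j).erase j) := by
  unfold levEL bitsOf
  refine range_map_eq_ofFn _ _ _ fun i => ?_
  rw [getD_ofFn, getD_ofFn]
  simp [lev, Fin.ext_iff]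

theorem qL_eq (c : Fin n → ℤ) : qL n (List.ofFn c) =
    (List.ofFn fun j => bitsOf (lev c j)) ++ (List.ofFn fun j => bitsOf ((lev c j).erase j)) := by
  unfold qL
  congr 1
  · exact range_map_eq_ofFn _ _ _ fun j => levL_eq c j
  · exact range_map_eq_ofFn _ _ _ fun j => levEL_eq c j

/-- answers -/
def ans (F : List Bool → ℤ) (c : Fin n → ℤ) : List ℤ :=
  (List.ofFn fun j => F (bitsOf (lev c j))) ++ (List.ofFn fun j => F (bitsOf ((lev c j).erase j)))

theorem map_qL (F : List Bool → ℤ) (c : Fin n → ℤ) : (qL n (List.ofFn c)).map F = ans F c := by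
  rw [qL_eq]; unfold ans
  rw [List.map_append, List.map_ofFn, List.map_ofFn]
  rfl

theorem ans_left (F : List Bool → ℤ) (c : Fin n → ℤ) (j : Fin n) :
    (ans F c).getD j 0 = F (bitsOf (lev c j)) := by
  unfold ans
  rw [List.getD_append _ _ _ _ (by simp), getD_ofFn]

theorem ans_right (F : List Bool → ℤ) (c : Fin n → ℤ) (j : Fin n) :
    (ans F c).getD (n + j) 0 = F (bitsOf ((lev c j).erase j)) := by
  unfold ans
  rw [List.getD_append_right _ _ _ _ (by simp)]
  simp only [List.length_ofFn, Nat.add_sub_cancel_left]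
  rw [getD_ofFn]

theorem foldl_best_val (f : Finset (Fin n) → ℤ) (F : List Bool → ℤ) (hF : ∀ A, F (bitsOf A) = f A)
    (c : Fin n → ℤ) (l : List (Fin n)) (b : Finset (Fin n)) :
    (l.map Fin.val).foldl (bestStep n (List.ofFn c) (ans F c)) (bitsOf b, f b) =
      (bitsOf (l.foldl (fun b j => if f (lev c j) < f b then lev c j else b) b),
        f (l.foldl (fun b j => if f (lev c j) < f b then lev c j else b) b)) := by
  induction l generalizing b with
  | nil => rfl
  | cons a l ih =>
    simp only [List.map_cons, List.foldl_cons]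
    have h1 : bestStep n (List.ofFn c) (ans F c) (bitsOf b, f b) (a:ℕ) =
        (bitsOf (if f (lev c a) < f b then lev c a else b),
          f (if f (lev c a) < f b then lev c a else b)) := by
      unfold bestStep
      rw [ans_left, levL_eq, hF]
      by_cases h : f (lev c a) < f b
      · simp [h]
      · simp [h]
    rw [h1]
    exact ih _

/-- the coded version of a state -/
def codeSt (f : Finset (Fin n) → ℤ) (σ : St n) : LSt := ((VL σ.V, σ.s), (bitsOf σ.best, f σ.best))

theorem sfmU_codeSt (f : Finset (Fin n) → ℤ) (F : List Bool → ℤ) (hF : ∀ A, F (bitsOf A) = f A)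
    (σ : St n) :
    sfmU n (codeSt f σ) ((sfmQ n (codeSt f σ)).map F) = codeSt f (stp f σ) := by
  unfold sfmU sfmQ codeSt
  simp only [cenL_VL, map_qL]
  have hcut : cutL n σ.s (List.ofFn (cen σ.V)) (ans F (cen σ.V)) = List.ofFn (cutg f σ) := by
    unfold cutL cutg
    rw [badL_eq]
    cases bad σ.s σ.V with
    | none =>
      simp only [Option.map_none]
      unfold gyL gy
      refine range_map_eq_ofFn _ _ _ fun j => ?_
      rw [ans_left, ans_right, hF, hF]
    | some j0 =>
      simp only [Option.map_some]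
      refine range_map_eq_ofFn _ _ _ fun j => ?_
      rw [getD_ofFn]
      simp only [Fin.val_inj]
  have hbest : newBestL n σ.s (List.ofFn (cen σ.V)) (ans F (cen σ.V)) (bitsOf σ.best, f σ.best) =
      (bitsOf (newBest f σ), f (newBest f σ)) := by
    unfold newBestL newBest
    rw [badL_eq]
    cases bad σ.s σ.V with
    | none =>
      simp only [Option.map_none]
      rw [range_eq_map_finRange]
      exact foldl_best_val f F hF (cen σ.V) (List.finRange n) σ.best
    | some j0 => rfl
  rw [hcut, hbest, stepVL_VL]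
  rfl

theorem sfm0_eq (f : Finset (Fin n) → ℤ) (h0 : f ∅ = 0) : sfm0 n = codeSt f (st0 n) := by
  unfold sfm0 codeSt st0
  simp only [h0]
  congr 1
  · congr 1
    unfold VL V0
    refine range_map_eq_ofFn _ _ _ fun i => ?_
    refine range_map_eq_ofFn _ _ _ fun j => ?_
    simp [Fin.ext_iff]
  · congr 1
    unfold bitsOf
    exact range_map_eq_ofFn _ _ _ fun i => by simp

/-- one step of the program -/
def sfmStep (n : ℕ) (F : List Bool → ℤ) (σ : LSt) : LSt := sfmU n σ ((sfmQ n σ).map F)

theorem sfmStep_iter (f : Finset (Fin n) → ℤ) (F : List Bool → ℤ) (hF : ∀ A, F (bitsOf A) = f A)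
    (h0 : f ∅ = 0) (k : ℕ) :
    (sfmStep n F)^[k] (sfm0 n) = codeSt f ((stp f)^[k] (st0 n)) := by
  induction k with
  | zero => exact sfm0_eq f h0
  | succ k ih =>
    rw [Function.iterate_succ_apply', Function.iterate_succ_apply', ih]
    exact sfmU_codeSt f F hF _

/-- the program computes the minimiser -/
theorem sfmStep_final (M : ℕ) (f : Finset (Fin n) → ℤ) (F : List Bool → ℤ)
    (hF : ∀ A, F (bitsOf A) = f A) (h0 : f ∅ = 0) :
    ((sfmStep n F)^[sfmIter n M] (sfm0 n)).2 = (bitsOf (sfmArg n M f), f (sfmArg n M f)) := by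
  rw [sfmStep_iter f F hF h0]
  rfl

end Crest.Agent.R302.Sfm646
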