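import Mathlib
import Crest.Agent.R309.MCTape

/-!
# R302, block O2 (helper166): laws on the integers and approximate laws of tape functions

`Ez μ φ = ∑' t, μ t * φ t`; `conv` = convolution; the two-fold two-sided geometric law
`kapR`; `AL R X μ e`: the law of `X` (reading `R` fresh bits) is within `e` of `μ`
in total variation.
-/

set_option autoImplicit false

namespace Crest.Agent.R302.Slk

open Finset
open Crest.Agent.R309.Tape

/-! ### laws on ℤ -/

/-- a probability law on the integers -/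
structure IsLaw (μ : ℤ → ℝ) : Prop where
  nonneg : ∀ t, 0 ≤ μ t
  summable : Summable μ
  total : ∑' t, μ t = 1

/-- expectation -/
noncomputable def Ez (μ φ : ℤ → ℝ) : ℝ := ∑' t, μ t * φ t

/-- convolution -/
noncomputable def conv (μ ν : ℤ → ℝ) (t : ℤ) : ℝ := ∑' s, μ s * ν (t - s)

theorem IsLaw.summable_mul {μ : ℤ → ℝ} (h : IsLaw μ) {φ : ℤ → ℝ} (C : ℝ) (hφ : ∀ t, |φ t| ≤ C) :
    Summable fun t => μ t * φ t := by
  refine Summable.of_norm_bounded (g := fun t => μ t * C) (h.summable.mul_right C) fun t => ?_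
  rw [Real.norm_eq_abs, abs_mul, abs_of_nonneg (h.nonneg t)]
  exact mul_le_mul_of_nonneg_left (hφ t) (h.nonneg t)

theorem IsLaw.Ez_nonneg {μ φ : ℤ → ℝ} (h : IsLaw μ) (h0 : ∀ t, 0 ≤ φ t) : 0 ≤ Ez μ φ :=
  tsum_nonneg fun t => mul_nonneg (h.nonneg t) (h0 t)

theorem IsLaw.Ez_le_one {μ φ : ℤ → ℝ} (h : IsLaw μ) (h0 : ∀ t, 0 ≤ φ t) (h1 : ∀ t, φ t ≤ 1) :
    Ez μ φ ≤ 1 := by
  rw [← h.total]
  refine Summable.tsum_le_tsum (fun t => ?_) (h.summable_mul 1 fun t => ?_) h.summable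
  · exact mul_le_of_le_one_right (h.nonneg t) (h1 t)
  · rw [abs_of_nonneg (h0 t)]; exact h1 t

theorem IsLaw.summable_prod {μ ν : ℤ → ℝ} (hμ : IsLaw μ) (hν : IsLaw ν) {φ : ℤ × ℤ → ℝ}
    (h0 : ∀ t, 0 ≤ φ t) (h1 : ∀ t, φ t ≤ 1) :
    Summable fun p : ℤ × ℤ => μ p.1 * ν p.2 * φ p := by
  refine Summable.of_nonneg_of_le (fun p => ?_) (fun p => ?_)
    (hμ.summable.mul_of_nonneg hν.summable hμ.nonneg hν.nonneg)
  · exact mul_nonneg (mul_nonneg (hμ.nonneg _) (hν.nonneg _)) (h0 _)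
  · exact mul_le_of_le_one_right (mul_nonneg (hμ.nonneg _) (hν.nonneg _)) (h1 _)

/-- the shear `(s, t) ↦ (s, t - s)` -/
def shear : ℤ × ℤ ≃ ℤ × ℤ where
  toFun p := (p.1, p.2 - p.1)
  invFun p := (p.1, p.1 + p.2)
  left_inv p := by ext <;> simp
  right_inv p := by ext <;> simp

theorem Ez_conv {μ ν φ : ℤ → ℝ} (hμ : IsLaw μ) (hν : IsLaw ν) (h0 : ∀ t, 0 ≤ φ t)
    (h1 : ∀ t, φ t ≤ 1) : Ez (conv μ ν) φ = Ez μ (fun s => Ez ν (fun u => φ (s + u))) := by
  have hs : Summable fun p : ℤ × ℤ => μ p.1 * ν (p.2 - p.1) * φ p.2 := by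
    have := (shear.summable_iff).2 (hμ.summable_prod hν (φ := fun p => φ (p.1 + p.2))
      (fun _ => h0 _) (fun _ => h1 _))
    refine this.congr fun p => ?_
    simp [shear]
  have e1 : Ez (conv μ ν) φ = ∑' t, ∑' s, μ s * ν (t - s) * φ t := by
    unfold Ez conv
    refine tsum_congr fun t => ?_
    rw [tsum_mul_right]
  have e2 : Ez μ (fun s => Ez ν (fun u => φ (s + u))) = ∑' s, ∑' t, μ s * ν (t - s) * φ t := by
    unfold Ez
    refine tsum_congr fun s => ?_
    rw [← tsum_mul_left, ← (Equiv.subRight s).tsum_eq]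
    refine tsum_congr fun t => ?_
    show μ s * (ν (t - s) * φ (s + (t - s))) = _
    rw [show s + (t - s) = t by ring]
    ring
  rw [e1, e2]
  exact Summable.tsum_comm (f := fun s t => μ s * ν (t - s) * φ t) hs

theorem IsLaw.conv {μ ν : ℤ → ℝ} (hμ : IsLaw μ) (hν : IsLaw ν) : IsLaw (conv μ ν) := by
  have hs : Summable fun p : ℤ × ℤ => μ p.1 * ν (p.2 - p.1) := by
    have := (shear.summable_iff).2 (hμ.summable_prod hν (φ := fun _ => 1)
      (fun _ => zero_le_one) (fun _ => le_rfl))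
    refine this.congr fun p => ?_
    simp [shear]
  refine ⟨fun _ => tsum_nonneg fun s => mul_nonneg (hμ.nonneg _) (hν.nonneg _), ?_, ?_⟩
  · have := ((Equiv.prodComm ℤ ℤ).summable_iff.2 hs).prod
    exact this
  · have := Ez_conv (φ := fun _ => 1) hμ hν (fun _ => zero_le_one) (fun _ => le_rfl)
    simp only [Ez, mul_one] at this
    rw [this, hν.total]
    simp [hμ.total]

theorem IsLaw.neg {μ : ℤ → ℝ} (hμ : IsLaw μ) : IsLaw (fun t => μ (-t)) :=
  ⟨fun t => hμ.nonneg _, (Equiv.neg ℤ).summable_iff.2 hμ.summable,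
    ((Equiv.neg ℤ).tsum_eq μ).trans hμ.total⟩

theorem Ez_neg (μ φ : ℤ → ℝ) : Ez (fun t => μ (-t)) φ = Ez μ (fun t => φ (-t)) := by
  unfold Ez
  rw [← (Equiv.neg ℤ).tsum_eq]
  refine tsum_congr fun t => ?_
  simp

/-! ### geometric laws -/

/-- the geometric law of ratio `q` on the nonnegative integers -/
noncomputable def gz (q : ℝ) (t : ℤ) : ℝ := if 0 ≤ t then (1 - q) * q ^ t.toNat else 0

theorem gz_natCast (q : ℝ) (j : ℕ) : gz q (j : ℤ) = (1 - q) * q ^ j := by
  simp [gz]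

theorem gz_of_neg (q : ℝ) {t : ℤ} (h : t < 0) : gz q t = 0 := by
  simp [gz, not_le.2 h]

theorem tsum_nat_of_support {f : ℤ → ℝ} (hf : ∀ t < 0, f t = 0) :
    ∑' t, f t = ∑' j : ℕ, f j := by
  refine (Function.Injective.tsum_eq Nat.cast_injective ?_).symm
  intro t ht
  have : 0 ≤ t := by
    by_contra h
    exact ht (hf t (not_le.1 h))
  exact ⟨t.toNat, Int.toNat_of_nonneg this⟩

theorem summable_nat_of_support {f : ℤ → ℝ} (hf : ∀ t < 0, f t = 0)
    (h : Summable fun j : ℕ => f j) : Summable f := by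
  refine (Function.Injective.summable_iff (f := f) (Nat.cast_injective (R := ℤ)) ?_).1 h
  intro t ht
  refine hf t ?_
  by_contra h0
  exact ht ⟨t.toNat, Int.toNat_of_nonneg (not_lt.1 h0)⟩

theorem isLaw_gz {q : ℝ} (h0 : 0 ≤ q) (h1 : q < 1) : IsLaw (gz q) := by
  refine ⟨fun t => ?_, ?_, ?_⟩
  · unfold gz
    split_ifs
    · exact mul_nonneg (by linarith) (pow_nonneg h0 _)
    · exact le_rfl
  · refine summable_nat_of_support (fun t ht => gz_of_neg q ht) ?_
    simp only [gz_natCast]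
    exact (summable_geometric_of_lt_one h0 h1).mul_left _
  · rw [tsum_nat_of_support (fun t ht => gz_of_neg q ht)]
    simp only [gz_natCast]
    rw [tsum_mul_left, tsum_geometric_of_lt_one h0 h1]
    field_simp [sub_ne_zero.2 h1.ne']

theorem Ez_gz (q : ℝ) (φ : ℤ → ℝ) : Ez (gz q) φ = ∑' j : ℕ, (1 - q) * q ^ j * φ j := by
  unfold Ez
  rw [tsum_nat_of_support (fun t ht => by rw [gz_of_neg q ht, zero_mul])]
  simp only [gz_natCast]

/-- the two-sided geometric law -/
noncomputable def bil (q : ℝ) (t : ℤ) : ℝ := (1 - q) / (1 + q) * q ^ t.natAbs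

theorem conv_gz_neg {q : ℝ} (h0 : 0 ≤ q) (h1 : q < 1) :
    conv (gz q) (fun t => gz q (-t)) = bil q := by
  funext t
  unfold conv bil
  have hinj : Function.Injective (fun j : ℕ => max 0 t + (j : ℤ)) := fun a b h => by
    simpa using h
  rw [← hinj.tsum_eq]
  · have : ∀ j : ℕ, gz q (max 0 t + (j : ℤ)) * gz q (-(t - (max 0 t + (j : ℤ)))) =
        (1 - q) ^ 2 * q ^ t.natAbs * (q ^ 2) ^ j := by
      intro j
      have a1 : 0 ≤ max 0 t + (j : ℤ) := by positivity
      have a2 : 0 ≤ -(t - (max 0 t + (j : ℤ))) := by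
        have := le_max_right 0 t
        have := Int.natCast_nonneg j
        omega
      unfold gz
      rw [if_pos a1, if_pos a2]
      have e : (max 0 t + (j : ℤ)).toNat + (-(t - (max 0 t + (j : ℤ)))).toNat
          = t.natAbs + 2 * j := by omega
      calc _ = (1 - q) ^ 2 * q ^ ((max 0 t + (j : ℤ)).toNat +
            (-(t - (max 0 t + (j : ℤ)))).toNat) := by rw [pow_add]; ring
        _ = _ := by rw [e, pow_add, pow_mul]; ring
    simp only [this]
    rw [tsum_mul_left, tsum_geometric_of_lt_one (by positivity)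
      (by nlinarith)]
    have h2 : (1 - q ^ 2) = (1 - q) * (1 + q) := by ring
    have h3 : (1 - q) ≠ 0 := by linarith [sub_ne_zero.2 h1.ne']
    have h4 : (1 + q) ≠ 0 := by positivity
    rw [h2]
    field_simp
  · intro s hs
    have hs1 : 0 ≤ s := by
      by_contra h
      exact hs (by simp [gz_of_neg q (not_le.1 h)])
    have hs2 : t ≤ s := by
      by_contra h
      exact hs (by
        have : -(t - s) < 0 := by omega
        simp only [gz_of_neg q this, mul_zero])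
    refine ⟨(s - max 0 t).toNat, ?_⟩
    have : 0 ≤ s - max 0 t := by
      have := max_le hs1 hs2
      omega
    simp only []
    rw [Int.toNat_of_nonneg this]
    ring

/-- the fat slack law: two-fold convolution of the two-sided geometric law -/
noncomputable def kapQ (q : ℝ) (t : ℤ) : ℝ :=
  ((1 - q) / (1 + q)) ^ 2 * (q ^ t.natAbs * (t.natAbs + (1 + q ^ 2) / (1 - q ^ 2)))

theorem hasSum_bil_aux {q : ℝ} (h0 : 0 ≤ q) (h1 : q < 1) (T : ℕ) :
    HasSum (fun s : ℤ => q ^ s.natAbs * q ^ ((T : ℤ) - s).natAbs)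
      (q ^ T * (T + (1 + q ^ 2) / (1 - q ^ 2))) := by
  have hq2 : 0 ≤ q ^ 2 := by positivity
  have hq21 : q ^ 2 < 1 := by nlinarith
  have hne : (1 - q ^ 2) ≠ 0 := by linarith [sub_ne_zero.2 hq21.ne']
  have hg := hasSum_geometric_of_lt_one hq2 hq21
  have hneg : HasSum (fun j : ℕ => q ^ (-((j : ℤ) + 1)).natAbs *
      q ^ ((T : ℤ) - (-((j : ℤ) + 1))).natAbs) (q ^ (T + 2) * (1 - q ^ 2)⁻¹) := by
    have := hg.mul_left (q ^ (T + 2))
    refine this.congr_fun ?_ |> id
    intro j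
    rw [show (-((j : ℤ) + 1)).natAbs = j + 1 by omega,
      show ((T : ℤ) - (-((j : ℤ) + 1))).natAbs = T + j + 1 by omega]
    ring
  have hpos : HasSum (fun s : ℕ => q ^ (s : ℤ).natAbs * q ^ ((T : ℤ) - (s : ℤ)).natAbs)
      (q ^ (T + 2) * (1 - q ^ 2)⁻¹ + (T + 1) * q ^ T) := by
    have h2 : ∑ i ∈ range (T + 1), q ^ (i : ℤ).natAbs * q ^ ((T : ℤ) - (i : ℤ)).natAbs
        = (T + 1) * q ^ T := by
      rw [sum_congr rfl (g := fun _ => q ^ T)]
      · simp
      · intro i hi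
        have : i ≤ T := Nat.lt_succ_iff.1 (mem_range.1 hi)
        rw [← pow_add]
        congr 1
        omega
    rw [← h2]
    refine (hasSum_nat_add_iff (T + 1)).1 ?_
    have := hg.mul_left (q ^ (T + 2))
    refine this.congr_fun ?_ |> id
    intro j
    rw [show (((j + (T + 1) : ℕ) : ℤ)).natAbs = j + T + 1 by omega,
      show ((T : ℤ) - ((j + (T + 1) : ℕ) : ℤ)).natAbs = j + 1 by omega]
    ring
  have := HasSum.of_nat_of_neg_add_one (f := fun s : ℤ => q ^ s.natAbs * q ^ ((T : ℤ) - s).natAbs)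
    hpos hneg
  convert this using 1
  field_simp
  ring

theorem conv_bil {q : ℝ} (h0 : 0 ≤ q) (h1 : q < 1) : conv (bil q) (bil q) = kapQ q := by
  funext t
  have hs := hasSum_bil_aux h0 h1 t.natAbs
  have key : HasSum (fun s : ℤ => bil q s * bil q (t - s)) (kapQ q t) := by
    rcases le_total 0 t with ht | ht
    · have e : ((t.natAbs : ℕ) : ℤ) = t := Int.natAbs_of_nonneg ht
      have := hs.mul_left (((1 - q) / (1 + q)) ^ 2)
      refine this.congr_fun ?_ |> id
      intro s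
      unfold bil
      rw [e]
      ring
    · have e : ((t.natAbs : ℕ) : ℤ) = -t := by omega
      have := ((Equiv.neg ℤ).hasSum_iff.2 hs).mul_left (((1 - q) / (1 + q)) ^ 2)
      refine this.congr_fun ?_ |> id
      intro s
      simp only [Function.comp, Equiv.neg_apply]
      unfold bil
      rw [e, show (-t - -s).natAbs = (t - s).natAbs by omega, Int.natAbs_neg]
      ring
  exact key.tsum_eq

theorem isLaw_bil {q : ℝ} (h0 : 0 ≤ q) (h1 : q < 1) : IsLaw (bil q) := by
  rw [← conv_gz_neg h0 h1]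
  exact (isLaw_gz h0 h1).conv (isLaw_gz h0 h1).neg

theorem isLaw_kapQ {q : ℝ} (h0 : 0 ≤ q) (h1 : q < 1) : IsLaw (kapQ q) := by
  rw [← conv_bil h0 h1]
  exact (isLaw_bil h0 h1).conv (isLaw_bil h0 h1)

/-! ### approximate laws of tape functions -/

/-- the law of `X` on `R` fresh bits is within `e` of `μ` (total variation) -/
def AL (R : ℕ) (X : List Bool → ℤ) (μ : ℤ → ℝ) (e : ℝ) : Prop :=
  ∀ φ : ℤ → ℝ, (∀ t, 0 ≤ φ t) → (∀ t, φ t ≤ 1) → |avg R (fun l => φ (X l)) - Ez μ φ| ≤ e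

theorem AL.mono {R : ℕ} {X : List Bool → ℤ} {μ : ℤ → ℝ} {e e' : ℝ} (h : AL R X μ e)
    (he : e ≤ e') : AL R X μ e' := fun φ h0 h1 => (h φ h0 h1).trans he

theorem AL.congr {R : ℕ} {X Y : List Bool → ℤ} {μ : ℤ → ℝ} {e : ℝ} (h : AL R X μ e)
    (hXY : ∀ l : List Bool, l.length = R → X l = Y l) : AL R Y μ e := fun φ h0 h1 => by
  rw [← avg_congr (g := fun l => φ (X l)) fun l hl => by rw [hXY l hl]]
  exact h φ h0 h1

/-- reading a prefix only -/
theorem AL.take {R S : ℕ} {X : List Bool → ℤ} {μ : ℤ → ℝ} {e : ℝ} (h : AL R X μ e)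
    (hRS : R ≤ S) : AL S (fun l => X (l.take R)) μ e := fun φ h0 h1 => by
  rw [avg_take hRS (fun l => φ (X l))]
  exact h φ h0 h1

theorem AL.neg {R : ℕ} {X : List Bool → ℤ} {μ : ℤ → ℝ} {e : ℝ} (h : AL R X μ e) :
    AL R (fun l => - X l) (fun t => μ (-t)) e := fun φ h0 h1 => by
  rw [Ez_neg]
  exact h (fun t => φ (-t)) (fun _ => h0 _) (fun _ => h1 _)

theorem AL.add {R S : ℕ} {X Y : List Bool → ℤ} {μ ν : ℤ → ℝ} {e e' : ℝ} (hX : AL R X μ e)
    (hY : AL S Y ν e') (hμ : IsLaw μ) (hν : IsLaw ν) :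
    AL (R + S) (fun l => X (l.take R) + Y (l.drop R)) (conv μ ν) (e + e') := fun φ h0 h1 => by
  rw [Ez_conv hμ hν h0 h1, avg_take_drop R S (fun l l' => φ (X l + Y l'))]
  have a1 : |avg R (fun l => avg S (fun l' => φ (X l + Y l')))
      - avg R (fun l => Ez ν (fun u => φ (X l + u)))| ≤ e' := by
    rw [← avg_sub]
    refine (abs_avg_le _ _).trans (avg_le_const fun l _ => ?_)
    exact hY (fun u => φ (X l + u)) (fun _ => h0 _) (fun _ => h1 _)
  have a2 := hX (fun s => Ez ν (fun u => φ (s + u))) (fun _ => hν.Ez_nonneg fun _ => h0 _)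
    (fun _ => hν.Ez_le_one (fun _ => h0 _) (fun _ => h1 _))
  calc |avg R (fun l => avg S (fun l' => φ (X l + Y l')))
        - Ez μ (fun s => Ez ν (fun u => φ (s + u)))|
      = |(avg R (fun l => avg S (fun l' => φ (X l + Y l')))
      - avg R (fun l => Ez ν (fun u => φ (X l + u)))) +
      (avg R (fun l => Ez ν (fun u => φ (X l + u)))
      - Ez μ (fun s => Ez ν (fun u => φ (s + u))))| := by ring_nf
    _ ≤ e' + e := (abs_add_le _ _).trans (add_le_add a1 a2)
    _ = e + e' := add_comm _ _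

/-- the ℓ¹ form on a finite set -/
theorem AL.sum_abs_le {R : ℕ} {X : List Bool → ℤ} {μ : ℤ → ℝ} {e : ℝ} (h : AL R X μ e)
    (T : Finset ℤ) : ∑ t ∈ T, |pr R (fun l => X l = t) - μ t| ≤ 2 * e := by
  classical
  have key : ∀ U : Finset ℤ, |∑ t ∈ U, (pr R (fun l => X l = t) - μ t)| ≤ e := by
    intro U
    have := h (fun t => if t ∈ U then 1 else 0) (fun t => by positivity)
      (fun t => by split_ifs <;> norm_num)
    have e1 : avg R (fun l => if X l ∈ U then (1 : ℝ) else 0) = ∑ t ∈ U, pr R (fun l => X l = t) := by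
      unfold pr
      rw [← avg_sum]
      refine avg_congr fun l _ => ?_
      by_cases hX : X l ∈ U
      · rw [if_pos hX, Finset.sum_eq_single_of_mem _ hX (fun t _ ht => ind_of_not (Ne.symm ht)),
          ind_of rfl]
      · rw [if_neg hX, Finset.sum_eq_zero fun t ht => ind_of_not fun (h : X l = t) => hX (h ▸ ht)]
    have e2 : Ez μ (fun t => if t ∈ U then (1 : ℝ) else 0) = ∑ t ∈ U, μ t := by
      unfold Ez
      rw [tsum_eq_sum (s := U) (fun t ht => by simp [ht])]
      exact Finset.sum_congr rfl fun t ht => by simp [ht]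
    rw [e1, e2, ← Finset.sum_sub_distrib] at this
    exact this
  have hp := key (T.filter fun t => 0 ≤ pr R (fun l => X l = t) - μ t)
  have hn := key (T.filter fun t => ¬ 0 ≤ pr R (fun l => X l = t) - μ t)
  rw [← Finset.sum_filter_add_sum_filter_not T (fun t => 0 ≤ pr R (fun l => X l = t) - μ t)]
  have e1 : ∑ t ∈ T.filter (fun t => 0 ≤ pr R (fun l => X l = t) - μ t),
      |pr R (fun l => X l = t) - μ t| =
      ∑ t ∈ T.filter (fun t => 0 ≤ pr R (fun l => X l = t) - μ t), (pr R (fun l => X l = t) - μ t) :=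
    Finset.sum_congr rfl fun t ht => abs_of_nonneg (Finset.mem_filter.1 ht).2
  have e2 : ∑ t ∈ T.filter (fun t => ¬ 0 ≤ pr R (fun l => X l = t) - μ t),
      |pr R (fun l => X l = t) - μ t| =
      -∑ t ∈ T.filter (fun t => ¬ 0 ≤ pr R (fun l => X l = t) - μ t),
        (pr R (fun l => X l = t) - μ t) := by
    rw [← Finset.sum_neg_distrib]
    exact Finset.sum_congr rfl fun t ht => abs_of_neg (not_le.1 (Finset.mem_filter.1 ht).2)
  rw [e1, e2, two_mul]
  exact add_le_add (le_of_abs_le hp) ((neg_le_abs _).trans hn)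

end Crest.Agent.R302.Slk
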