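import Crest.Agent.R302.Slack166
import Crest.Agent.R302.Ff838
import Crest.Agent.R302.Stage536

/-!
# R302, block O2 (helper166): the slack sampler and the acceptance probability `ff`
-/

set_option autoImplicit false

namespace Crest.Agent.R302.Slk

open Finset Crest.Agent.R309.Tape Crest.Agent.R302.Inst

/-- the slack law of the stage file -/
theorem stage_kapR (k : ℕ) : Stage.kapR k = kapR k := by
  funext t
  rw [kapR_eq]
  unfold Stage.kapR qk
  simp only [one_div, inv_pow]

variable {n : ℕ}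

/-- the drawn slacks as a vector -/
def slkV (N B : ℕ) (ks : List ℕ) (l : List Bool) : Fin n → ℤ := fun a =>
  (slks N B ks l).getD a 0

theorem slkV_eq_iff (N B : ℕ) (ks : Fin n → ℕ) (l : List Bool) (v : Fin n → ℤ) :
    slkV N B (List.ofFn ks) l = v ↔ slks N B (List.ofFn ks) l = List.ofFn v := by
  constructor
  · rintro rfl
    apply List.ext_getElem
    · simp
    · intro i h1 h2
      simp only [List.getElem_ofFn, slkV]
      rw [List.getD_eq_getElem _ _ h1]
  · intro h
    funext a
    unfold slkV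
    rw [h, List.getD_eq_getElem _ _ (by simp)]
    simp

theorem slkV_thin (N B : ℕ) (ks : Fin n → ℕ) (l : List Bool) {a : Fin n} (h : ks a = 0) :
    slkV N B (List.ofFn ks) l a = 0 := by
  unfold slkV
  rw [getD_slks _ _ _ _ (by simp)]
  rw [List.getD_eq_getElem _ _ (by simp), List.getElem_ofFn]
  simp [h, slk_zero]

theorem slw_eq {S : Side (Fin n)} {ks : Fin n → ℕ} (hthin : ∀ a, S.T.par a = none → ks a = 0)
    (hfat : ∀ a, S.T.par a ≠ none → S.κ a = Stage.kapR (ks a)) (v : Fin n → ℤ) :
    S.slw v = ∏ a, kapR (ks a) (v a) := by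
  unfold Side.slw
  refine prod_congr rfl fun a _ => ?_
  split_ifs with h1 h2
  · rw [hthin a h1, kapR_zero, if_pos h2]
  · rw [hthin a h1, kapR_zero, if_neg h2]
  · rw [hfat a h1, stage_kapR]

/-- **law of the slack vector of a side** -/
theorem slw_law {S : Side (Fin n)} {ks : Fin n → ℕ} (hthin : ∀ a, S.T.par a = none → ks a = 0)
    (hfat : ∀ a, S.T.par a ≠ none → S.κ a = Stage.kapR (ks a)) {N B : ℕ}
    (hB : ∀ a, slkLen (ks a) N ≤ B) (V : Finset (Fin n → ℤ)) :
    ∑ v ∈ V, |pr (n * B) (fun l => slkV N B (List.ofFn ks) l = v) - S.slw v| ≤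
      n * (1 / 2 ^ N) := by
  refine le_trans (le_of_eq (sum_congr rfl fun v _ => ?_)) (slks_law_l1 ks hB V)
  rw [slw_eq hthin hfat]
  congr 2
  exact pr_congr fun l _ => slkV_eq_iff N B ks l v

/-- **acceptance probability of one fresh slack test** -/
theorem ff_slks {S : Side (Fin n)} {ks : Fin n → ℕ} (hthin : ∀ a, S.T.par a = none → ks a = 0)
    (hfat : ∀ a, S.T.par a ≠ none → S.κ a = Stage.kapR (ks a)) {N B : ℕ}
    (hB : ∀ a, slkLen (ks a) N ≤ B) (hg : ∀ z, S.g z = 1) (x : Fin n → ℤ) (β : S.Blk → ℤ) :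
    |pr (n * B) (fun l => zpt S.T (S.load x β) (slkV N B (List.ofFn ks) l) ∈ S.J) - S.ff x β| ≤
      n * (1 / 2 ^ N) := by
  have := ff_error S x β (n * B) (fun l => slkV N B (List.ofFn ks) l)
    (fun z => by rw [hg]; exact zero_le_one) (fun z => (hg z).le)
    (fun l a ha => slkV_thin N B ks l (hthin a ha)) (slw_law hthin hfat hB)
  unfold pr
  refine le_trans (le_of_eq ?_) this
  congr 2
  refine avg_congr fun l _ => ?_
  split_ifs with h
  · rw [ind_of h, hg]
  · rw [ind_of_not h]

end Crest.Agent.R302.Slk
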