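import Crest.Agent.R302.Lz151

/-!
R302 (helper151): M-convexity (`T34`) of soft weights
`c x = max { w z * ∏ q_j (t_j) : z ∈ J, x = z + ∑ t_j (e_{X_j} - e_{Y_j}) }`.
-/

set_option autoImplicit false

namespace Crest.Agent.R302.Lor

open Finset

variable {V : Type*} [Fintype V] [DecidableEq V]

/-- local exchange inequalities of an M-concave function (multiplicative form) -/
structure T34 (c : (V → ℤ) → ℝ) : Prop where
  t3 : ∀ (β : V → ℤ) (u v w : V), u ≠ v → u ≠ w →
    c (β + ev u + ev u) * c (β + ev v + ev w) ≤ c (β + ev u + ev v) * c (β + ev u + ev w)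
  t4 : ∀ (β : V → ℤ) (u v w z : V), u ≠ v → u ≠ w → u ≠ z → v ≠ w → v ≠ z → w ≠ z →
    c (β + ev u + ev v) * c (β + ev w + ev z) ≤
      max (c (β + ev u + ev w) * c (β + ev v + ev z)) (c (β + ev u + ev z) * c (β + ev v + ev w))

/-- a full-support weight with (T3), (T4) is Lorentzian -/
theorem Lz.of_T34 {d : ℤ} {c : (V → ℤ) → ℝ} (hpos : ∀ β, ∑ v, β v = d → 0 < c β)
    (hdeg : ∀ β, ∑ v, β v ≠ d → c β = 0) (h : T34 c) : Lz d c := by
  refine Lz.of_full hpos hdeg fun β hβ => ?_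
  have hs : ∀ u v, 0 < c (β + ev u + ev v) := fun u v => hpos _ (by
    simp only [Pi.add_apply, Finset.sum_add_distrib, sum_ev]; omega)
  exact af_tree (fun u v => by rw [add_right_comm]) (fun u => (hs u u).le) (fun u v _ => hs u v)
    (fun u v w h1 h2 => h.t3 β u v w h1 h2)
    (fun u v w z h1 h2 h3 h4 h5 h6 => h.t4 β u v w z h1 h2 h3 h4 h5 h6)

omit [Fintype V] in
/-- reflection preserves (T3), (T4) -/
theorem T34.reflect {c : (V → ℤ) → ℝ} (h : T34 c) (κ : V → ℤ) : T34 (fun γ => c (κ - γ)) where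
  t3 β u v w h1 h2 := by
    have := h.t3 (κ - β - ev u - ev u - ev v - ev w) u v w h1 h2
    have e1 : κ - β - ev u - ev u - ev v - ev w + ev u + ev u = κ - (β + ev v + ev w) := by abel
    have e2 : κ - β - ev u - ev u - ev v - ev w + ev v + ev w = κ - (β + ev u + ev u) := by abel
    have e3 : κ - β - ev u - ev u - ev v - ev w + ev u + ev v = κ - (β + ev u + ev w) := by abel
    have e4 : κ - β - ev u - ev u - ev v - ev w + ev u + ev w = κ - (β + ev u + ev v) := by abel
    rw [e1, e2, e3, e4] at this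
    linarith
  t4 β u v w z h1 h2 h3 h4 h5 h6 := by
    have := h.t4 (κ - β - ev u - ev v - ev w - ev z) u v w z h1 h2 h3 h4 h5 h6
    have e1 : κ - β - ev u - ev v - ev w - ev z + ev u + ev v = κ - (β + ev w + ev z) := by abel
    have e2 : κ - β - ev u - ev v - ev w - ev z + ev w + ev z = κ - (β + ev u + ev v) := by abel
    have e3 : κ - β - ev u - ev v - ev w - ev z + ev u + ev w = κ - (β + ev v + ev z) := by abel
    have e4 : κ - β - ev u - ev v - ev w - ev z + ev v + ev z = κ - (β + ev u + ev w) := by abel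
    have e5 : κ - β - ev u - ev v - ev w - ev z + ev u + ev z = κ - (β + ev v + ev w) := by abel
    have e6 : κ - β - ev u - ev v - ev w - ev z + ev v + ev w = κ - (β + ev u + ev z) := by abel
    rw [e1, e2, e3, e4, e5, e6] at this
    rw [mul_comm (c (κ - (β + ev v + ev z))), mul_comm (c (κ - (β + ev v + ev w)))] at this
    linarith

omit [Fintype V] in
theorem T34.shift {c : (V → ℤ) → ℝ} (h : T34 c) (κ : V → ℤ) : T34 (fun γ => c (γ + κ)) where
  t3 β u v w h1 h2 := by
    have := h.t3 (β + κ) u v w h1 h2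
    have e : ∀ a b : V → ℤ, β + κ + a + b = β + a + b + κ := fun a b => by abel
    simp only [e] at this
    exact this
  t4 β u v w z h1 h2 h3 h4 h5 h6 := by
    have := h.t4 (β + κ) u v w z h1 h2 h3 h4 h5 h6
    have e : ∀ a b : V → ℤ, β + κ + a + b = β + a + b + κ := fun a b => by abel
    simp only [e] at this
    exact this

/-- fields and separable log-concave factors preserve (T3), (T4) -/
theorem T34.mul_sep {c : (V → ℤ) → ℝ} (h : T34 c) (hc : ∀ β, 0 ≤ c β) (g : V → ℤ → ℝ)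
    (hg : ∀ v t, 0 ≤ g v t) (hlc : ∀ v t, g v (t - 1) * g v (t + 1) ≤ g v t ^ 2) :
    T34 (fun γ => (∏ v, g v (γ v)) * c γ) := by
  -- products over the changed coordinates
  set G : (V → ℤ) → ℝ := fun γ => ∏ v, g v (γ v) with hG
  have hG0 : ∀ γ, 0 ≤ G γ := fun γ => Finset.prod_nonneg fun v _ => hg v _
  have hmul : ∀ (a b x y : V → ℤ), (∀ v, g v (a v) * g v (b v) ≤ g v (x v) * g v (y v)) →
      G a * G b ≤ G x * G y := by
    intro a b x y hh
    simp only [hG, ← Finset.prod_mul_distrib]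
    exact Finset.prod_le_prod (fun v _ => mul_nonneg (hg v _) (hg v _)) fun v _ => hh v
  -- equality for distinct indices, inequality for the double
  have hdist : ∀ (β : V → ℤ) (u v w z : V), u ≠ v → u ≠ w → u ≠ z → v ≠ w → v ≠ z → w ≠ z →
      G (β + ev u + ev v) * G (β + ev w + ev z) ≤ G (β + ev u + ev w) * G (β + ev v + ev z) := by
    intro β u v w z h1 h2 h3 h4 h5 h6
    refine hmul _ _ _ _ fun a => ?_
    simp only [Pi.add_apply]
    by_cases ha : u = a
    · subst ha; rw [ev_self, ev_ne h1.symm, ev_ne h2.symm, ev_ne h3.symm]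
    by_cases hb : v = a
    · subst hb; rw [ev_self, ev_ne h1, ev_ne h4.symm, ev_ne h5.symm]; simp only [add_zero]; exact le_of_eq (mul_comm _ _)
    by_cases hc' : w = a
    · subst hc'; rw [ev_self, ev_ne h2, ev_ne h4, ev_ne h6.symm]; simp only [add_zero]; exact le_of_eq (mul_comm _ _)
    by_cases hd : z = a
    · subst hd; rw [ev_self, ev_ne h3, ev_ne h5, ev_ne h6]
    · rw [ev_ne ha, ev_ne hb, ev_ne hc', ev_ne hd]
  have hdbl : ∀ (β : V → ℤ) (u v w : V), u ≠ v → u ≠ w →
      G (β + ev u + ev u) * G (β + ev v + ev w) ≤ G (β + ev u + ev v) * G (β + ev u + ev w) := by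
    intro β u v w h1 h2
    refine hmul _ _ _ _ fun a => ?_
    simp only [Pi.add_apply]
    by_cases ha : u = a
    · subst ha; rw [ev_self, ev_ne h1.symm, ev_ne h2.symm]
      rw [mul_comm]
      calc _ ≤ g u (β u + 1) ^ 2 := by
            have := hlc u (β u + 1)
            have e1 : β u + 1 - 1 = β u + 0 + 0 := by ring
            rwa [e1] at this
        _ = _ := by rw [sq]; simp
    by_cases hb : v = a
    · by_cases hc' : w = a
      · subst hb; subst hc'
        rw [ev_self, ev_ne ha]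
        have := hlc w (β w + 1)
        have e1 : β w + 1 - 1 = β w + 0 + 0 := by ring
        rw [e1] at this
        refine this.trans ?_
        rw [sq]; simp
      · subst hb; rw [ev_self, ev_ne ha, ev_ne hc']
        simp only [add_zero]
        exact le_of_eq (mul_comm _ _)
    by_cases hc' : w = a
    · subst hc'; rw [ev_self, ev_ne ha, ev_ne hb]
    · rw [ev_ne ha, ev_ne hb, ev_ne hc']
  constructor
  · intro β u v w h1 h2
    have ha := h.t3 β u v w h1 h2
    have hb := hdbl β u v w h1 h2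
    calc _ = (G (β + ev u + ev u) * G (β + ev v + ev w))
          * (c (β + ev u + ev u) * c (β + ev v + ev w)) := by ring
      _ ≤ (G (β + ev u + ev v) * G (β + ev u + ev w))
          * (c (β + ev u + ev v) * c (β + ev u + ev w)) :=
        mul_le_mul hb ha (mul_nonneg (hc _) (hc _)) (mul_nonneg (hG0 _) (hG0 _))
      _ = _ := by ring
  · intro β u v w z h1 h2 h3 h4 h5 h6
    have ha := h.t4 β u v w z h1 h2 h3 h4 h5 h6
    rcases le_max_iff.1 ha with ha | ha
    · refine le_max_of_le_left ?_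
      have hb := hdist β u v w z h1 h2 h3 h4 h5 h6
      calc _ = (G (β + ev u + ev v) * G (β + ev w + ev z))
            * (c (β + ev u + ev v) * c (β + ev w + ev z)) := by ring
        _ ≤ (G (β + ev u + ev w) * G (β + ev v + ev z))
            * (c (β + ev u + ev w) * c (β + ev v + ev z)) :=
          mul_le_mul hb ha (mul_nonneg (hc _) (hc _)) (mul_nonneg (hG0 _) (hG0 _))
        _ = _ := by ring
    · refine le_max_of_le_right ?_
      have hb := hdist β u v z w h1 h3 h2 h5 h4 h6.symm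
      rw [add_right_comm β (ev z) (ev w)] at hb
      calc _ = (G (β + ev u + ev v) * G (β + ev w + ev z))
            * (c (β + ev u + ev v) * c (β + ev w + ev z)) := by ring
        _ ≤ (G (β + ev u + ev z) * G (β + ev v + ev w))
            * (c (β + ev u + ev z) * c (β + ev v + ev w)) :=
          mul_le_mul hb ha (mul_nonneg (hc _) (hc _)) (mul_nonneg (hG0 _) (hG0 _))
        _ = _ := by ring

/-! ### AF gives (T3), (T4) up to constants -/

theorem Q_two (A : V → V → ℝ) (u v : V) (s t : ℝ) (w z : V)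
    (s' t' : ℝ) :
    Q A (s • Pi.single u 1 + t • Pi.single v 1) (s' • Pi.single w 1 + t' • Pi.single z 1)
      = s * s' * A u w + s * t' * A u z + t * s' * A v w + t * t' * A v z := by
  rw [Q_add_left, Q_smul_left, Q_smul_left, Q_single_left, Q_single_left]
  have : ∀ a, row A (s' • Pi.single w 1 + t' • Pi.single z 1) a = s' * A a w + t' * A a z := by
    intro a
    have h := row_add2 A 0 w z s' t' a
    rw [zero_add] at h
    rw [h]
    have : row A 0 a = 0 := by simp [row]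
    rw [this, zero_add]
  rw [this, this]
  ring

theorem AF.t3 {A : V → V → ℝ} (h : AF A) (hA : ∀ u v, A u v = A v u) (h0 : ∀ u v, 0 ≤ A u v)
    (u v w : V) : A u u * A v w ≤ 2 * (A u v * A u w) := by
  have key : ∀ η : ℝ, 0 < η → A u u * A v w ≤ 2 * ((A u v + η) * (A u w + η)) := by
    intro η hη
    have huv := h0 u v
    have huw := h0 u w
    set s := A u w + η with hs
    set t := A u v + η with ht
    have hspos : 0 < s := by linarith
    have htpos : 0 < t := by linarith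
    have h1 := h (s • Pi.single v 1 + t • Pi.single w 1) ((1 : ℝ) • Pi.single u 1 + (0 : ℝ) •
      Pi.single u 1)
    rw [Q_two A, Q_two A, Q_two A] at h1
    have h2 := h1 (by
      have := h0 u u
      nlinarith)
    rw [hA w v, hA v u, hA w u] at h2
    have h3 : 0 ≤ A u u := h0 u u
    have h4 : 2 * (s * t) * (A u u * A v w) ≤ (2 * (s * t)) ^ 2 := by
      have e : (s * s * A v v + s * t * A v w + t * s * A v w + t * t * A w w)
          * (1 * 1 * A u u + 1 * 0 * A u u + 0 * 1 * A u u + 0 * 0 * A u u)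
          ≤ (s * A u v + t * A u w) ^ 2 := by
        refine h2.trans (le_of_eq ?_); ring
      have e2 : 2 * (s * t) * (A u u * A v w) ≤ (s * s * A v v + s * t * A v w + t * s * A v w
          + t * t * A w w) * (1 * 1 * A u u + 1 * 0 * A u u + 0 * 1 * A u u + 0 * 0 * A u u) := by
        have := mul_nonneg (mul_nonneg (mul_nonneg hspos.le hspos.le) (h0 v v)) h3
        have := mul_nonneg (mul_nonneg (mul_nonneg htpos.le htpos.le) (h0 w w)) h3
        nlinarith
      refine e2.trans (e.trans ?_)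
      refine pow_le_pow_left₀ (by positivity) ?_ 2
      have : A u v ≤ t := by linarith
      have : A u w ≤ s := by linarith
      nlinarith
    have h5 : 0 < 2 * (s * t) := by positivity
    have h6 : A u u * A v w ≤ 2 * (s * t) := by
      by_contra hcon
      push Not at hcon
      nlinarith [mul_lt_mul_of_pos_left hcon h5]
    linarith [mul_comm s t]
  have hc : Filter.Tendsto (fun η : ℝ => 2 * ((A u v + η) * (A u w + η)))
      (nhdsWithin 0 (Set.Ioi 0)) (nhds (2 * (A u v * A u w))) := by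
    have : Continuous fun η : ℝ => 2 * ((A u v + η) * (A u w + η)) := by fun_prop
    have h0 := this.tendsto 0
    simp only [add_zero] at h0
    exact h0.mono_left nhdsWithin_le_nhds
  exact ge_of_tendsto hc (Filter.eventually_of_mem self_mem_nhdsWithin fun η hη => key η hη)

theorem AF.t4 {A : V → V → ℝ} (h : AF A) (hA : ∀ u v, A u v = A v u) (h0 : ∀ u v, 0 ≤ A u v)
    (u v w z : V) : A u v * A w z ≤ 4 * max (A u w * A v z) (A u z * A v w) := by
  have key : ∀ η : ℝ, 0 < η → A u v * A w z ≤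
      4 * max ((A u w + η) * (A v z + η)) ((A u z + η) * (A v w + η)) := by
    intro η hη
    have p1 : 0 < A u w + η := by linarith [h0 u w]
    have p2 : 0 < A u z + η := by linarith [h0 u z]
    have p3 : 0 < A v w + η := by linarith [h0 v w]
    have p4 : 0 < A v z + η := by linarith [h0 v z]
    obtain ⟨a1, ha1, e1⟩ : ∃ a : ℝ, 0 < a ∧ A u w + η = a ^ 2 :=
      ⟨√(A u w + η), Real.sqrt_pos.2 p1, (Real.sq_sqrt p1.le).symm⟩
    obtain ⟨a2, ha2, e2⟩ : ∃ a : ℝ, 0 < a ∧ A u z + η = a ^ 2 :=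
      ⟨√(A u z + η), Real.sqrt_pos.2 p2, (Real.sq_sqrt p2.le).symm⟩
    obtain ⟨b1, hb1, e3⟩ : ∃ a : ℝ, 0 < a ∧ A v w + η = a ^ 2 :=
      ⟨√(A v w + η), Real.sqrt_pos.2 p3, (Real.sq_sqrt p3.le).symm⟩
    obtain ⟨b2, hb2, e4⟩ : ∃ a : ℝ, 0 < a ∧ A v z + η = a ^ 2 :=
      ⟨√(A v z + η), Real.sqrt_pos.2 p4, (Real.sq_sqrt p4.le).symm⟩
    rw [e1, e2, e3, e4]
    have h1 := h ((b1 * b2) • Pi.single u 1 + (a1 * a2) • Pi.single v 1)
      ((a2 * b2) • Pi.single w 1 + (a1 * b1) • Pi.single z 1)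
    rw [Q_two A, Q_two A, Q_two A] at h1
    have h2 := h1 (by
      have := h0 w w; have := h0 w z; have := h0 z w; have := h0 z z
      positivity)
    rw [hA v u, hA z w] at h2
    set m := a1 * a2 * b1 * b2 with hm
    have hmpos : 0 < m := by positivity
    have h3 : 4 * m ^ 2 * (A u v * A w z) ≤
        4 * m ^ 2 * (a1 * b2 + a2 * b1) ^ 2 := by
      have l1 : 4 * m ^ 2 * (A u v * A w z) ≤
          (b1 * b2 * (b1 * b2) * A u u + b1 * b2 * (a1 * a2) * A u v
            + a1 * a2 * (b1 * b2) * A u v + a1 * a2 * (a1 * a2) * A v v) *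
          (a2 * b2 * (a2 * b2) * A w w + a2 * b2 * (a1 * b1) * A w z
            + a1 * b1 * (a2 * b2) * A w z + a1 * b1 * (a1 * b1) * A z z) := by
        have q1 : 0 ≤ A u v := h0 u v
        have q2 : 0 ≤ A w z := h0 w z
        have q3 : 0 ≤ A u u := h0 u u
        have q4 : 0 ≤ A v v := h0 v v
        have q5 : 0 ≤ A w w := h0 w w
        have q6 : 0 ≤ A z z := h0 z z
        have l2 : 2 * m * A u v ≤ b1 * b2 * (b1 * b2) * A u u + b1 * b2 * (a1 * a2) * A u v
            + a1 * a2 * (b1 * b2) * A u v + a1 * a2 * (a1 * a2) * A v v := by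
          have r1 : 0 ≤ b1 * b2 * (b1 * b2) * A u u := by positivity
          have r2 : 0 ≤ a1 * a2 * (a1 * a2) * A v v := by positivity
          rw [hm]; nlinarith
        have l3 : 2 * m * A w z ≤ a2 * b2 * (a2 * b2) * A w w + a2 * b2 * (a1 * b1) * A w z
            + a1 * b1 * (a2 * b2) * A w z + a1 * b1 * (a1 * b1) * A z z := by
          have r1 : 0 ≤ a2 * b2 * (a2 * b2) * A w w := by positivity
          have r2 : 0 ≤ a1 * b1 * (a1 * b1) * A z z := by positivity
          rw [hm]; nlinarith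
        calc 4 * m ^ 2 * (A u v * A w z) = (2 * m * A u v) * (2 * m * A w z) := by ring
          _ ≤ _ := mul_le_mul l2 l3 (by positivity) (by positivity)
      refine (l1.trans h2).trans ?_
      have l4 : b1 * b2 * (a2 * b2) * A u w + b1 * b2 * (a1 * b1) * A u z
          + a1 * a2 * (a2 * b2) * A v w + a1 * a2 * (a1 * b1) * A v z
          ≤ 2 * m * (a1 * b2 + a2 * b1) := by
        have r1 : A u w ≤ a1 ^ 2 := by linarith
        have r2 : A u z ≤ a2 ^ 2 := by linarith
        have r3 : A v w ≤ b1 ^ 2 := by linarith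
        have r4 : A v z ≤ b2 ^ 2 := by linarith
        have s1 := mul_le_mul_of_nonneg_left r1 (by positivity : 0 ≤ b1 * b2 * (a2 * b2))
        have s2 := mul_le_mul_of_nonneg_left r2 (by positivity : 0 ≤ b1 * b2 * (a1 * b1))
        have s3 := mul_le_mul_of_nonneg_left r3 (by positivity : 0 ≤ a1 * a2 * (a2 * b2))
        have s4 := mul_le_mul_of_nonneg_left r4 (by positivity : 0 ≤ a1 * a2 * (a1 * b1))
        calc _ ≤ b1 * b2 * (a2 * b2) * a1 ^ 2 + b1 * b2 * (a1 * b1) * a2 ^ 2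
              + a1 * a2 * (a2 * b2) * b1 ^ 2 + a1 * a2 * (a1 * b1) * b2 ^ 2 := by linarith
          _ = _ := by rw [hm]; ring
      have l5 : 0 ≤ b1 * b2 * (a2 * b2) * A u w + b1 * b2 * (a1 * b1) * A u z
          + a1 * a2 * (a2 * b2) * A v w + a1 * a2 * (a1 * b1) * A v z := by
        have := h0 u w; have := h0 u z; have := h0 v w; have := h0 v z
        positivity
      calc _ ≤ (2 * m * (a1 * b2 + a2 * b1)) ^ 2 := pow_le_pow_left₀ l5 l4 2
        _ = _ := by ring
    have h4 : A u v * A w z ≤ (a1 * b2 + a2 * b1) ^ 2 := by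
      have : 0 < 4 * m ^ 2 := by positivity
      exact le_of_mul_le_mul_left h3 this
    refine h4.trans ?_
    have n1 : 0 < a1 * b2 := by positivity
    have n2 : 0 < a2 * b1 := by positivity
    rcases le_total (a1 * b2) (a2 * b1) with hle | hle
    · refine le_trans ?_ (mul_le_mul_of_nonneg_left (le_max_right _ _) (by norm_num))
      nlinarith
    · refine le_trans ?_ (mul_le_mul_of_nonneg_left (le_max_left _ _) (by norm_num))
      nlinarith
  have hc : Filter.Tendsto (fun η : ℝ => 4 * max ((A u w + η) * (A v z + η))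
      ((A u z + η) * (A v w + η))) (nhdsWithin 0 (Set.Ioi 0))
      (nhds (4 * max (A u w * A v z) (A u z * A v w))) := by
    have : Continuous fun η : ℝ => 4 * max ((A u w + η) * (A v z + η))
      ((A u z + η) * (A v w + η)) := by fun_prop
    have h0 := this.tendsto 0
    simp only [add_zero] at h0
    exact h0.mono_left nhdsWithin_le_nhds
  exact ge_of_tendsto hc (Filter.eventually_of_mem self_mem_nhdsWithin fun η hη => key η hη)

/-! ### soft weights -/

/-- values of decompositions `x = z + ∑ t_j (e_{X_j} - e_{Y_j})`, `z ∈ J`: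
`r = w z * ∏ q_j (t_j)`, all `|t_j| ≤ N`. -/
inductive Dec (J : Set (V → ℤ)) (w : (V → ℤ) → ℝ) (N : ℕ) :
    List (V × V × (ℤ → ℝ)) → (V → ℤ) → ℝ → Prop
  | nil {z : V → ℤ} : z ∈ J → Dec J w N [] z (w z)
  | cons {D : List (V × V × (ℤ → ℝ))} {x : V → ℤ} {r : ℝ} (X Y : V) (q : ℤ → ℝ) (t : ℤ) :
      |t| ≤ N → Dec J w N D x r →
      Dec J w N ((X, Y, q) :: D) (x + t • (ev X - ev Y)) (q t * r)

omit [Fintype V] in
theorem Dec.mono {J : Set (V → ℤ)} {w : (V → ℤ) → ℝ} {N M : ℕ} (hNM : N ≤ M)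
    {D : List (V × V × (ℤ → ℝ))} {x : V → ℤ} {r : ℝ} (h : Dec J w N D x r) : Dec J w M D x r := by
  induction h with
  | nil hz => exact Dec.nil hz
  | cons X Y q t ht _ ih => exact Dec.cons X Y q t (ht.trans (by exact_mod_cast hNM)) ih

/-- windowed convolution -/
noncomputable def cw (N : ℕ) : List (V × V × (ℤ → ℝ)) → ((V → ℤ) → ℝ) → ((V → ℤ) → ℝ)
  | [], c => c
  | (X, Y, q) :: D, c => fun β =>
      cell (fun j => q (N - j)) (2 * N) X Y (cw N D c) (β + (-(N : ℤ)) • (ev X + ev Y))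

omit [Fintype V] in
theorem cw_cons (N : ℕ) (X Y : V) (q : ℤ → ℝ) (D : List (V × V × (ℤ → ℝ))) (c : (V → ℤ) → ℝ)
    (β : V → ℤ) : cw N ((X, Y, q) :: D) c β = ∑ j ∈ range (2 * N + 1), q (N - j) *
      cw N D c (β + (-((N : ℤ) - j)) • (ev X - ev Y)) := by
  show cell (fun j => q (N - j)) (2 * N) X Y (cw N D c) (β + (-(N : ℤ)) • (ev X + ev Y)) = _
  unfold cell
  refine Finset.sum_congr rfl fun j _ => ?_
  congr 2
  funext v
  simp only [Pi.add_apply, Pi.smul_apply, Pi.sub_apply, smul_eq_mul]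
  push_cast
  ring

/-- admissible kernels -/
def LC (D : List (V × V × (ℤ → ℝ))) : Prop :=
  ∀ p ∈ D, (∀ t : ℤ, 0 < p.2.2 t) ∧ ∀ t : ℤ, p.2.2 (t - 1) * p.2.2 (t + 1) ≤ p.2.2 t ^ 2

/-- powers of the kernels -/
def Dpow (D : List (V × V × (ℤ → ℝ))) (τ : ℕ) : List (V × V × (ℤ → ℝ)) :=
  D.map fun p => (p.1, p.2.1, fun t => p.2.2 t ^ τ)

omit [Fintype V] [DecidableEq V] in
theorem LC.pow {D : List (V × V × (ℤ → ℝ))} (h : LC D) (τ : ℕ) : LC (Dpow D τ) := by
  intro p hp
  obtain ⟨p', hp', rfl⟩ := List.mem_map.1 hp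
  have := h p' hp'
  refine ⟨fun t => pow_pos (this.1 t) τ, fun t => ?_⟩
  show p'.2.2 (t - 1) ^ τ * p'.2.2 (t + 1) ^ τ ≤ (p'.2.2 t ^ τ) ^ 2
  rw [← mul_pow, ← pow_mul, mul_comm τ 2, pow_mul]
  exact pow_le_pow_left₀ (mul_nonneg (this.1 _).le (this.1 _).le) (this.2 t) τ

theorem cw_bdd (N : ℕ) {D : List (V × V × (ℤ → ℝ))} (hD : LC D) {c : (V → ℤ) → ℝ} {C : ℝ}
    (hC : ∀ β, c β ≤ C) : ∃ C', ∀ β, cw N D c β ≤ C' := by
  induction D with
  | nil => exact ⟨C, hC⟩
  | cons p D ih =>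
    obtain ⟨X, Y, q⟩ := p
    obtain ⟨C', hC'⟩ := ih (fun p hp => hD p (by simp [hp]))
    have hq := hD (X, Y, q) (by simp)
    refine ⟨∑ j ∈ range (2 * N + 1), q (N - j) * C', fun β => ?_⟩
    rw [cw_cons]
    exact Finset.sum_le_sum fun j _ => mul_le_mul_of_nonneg_left (hC' _) (hq.1 _).le

theorem Lz.cw {d : ℤ} {c : (V → ℤ) → ℝ} (h : Lz d c) {C : ℝ} (hC : ∀ β, c β ≤ C) (N : ℕ)
    {D : List (V × V × (ℤ → ℝ))} (hD : LC D) : Lz d (Lor.cw N D c) := by
  induction D with
  | nil => exact h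
  | cons p D ih =>
    obtain ⟨X, Y, q⟩ := p
    have hD' : LC D := fun p hp => hD p (by simp [hp])
    obtain ⟨C', hC'⟩ := cw_bdd N hD' hC
    have hq := hD (X, Y, q) (by simp)
    have h1 := (ih hD').cell hC' (q := fun j => q (N - j)) (κ := 2 * N) X Y
      (fun j _ => hq.1 _) (fun j _ => by
        have := hq.2 ((N : ℤ) - (j + 1 : ℕ))
        have e1 : (N : ℤ) - (j + 1 : ℕ) - 1 = (N : ℤ) - (j + 2 : ℕ) := by push_cast; ring
        have e2 : (N : ℤ) - (j + 1 : ℕ) + 1 = (N : ℤ) - (j : ℕ) := by push_cast; ring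
        rw [e1, e2] at this
        rw [mul_comm]; exact this)
    have h2 := h1.shift ((-(N : ℤ)) • (ev X + ev Y))
    have e : d - ((2 * N : ℕ) : ℤ) - ∑ v, ((-(N : ℤ)) • (ev X + ev Y)) v = d := by
      simp only [Pi.smul_apply, Pi.add_apply, smul_eq_mul, ← Finset.mul_sum,
        Finset.sum_add_distrib, sum_ev]
      push_cast; ring
    rw [e] at h2
    exact h2

theorem cw_nonneg (N : ℕ) {D : List (V × V × (ℤ → ℝ))} (hD : LC D) {c : (V → ℤ) → ℝ}
    (hc : ∀ β, 0 ≤ c β) : ∀ β, 0 ≤ cw N D c β := by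
  induction D with
  | nil => exact hc
  | cons p D ih =>
    obtain ⟨X, Y, q⟩ := p
    intro β
    rw [cw_cons]
    exact Finset.sum_nonneg fun j _ => mul_nonneg ((hD (X, Y, q) (by simp)).1 _).le
      (ih (fun p hp => hD p (by simp [hp])) _)

theorem cw_lower {J : Set (V → ℤ)} {w : (V → ℤ) → ℝ} (hw : ∀ z, 0 ≤ w z) {N : ℕ}
    {c : (V → ℤ) → ℝ} {τ : ℕ} (hc : ∀ β, 0 ≤ c β) (hcJ : ∀ z ∈ J, c z = w z ^ τ)
    {D : List (V × V × (ℤ → ℝ))} {x : V → ℤ} {r : ℝ} (hDec : Dec J w N D x r) (hD : LC D) :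
    0 ≤ r ∧ r ^ τ ≤ cw N (Dpow D τ) c x := by
  induction hDec with
  | nil hz => exact ⟨hw _, (hcJ _ hz).symm.le⟩
  | @cons D x r X Y q t ht hdec ih =>
    have hD' : LC D := fun p hp => hD p (by simp [hp])
    have hq := hD (X, Y, q) (by simp)
    have ih' := ih hD'
    refine ⟨mul_nonneg (hq.1 t).le ih'.1, ?_⟩
    have habs := abs_le.1 ht
    have e0 : Dpow ((X, Y, q) :: D) τ = (X, Y, fun t => q t ^ τ) :: Dpow D τ := rfl
    rw [e0, cw_cons, mul_pow]
    have hj : ((N : ℤ) - t).toNat ∈ range (2 * N + 1) := by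
      rw [Finset.mem_range]; omega
    have hcast : (((N : ℤ) - t).toNat : ℤ) = N - t := Int.toNat_of_nonneg (by omega)
    refine le_trans ?_ (Finset.single_le_sum (f := fun j : ℕ => q (N - j) ^ τ *
      cw N (Dpow D τ) c (x + t • (ev X - ev Y) + (-((N : ℤ) - j)) • (ev X - ev Y)))
      (fun j _ => mul_nonneg (pow_nonneg (hq.1 _).le _) (cw_nonneg N (hD'.pow τ) hc _)) hj)
    simp only [hcast]
    have e1 : (N : ℤ) - (N - t) = t := by ring
    rw [e1]
    have e2 : x + t • (ev X - ev Y) + (-t) • (ev X - ev Y) = x := by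
      rw [neg_smul]; abel
    rw [e2]
    exact mul_le_mul_of_nonneg_left ih'.2 (pow_nonneg (hq.1 _).le _)

theorem cw_upper {J : Set (V → ℤ)} {w : (V → ℤ) → ℝ} (hw : ∀ z, 0 ≤ w z) {N : ℕ}
    {c : (V → ℤ) → ℝ} {τ : ℕ} (hcJ : ∀ z ∈ J, c z = w z ^ τ)
    (hcJ0 : ∀ z, z ∉ J → c z = 0) {D : List (V × V × (ℤ → ℝ))} (hD : LC D) :
    ∀ (x : V → ℤ) (M : ℝ), 0 ≤ M → (∀ r, Dec J w N D x r → r ≤ M) →
      cw N (Dpow D τ) c x ≤ (2 * N + 1) ^ D.length * M ^ τ := by
  induction D with
  | nil =>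
    intro x M hM h
    by_cases hx : x ∈ J
    · have := h _ (Dec.nil hx)
      show c x ≤ _
      rw [hcJ x hx]
      simpa using pow_le_pow_left₀ (hw x) this τ
    · show c x ≤ _
      rw [hcJ0 x hx]; positivity
  | cons p D ih =>
    obtain ⟨X, Y, q⟩ := p
    intro x M hM h
    have hD' : LC D := fun p hp => hD p (by simp [hp])
    have hq := hD (X, Y, q) (by simp)
    have e0 : Dpow ((X, Y, q) :: D) τ = (X, Y, fun t => q t ^ τ) :: Dpow D τ := rfl
    rw [e0, cw_cons]
    have hterm : ∀ j ∈ range (2 * N + 1), q (N - j) ^ τ *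
        cw N (Dpow D τ) c (x + (-((N : ℤ) - j)) • (ev X - ev Y))
        ≤ (2 * N + 1) ^ D.length * M ^ τ := by
      intro j hj
      rw [Finset.mem_range] at hj
      have hqp := hq.1 (N - j)
      have h1 := ih hD' (x + (-((N : ℤ) - j)) • (ev X - ev Y)) (M / q (N - j))
        (div_nonneg hM hqp.le) (fun r hr => by
          have h2 := h _ (Dec.cons X Y q ((N : ℤ) - j) (abs_le.2 ⟨by omega, by omega⟩) hr |> fun h => by
            have e2 : x + (-((N : ℤ) - j)) • (ev X - ev Y) + ((N : ℤ) - j) • (ev X - ev Y) = x := by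
              rw [neg_smul]; abel
            rw [e2] at h; exact h)
          rw [le_div_iff₀ hqp]; linarith)
      calc _ ≤ q (N - j) ^ τ * ((2 * N + 1) ^ D.length * (M / q (N - j)) ^ τ) :=
            mul_le_mul_of_nonneg_left h1 (pow_nonneg hqp.le _)
        _ = _ := by rw [div_pow]; field_simp
    refine (Finset.sum_le_sum hterm).trans ?_
    rw [Finset.sum_const, Finset.card_range, nsmul_eq_mul, List.length_cons, pow_succ]
    push_cast
    apply le_of_eq; ring

/-- if `a ^ (τ+1) ≤ K * b ^ (τ+1)` for all `τ` then `a ≤ b` -/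
theorem le_of_pow_le {a b K : ℝ} (hb : 0 ≤ b)
    (h : ∀ τ : ℕ, a ^ (τ + 1) ≤ K * b ^ (τ + 1)) : a ≤ b := by
  by_contra hcon
  push Not at hcon
  rcases hb.eq_or_lt with h0 | hb
  · have := h 0
    rw [← h0] at this
    simp only [zero_add, pow_one, mul_zero] at this
    linarith
  · have hr : 1 < a / b := by rwa [lt_div_iff₀ hb, one_mul]
    obtain ⟨n, hn⟩ := pow_unbounded_of_one_lt K hr
    have h1 := h n
    have h2 : K < (a / b) ^ (n + 1) := hn.trans_le (pow_le_pow_right₀ hr.le (Nat.le_succ n))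
    rw [div_pow, lt_div_iff₀ (pow_pos hb _)] at h2
    linarith

/-- **M-convexity of soft weights.** -/
theorem T34.of_dec {d : ℤ} {J : Set (V → ℤ)} {w : (V → ℤ) → ℝ} (hw : ∀ z, 0 ≤ w z)
    (hJ : ∀ τ : ℕ, ∃ c₀ : (V → ℤ) → ℝ, Lz d c₀ ∧ (∀ z ∈ J, c₀ z = w z ^ τ) ∧
      (∀ z, z ∉ J → c₀ z = 0) ∧ ∃ C, ∀ z, c₀ z ≤ C)
    {D : List (V × V × (ℤ → ℝ))} (hD : LC D) {c : (V → ℤ) → ℝ}
    (hub : ∀ N x r, Dec J w N D x r → r ≤ c x) (hc0 : ∀ x, 0 ≤ c x)
    (hat : ∀ x, c x ≠ 0 → ∃ N, Dec J w N D x (c x)) : T34 c := by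
  -- uniform approximation on finite sets
  have happ : ∀ (P : Finset (V → ℤ)), ∃ N : ℕ, ∀ x ∈ P, c x ≠ 0 → Dec J w N D x (c x) := by
    intro P
    induction P using Finset.induction_on with
    | empty => exact ⟨0, by simp⟩
    | insert x P _ ih =>
      obtain ⟨N, hN⟩ := ih
      by_cases hx : c x = 0
      · refine ⟨N, fun y hy hy0 => ?_⟩
        rcases Finset.mem_insert.1 hy with rfl | hy
        · exact absurd hx hy0
        · exact hN y hy hy0
      · obtain ⟨M, hM⟩ := hat x hx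
        refine ⟨max N M, fun y hy hy0 => ?_⟩
        rcases Finset.mem_insert.1 hy with rfl | hy
        · exact hM.mono (le_max_right _ _)
        · exact (hN y hy hy0).mono (le_max_left _ _)
  -- the approximating Lorentzian weights
  have hmain : ∀ (P : Finset (V → ℤ)), ∃ K : ℝ, 0 ≤ K ∧ ∀ τ : ℕ, ∃ g : (V → ℤ) → ℝ, Lz d g ∧
      (∀ x ∈ P, c x ^ (τ + 1) ≤ g x) ∧ ∀ x, g x ≤ K * c x ^ (τ + 1) := by
    intro P
    obtain ⟨N, hN⟩ := happ P
    refine ⟨(2 * N + 1) ^ D.length, by positivity, fun τ => ?_⟩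
    obtain ⟨c₀, h1, h2, h3, C, hC⟩ := hJ (τ + 1)
    refine ⟨cw N (Dpow D (τ + 1)) c₀, h1.cw hC N (hD.pow _), fun x hx => ?_, fun x => ?_⟩
    · by_cases hx0 : c x = 0
      · rw [hx0]
        rw [zero_pow (by omega)]
        exact cw_nonneg N (hD.pow _) h1.nonneg x
      · exact (cw_lower hw h1.nonneg h2 (hN x hx hx0) hD).2
    · exact cw_upper hw h2 h3 hD x (c x) (hc0 x) (fun r hr => hub N x r hr)
  constructor
  · intro β u v w' huv huw
    obtain ⟨K, hK0, hK⟩ := hmain {β + ev u + ev u, β + ev v + ev w'}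
    refine le_of_pow_le (K := 2 * K ^ 2) (mul_nonneg (hc0 _) (hc0 _)) fun τ => ?_
    obtain ⟨g, hg, hlo, hup⟩ := hK τ
    have h1 := (hg.af [] (by simp) β).t3 (mat_symm g [] β) (fun _ _ => hg.nonneg _) u v w'
    simp only [mat, br_nil] at h1
    have l1 := hlo (β + ev u + ev u) (by simp)
    have l2 := hlo (β + ev v + ev w') (by simp)
    have u1 := hup (β + ev u + ev v)
    have u2 := hup (β + ev u + ev w')
    calc (c (β + ev u + ev u) * c (β + ev v + ev w')) ^ (τ + 1)
        = c (β + ev u + ev u) ^ (τ + 1) * c (β + ev v + ev w') ^ (τ + 1) := mul_pow _ _ _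
      _ ≤ g (β + ev u + ev u) * g (β + ev v + ev w') :=
          mul_le_mul l1 l2 (pow_nonneg (hc0 _) _) (hg.nonneg _)
      _ ≤ 2 * (g (β + ev u + ev v) * g (β + ev u + ev w')) := h1
      _ ≤ 2 * ((K * c (β + ev u + ev v) ^ (τ + 1)) * (K * c (β + ev u + ev w') ^ (τ + 1))) :=
          mul_le_mul_of_nonneg_left (mul_le_mul u1 u2 (hg.nonneg _)
            (mul_nonneg hK0 (pow_nonneg (hc0 _) _))) (by norm_num)
      _ = 2 * K ^ 2 * (c (β + ev u + ev v) * c (β + ev u + ev w')) ^ (τ + 1) := by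
          rw [mul_pow]; ring
  · intro β u v w' z h1 h2 h3 h4 h5 h6
    obtain ⟨K, hK0, hK⟩ := hmain {β + ev u + ev v, β + ev w' + ev z}
    refine le_of_pow_le (K := 4 * K ^ 2) (le_max_of_le_left (mul_nonneg (hc0 _) (hc0 _)))
      fun τ => ?_
    obtain ⟨g, hg, hlo, hup⟩ := hK τ
    have h1 := (hg.af [] (by simp) β).t4 (mat_symm g [] β) (fun _ _ => hg.nonneg _) u v w' z
    simp only [mat, br_nil] at h1
    have l1 := hlo (β + ev u + ev v) (by simp)
    have l2 := hlo (β + ev w' + ev z) (by simp)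
    have hcomb : ∀ x y, g x * g y ≤ K ^ 2 * (c x * c y) ^ (τ + 1) := fun x y => by
      calc g x * g y ≤ (K * c x ^ (τ + 1)) * (K * c y ^ (τ + 1)) :=
            mul_le_mul (hup x) (hup y) (hg.nonneg _) (mul_nonneg hK0 (pow_nonneg (hc0 _) _))
        _ = _ := by rw [mul_pow]; ring
    have hK2 : 0 ≤ K ^ 2 := by positivity
    calc (c (β + ev u + ev v) * c (β + ev w' + ev z)) ^ (τ + 1)
        = c (β + ev u + ev v) ^ (τ + 1) * c (β + ev w' + ev z) ^ (τ + 1) := mul_pow _ _ _
      _ ≤ g (β + ev u + ev v) * g (β + ev w' + ev z) :=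
          mul_le_mul l1 l2 (pow_nonneg (hc0 _) _) (hg.nonneg _)
      _ ≤ _ := h1
      _ ≤ 4 * (K ^ 2 * (max (c (β + ev u + ev w') * c (β + ev v + ev z))
            (c (β + ev u + ev z) * c (β + ev v + ev w'))) ^ (τ + 1)) := by
          refine mul_le_mul_of_nonneg_left (max_le ?_ ?_) (by norm_num)
          · refine (hcomb _ _).trans (mul_le_mul_of_nonneg_left ?_ hK2)
            exact pow_le_pow_left₀ (mul_nonneg (hc0 _) (hc0 _)) (le_max_left _ _) _
          · refine (hcomb _ _).trans (mul_le_mul_of_nonneg_left ?_ hK2)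
            exact pow_le_pow_left₀ (mul_nonneg (hc0 _) (hc0 _)) (le_max_right _ _) _
      _ = _ := by ring

end Crest.Agent.R302.Lor
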