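import Crest.Agent.R302.Stage536C

/-!
R302 (helper536), STAGE: the mixing input of one stage in the form needed by `Warm272.conv_of`
(`128 * e ≤ c * mass * η ^ 2`), from (S1), the mass of the states with a small acceptance
probability, and numbers.
-/

set_option autoImplicit false
set_option linter.unusedSectionVars false

namespace Crest.Agent.R302.Stage

open Finset Crest.Agent.R302.Inst Crest.Agent.R302.Macro Crest.Agent.R302.LatChain
open Crest.Agent.R302.Mix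
open Crest.Agent.R309.MC

variable {E : Type*} [Fintype E] [DecidableEq E]

namespace SD

variable {D : SD E}

theorem mass_nuG (D : SD E) : mass (fun σ : D.bx => D.nuG σ) = ∑ σ ∈ D.bx, D.nuG σ := by
  unfold mass
  exact Finset.sum_coe_sort D.bx D.nuG

/-- **the mixing input of one stage** -/
theorem poincD_final (hOK : D.OK) (hlen : D.cs.length ≤ 2 ^ D.qa) (hexp : ∀ p ∈ D.cs, p.2 ≤ D.qb)
    {A d : ℝ} (hA : 0 < A)
    (hP : ∀ (f : St D → ℝ) (M : ℝ), 0 ≤ M → (∀ p, |f p| ≤ M) →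
      vr D.bx D.nuG f ≤ A * D.enG f + d * M ^ 2) {δ Z ρ τ η : ℝ} (hδ : 0 < δ) (hZ : 0 < Z)
    (hd0 : 0 ≤ d) (hd : d ≤ ρ * Z)
    (hsm : ∑ σ ∈ D.bx.filter (fun σ => D.FG σ < δ), D.nuG σ ≤ τ * Z)
    (hmass : Z / 2 ≤ ∑ σ ∈ D.bx, D.nuG σ)
    (hnum : 256 * ρ + 512 * (A * 2 ^ (D.qa + 2)) * τ ≤ η ^ 2) :
    ∃ e : ℝ, 0 ≤ e ∧ PoincD (fun σ : D.bx => D.nuG σ) D.Kch (δ / (A * 2 ^ (D.qa + 2))) e ∧
      128 * e ≤ δ / (A * 2 ^ (D.qa + 2)) * mass (fun σ : D.bx => D.nuG σ) * η ^ 2 := by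
  have hs0 : 0 ≤ ∑ σ ∈ D.bx.filter (fun σ => D.FG σ < δ), D.nuG σ :=
    Finset.sum_nonneg fun σ _ => nuG_nonneg hOK σ
  refine ⟨_, ?_, poincD_stage hOK hlen hexp hA hP hδ.le, ?_⟩
  · positivity
  rw [mass_nuG]
  set B := A * 2 ^ (D.qa + 2) with hB
  have hB0 : 0 < B := by positivity
  set m := ∑ σ ∈ D.bx, D.nuG σ with hm
  set s := ∑ σ ∈ D.bx.filter (fun σ => D.FG σ < δ), D.nuG σ with hs
  have h1 : 128 * (δ * d / B + 2 * δ * s) = δ / B * (128 * d + 256 * B * s) := by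
    field_simp
    ring
  rw [h1, mul_assoc (δ / B)]
  refine mul_le_mul_of_nonneg_left ?_ (by positivity)
  have h2 : 256 * B * s ≤ 256 * B * (τ * Z) := mul_le_mul_of_nonneg_left hsm (by positivity)
  have h3 : Z / 2 * η ^ 2 ≤ m * η ^ 2 := mul_le_mul_of_nonneg_right hmass (sq_nonneg η)
  have h4 : (256 * ρ + 512 * B * τ) * (Z / 2) ≤ η ^ 2 * (Z / 2) :=
    mul_le_mul_of_nonneg_right hnum (by positivity)
  nlinarith

end SD

end Crest.Agent.R302.Stage
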