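import Crest.Agent.R302.Stage536Y
import Crest.Agent.R302.Inst536
import Crest.Agent.R302.MassC151
import Crest.Agent.R302.MixC893
import Crest.Agent.R302.Mono272
import Crest.Agent.R302.Num272D

/-!
R302 (helper536), STAGE: **the final record** `stagesOK : Prog.StagesOK`.
-/

set_option autoImplicit false
set_option linter.unusedSectionVars false

namespace Crest.Agent.R302.Fields

open Finset Crest.Agent.R302.Inst Crest.Agent.R302.Stage Crest.Agent.R302.AnnBox
open Crest.Agent.R302.Loop Crest.Agent.R302.Mix Crest.Agent.R302.Prog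
open Crest.Agent.R302.Smp Crest.Agent.R302.Top Crest.Agent.R302.Facet
open Crest.Agent.R302.Conc (sdA parOf ellOf)
open Crest.Agent.R302.ORAM
open Crest.Agent.R309.MC Crest.Agent.R309.Tape

theorem small_real {X : ℝ} (hX : 65536 ≤ X) : 1 / X ^ 61 ≤ 1 / 8 := by
  have h1 : (8 : ℝ) ≤ X ^ 61 := by
    calc (8 : ℝ) ≤ X := by linarith
      _ = X ^ 1 := (pow_one _).symm
      _ ≤ X ^ 61 := pow_le_pow_right₀ (by linarith) (by norm_num)
  exact one_div_le_one_div_of_le (by norm_num) h1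

/-- **`ChainOK` at every stage of the concrete program** -/
theorem stagesOK : Prog.StagesOK := by
  intro n R m r₁ r₂ lo hi 𝒜 h t ht
  have hsmall := small_real (XX_geR (inp n R m lo hi))
  obtain ⟨π, hπ⟩ := chainOK_prg (P := cPar) h ht (ε₁ := 1 / (XX (inp n R m lo hi) : ℝ) ^ 61)
    (εE := 1 / 8) (εM := 1 / (XX (inp n R m lo hi) : ℝ) ^ 61) (η := Num.η0 (inp n R m lo hi))
    (es := 1 / (XX (inp n R m lo hi) : ℝ) ^ 61) rfl hsmall le_rfl hsmall
    (Num.η0_pos _).le (kap_w1 (inp n R m lo hi)) (cA_lt_w1 (inp n R m lo hi))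
    (hB₁_inst h ht) (hB₂_inst h ht) (Num.N6 (inp n R m lo hi)) (Num.N6 (inp n R m lo hi))
    (fun g hg => ⟨⟨mf_cE h ht hg, T893.mix_cPar h ht (Or.inl rfl) g (massIn_c h ht hg _)⟩,
      rat_c h ht _⟩)
    (fun g hg => ⟨mf_cM h ht hg, T893.mix_cPar h ht (Or.inr rfl) g (massIn_c h ht hg _)⟩)
  exact ⟨π, hπ.mono (Num.errE (inp n R m lo hi)) (Num.errM (inp n R m lo hi))⟩

end Crest.Agent.R302.Fields

namespace Crest.Agent.R302.Prog

/-- **the remaining fact** -/
theorem stagesOK : StagesOK := Fields.stagesOK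

end Crest.Agent.R302.Prog
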