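import Crest.Agent.R302.LinkInst342
import Crest.Agent.R302.Stage536B

/-!
R302 (helper342): the hypotheses of helper536's `Stage.SD.stage_poinc` from the official facts
(`Pair`, `Shape`, `Gauge`, window of the block contents).
-/

set_option autoImplicit false
set_option linter.unusedSectionVars false

namespace Crest.Agent.R302.LInst

open Finset Crest.Agent.R302.Lor Crest.Agent.R302.Inst Crest.Agent.R302.Link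
open Crest.Agent.R302.Macro Crest.Agent.R302.Stage Crest.Agent.R302.Joint
open Crest.Agent.R302.Inst.Side (Gauge tcost fcost tcost_neg fcost_neg)

variable {E : Type*} [Fintype E] [DecidableEq E]

/-- the official facts about one stage -/
structure Facts (D : SD E) (b₁ D₁ b₂ D₂ : E → ℝ) (β₀ : ℝ) (r₁ r₂ : Finset E → ℤ) (R₁ R₂ : ℤ)
    (ω₁ ω₂ : E → ℤ → ℝ) : Prop where
  pair : Pair D.S₁w D.S₂ b₁ D₁ b₂ D₂ D.θ D.μ β₀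
  sh₁ : Shape D.S₁w r₁ R₁ ω₁
  sh₂ : Shape D.S₂ r₂ R₂ ω₂
  ga₁ : Gauge D.S₁w D.μ
  ga₂ : Gauge D.S₂ D.μ
  lb₁ : ∀ z ∈ D.S₁.J, ∀ r, |D.S₁.blk z r| ≤ D.Lb
  lb₂ : ∀ z ∈ D.S₂.J, ∀ r, |D.S₂.blk z r| ≤ D.Lb

variable {D : SD E} {b₁ D₁ b₂ D₂ : E → ℝ} {β₀ : ℝ} {r₁ r₂ : Finset E → ℤ} {R₁ R₂ : ℤ}
  {ω₁ ω₂ : E → ℤ → ℝ}

theorem Facts.mem₁ (h : Facts D b₁ D₁ b₂ D₂ β₀ r₁ r₂ R₁ R₂ ω₁ ω₂) :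
    ∀ z ∈ D.S₁w.J, D.S₁w.blk z ∈ D.Λ₁ := fun z hz =>
  Fintype.mem_piFinset.2 fun r => mem_Icc.2 (abs_le.1 (h.lb₁ z hz r))

theorem Facts.mem₂ (h : Facts D b₁ D₁ b₂ D₂ β₀ r₁ r₂ R₁ R₂ ω₁ ω₂) :
    ∀ z ∈ D.S₂.J, D.S₂.blk z ∈ D.Λ₂ := fun z hz =>
  Fintype.mem_piFinset.2 fun r => mem_Icc.2 (abs_le.1 (h.lb₂ z hz r))

theorem Facts.linkW₁ (h : Facts D b₁ D₁ b₂ D₂ β₀ r₁ r₂ R₁ R₂ ω₁ ω₂) :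
    LinkW D.Bx D.a₁ D.Λ₁ := by
  have h1 := linkHyp h.sh₁ h.pair.θ0 h.pair.θ1 h.pair.μ0 D.Bx h.mem₁
  exact ⟨h1.la, h1.supp⟩

theorem Facts.linkW₂ (h : Facts D b₁ D₁ b₂ D₂ β₀ r₁ r₂ R₁ R₂ ω₁ ω₂) :
    LinkW D.Bx D.a₂ D.Λ₂ := by
  have h1 := linkHyp h.sh₂ h.pair.θ0 h.pair.θ1 h.pair.μi D.Bx h.mem₂
  exact ⟨h1.la, h1.supp⟩

theorem Facts.hmar (h : Facts D b₁ D₁ b₂ D₂ β₀ r₁ r₂ R₁ R₂ ω₁ ω₂) (x : E → ℤ) :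
    mar (D.Λ₁ ×ˢ D.Λ₂) (Joint.nu D.a₁ D.a₂) x = D.Wx x :=
  mar_jnu h.ga₁ h.ga₂ h.mem₁ h.mem₂ x

theorem Facts.nuG_nonneg (h : Facts D b₁ D₁ b₂ D₂ β₀ r₁ r₂ R₁ R₂ ω₁ ω₂) (p : St D) :
    0 ≤ D.nuG p := by
  rw [D.nuG_eq_joint]
  exact mul_nonneg (h.pair.ok₁.ok.lw_nonneg h.pair.θ0 h.pair.μ0 _ _)
    (h.pair.ok₂.ok.lw_nonneg h.pair.θ0 h.pair.μi _ _)

/-- ratio of `nuG` along any `x`-displacement -/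
theorem Facts.nuG_le (h : Facts D b₁ D₁ b₂ D₂ β₀ r₁ r₂ R₁ R₂ ω₁ ω₂) (x c : E → ℤ)
    (y : (D.S₁.Blk → ℤ) × (D.S₂.Blk → ℤ)) :
    D.nuG (x, y) ≤ rat D.S₁w D.S₂ D.θ b₁ b₂ c * D.nuG (x + c, y) := by
  rw [D.nuG_eq_joint]
  exact jnu_le h.pair x c y

theorem Facts.hcmp (h : Facts D b₁ D₁ b₂ D₂ β₀ r₁ r₂ R₁ R₂ ω₁ ω₂) {Rm : ℝ} (hRm : 0 < Rm)
    (hR : ∀ m ∈ D.mv, rat D.S₁w D.S₂ D.θ b₁ b₂ (2 ^ m.2 • m.1) ≤ Rm) :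
    ∀ m ∈ D.mv, ∀ s ≤ 2 ^ m.2, ∀ x ∈ D.Bx, x + s • m.1 ∈ D.Bx → ∀ y ∈ D.Λ₁ ×ˢ D.Λ₂,
      Rm⁻¹ * D.nuG (x, y) ≤ D.nuG (x + s • m.1, y) := by
  intro m hm s hs x _ _ y _
  have h1 := h.nuG_le x (s • m.1) y
  have h2 := (rat_mono h.pair hs m.1).trans (hR m hm)
  rw [inv_mul_le_iff₀ hRm]
  exact h1.trans (mul_le_mul_of_nonneg_right h2 (h.nuG_nonneg _))

/-- **(S1)** from the official facts -/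
theorem stage_poinc' (h : Facts D b₁ D₁ b₂ D₂ β₀ r₁ r₂ R₁ R₂ ω₁ ω₂)
    (hlk₁ : ∀ p q : D.S₁.Blk, p ≠ q → (q, p) ∈ D.lk₁)
    (hlk₂ : ∀ p q : D.S₂.Blk, p ≠ q → (q, p) ∈ D.lk₂)
    {Rm : ℝ} (hRm : 1 ≤ Rm)
    (hR : ∀ m ∈ D.mv, rat D.S₁w D.S₂ D.θ b₁ b₂ (2 ^ m.2 • m.1) ≤ Rm)
    {Kx ε M : ℝ} (hKx : 0 ≤ Kx) (hM : 0 ≤ M)
    (hx : ∀ g : (E → ℤ) → ℝ, (∀ x, |g x| ≤ M) → vr D.Bx D.Wx g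
      ≤ Kx * (D.mv.map fun m => aDm D.Bx D.Wx m.1 (2 ^ m.2) g).sum + ε * M ^ 2)
    (Kw : ℕ) {A : ℝ} (hA1 : 3 * Kx * Rm ≤ A)
    (hA2 : (1 + D.mv.length * (6 * Kx * Rm)) * KL D.S₁.Blk (2 * Kw) ≤ A)
    (hA3 : (1 + D.mv.length * (6 * Kx * Rm)) * KL D.S₂.Blk (2 * Kw) ≤ A)
    {f : St D → ℝ} (hf : ∀ p, |f p| ≤ M) :
    vr D.bx D.nuG f ≤ A * D.enG f
      + (ε + (1 + D.mv.length * (6 * Kx * Rm)) *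
          (8 * farM D.Bx D.a₁ D.a₂ D.Λ₁ D.Λ₂ D.S₁.blk D.S₂.blk Kw)) * M ^ 2 := by
  have hp : 0 < Rm := zero_lt_one.trans_le hRm
  have key := Stage.SD.stage_poinc D h.linkW₁ h.linkW₂ (fun x _ => h.hmar x) hlk₁ hlk₂
    (inv_pos.2 hp) (inv_le_one_of_one_le₀ hRm) (h.hcmp hp hR) hKx hM hx Kw (A := A)
    (by rw [div_inv_eq_mul]; exact hA1) (by rw [div_inv_eq_mul]; exact hA2)
    (by rw [div_inv_eq_mul]; exact hA3) hf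
  rw [div_inv_eq_mul] at key
  exact key

end Crest.Agent.R302.LInst
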