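import Crest.Agent.R302.Step223A
import Crest.Agent.R302.Mix497B

/-!
# R302, block STEP (helper223), part B: the law of the chain step

* `ImplE` : a tape step implements a kernel up to an error; `ImplE.avg_runSteps`, `one_particle_approx`.
* `implE_cstep` : `cstep` with an approximately known acceptance probability.
* `pr_zeros`, `pr_coinL` : exact acceptance probability of `coinL` as a product.
* `mvL_enc` : the list proposal is `latM (ivec ..)` for a coded group.
-/

set_option autoImplicit false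
set_option maxHeartbeats 400000
set_option linter.unusedSectionVars false

namespace Crest.Agent.R302.Step

open Finset Crest.Agent.R309.MC Crest.Agent.R309.Tape Crest.Agent.Lib.PT.Arith
open Crest.Agent.R302.LatChain Crest.Agent.R302.Mix Crest.Agent.R302.Loop

/-! ### approximate implementation -/

section implE

variable {α : Type*} [Fintype α] {S : Type*}

/-- `f` implements `K` up to `ε` on `[0,1]`-valued test functions -/
def ImplE (f : S → List Bool → S) (r : ℕ) (enc : α → S) (K : α → α → ℝ) (ε : ℝ) : Prop :=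
  (∀ x l, ∃ y, f (enc x) l = enc y) ∧
    ∀ φ : S → ℝ, (∀ s, 0 ≤ φ s ∧ φ s ≤ 1) → ∀ x,
      |markov f r φ (enc x) - ∑ y, K x y * φ (enc y)| ≤ ε

theorem law_pt_succ_apply [DecidableEq α] (K : α → α → ℝ) (x : α) (T : ℕ) (ψ : α → ℝ) :
    ∑ y, law K (pt x) (T + 1) y * ψ y = ∑ z, K x z * ∑ y, law K (pt z) T y * ψ y := by
  have h1 : ∀ y, law K (pt x) (T + 1) y = ∑ z, K x z * law K (pt z) T y := by
    intro y
    rw [law_succ' K (pt x) T, law_linear K (push K (pt x)) T y, push_pt K x]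
  simp only [h1, sum_mul, mul_sum]
  rw [sum_comm]
  exact sum_congr rfl fun z _ => sum_congr rfl fun y _ => by ring

theorem law_apply_mem01 [DecidableEq α] {K : α → α → ℝ} (hK : IsKer K) (x : α) (T : ℕ) (ψ : α → ℝ)
    (hψ : ∀ y, 0 ≤ ψ y ∧ ψ y ≤ 1) :
    0 ≤ ∑ y, law K (pt x) T y * ψ y ∧ ∑ y, law K (pt x) T y * ψ y ≤ 1 := by
  have hp : ∀ y, 0 ≤ (pt x : α → ℝ) y := fun y => by unfold pt; split_ifs <;> norm_num
  have h0 := law_nonneg hK hp T
  have h1 := law_sum hK (pt x : α → ℝ) T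
  have h2 : ∑ y, (pt x : α → ℝ) y = 1 := by simp [pt]
  refine ⟨sum_nonneg fun y _ => mul_nonneg (h0 y) (hψ y).1, ?_⟩
  calc ∑ y, law K (pt x) T y * ψ y ≤ ∑ y, law K (pt x) T y * 1 :=
        sum_le_sum fun y _ => mul_le_mul_of_nonneg_left (hψ y).2 (h0 y)
    _ = 1 := by rw [← sum_mul, mul_one, h1, h2]

/-- **T-fold run of an approximate implementation** -/
theorem ImplE.avg_runSteps [DecidableEq α] {f : S → List Bool → S} {r : ℕ} {enc : α → S}
    {K : α → α → ℝ} {ε : ℝ} (h : ImplE f r enc K ε) (hK : IsKer K)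
    (henc : Function.Injective enc) (T : ℕ) :
    ∀ (x : α) (φ : S → ℝ), (∀ s, 0 ≤ φ s ∧ φ s ≤ 1) →
    |avg (T * r) (fun l => φ (runSteps f r T (enc x) l)) -
      ∑ y, law K (pt x) T y * φ (enc y)| ≤ T * ε := by
  classical
  induction T with
  | zero =>
    intro x φ _
    have : ∑ y, law K (pt x) 0 y * φ (enc y) = φ (enc x) := by
      simp [law, pt]
    simp [this, runSteps]
  | succ T ih =>
    intro x φ hφ
    set ψ : α → ℝ := fun z => ∑ y, law K (pt z) T y * φ (enc y) with hψ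
    have hψ01 : ∀ z, 0 ≤ ψ z ∧ ψ z ≤ 1 := fun z =>
      law_apply_mem01 hK z T (fun y => φ (enc y)) fun y => hφ _
    let Ψ : S → ℝ := fun s => if hs : ∃ z, enc z = s then ψ hs.choose else 0
    have hΨ : ∀ z, Ψ (enc z) = ψ z := by
      intro z
      have hs : ∃ z', enc z' = enc z := ⟨z, rfl⟩
      simp only [Ψ, dif_pos hs]
      rw [henc hs.choose_spec]
    have hΨ01 : ∀ s, 0 ≤ Ψ s ∧ Ψ s ≤ 1 := by
      intro s
      by_cases hs : ∃ z, enc z = s
      · simp only [Ψ, dif_pos hs]; exact hψ01 _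
      · simp only [Ψ, dif_neg hs]; norm_num
    have key : avg ((T + 1) * r) (fun l => φ (runSteps f r (T + 1) (enc x) l)) =
        avg r (fun l => avg (T * r) (fun l' => φ (runSteps f r T (f (enc x) l) l'))) := by
      rw [show (T + 1) * r = r + T * r by ring]
      simp only [runSteps]
      rw [avg_take_drop r (T * r) (fun l l' => φ (runSteps f r T (f (enc x) l) l'))]
    rw [key, law_pt_succ_apply]
    have h1 := h.2 Ψ hΨ01 x
    simp only [hΨ] at h1
    have h2 : |avg r (fun l => avg (T * r) (fun l' => φ (runSteps f r T (f (enc x) l) l')))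
        - markov f r Ψ (enc x)| ≤ T * ε := by
      unfold markov
      rw [← avg_sub]
      refine (abs_avg_le _ _).trans ?_
      refine avg_le_const fun l _ => ?_
      obtain ⟨z, hz⟩ := h.1 x l
      rw [hz, hΨ]
      exact ih z φ hφ
    have h3 := abs_sub_le (avg r (fun l => avg (T * r) (fun l' => φ (runSteps f r T (f (enc x) l) l'))))
      (markov f r Ψ (enc x)) (∑ z, K x z * ψ z)
    push_cast
    linarith

/-- **The one-particle theorem for an approximate implementation.** -/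
theorem one_particle_approx [DecidableEq α] {S' : Type*} {f : S → List Bool → S} {r : ℕ}
    {enc : α → S} {K : α → α → ℝ} {ε₁ : ℝ} (hI : ImplE f r enc K ε₁)
    (henc : Function.Injective enc) {w : α → ℝ} (hw : ∀ x, 0 ≤ w x) (hm : 0 < mass w)
    (hK : IsKer K) (hr : Rev w K) (hp : PSD w K) {c e : ℝ} (hc : PoincD w K c e) (hc0 : 0 < c)
    (hc1 : c ≤ 1) (he : 0 ≤ e) {H ε η : ℝ} (hH : 0 ≤ H) (hη : 0 ≤ η) (μ : Law S') (start : S' → S)
    (st : S' → α) (G : S' → Prop) (hst : ∀ x ∈ μ.supp, G x → enc (st x) = start x)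
    (ρ : α → ℝ) (hρ0 : ∀ a, 0 ≤ ρ a) (hρ : ∑ a, ρ a ≤ ε) (hε : ε ≤ 1 / 2)
    (hdom : ∀ a, startLaw μ st a ≤ H * (w a / mass w) + ρ a) {t L : ℕ}
    (hL : H ≤ η ^ 2 * 2 ^ L) (ht : (L : ℝ) ≤ c * t) (hec : 2 * e * H ^ 2 ≤ c * mass w * η ^ 2)
    (φ : S → ℝ) (hφ : ∀ s, 0 ≤ φ s ∧ φ s ≤ 1) :
    |μ.E (fun x => avg (t * r) (fun l => φ (runSteps f r t (start x) l))) -
        ∑ x, w x / mass w * φ (enc x)| ≤ ε + η + (1 - μ.E (fun x => ind (G x))) + t * ε₁ := by
  classical
  have h1 := warm hw hm hK hr hp hc hc0 hc1 he hH (startLaw μ st) ρ (startLaw_nonneg μ st)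
    (startLaw_sum μ st) hdom hρ0 hρ hε t (φ := fun a => φ (enc a)) (fun a => (hφ _).1)
    (fun a => (hφ _).2)
  have h2 := sqrt_err_le hc0 hc1 hm hη hL ht hec
  have h3 : |μ.E (fun x => avg (t * r) (fun l => φ (runSteps f r t (enc (st x)) l))) -
      ∑ y, law K (startLaw μ st) t y * φ (enc y)| ≤ t * ε₁ := by
    rw [law_eq_sum_pt, ← μ.E_sub]
    refine (μ.abs_E_le _).trans ?_
    have h5 : μ.E (fun _ => (t : ℝ) * ε₁) = t * ε₁ := μ.E_const _
    rw [← h5]
    exact μ.E_mono fun x _ => hI.avg_runSteps hK henc t (st x) φ hφ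
  have h4 : |μ.E (fun x => avg (t * r) (fun l => φ (runSteps f r t (start x) l))) -
      μ.E (fun x => avg (t * r) (fun l => φ (runSteps f r t (enc (st x)) l)))| ≤
      1 - μ.E (fun x => ind (G x)) := by
    rw [← μ.E_sub]
    refine (μ.abs_E_le _).trans ?_
    have : 1 - μ.E (fun x => ind (G x)) = μ.E (fun x => 1 - ind (G x)) := by
      rw [μ.E_sub, μ.E_const]
    rw [this]
    refine μ.E_mono fun x hx => ?_
    by_cases hG : G x
    · rw [hst x hx hG, ind_of hG]; simp
    · rw [ind_of_not hG, sub_zero]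
      have a1 := avg_mem01 (t * r) (g := fun l => φ (runSteps f r t (start x) l)) (fun l => hφ _)
      have a2 := avg_mem01 (t * r) (g := fun l => φ (runSteps f r t (enc (st x)) l)) (fun l => hφ _)
      rw [abs_le]
      constructor <;> linarith [a1.1, a1.2, a2.1, a2.2]
  have h5 := abs_sub_le (μ.E (fun x => avg (t * r) (fun l => φ (runSteps f r t (start x) l))))
    (μ.E (fun x => avg (t * r) (fun l => φ (runSteps f r t (enc (st x)) l))))
    (∑ x, w x / mass w * φ (enc x))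
  have h6 := abs_sub_le (μ.E (fun x => avg (t * r) (fun l => φ (runSteps f r t (enc (st x)) l))))
    (∑ y, law K (startLaw μ st) t y * φ (enc y)) (∑ x, w x / mass w * φ (enc x))
  linarith

theorem sum_prop_le_one (q : ℕ) (M : α → ℕ → Option α) (x : α) [DecidableEq α] :
    ∑ y, prop q M x y ≤ 1 := by
  have h := sum_prop_mul q M x (fun _ => (1 : ℝ))
  simp only [mul_one] at h
  rw [h, div_le_one (by positivity)]
  calc ∑ i ∈ range (2 ^ q), (M x i).elim 0 (fun _ => (1 : ℝ))
      ≤ ∑ i ∈ range (2 ^ q), (1 : ℝ) := by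
        refine sum_le_sum fun i _ => ?_
        cases M x i <;> simp
    _ = 2 ^ q := by simp

theorem prop_nonneg' (q : ℕ) (M : α → ℕ → Option α) [DecidableEq α] (x y : α) :
    0 ≤ prop q M x y := by unfold prop; positivity

theorem exists_of_prop_ne {q : ℕ} {M : α → ℕ → Option α} [DecidableEq α] {x y : α}
    (h : prop q M x y ≠ 0) : ∃ i < 2 ^ q, M x i = some y := by
  by_contra hcon
  push Not at hcon
  apply h
  unfold prop
  have : (range (2 ^ q)).filter (fun i => M x i = some y) = ∅ := by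
    rw [filter_eq_empty_iff]
    intro i hi
    exact hcon i (mem_range.1 hi)
  rw [this]
  simp

/-- **`cstep` with an approximately known acceptance probability.** -/
theorem implE_cstep [DecidableEq α] {q m : ℕ} {mv : S → ℕ → Option S}
    {coin : S → S → List Bool → Bool} {enc : α → S} {M : α → ℕ → Option α} {a : α → α → ℝ} {ε : ℝ}
    (hε : 0 ≤ ε) (hmv : ∀ x i, mv (enc x) i = (M x i).map enc)
    (ha : ∀ x y, ∀ i < 2 ^ q, M x i = some y →
      |pr m (fun l => coin (enc x) (enc y) l = true) - a x y| ≤ ε) :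
    ImplE (cstep q mv coin) (q + m) enc (metro (prop q M) a) ε := by
  constructor
  · intro x l
    unfold cstep
    rw [hmv]
    cases M x (msb (l.take q)) with
    | none => exact ⟨x, rfl⟩
    | some y =>
      simp only [Option.map_some]
      by_cases hc : coin (enc x) (enc y) (l.drop q) = true
      · exact ⟨y, by rw [if_pos hc]⟩
      · exact ⟨x, by rw [if_neg hc]⟩
  · intro φ hφ x
    have hI := impl_cstep (q := q) (m := m) (mv := mv) (coin := coin) (enc := enc) (M := M)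
      (a := fun x y => pr m (fun l => coin (enc x) (enc y) l = true))
      (fun x i _ => hmv x i) (fun _ _ _ _ _ => rfl)
    rw [hI φ x, metro_apply_sum _ _ x (fun y => φ (enc y)),
      metro_apply_sum _ _ x (fun y => φ (enc y)), add_sub_add_left_eq_sub, ← sum_sub_distrib]
    refine (abs_sum_le_sum_abs _ _).trans ?_
    calc ∑ y, |prop q M x y * (pr m (fun l => coin (enc x) (enc y) l = true) *
            (φ (enc y) - φ (enc x))) - prop q M x y * (a x y * (φ (enc y) - φ (enc x)))|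
        ≤ ∑ y, prop q M x y * ε := by
          refine sum_le_sum fun y _ => ?_
          by_cases h0 : prop q M x y = 0
          · simp [h0]
          · obtain ⟨i, hi, hM⟩ := exists_of_prop_ne h0
            have h1 := ha x y i hi hM
            rw [← mul_sub, ← sub_mul, abs_mul, abs_of_nonneg (prop_nonneg' q M x y), abs_mul]
            refine mul_le_mul_of_nonneg_left ?_ (prop_nonneg' q M x y)
            have h2 : |φ (enc y) - φ (enc x)| ≤ 1 := by
              rw [abs_le]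
              constructor <;> linarith [(hφ (enc y)).1, (hφ (enc y)).2, (hφ (enc x)).1,
                (hφ (enc x)).2]
            calc |pr m (fun l => coin (enc x) (enc y) l = true) - a x y| *
                  |φ (enc y) - φ (enc x)| ≤ ε * 1 :=
                  mul_le_mul h1 h2 (abs_nonneg _) hε
              _ = ε := mul_one ε
      _ = (∑ y, prop q M x y) * ε := by rw [sum_mul]
      _ ≤ 1 * ε := mul_le_mul_of_nonneg_right (sum_prop_le_one q M x) hε
      _ = ε := one_mul ε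

end implE

/-! ### exact probabilities -/

theorem ind_and (p q : Prop) : ind (p ∧ q) = ind p * ind q := by
  by_cases hp : p
  · by_cases hq : q
    · rw [ind_of ⟨hp, hq⟩, ind_of hp, ind_of hq]; ring
    · rw [ind_of_not (fun h => hq h.2), ind_of_not hq]; ring
  · rw [ind_of_not (fun h => hp h.1), ind_of_not hp]; ring

/-- the first `k` of `m` bits vanish with probability `2 ^ (-k)` -/
theorem pr_zeros (m k : ℕ) (h : k ≤ m) : pr m (fun l => zerosL k l = true) = (1 / 2 : ℝ) ^ k := by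
  induction k generalizing m with
  | zero => rw [pr_eq_one (fun l _ => by simp [zerosL])]; simp
  | succ k ih =>
    obtain ⟨m, rfl⟩ : ∃ m', m = m' + 1 := ⟨m - 1, by omega⟩
    unfold pr
    rw [avg_succ]
    have h1 : avg m (fun l => ind (zerosL (k + 1) (false :: l) = true)) = (1 / 2 : ℝ) ^ k := by
      rw [← ih m (by omega)]
      unfold pr
      refine avg_congr fun l _ => ?_
      simp [zerosL]
    have h2 : avg m (fun l => ind (zerosL (k + 1) (true :: l) = true)) = 0 := by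
      rw [← avg_const m (0 : ℝ)]
      refine avg_congr fun l _ => ?_
      rw [ind_of_not]
      simp [zerosL]
    rw [h1, h2, pow_succ]
    ring

/-- success probability of `coin2` -/
noncomputable def c2 (m k : ℕ) : ℝ := if k ≤ m then (1 / 2) ^ k else 0

theorem c2_nonneg (m k : ℕ) : 0 ≤ c2 m k := by unfold c2; split_ifs <;> positivity

theorem c2_le_one (m k : ℕ) : c2 m k ≤ 1 := by
  unfold c2
  split_ifs
  · exact pow_le_one₀ (by norm_num) (by norm_num)
  · norm_num

theorem pr_coin2 (m k : ℕ) : pr m (fun l => coin2 m k l = true) = c2 m k := by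
  unfold coin2 c2
  by_cases h : k ≤ m
  · rw [if_pos h, ← pr_zeros m k h]
    exact pr_congr fun l _ => by simp [h]
  · rw [if_neg h]
    exact pr_eq_zero fun l _ => by simp [h]

/-- the ratio factor: reversible Metropolis factor for the exponent `u`, cut at `kmax` -/
noncomputable def rho (kmax : ℕ) (u v : ℤ) : ℝ :=
  if (v - u).natAbs ≤ kmax then (1 / 2) ^ (v - u).toNat else 0

theorem rho_nonneg (kmax : ℕ) (u v : ℤ) : 0 ≤ rho kmax u v := by
  unfold rho; split_ifs <;> positivity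

theorem rho_le_one (kmax : ℕ) (u v : ℤ) : rho kmax u v ≤ 1 := by
  unfold rho
  split_ifs
  · exact pow_le_one₀ (by norm_num) (by norm_num)
  · norm_num

/-- detailed balance of the ratio factor -/
theorem rho_bal (kmax : ℕ) (u v : ℤ) :
    (2 : ℝ) ^ (-u) * rho kmax u v = (2 : ℝ) ^ (-v) * rho kmax v u := by
  unfold rho
  have e : (u - v).natAbs = (v - u).natAbs := by omega
  rw [e]
  split_ifs
  · have h1 : ((1 / 2 : ℝ)) ^ (v - u).toNat = (2 : ℝ) ^ (-((v - u).toNat : ℤ)) := by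
      rw [one_div, inv_pow, zpow_neg, zpow_natCast]
    have h2 : ((1 / 2 : ℝ)) ^ (u - v).toNat = (2 : ℝ) ^ (-((u - v).toNat : ℤ)) := by
      rw [one_div, inv_pow, zpow_neg, zpow_natCast]
    rw [h1, h2, ← zpow_add₀ (by norm_num), ← zpow_add₀ (by norm_num)]
    congr 1
    omega
  · ring

theorem avg_four (a b c d : ℕ) (F : List Bool → List Bool → List Bool → List Bool → ℝ) :
    avg (a + (b + (c + d))) (fun l => F (l.take a) ((l.drop a).take b)
      (((l.drop a).drop b).take c) (((l.drop a).drop b).drop c)) =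
    avg a (fun l0 => avg b (fun l1 => avg c (fun l2 => avg d (fun l3 => F l0 l1 l2 l3)))) := by
  rw [avg_take_drop a (b + (c + d)) (fun l0 l' => F l0 (l'.take b) ((l'.drop b).take c)
    ((l'.drop b).drop c))]
  refine avg_congr fun l0 _ => ?_
  rw [avg_take_drop b (c + d) (fun l1 l' => F l0 l1 (l'.take c) (l'.drop c))]
  refine avg_congr fun l1 _ => ?_
  rw [avg_take_drop c d (fun l2 l3 => F l0 l1 l2 l3)]

/-- acceptance factor of side 1 (membership and stage coin) -/
noncomputable def A1 (B₁ omax : ℕ) (z₁ : St → List ℤ → List ℤ) (D₁ : List Bool → List ℤ)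
    (mem₁ : List ℤ → Bool) (om : List ℤ → ℕ) (s : St) : ℝ :=
  avg B₁ (fun l => ind (mem₁ (z₁ s (D₁ l)) = true) * c2 omax (om (z₁ s (D₁ l))))

/-- acceptance factor of side 2 -/
noncomputable def A2 (B₂ : ℕ) (z₂ : St → List ℤ → List ℤ) (D₂ : List Bool → List ℤ)
    (mem₂ : List ℤ → Bool) (s : St) : ℝ :=
  avg B₂ (fun l => ind (mem₂ (z₂ s (D₂ l)) = true))

/-- **exact acceptance probability** -/
theorem pr_coinL (kmax B₁ B₂ omax : ℕ) (u : St → ℤ) (z₁ z₂ : St → List ℤ → List ℤ)
    (D₁ D₂ : List Bool → List ℤ) (mem₁ mem₂ : List ℤ → Bool) (om : List ℤ → ℕ) (s s' : St) :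
    pr (kmax + (B₁ + (B₂ + omax)))
      (fun l => coinL kmax B₁ B₂ omax u z₁ z₂ D₁ D₂ mem₁ mem₂ om s s' l = true) =
    rho kmax (u s) (u s') * (A1 B₁ omax z₁ D₁ mem₁ om s' * A2 B₂ z₂ D₂ mem₂ s') := by
  let F : List Bool → List Bool → List Bool → List Bool → ℝ := fun l0 l1 l2 l3 =>
    (ind ((u s' - u s).natAbs ≤ kmax) * ind (zerosL (u s' - u s).toNat l0 = true)) *
      ((ind (mem₁ (z₁ s' (D₁ l1)) = true) * ind (coin2 omax (om (z₁ s' (D₁ l1))) l3 = true)) *
        ind (mem₂ (z₂ s' (D₂ l2)) = true))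
  have h0 : pr (kmax + (B₁ + (B₂ + omax)))
      (fun l => coinL kmax B₁ B₂ omax u z₁ z₂ D₁ D₂ mem₁ mem₂ om s s' l = true) =
      avg (kmax + (B₁ + (B₂ + omax))) (fun l => F (l.take kmax) ((l.drop kmax).take B₁)
        (((l.drop kmax).drop B₁).take B₂) (((l.drop kmax).drop B₁).drop B₂)) := by
    unfold pr
    refine avg_congr fun l _ => ?_
    simp only [F, ← ind_and]
    congr 1
    simp only [coinL, Bool.and_eq_true, decide_eq_true_eq]
  rw [h0, avg_four kmax B₁ B₂ omax F]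
  simp only [F, avg_mul_left, avg_mul_right]
  have h1 : ∀ l1 : List Bool, avg omax (fun l3 =>
      ind (coin2 omax (om (z₁ s' (D₁ l1))) l3 = true)) = c2 omax (om (z₁ s' (D₁ l1))) :=
    fun l1 => pr_coin2 _ _
  simp only [h1, avg_const]
  have h2 : ind ((u s' - u s).natAbs ≤ kmax) *
      avg kmax (fun l => ind (zerosL (u s' - u s).toNat l = true)) = rho kmax (u s) (u s') := by
    unfold rho
    by_cases h : (u s' - u s).natAbs ≤ kmax
    · rw [if_pos h, ind_of h, one_mul]
      exact pr_zeros kmax _ (by omega)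
    · rw [if_neg h, ind_of_not h, zero_mul]
  rw [h2]
  rfl

theorem A1_mem (B₁ omax : ℕ) (z₁ : St → List ℤ → List ℤ) (D₁ : List Bool → List ℤ)
    (mem₁ : List ℤ → Bool) (om : List ℤ → ℕ) (s : St) :
    0 ≤ A1 B₁ omax z₁ D₁ mem₁ om s ∧ A1 B₁ omax z₁ D₁ mem₁ om s ≤ 1 := by
  unfold A1
  constructor
  · exact avg_nonneg fun l _ => mul_nonneg (ind_nonneg _) (c2_nonneg _ _)
  · exact avg_le_const fun l _ => mul_le_one₀ (ind_le_one _) (c2_nonneg _ _) (c2_le_one _ _)

theorem A2_mem (B₂ : ℕ) (z₂ : St → List ℤ → List ℤ) (D₂ : List Bool → List ℤ)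
    (mem₂ : List ℤ → Bool) (s : St) :
    0 ≤ A2 B₂ z₂ D₂ mem₂ s ∧ A2 B₂ z₂ D₂ mem₂ s ≤ 1 := by
  unfold A2
  constructor
  · exact avg_nonneg fun l _ => ind_nonneg _
  · exact avg_le_const fun l _ => ind_le_one _

/-- error form: if the factors are `f₁`, `f₂` up to `δ₁`, `δ₂` -/
theorem pr_coinL_err {kmax B₁ B₂ omax : ℕ} {u : St → ℤ} {z₁ z₂ : St → List ℤ → List ℤ}
    {D₁ D₂ : List Bool → List ℤ} {mem₁ mem₂ : List ℤ → Bool} {om : List ℤ → ℕ} (s : St) {s' : St}
    {f₁ f₂ δ₁ δ₂ : ℝ} (h₁ : |A1 B₁ omax z₁ D₁ mem₁ om s' - f₁| ≤ δ₁)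
    (h₂ : |A2 B₂ z₂ D₂ mem₂ s' - f₂| ≤ δ₂) (hf : |f₁| ≤ 1) :
    |pr (kmax + (B₁ + (B₂ + omax)))
      (fun l => coinL kmax B₁ B₂ omax u z₁ z₂ D₁ D₂ mem₁ mem₂ om s s' l = true) -
      rho kmax (u s) (u s') * (f₁ * f₂)| ≤ δ₁ + δ₂ := by
  rw [pr_coinL, ← mul_sub, abs_mul, abs_of_nonneg (rho_nonneg _ _ _)]
  have h3 := A2_mem B₂ z₂ D₂ mem₂ s'
  have h4 : |A1 B₁ omax z₁ D₁ mem₁ om s' * A2 B₂ z₂ D₂ mem₂ s' - f₁ * f₂| ≤ δ₁ + δ₂ := by
    have e : A1 B₁ omax z₁ D₁ mem₁ om s' * A2 B₂ z₂ D₂ mem₂ s' - f₁ * f₂ =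
        (A1 B₁ omax z₁ D₁ mem₁ om s' - f₁) * A2 B₂ z₂ D₂ mem₂ s' +
          f₁ * (A2 B₂ z₂ D₂ mem₂ s' - f₂) := by ring
    rw [e]
    refine (abs_add_le _ _).trans (add_le_add ?_ ?_)
    · rw [abs_mul, abs_of_nonneg h3.1]
      calc |A1 B₁ omax z₁ D₁ mem₁ om s' - f₁| * A2 B₂ z₂ D₂ mem₂ s'
          ≤ |A1 B₁ omax z₁ D₁ mem₁ om s' - f₁| * 1 :=
            mul_le_mul_of_nonneg_left h3.2 (abs_nonneg _)
        _ ≤ δ₁ := by rw [mul_one]; exact h₁
    · rw [abs_mul]
      calc |f₁| * |A2 B₂ z₂ D₂ mem₂ s' - f₂| ≤ 1 * |A2 B₂ z₂ D₂ mem₂ s' - f₂| :=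
            mul_le_mul_of_nonneg_right hf (abs_nonneg _)
        _ ≤ δ₂ := by rw [one_mul]; exact h₂
  calc rho kmax (u s) (u s') * |A1 B₁ omax z₁ D₁ mem₁ om s' * A2 B₂ z₂ D₂ mem₂ s' - f₁ * f₂|
      ≤ 1 * |A1 B₁ omax z₁ D₁ mem₁ om s' * A2 B₂ z₂ D₂ mem₂ s' - f₁ * f₂| :=
        mul_le_mul_of_nonneg_right (rho_le_one _ _ _) (abs_nonneg _)
    _ ≤ δ₁ + δ₂ := by rw [one_mul]; exact h4

/-! ### the proposal -/

section proposal

variable {G : Type*} [AddCommGroup G] [DecidableEq G]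

/-- **The list proposal is the lattice proposal.** -/
theorem mvL_enc {n a b : ℕ} {B : Finset G} {cs : List (G × ℕ)} {cs' : List (St × ℕ)}
    {inB : St → Bool} {enc : G → St}
    (hax : ∀ (g d : G) (k : ℤ), axSt n (enc g) k (enc d) = enc (g + k • d))
    (hcs : cs' = cs.map fun p => (enc p.1, p.2)) (hB : ∀ g : G, inB (enc g) = true ↔ g ∈ B)
    (x : B) (i : ℕ) :
    mvL n a b cs' inB (enc x.1) i = (latM B (ivec a b cs) x i).map (fun y => enc y.1) := by
  subst hcs
  unfold mvL latM ivec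
  by_cases hi : i < 2 ^ (a + b + 1)
  swap
  · rw [if_neg hi, if_neg hi]; rfl
  rw [if_pos hi, if_pos hi, List.head?_drop, List.getElem?_map]
  cases hc : cs[i / 2 / 2 ^ b]? with
  | none => rfl
  | some p =>
    simp only [Option.map_some, Option.bind_some]
    have hlen : i / 2 % 2 ^ b % 2 ^ (min p.2 b) = i / 2 % 2 ^ b % 2 ^ p.2 := by
      rcases le_total p.2 b with h | h
      · rw [min_eq_left h]
      · rw [min_eq_right h, Nat.mod_mod]
        have : i / 2 % 2 ^ b < 2 ^ b := Nat.mod_lt _ (by positivity)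
        rw [Nat.mod_eq_of_lt (this.trans_le (Nat.pow_le_pow_right (by norm_num) h))]
    have hk : lenI b p.2 i • p.1 = (if i % 2 = 0 then (i / 2 % 2 ^ b % 2 ^ p.2 + 1) • p.1
        else -((i / 2 % 2 ^ b % 2 ^ p.2 + 1) • p.1)) := by
      unfold lenI
      rw [hlen]
      split_ifs
      · rw [natCast_zsmul]
      · rw [neg_smul, natCast_zsmul]
    rw [hax, hk]
    set g := x.1 + (if i % 2 = 0 then (i / 2 % 2 ^ b % 2 ^ p.2 + 1) • p.1
        else -((i / 2 % 2 ^ b % 2 ^ p.2 + 1) • p.1)) with hg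
    unfold guardSt
    by_cases hgB : g ∈ B
    · rw [if_pos ((hB g).2 hgB), dif_pos hgB]; rfl
    · rw [if_neg (fun h => hgB ((hB g).1 h)), dif_neg hgB]; rfl

end proposal

end Crest.Agent.R302.Step
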