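import Crest.Agent.R302.Ann907A

/-!
# R302: points of relaxed intersections are controlled by points of the intersection

Author: helper907.  `scaled_proximity`: if `x` violates both systems by at most
`b * slack(c) + h` then `x - c` is, up to `λ (3 n + 4)` in every coordinate, equal to `λ (z - c)`
for some point `z` of `P`; here `λ ≥ b + 1`, `λ ≥ h`.  Hence every estimate for the block sums
`z(A) - c(A)` on `P` carries over to the soft model.
-/

set_option autoImplicit false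

namespace Crest.Agent.R302.Facet

open Finset

variable {V : Type*} [Fintype V] [DecidableEq V]

/-- **Scaled proximity.** -/
theorem scaled_proximity {r₁ r₂ : Finset V → ℤ} {R : ℤ} (hr₁ : SubM r₁ R) (hr₂ : SubM r₂ R)
    {c : V → ℤ} (hc₁ : MemJ r₁ R c) (hc₂ : MemJ r₂ R c) (b h lam : ℕ) (hb : b + 1 ≤ lam)
    (hh : h ≤ lam) {x : V → ℤ} (hxR : ∑ a, x a = R)
    (hx₁ : ∀ A, ∑ a ∈ A, x a ≤ r₁ A + b * slk r₁ c A + h)
    (hx₂ : ∀ A, ∑ a ∈ A, x a ≤ r₂ A + b * slk r₂ c A + h) :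
    ∃ z : V → ℤ, MemJ r₁ R z ∧ MemJ r₂ R z ∧
      ∀ v, |x v - c v - lam * (z v - c v)| ≤ lam * (3 * Fintype.card V + 4) := by
  classical
  rcases isEmpty_or_nonempty V with hV | ⟨⟨v₀⟩⟩
  · exact ⟨c, hc₁, hc₂, fun v => (hV.false v).elim⟩
  set n := Fintype.card V with hn
  have hlam : (0 : ℤ) < lam := by
    have : 0 < lam := by omega
    exact_mod_cast this
  let q : V → ℤ := fun v => (x v - c v) / lam
  have hq1 : ∀ v, lam * q v ≤ x v - c v := fun v => Int.mul_ediv_self_le hlam.ne'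
  have hq2 : ∀ v, x v - c v < lam * q v + lam := fun v => by
    have := Int.lt_mul_ediv_self_add (x := x v - c v) hlam
    exact this
  have hsum0 : ∑ v, (x v - c v) = 0 := by rw [sum_sub_distrib, hxR, hc₁.2, sub_self]
  let d : ℤ := - ∑ v, q v
  have hd0 : 0 ≤ d := by
    have h1 : ∑ v, (lam : ℤ) * q v ≤ 0 := hsum0 ▸ sum_le_sum (fun v _ => hq1 v)
    rw [← mul_sum] at h1
    have : ∑ v, q v ≤ 0 := by
      by_contra hcon
      push Not at hcon
      nlinarith
    simp only [d]; linarith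
  have hdn : d ≤ n := by
    have h1 : ∑ v, (x v - c v) ≤ ∑ v, (lam * q v + lam) := sum_le_sum (fun v _ => (hq2 v).le)
    rw [hsum0, sum_add_distrib, ← mul_sum, sum_const, card_univ, nsmul_eq_mul, ← hn] at h1
    have h2 : (lam : ℤ) * d ≤ lam * n := by
      simp only [d]; nlinarith
    exact le_of_mul_le_mul_left h2 hlam
  let y : V → ℤ := fun v => c v + q v + (if v = v₀ then d else 0)
  have hyR : ∑ v, y v = R := by
    simp only [y]
    rw [sum_add_distrib, sum_add_distrib, hc₁.2, sum_ite_eq' univ v₀]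
    simp [d]
  have key : ∀ r : Finset V → ℤ, SubM r R → MemJ r R c →
      (∀ A, ∑ a ∈ A, x a ≤ r A + b * slk r c A + h) →
      ∀ A, ∑ a ∈ A, y a ≤ r A + (n + 1 : ℤ) := by
    intro r hr hc hx A
    have hs := slk_nonneg hc A
    have h1 : ∑ a ∈ A, y a ≤ ∑ a ∈ A, c a + ∑ a ∈ A, q a + d := by
      simp only [y]
      rw [sum_add_distrib, sum_add_distrib, sum_ite_eq' A v₀]
      split_ifs <;> linarith
    have h2 : (lam : ℤ) * ∑ a ∈ A, q a ≤ ∑ a ∈ A, x a - ∑ a ∈ A, c a := by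
      rw [mul_sum, ← sum_sub_distrib]
      exact sum_le_sum (fun v _ => hq1 v)
    have h3 := hx A
    have h4 : slk r c A = r A - ∑ a ∈ A, c a := rfl
    -- lam * (q A) ≤ (b+1) slk + h ≤ lam * slk + lam
    have h5 : (lam : ℤ) * ∑ a ∈ A, q a ≤ lam * (slk r c A + 1) := by
      have hb' : ((b : ℤ) + 1) ≤ lam := by exact_mod_cast hb
      have hh' : (h : ℤ) ≤ lam := by exact_mod_cast hh
      nlinarith
    have h6 := le_of_mul_le_mul_left h5 hlam
    linarith
  obtain ⟨z, hz1, hz2, hz⟩ := Ann.proximity hr₁ hr₂ hc₁ hc₂ (k := (n + 1 : ℤ)) (by positivity)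
    hyR (key r₁ hr₁ hc₁ hx₁) (key r₂ hr₂ hc₂ hx₂)
  refine ⟨z, hz1, hz2, fun v => ?_⟩
  have h1 := hz v
  have hy : |y v - c v - q v| ≤ n := by
    simp only [y]
    split_ifs
    · rw [show c v + q v + d - c v - q v = d by ring, abs_of_nonneg hd0]; exact hdn
    · rw [show c v + q v + 0 - c v - q v = 0 by ring, abs_zero]; positivity
  have h2 : |z v - c v - q v| ≤ 2 * (n + 1) + n := by
    have : z v - c v - q v = (z v - y v) + (y v - c v - q v) := by ring
    rw [this]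
    exact (abs_add_le _ _).trans (add_le_add h1 hy)
  have h3 : |x v - c v - lam * q v| ≤ lam := by
    rw [abs_le]
    constructor <;> linarith [hq1 v, hq2 v]
  have h4 : x v - c v - lam * (z v - c v) =
      (x v - c v - lam * q v) - lam * (z v - c v - q v) := by ring
  rw [h4]
  calc _ ≤ |x v - c v - lam * q v| + |(lam : ℤ) * (z v - c v - q v)| := abs_sub _ _
    _ ≤ lam + lam * (2 * (n + 1) + n) := by
        apply add_le_add h3
        rw [abs_mul, abs_of_pos hlam]
        exact mul_le_mul_of_nonneg_left h2 hlam.le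
    _ ≤ lam * (3 * n + 4) := by nlinarith

/-- Block sums of relaxed points. -/
theorem relaxed_block {r₁ r₂ : Finset V → ℤ} {R : ℤ} (hr₁ : SubM r₁ R) (hr₂ : SubM r₂ R)
    {c : V → ℤ} (hc₁ : MemJ r₁ R c) (hc₂ : MemJ r₂ R c) (b h lam : ℕ) (hb : b + 1 ≤ lam)
    (hh : h ≤ lam) {x : V → ℤ} (hxR : ∑ a, x a = R)
    (hx₁ : ∀ A, ∑ a ∈ A, x a ≤ r₁ A + b * slk r₁ c A + h)
    (hx₂ : ∀ A, ∑ a ∈ A, x a ≤ r₂ A + b * slk r₂ c A + h) {A : Finset V} {M : ℤ}
    (hM : ∀ z, MemJ r₁ R z → MemJ r₂ R z → |∑ a ∈ A, z a - ∑ a ∈ A, c a| ≤ M) :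
    |∑ a ∈ A, x a - ∑ a ∈ A, c a| ≤
      lam * (M + Fintype.card V * (3 * Fintype.card V + 4)) := by
  classical
  obtain ⟨z, hz1, hz2, hz⟩ := scaled_proximity hr₁ hr₂ hc₁ hc₂ b h lam hb hh hxR hx₁ hx₂
  have h1 := hM z hz1 hz2
  have hlam : (0 : ℤ) ≤ lam := by positivity
  have h2 : ∑ a ∈ A, x a - ∑ a ∈ A, c a = lam * (∑ a ∈ A, z a - ∑ a ∈ A, c a) +
      ∑ a ∈ A, (x a - c a - lam * (z a - c a)) := by
    rw [← sum_sub_distrib, ← sum_sub_distrib, mul_sum, ← sum_add_distrib]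
    apply sum_congr rfl
    intro v _
    ring
  have h3 : |∑ a ∈ A, (x a - c a - lam * (z a - c a))| ≤
      Fintype.card V * (lam * (3 * Fintype.card V + 4)) := by
    refine (abs_sum_le_sum_abs _ _).trans ?_
    calc ∑ a ∈ A, |x a - c a - lam * (z a - c a)| ≤
          ∑ _a ∈ A, (lam * (3 * (Fintype.card V : ℤ) + 4)) := sum_le_sum (fun a _ => hz a)
      _ = A.card * (lam * (3 * (Fintype.card V : ℤ) + 4)) := by rw [sum_const, nsmul_eq_mul]
      _ ≤ Fintype.card V * (lam * (3 * Fintype.card V + 4)) := by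
          apply mul_le_mul_of_nonneg_right _ (by positivity)
          exact_mod_cast card_le_univ A
  rw [h2]
  refine (abs_add_le _ _).trans ?_
  rw [abs_mul, abs_of_nonneg hlam]
  have h4 := mul_le_mul_of_nonneg_left h1 hlam
  nlinarith

/-- Fat shifts of size at most `b` times the edge weight, and `h` units of links, produce a
violation of at most `|T| b * slack(c) + h`. -/
theorem shift_violation {r : Finset V → ℤ} {R : ℤ} {c x : V → ℤ} (hc : MemJ r R c)
    (T : Finset (V × V)) (m : V × V → ℕ) (t : V × V → ℤ) (b : ℕ) (hbt : ∀ p ∈ T, |t p| ≤ b * m p)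
    (hm : ∀ p ∈ T, ∀ A, (p.1 ∈ A ∧ p.2 ∉ A ∨ p.2 ∈ A ∧ p.1 ∉ A) → (m p : ℤ) ≤ slk r c A)
    (s : V → ℤ) (h : ℕ) (hs : ∀ A, ∑ a ∈ A, s a ≤ h)
    (hx : MemJ r R (fun v => x v - shift T t v - s v)) (A : Finset V) :
    ∑ a ∈ A, x a ≤ r A + (T.card * b : ℕ) * slk r c A + h := by
  have h1 := hx.1 A
  rw [sum_sub_distrib, sum_sub_distrib, sum_shift] at h1
  have h2 := hs A
  have hsl := slk_nonneg hc A
  have h3 : ∑ p ∈ T, t p * ((if p.1 ∈ A then 1 else 0) - (if p.2 ∈ A then 1 else 0)) ≤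
      ∑ _p ∈ T, (b : ℤ) * slk r c A := by
    apply sum_le_sum
    intro p hp
    have h4 := hbt p hp
    have h5 := le_abs_self (t p)
    have h6 := neg_abs_le (t p)
    have hb0 : (0 : ℤ) ≤ b := by positivity
    by_cases ha : p.1 ∈ A <;> by_cases hb : p.2 ∈ A
    · simp only [ha, hb, if_true, sub_self, mul_zero]; positivity
    · simp only [ha, hb, if_true, if_false, sub_zero, mul_one]
      have := hm p hp A (Or.inl ⟨ha, hb⟩)
      nlinarith
    · simp only [ha, hb, if_true, if_false, zero_sub]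
      have := hm p hp A (Or.inr ⟨hb, ha⟩)
      nlinarith
    · simp only [ha, hb, if_false, sub_self, mul_zero]; positivity
  rw [sum_const, nsmul_eq_mul] at h3
  push_cast
  nlinarith

end Crest.Agent.R302.Facet
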