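import Crest.Agent.R302.Tail907
import Crest.Agent.R302.TreeNN725

/-!
# R302: the tails of the soft measure, fat part

Author: helper907.  States `(x, z₁, z₂)`, `zᵢ ∈ Jᵢ`, are described by the tree coordinates
`τᵢ = code parᵢ (x - zᵢ)` (descendant sums): at non-roots they are the fat slacks, at roots the
link numbers.  `fat_tail`: the mass of the states outside the windows of the multi-scale Poincare
inequality is exponentially small times the hard link mass, plus the mass of the states with many
links.
-/

set_option autoImplicit false

namespace Crest.Agent.R302.Tail907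

open Finset Crest.Agent.R302.Facet Crest.Agent.R302.TreeNN Crest.Agent.R302.Tree

variable {V : Type*} [Fintype V] [DecidableEq V]

/-! ## 1. Tree coordinates -/

/-- The edges `(p, par p)` of the forest. -/
def fedges (par : V → Option V) : Finset (V × V) := univ.filter (fun p => par p.1 = some p.2)

omit [DecidableEq V] in
open Classical in
/-- Descendant sums. -/
noncomputable def code (par : V → Option V) (u : V → ℤ) (p : V) : ℤ :=
  ∑ q ∈ univ.filter (fun q => D par p q), u q

/-- Root part of a vector. -/
def rootPart (par : V → Option V) (τ : V → ℤ) : V → ℤ := fun v => if par v = none then τ v else 0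

/-- The vector with given descendant sums. -/
def dec (par : V → Option V) (τ : V → ℤ) : V → ℤ :=
  fun v => shift (fedges par) (fun p => τ p.1) v + rootPart par τ v

/-- The tree on `Option V` of a forest. -/
def toTree (par : V → Option V) (rk : V → ℕ) (hrk : ∀ a b, par a = some b → rk b < rk a) :
    RTree (Option V) where
  par w := w.bind par
  root := none
  dep w := w.elim 0 (fun a => rk a + 1)
  dep_lt := by
    intro q hq
    cases q with
    | none => exact absurd rfl hq
    | some a =>
      cases h : par a with
      | none => simp [h]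
      | some b => simpa [h] using hrk a b h

omit [Fintype V] [DecidableEq V] in
theorem emb_toTree (par : V → Option V) (rk : V → ℕ) (hrk : ∀ a b, par a = some b → rk b < rk a) :
    Emb (toTree par rk hrk) some par where
  inj := Option.some_injective V
  ne_root a := by simp [toTree]
  par_some a b h := by simp [toTree, h]
  par_none a h := by simp [toTree, h]
  child w a hw _ := by
    cases w with
    | none => exact absurd rfl hw
    | some b => exact ⟨b, rfl⟩

theorem code_eq (par : V → Option V) (rk : V → ℕ) (hrk : ∀ a b, par a = some b → rk b < rk a)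
    (u : V → ℤ) (v : V) :
    code par u v = u v + ∑ q ∈ univ.filter (fun q => par q = some v), code par u q := by
  classical
  have key : ∀ p, (code par u p : ℝ) =
      (toTree par rk hrk).cut (fun w => w.elim 0 (fun a => (u a : ℝ))) (some p) := by
    intro p
    unfold code RTree.cut
    rw [(emb_toTree par rk hrk).cut_sum p]
    push_cast
    rfl
  have h1 := RTree.cut_eq (T := toTree par rk hrk) (fun w => w.elim 0 (fun a => (u a : ℝ)))
    (some v)
  have h2 : (toTree par rk hrk).ch (some v) =
      (univ.filter (fun q => par q = some v)).map ⟨some, Option.some_injective V⟩ := by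
    ext w
    rw [RTree.mem_ch, mem_map]
    cases w with
    | none => simp [toTree]
    | some a => simp [toTree]
  rw [h2, sum_map] at h1
  have h3 : (code par u v : ℝ) =
      ((u v + ∑ q ∈ univ.filter (fun q => par q = some v), code par u q : ℤ) : ℝ) := by
    rw [key v, h1]
    push_cast
    congr 1
    apply sum_congr rfl
    intro q _
    exact (key q).symm
  exact_mod_cast h3

theorem dec_code (par : V → Option V) (rk : V → ℕ) (hrk : ∀ a b, par a = some b → rk b < rk a)
    (u : V → ℤ) : dec par (code par u) = u := by
  funext v
  unfold dec shift rootPart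
  have hA : ∑ p ∈ fedges par, code par u p.1 * (ev p.1 v - ev p.2 v) =
      ∑ p ∈ fedges par, code par u p.1 * ev p.1 v - ∑ p ∈ fedges par, code par u p.1 * ev p.2 v := by
    rw [← sum_sub_distrib]
    exact sum_congr rfl fun p _ => by ring
  have h1 : ∑ p ∈ fedges par, code par u p.1 * ev p.1 v =
      if par v = none then 0 else code par u v := by
    cases hv : par v with
    | none =>
      simp only [if_true]
      apply sum_eq_zero
      intro p hp
      have hp' : par p.1 = some p.2 := by simpa [fedges] using hp
      have : v ≠ p.1 := by rintro rfl; rw [hv] at hp'; exact absurd hp' (by simp)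
      simp [ev, this]
    | some b =>
      simp only [reduceCtorEq, if_false]
      rw [sum_eq_single (v, b)]
      · simp [ev]
      · rintro ⟨p, q⟩ hp hne
        have hp' : par p = some q := by simpa [fedges] using hp
        have : v ≠ p := by
          rintro rfl
          rw [hv] at hp'
          exact hne (by rw [Option.some.inj hp'])
        simp [ev, this]
      · intro h
        exact absurd (by simpa [fedges] using hv) h
  have h2 : ∑ p ∈ fedges par, code par u p.1 * ev p.2 v =
      ∑ q ∈ univ.filter (fun q => par q = some v), code par u q := by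
    have : ∑ q ∈ univ.filter (fun q => par q = some v), code par u q =
        ∑ p ∈ (univ.filter (fun q => par q = some v)).image (fun q => (q, v)),
          code par u p.1 * ev p.2 v := by
      rw [sum_image (fun a _ b _ h => (Prod.ext_iff.1 h).1)]
      exact sum_congr rfl fun q _ => by simp [ev]
    rw [this]
    symm
    apply sum_subset
    · intro p hp
      obtain ⟨q, hq, rfl⟩ := mem_image.1 hp
      simpa [fedges] using (mem_filter.1 hq).2
    · rintro ⟨p, q⟩ hp hn
      have hp' : par p = some q := by simpa [fedges] using hp
      have : v ≠ q := by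
        rintro rfl
        exact hn (mem_image.2 ⟨p, by simpa using hp', rfl⟩)
      simp [ev, this]
  rw [hA, h1, h2]
  have h3 := code_eq par rk hrk u v
  split_ifs <;> linarith

theorem card_fedges (par : V → Option V) : (fedges par).card ≤ Fintype.card V := by
  have : Set.InjOn (fun p : V × V => p.1) (fedges par : Set (V × V)) := by
    intro p hp q hq h
    have hp' : par p.1 = some p.2 := by simpa [fedges] using hp
    have hq' : par q.1 = some q.2 := by simpa [fedges] using hq
    have h' : p.1 = q.1 := h
    rw [h'] at hp'
    exact Prod.ext h' (Option.some.inj (hp'.symm.trans hq'))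
  rw [← card_image_of_injOn this]
  exact card_le_univ _

/-- The edges are in bijection with the non-roots. -/
theorem sum_fedges (par : V → Option V) (f : V → ℝ) :
    ∑ p ∈ fedges par, f p.1 = ∑ v ∈ univ.filter (fun v => par v ≠ none), f v := by
  refine sum_bij (fun p _ => p.1) ?_ ?_ ?_ ?_
  · intro p hp
    have hp' : par p.1 = some p.2 := by simpa [fedges] using hp
    simp [hp']
  · intro p hp q hq h
    have hp' : par p.1 = some p.2 := by simpa [fedges] using hp
    have hq' : par q.1 = some q.2 := by simpa [fedges] using hq
    have h' : p.1 = q.1 := h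
    rw [h'] at hp'
    exact Prod.ext h' (Option.some.inj (hp'.symm.trans hq'))
  · intro v hv
    obtain ⟨b, hb⟩ := Option.ne_none_iff_exists'.1 (mem_filter.1 hv).2
    exact ⟨(v, b), by simpa [fedges] using hb, rfl⟩
  · intro p _; rfl

/-- Reindexing the points of `J` by their tree coordinates relative to `x`. -/
theorem sum_code_le (par : V → Option V) (rk : V → ℕ)
    (hrk : ∀ a b, par a = some b → rk b < rk a) (x : V → ℤ) (J S : Finset (V → ℤ))
    (hS : ∀ z ∈ J, code par (fun v => x v - z v) ∈ S) (f : (V → ℤ) → ℝ) (hf : ∀ τ, 0 ≤ f τ) :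
    ∑ z ∈ J, f (code par (fun v => x v - z v)) ≤
      ∑ τ ∈ S.filter (fun τ => (fun v => x v - dec par τ v) ∈ J), f τ := by
  have hinj : Set.InjOn (fun z : V → ℤ => code par (fun v => x v - z v)) (J : Set (V → ℤ)) := by
    intro z _ z' _ h
    have h1 := congrArg (dec par) h
    simp only [dec_code par rk hrk] at h1
    funext v
    have := congrFun h1 v
    linarith
  rw [← sum_image (f := f) (g := fun z : V → ℤ => code par (fun v => x v - z v)) hinj]
  apply sum_le_sum_of_subset_of_nonneg
  · intro τ hτ
    obtain ⟨z, hz, rfl⟩ := mem_image.1 hτ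
    refine mem_filter.2 ⟨hS z hz, ?_⟩
    rw [dec_code par rk hrk]
    simpa using hz
  · intro τ _ _; exact hf τ

/-! ## 2. Product kernels -/

omit [Fintype V] [DecidableEq V] in
theorem rootPart_apply_none {par : V → Option V} {v : V} (h : par v = none) (τ : V → ℤ) :
    rootPart par τ v = τ v := by simp [rootPart, h]

omit [Fintype V] [DecidableEq V] in
theorem rootPart_apply_ne {par : V → Option V} {v : V} (h : par v ≠ none) (τ : V → ℤ) :
    rootPart par τ v = 0 := by simp [rootPart, h]

/-- The product over the non-roots. -/
noncomputable def prodK (par : V → Option V) (κ : V → ℤ → ℝ) (τ : V → ℤ) : ℝ :=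
  ∏ p ∈ univ.filter (fun p => par p ≠ none), κ p (τ p)

omit [DecidableEq V] in
theorem prodK_eq (par : V → Option V) (κ : V → ℤ → ℝ) (τ : V → ℤ) :
    prodK par κ τ = ∏ p, if par p = none then 1 else κ p (τ p) := by
  unfold prodK
  rw [prod_filter]
  apply prod_congr rfl
  intro p _
  by_cases h : par p = none <;> simp [h]

omit [DecidableEq V] in
theorem prodK_nonneg {par : V → Option V} {κ : V → ℤ → ℝ} (hκ : ∀ p t, 0 ≤ κ p t) (τ : V → ℤ) :
    0 ≤ prodK par κ τ := prod_nonneg fun p _ => hκ p _

omit [DecidableEq V] in
theorem prodK_mul (par : V → Option V) (κ κ' : V → ℤ → ℝ) (τ : V → ℤ) :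
    prodK par κ τ * prodK par κ' τ = prodK par (fun p t => κ p t * κ' p t) τ := by
  unfold prodK
  rw [← prod_mul_distrib]

/-- One side of the sum over tree coordinates: the root part is kept, the fat part is summed. -/
theorem side_sum (par : V → Option V) (I : Finset ℤ) (φ : V → ℤ → ℝ) (hφ : ∀ p t, 0 ≤ φ p t)
    (A : V → ℝ) (hA : ∀ p, par p ≠ none → ∑ t ∈ I, φ p t ≤ A p) (g : (V → ℤ) → ℝ)
    (hg : ∀ s, 0 ≤ g s) (Z : Finset (V → ℤ))
    (hZ : ∀ τ ∈ Fintype.piFinset (fun _ : V => I), rootPart par τ ∈ Z) :
    ∑ τ ∈ Fintype.piFinset (fun _ : V => I), g (rootPart par τ) * prodK par φ τ ≤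
      (∏ p ∈ univ.filter (fun p => par p ≠ none), A p) * ∑ s ∈ Z, g s := by
  rw [← sum_fiberwise_of_maps_to hZ, mul_sum]
  apply sum_le_sum
  intro s hs
  have hAnn : ∀ p, par p ≠ none → 0 ≤ A p := fun p hp =>
    (sum_nonneg fun t _ => hφ p t).trans (hA p hp)
  calc ∑ τ ∈ (Fintype.piFinset (fun _ : V => I)).filter (fun τ => rootPart par τ = s),
        g (rootPart par τ) * prodK par φ τ
      = ∑ τ ∈ (Fintype.piFinset (fun _ : V => I)).filter (fun τ => rootPart par τ = s),
        g s * ∏ p, (if par p = none then 1 else φ p (τ p)) := by
        apply sum_congr rfl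
        intro τ hτ
        rw [(mem_filter.1 hτ).2, prodK_eq]
    _ ≤ ∑ τ ∈ Fintype.piFinset (fun p : V => if par p = none then {s p} else I),
        g s * ∏ p, (if par p = none then 1 else φ p (τ p)) := by
        apply sum_le_sum_of_subset_of_nonneg
        · intro τ hτ
          rw [mem_filter, Fintype.mem_piFinset] at hτ
          rw [Fintype.mem_piFinset]
          intro p
          by_cases h : par p = none
          · rw [if_pos h, mem_singleton, ← hτ.2, rootPart_apply_none h]
          · rw [if_neg h]; exact hτ.1 p
        · intro τ _ _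
          apply mul_nonneg (hg s)
          apply prod_nonneg
          intro p _
          split_ifs
          · exact zero_le_one
          · exact hφ _ _
    _ = g s * ∏ p, ∑ t ∈ (if par p = none then {s p} else I),
          (if par p = none then 1 else φ p t) := by
        rw [← mul_sum, prod_univ_sum]
    _ ≤ g s * ∏ p, (if par p = none then 1 else A p) := by
        apply mul_le_mul_of_nonneg_left _ (hg s)
        apply prod_le_prod
        · intro p _
          apply sum_nonneg
          intro t _
          split_ifs
          · exact zero_le_one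
          · exact hφ _ _
        · intro p _
          by_cases h : par p = none
          · simp [h]
          · simp only [h, if_false]
            exact hA p h
    _ = (∏ p ∈ univ.filter (fun p => par p ≠ none), A p) * g s := by
        rw [prod_filter, mul_comm]
        congr 1
        apply prod_congr rfl
        intro p _
        by_cases h : par p = none <;> simp [h]

/-- Uniform version. -/
theorem side_sum_full (par : V → Option V) (I : Finset ℤ) (φ : V → ℤ → ℝ)
    (hφ : ∀ p t, 0 ≤ φ p t) {A : ℝ} (hA1 : 1 ≤ A)
    (hA : ∀ p, par p ≠ none → ∑ t ∈ I, φ p t ≤ A) (g : (V → ℤ) → ℝ)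
    (hg : ∀ s, 0 ≤ g s) (Z : Finset (V → ℤ))
    (hZ : ∀ τ ∈ Fintype.piFinset (fun _ : V => I), rootPart par τ ∈ Z) :
    ∑ τ ∈ Fintype.piFinset (fun _ : V => I), g (rootPart par τ) * prodK par φ τ ≤
      A ^ Fintype.card V * ∑ s ∈ Z, g s := by
  refine (side_sum par I φ hφ (fun _ => A) hA g hg Z hZ).trans ?_
  apply mul_le_mul_of_nonneg_right _ (sum_nonneg fun s _ => hg s)
  rw [prod_const]
  exact pow_le_pow_right₀ hA1 (card_le_univ _)

/-- Version with one large coordinate. -/
theorem side_sum_tail (par : V → Option V) (I : Finset ℤ) (φ : V → ℤ → ℝ)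
    (hφ : ∀ p t, 0 ≤ φ p t) {A ε : ℝ} (hA1 : 1 ≤ A) (hε : 0 ≤ ε)
    (hA : ∀ p, par p ≠ none → ∑ t ∈ I, φ p t ≤ A) (p₀ : V) (hp₀ : par p₀ ≠ none)
    (big : ℤ → Prop) [DecidablePred big]
    (hbig : ∑ t ∈ I.filter big, φ p₀ t ≤ A * ε) (g : (V → ℤ) → ℝ)
    (hg : ∀ s, 0 ≤ g s) (Z : Finset (V → ℤ))
    (hZ : ∀ τ ∈ Fintype.piFinset (fun _ : V => I), rootPart par τ ∈ Z) :
    ∑ τ ∈ (Fintype.piFinset (fun _ : V => I)).filter (fun τ => big (τ p₀)),
        g (rootPart par τ) * prodK par φ τ ≤
      ε * A ^ Fintype.card V * ∑ s ∈ Z, g s := by
  let ψ : V → ℤ → ℝ := fun p t => if p = p₀ then (if big t then φ p t else 0) else φ p t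
  have hψ : ∀ p t, 0 ≤ ψ p t := by
    intro p t
    simp only [ψ]
    split_ifs
    · exact hφ _ _
    · exact le_rfl
    · exact hφ _ _
  have h1 : ∑ τ ∈ (Fintype.piFinset (fun _ : V => I)).filter (fun τ => big (τ p₀)),
        g (rootPart par τ) * prodK par φ τ =
      ∑ τ ∈ Fintype.piFinset (fun _ : V => I), g (rootPart par τ) * prodK par ψ τ := by
    rw [sum_filter]
    apply sum_congr rfl
    intro τ _
    by_cases h : big (τ p₀)
    · rw [if_pos h]
      congr 1
      unfold prodK
      apply prod_congr rfl
      intro p _
      simp only [ψ]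
      split_ifs with h1 h2
      · rfl
      · subst h1; exact absurd h h2
      · rfl
    · rw [if_neg h]
      have : prodK par ψ τ = 0 := by
        unfold prodK
        apply prod_eq_zero (i := p₀) (by simpa using hp₀)
        simp [ψ, h]
      rw [this, mul_zero]
  rw [h1]
  refine (side_sum par I ψ hψ (fun p => if p = p₀ then A * ε else A) ?_ g hg Z hZ).trans ?_
  · intro p hp
    simp only [ψ]
    by_cases h : p = p₀
    · subst h
      simp only [if_true]
      rw [← sum_filter]
      exact hbig
    · simp only [h, if_false]
      exact hA p hp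
  · apply mul_le_mul_of_nonneg_right _ (sum_nonneg fun s _ => hg s)
    have hmem : p₀ ∈ univ.filter (fun p => par p ≠ none) := by simpa using hp₀
    rw [← mul_prod_erase _ _ hmem, if_pos rfl]
    have h2 : ∏ x ∈ (univ.filter (fun p => par p ≠ none)).erase p₀, (if x = p₀ then A * ε else A)
        = A ^ ((univ.filter (fun p => par p ≠ none)).erase p₀).card := by
      rw [← prod_const]
      apply prod_congr rfl
      intro p hp
      rw [if_neg (ne_of_mem_erase hp)]
    rw [h2]
    have h3 : A * A ^ ((univ.filter (fun p => par p ≠ none)).erase p₀).card ≤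
        A ^ Fintype.card V := by
      rw [← pow_succ']
      apply pow_le_pow_right₀ hA1
      rw [card_erase_add_one hmem]
      exact card_le_univ _
    nlinarith [h3, hε]

end Crest.Agent.R302.Tail907
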