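import Crest.Agent.R302.EDM4
import Crest.Agent.R309.Count632A

/-!
# R302, block TOP (helper497), part A: bisection of coordinate boxes (pure mathematics)

`PB r₁ r₂ R lo hi` = common integer bases in a box; `numCommonIntBases` is the case `0 ≤ x ≤ R`; the bisection
of the first non-degenerate coordinate is an instance of `Count632.Split`.
-/

set_option autoImplicit false

namespace Crest.Agent.R302.Top

open Finset Crest.Polymatroid Crest.Agent.R302.Facet Crest.Agent.R302.EDM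

variable {n : ℕ}

open Classical in
/-- common bases in a box -/
noncomputable def PB (r₁ r₂ : Finset (Fin n) → ℕ) (R : ℕ) (lo hi : Fin n → ℤ) :
    Finset (Fin n → ℤ) :=
  (Fintype.piFinset fun i => Finset.Icc (lo i) (hi i)).filter fun x =>
    MemJ (zr r₁) R x ∧ MemJ (zr r₂) R x

theorem mem_PB {r₁ r₂ : Finset (Fin n) → ℕ} {R : ℕ} {lo hi x : Fin n → ℤ} :
    x ∈ PB r₁ r₂ R lo hi ↔ (∀ i, lo i ≤ x i ∧ x i ≤ hi i) ∧ MemJ (zr r₁) R x ∧ MemJ (zr r₂) R x := by
  unfold PB
  simp only [mem_filter, Fintype.mem_piFinset, mem_Icc]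

/-- the number of common integer bases as a box count -/
theorem num_eq_card_PB (R : ℕ) (r₁ r₂ : Finset (Fin n) → ℕ) :
    numCommonIntBases R r₁ r₂ = (PB r₁ r₂ R (fun _ => 0) (fun _ => R)).card := by
  classical
  unfold numCommonIntBases
  refine Finset.card_bij (fun x _ => fun i => ((x i : ℕ) : ℤ)) ?_ ?_ ?_
  · intro x hx
    rw [mem_filter] at hx
    obtain ⟨_, h1, h2⟩ := hx
    rw [mem_PB]
    refine ⟨fun i => ⟨by positivity, ?_⟩, ?_⟩
    · have := (x i).2
      have h3 : (x i : ℕ) ≤ R := by omega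
      exact_mod_cast h3
    · exact (memJ_iff_isBaseVec (r₁ := r₁) (r₂ := r₂) (fun i => (x i : ℕ))).2 ⟨h1, h2⟩
  · intro x _ y _ h
    funext i
    have := congrFun h i
    exact Fin.ext (by exact_mod_cast this)
  · intro y hy
    rw [mem_PB] at hy
    obtain ⟨h1, h2⟩ := hy
    have h3 : ∀ i, ((y i).toNat : ℤ) = y i := fun i => Int.toNat_of_nonneg (h1 i).1
    have h4 : ∀ i, (y i).toNat < R + 1 := by
      intro i
      have := (h1 i).2
      have := h3 i
      omega
    have h5 : (fun i => (((y i).toNat : ℕ) : ℤ)) = y := funext h3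
    have h6 := (memJ_iff_isBaseVec (r₁ := r₁) (r₂ := r₂) (R := R) (fun i => (y i).toNat)).1 (by
      rw [h5]; exact h2)
    refine ⟨fun i => ⟨(y i).toNat, h4 i⟩, ?_, ?_⟩
    · rw [mem_filter]
      exact ⟨mem_univ _, h6.1, h6.2⟩
    · exact h5

/-! ### one cut -/

theorem PB_lo (r₁ r₂ : Finset (Fin n) → ℕ) (R : ℕ) (lo hi : Fin n → ℤ) (j : Fin n) (m : ℤ)
    (h : m ≤ hi j) [DecidablePred fun x : Fin n → ℤ => x j ≤ m] :
    PB r₁ r₂ R lo (Function.update hi j m) = (PB r₁ r₂ R lo hi).filter fun x => x j ≤ m := by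
  ext x
  rw [mem_filter, mem_PB, mem_PB]
  constructor
  · rintro ⟨h1, h2⟩
    have hj := (h1 j).2
    rw [Function.update_self] at hj
    refine ⟨⟨fun i => ⟨(h1 i).1, ?_⟩, h2⟩, hj⟩
    by_cases hi' : i = j
    · subst hi'; linarith
    · have := (h1 i).2
      rwa [Function.update_of_ne hi'] at this
  · rintro ⟨⟨h1, h2⟩, hj⟩
    refine ⟨fun i => ⟨(h1 i).1, ?_⟩, h2⟩
    by_cases hi' : i = j
    · subst hi'; rwa [Function.update_self]
    · rw [Function.update_of_ne hi']; exact (h1 i).2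

theorem PB_hi (r₁ r₂ : Finset (Fin n) → ℕ) (R : ℕ) (lo hi : Fin n → ℤ) (j : Fin n) (m : ℤ)
    (h : lo j ≤ m + 1) [DecidablePred fun x : Fin n → ℤ => ¬ x j ≤ m] :
    PB r₁ r₂ R (Function.update lo j (m + 1)) hi = (PB r₁ r₂ R lo hi).filter fun x => ¬ x j ≤ m := by
  ext x
  rw [mem_filter, mem_PB, mem_PB]
  constructor
  · rintro ⟨h1, h2⟩
    have hj := (h1 j).1
    rw [Function.update_self] at hj
    refine ⟨⟨fun i => ⟨?_, (h1 i).2⟩, h2⟩, by linarith⟩
    by_cases hi' : i = j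
    · subst hi'; linarith
    · have := (h1 i).1
      rwa [Function.update_of_ne hi'] at this
  · rintro ⟨⟨h1, h2⟩, hj⟩
    refine ⟨fun i => ⟨?_, (h1 i).2⟩, h2⟩
    by_cases hi' : i = j
    · subst hi'; rw [Function.update_self]; omega
    · rw [Function.update_of_ne hi']; exact (h1 i).1

theorem card_split (r₁ r₂ : Finset (Fin n) → ℕ) (R : ℕ) (lo hi : Fin n → ℤ) (j : Fin n) (m : ℤ)
    (h1 : m ≤ hi j) (h2 : lo j ≤ m + 1) :
    (PB r₁ r₂ R lo hi).card = (PB r₁ r₂ R lo (Function.update hi j m)).card +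
      (PB r₁ r₂ R (Function.update lo j (m + 1)) hi).card := by
  classical
  rw [PB_lo r₁ r₂ R lo hi j m h1, PB_hi r₁ r₂ R lo hi j m h2]
  exact (Finset.card_filter_add_card_filter_not (s := PB r₁ r₂ R lo hi) _).symm

/-! ### the list-coded bisection -/

/-- the state of the bisection: lower and upper bounds -/
abbrev Bx : Type := List ℤ × List ℤ

/-- the first non-degenerate coordinate -/
def pos? (n : ℕ) (s : Bx) : Option ℕ :=
  (List.range n).find? fun j => decide (s.1.getD j 0 < s.2.getD j 0)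

/-- its index -/
def pj (n : ℕ) (s : Bx) : ℕ := (pos? n s).getD 0

/-- the cut -/
def mid (n : ℕ) (s : Bx) : ℤ := (s.1.getD (pj n s) 0 + s.2.getD (pj n s) 0) / 2

/-- all coordinates are fixed -/
def finB (n : ℕ) (s : Bx) : Bool := !(pos? n s).isSome

/-- the lower half -/
def loS (n : ℕ) (s : Bx) : Bx := (s.1, s.2.set (pj n s) (mid n s))

/-- the upper half -/
def hiS (n : ℕ) (s : Bx) : Bx := (s.1.set (pj n s) (mid n s + 1), s.2)

/-- the measure -/
def mu (n : ℕ) (s : Bx) : ℕ := ∑ i : Fin n, ((vecL n s.2 i - vecL n s.1 i).toNat).size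

/-- the count -/
noncomputable def cnt (r₁ r₂ : Finset (Fin n) → ℕ) (R : ℕ) (s : Bx) : ℕ :=
  (PB r₁ r₂ R (vecL n s.1) (vecL n s.2)).card

/-- valid boxes -/
def V (n R : ℕ) (s : Bx) : Prop :=
  ∃ lo hi : Fin n → ℤ, s = (List.ofFn lo, List.ofFn hi) ∧ ∀ i, 0 ≤ lo i ∧ lo i ≤ hi i ∧ hi i ≤ R

theorem getD_ofFn' (f : Fin n → ℤ) (i : Fin n) : (List.ofFn f).getD (i : ℕ) 0 = f i := by
  rw [List.getD_eq_getElem?_getD, List.getElem?_ofFn]
  simp

theorem vecL_ofFn (f : Fin n → ℤ) : vecL n (List.ofFn f) = f := by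
  funext i
  exact getD_ofFn' f i

theorem set_ofFn (f : Fin n → ℤ) (j : Fin n) (v : ℤ) :
    (List.ofFn f).set (j : ℕ) v = List.ofFn (Function.update f j v) := by
  apply List.ext_getElem
  · simp
  · intro i h1 h2
    rw [List.getElem_set]
    simp only [List.getElem_ofFn]
    by_cases h : (j : ℕ) = i
    · subst h
      simp
    · rw [if_neg h, Function.update_of_ne]
      intro h'
      exact h (by rw [← h'])

theorem pos?_some {lo hi : Fin n → ℤ} {j : ℕ} (h : pos? n (List.ofFn lo, List.ofFn hi) = some j) :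
    ∃ hj : j < n, lo ⟨j, hj⟩ < hi ⟨j, hj⟩ := by
  unfold pos? at h
  have h1 := List.find?_some h
  have h2 := List.mem_of_find?_eq_some h
  have hj : j < n := List.mem_range.1 h2
  refine ⟨hj, ?_⟩
  simp only [decide_eq_true_eq] at h1
  have e1 := getD_ofFn' lo ⟨j, hj⟩
  have e2 := getD_ofFn' hi ⟨j, hj⟩
  simp only at e1 e2
  rwa [e1, e2] at h1

theorem pos?_none {lo hi : Fin n → ℤ} (h : pos? n (List.ofFn lo, List.ofFn hi) = none) (i : Fin n) :
    hi i ≤ lo i := by
  unfold pos? at h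
  rw [List.find?_eq_none] at h
  have h1 := h (i : ℕ) (List.mem_range.2 i.2)
  simp only [decide_eq_true_eq, not_lt] at h1
  rwa [getD_ofFn', getD_ofFn'] at h1

theorem not_fin {n R : ℕ} {s : Bx} (hV : V n R s) (hf : finB n s = false) :
    ∃ (lo hi : Fin n → ℤ) (j : Fin n), s = (List.ofFn lo, List.ofFn hi) ∧
      (∀ i, 0 ≤ lo i ∧ lo i ≤ hi i ∧ hi i ≤ R) ∧ lo j < hi j ∧ pj n s = j ∧
      mid n s = (lo j + hi j) / 2 ∧
      loS n s = (List.ofFn lo, List.ofFn (Function.update hi j ((lo j + hi j) / 2))) ∧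
      hiS n s = (List.ofFn (Function.update lo j ((lo j + hi j) / 2 + 1)), List.ofFn hi) := by
  obtain ⟨lo, hi, rfl, hb⟩ := hV
  unfold finB at hf
  rcases hp : pos? n (List.ofFn lo, List.ofFn hi) with _ | j
  · rw [hp] at hf; simp at hf
  obtain ⟨hj, hlt⟩ := pos?_some hp
  have e1 : pj n (List.ofFn lo, List.ofFn hi) = j := by unfold pj; rw [hp]; rfl
  have e2 : mid n (List.ofFn lo, List.ofFn hi) = (lo ⟨j, hj⟩ + hi ⟨j, hj⟩) / 2 := by
    unfold mid
    rw [e1]
    have a1 := getD_ofFn' lo ⟨j, hj⟩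
    have a2 := getD_ofFn' hi ⟨j, hj⟩
    simp only at a1 a2 ⊢
    rw [a1, a2]
  refine ⟨lo, hi, ⟨j, hj⟩, rfl, hb, hlt, e1, e2, ?_, ?_⟩
  · unfold loS
    rw [e1, e2]
    have := set_ofFn hi ⟨j, hj⟩ ((lo ⟨j, hj⟩ + hi ⟨j, hj⟩) / 2)
    simp only at this ⊢
    rw [this]
  · unfold hiS
    rw [e1, e2]
    have := set_ofFn lo ⟨j, hj⟩ ((lo ⟨j, hj⟩ + hi ⟨j, hj⟩) / 2 + 1)
    simp only at this ⊢
    rw [this]

theorem size_lt_of_two_mul_le {a b : ℕ} (h : 2 * a ≤ b) (hb : 0 < b) : a.size < b.size := by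
  rcases Nat.eq_zero_or_pos a with h0 | ha
  · subst h0
    rw [Nat.size_zero]
    exact Nat.size_pos.2 hb
  · have h1 : (2 * a).size = a.size + 1 := by
      have := Nat.size_bit (b := false) (n := a) (by simp [Nat.bit]; omega)
      simpa [Nat.bit_val] using this
    have h2 := Nat.size_le_size h
    omega

theorem mu_ofFn (lo hi : Fin n → ℤ) :
    mu n (List.ofFn lo, List.ofFn hi) = ∑ i : Fin n, ((hi i - lo i).toNat).size := by
  unfold mu
  simp only [vecL_ofFn]

theorem mu_lt {lo hi lo' hi' : Fin n → ℤ} (j : Fin n)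
    (h : ∀ i, i ≠ j → hi' i - lo' i = hi i - lo i)
    (hj : 2 * (hi' j - lo' j).toNat ≤ (hi j - lo j).toNat) (hj0 : 0 < (hi j - lo j).toNat) :
    mu n (List.ofFn lo', List.ofFn hi') < mu n (List.ofFn lo, List.ofFn hi) := by
  rw [mu_ofFn, mu_ofFn]
  refine Finset.sum_lt_sum (fun i _ => ?_) ⟨j, mem_univ j, size_lt_of_two_mul_le hj hj0⟩
  by_cases hi' : i = j
  · subst hi'
    exact (size_lt_of_two_mul_le hj hj0).le
  · rw [h i hi']

/-- **the bisection scheme** -/
theorem split {R : ℕ} (r₁ r₂ : Finset (Fin n) → ℕ) (leaf : Bx → Bool)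
    (hleaf : ∀ s, V n R s → (leaf s = true ↔ 0 < cnt r₁ r₂ R s)) :
    Crest.Agent.R309.Count632.Split (cnt r₁ r₂ R) (mu n) (loS n) (hiS n) (finB n) leaf (V n R) where
  fin_of := by
    intro s hV hμ
    by_contra hf
    have hf' : finB n s = false := by simpa using hf
    obtain ⟨lo, hi, j, rfl, hb, hlt, -⟩ := not_fin hV hf'
    rw [mu_ofFn] at hμ
    have := (Finset.sum_eq_zero_iff.1 hμ) j (mem_univ j)
    rw [Nat.size_eq_zero] at this
    omega
  mu_of := by
    intro s hV hf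
    obtain ⟨lo, hi, rfl, hb⟩ := hV
    rw [mu_ofFn]
    refine Finset.sum_eq_zero fun i _ => ?_
    rw [Nat.size_eq_zero]
    have hp : pos? n (List.ofFn lo, List.ofFn hi) = none := by
      unfold finB at hf
      rcases h : pos? n (List.ofFn lo, List.ofFn hi) with _ | j
      · rfl
      · rw [h] at hf; simp at hf
    have := pos?_none hp i
    omega
  V_lo := by
    intro s hV hf
    obtain ⟨lo, hi, j, rfl, hb, hlt, -, -, e, -⟩ := not_fin hV hf
    rw [e]
    refine ⟨_, _, rfl, fun i => ?_⟩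
    have hbi := hb i
    by_cases hi' : i = j
    · subst hi'
      rw [Function.update_self]
      omega
    · rw [Function.update_of_ne hi']; exact hbi
  V_hi := by
    intro s hV hf
    obtain ⟨lo, hi, j, rfl, hb, hlt, -, -, -, e⟩ := not_fin hV hf
    rw [e]
    refine ⟨_, _, rfl, fun i => ?_⟩
    have hbi := hb i
    by_cases hi' : i = j
    · subst hi'
      rw [Function.update_self]
      omega
    · rw [Function.update_of_ne hi']; exact hbi
  mu_lo := by
    intro s hV hf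
    obtain ⟨lo, hi, j, rfl, hb, hlt, -, -, e, -⟩ := not_fin hV hf
    rw [e]
    refine mu_lt j (fun i hi' => by rw [Function.update_of_ne hi']) ?_ (by omega)
    rw [Function.update_self]
    omega
  mu_hi := by
    intro s hV hf
    obtain ⟨lo, hi, j, rfl, hb, hlt, -, -, -, e⟩ := not_fin hV hf
    rw [e]
    refine mu_lt j (fun i hi' => by rw [Function.update_of_ne hi']) ?_ (by omega)
    rw [Function.update_self]
    omega
  split := by
    intro s hV hf
    obtain ⟨lo, hi, j, rfl, hb, hlt, -, -, e1, e2⟩ := not_fin hV hf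
    rw [e1, e2]
    unfold cnt
    simp only [vecL_ofFn]
    exact card_split r₁ r₂ R lo hi j _ (by omega) (by omega)
  fin_le := by
    intro s hV hf
    obtain ⟨lo, hi, rfl, hb⟩ := hV
    have hp : pos? n (List.ofFn lo, List.ofFn hi) = none := by
      unfold finB at hf
      rcases h : pos? n (List.ofFn lo, List.ofFn hi) with _ | j
      · rfl
      · rw [h] at hf; simp at hf
    unfold cnt
    simp only [vecL_ofFn]
    rw [Finset.card_le_one]
    intro x hx y hy
    rw [mem_PB] at hx hy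
    funext i
    have h1 := hx.1 i
    have h2 := hy.1 i
    have h3 := pos?_none hp i
    omega
  leaf_iff := hleaf

/-- the ratio that the coin estimates -/
theorem ratio {R : ℕ} (r₁ r₂ : Finset (Fin n) → ℕ) {s : Bx} (hV : V n R s) (hf : finB n s = false)
    (φ : List ℤ → ℝ) (hφ : ∀ y, φ y = if y.getD (pj n s) 0 ≤ mid n s then 1 else 0) :
    (∑ x ∈ PB r₁ r₂ R (vecL n s.1) (vecL n s.2), φ (List.ofFn x)) = (cnt r₁ r₂ R (loS n s) : ℝ) := by
  classical
  obtain ⟨lo, hi, j, rfl, hb, hlt, e0, e3, e1, -⟩ := not_fin hV hf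
  rw [e1]
  unfold cnt
  simp only [vecL_ofFn]
  rw [PB_lo r₁ r₂ R lo hi j _ (by omega), Finset.card_filter]
  push_cast
  refine Finset.sum_congr rfl fun x _ => ?_
  rw [hφ, e0, e3, getD_ofFn']

theorem V_init (n R : ℕ) : V n R (List.replicate n 0, List.replicate n (R : ℤ)) :=
  ⟨fun _ => 0, fun _ => R, by rw [List.ofFn_const, List.ofFn_const], fun i => by
    refine ⟨le_rfl, by positivity, le_rfl⟩⟩

theorem cnt_init (R : ℕ) (r₁ r₂ : Finset (Fin n) → ℕ) :
    cnt r₁ r₂ R (List.replicate n 0, List.replicate n (R : ℤ)) = numCommonIntBases R r₁ r₂ := by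
  rw [num_eq_card_PB]
  unfold cnt
  simp only
  rw [← List.ofFn_const, ← List.ofFn_const, vecL_ofFn, vecL_ofFn]

theorem mu_init (n R : ℕ) : mu n (List.replicate n 0, List.replicate n (R : ℤ)) = n * R.size := by
  rw [← List.ofFn_const, ← List.ofFn_const, mu_ofFn]
  simp

end Crest.Agent.R302.Top
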